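import Vale.Agent.P223.MathlibUsed
import Mathlib.MeasureTheory.Measure.Haar.OfBasis
import Mathlib.MeasureTheory.Measure.WithDensity

/-! Definitions for the statements: closed Riemannian manifolds, Ricci flow, simplicial volume. -/

namespace Vale.Agent.P223.J

open scoped ContDiff
open MeasureTheory

/-- `ℝ^n`. -/
abbrev E (n : ℕ) := Fin n → ℝ

/-- Matrix valued functions on `ℝ^n`. -/
abbrev Mtx (n : ℕ) := E n → Matrix (Fin n) (Fin n) ℝ

/-- The value of the bilinear form with matrix `A` at `(v, w)`. -/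
noncomputable def bil {n : ℕ} (A : Fin n → Fin n → ℝ) (v w : E n) : ℝ :=
  ∑ i, ∑ j, v i * w j * A i j

/-- Partial derivative of `f` in the direction of the coordinate `i`. -/
noncomputable def pd {n : ℕ} (i : Fin n) (f : E n → ℝ) (x : E n) : ℝ :=
  fderiv ℝ f x (Pi.single i 1)

/-- Christoffel symbol with upper index `k` and lower indices `i j`. -/
noncomputable def chr {n : ℕ} (G : Mtx n) (x : E n) (k i j : Fin n) : ℝ :=
  (1 / 2) * ∑ l, (G x)⁻¹ k l *
    (pd i (fun y => G y j l) x + pd j (fun y => G y i l) x - pd l (fun y => G y i j) x)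

/-- Ricci tensor. -/
noncomputable def ric {n : ℕ} (G : Mtx n) (x : E n) (i j : Fin n) : ℝ :=
  ∑ k, (pd k (fun y => chr G y k i j) x - pd j (fun y => chr G y k i k) x)
  + ∑ k, ∑ l, (chr G x k k l * chr G x l i j - chr G x k j l * chr G x l i k)

/-- Scalar curvature. -/
noncomputable def scal {n : ℕ} (G : Mtx n) (x : E n) : ℝ := ∑ i, ∑ j, (G x)⁻¹ i j * ric G x i j

section
variable {n : ℕ} {M : Type} [TopologicalSpace M]

/-- Charts with values in `ℝ^n`. -/
abbrev Ch (n : ℕ) (M : Type) [TopologicalSpace M] := OpenPartialHomeomorph M (Fin n → ℝ)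

/-- Coordinate change. -/
def cm (e e' : Ch n M) (x : E n) : E n := e' (e.symm x)

/-- The coordinate change between `e` and `e'` is smooth and preserves the orientation. -/
def Comp (e e' : Ch n M) : Prop := ∀ p ∈ e.source, p ∈ e'.source →
  ContDiffAt ℝ ∞ (cm e e') (e p) ∧ 0 < (fderiv ℝ (cm e e') (e p)).det

/-- `c` is an oriented smooth atlas; `c a` is a chart around `a`. -/
def Atl (c : M → Ch n M) : Prop := ∀ a, a ∈ (c a).source ∧ ∀ b, Comp (c a) (c b)

/-- `g` is a smooth Riemannian metric, `g a` being its matrix in the chart `c a`. -/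
def Met (c : M → Ch n M) (g : M → Mtx n) : Prop := ∀ a, ∀ p ∈ (c a).source,
  (∀ i j, ContDiffAt ℝ ∞ (fun x => g a x i j) (c a p)) ∧ (g a (c a p)).PosDef ∧
  ∀ b, p ∈ (c b).source → ∀ v w, bil (g a (c a p)) v w = bil (g b (c b p))
    (fderiv ℝ (cm (c a) (c b)) (c a p) v) (fderiv ℝ (cm (c a) (c b)) (c a p) w)

/-- `μ` is the Riemannian volume measure of `g`. -/
def Vol [MeasurableSpace M] (c : M → Ch n M) (g : M → Mtx n) (μ : Measure M) : Prop :=
  ∀ a, ∀ B ⊆ (c a).target, MeasurableSet B →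
    μ ((c a).symm '' B) = ∫⁻ x in B, ENNReal.ofReal √(g a x).det

/-- `Ric ≥ -ρ g`. -/
def RicGe (c : M → Ch n M) (g : M → Mtx n) (ρ : M → ℝ) : Prop := ∀ a, ∀ p ∈ (c a).source, ∀ v,
  -ρ p * bil (g a (c a p)) v v ≤ bil (ric (g a) (c a p)) v v

/-- The negative part of the scalar curvature. -/
noncomputable def sn (c : M → Ch n M) (g : M → Mtx n) (p : M) : ℝ := max 0 (-scal (g p) (c p p))

/-- The integral of `h^(n/2)`. -/
noncomputable def L [MeasurableSpace M] (n : ℕ) (μ : Measure M) (h : M → ℝ) : ENNReal :=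
  ∫⁻ p, ENNReal.ofReal (h p ^ ((n : ℝ) / 2)) ∂μ

/-- `f` is a smooth function. -/
def Sm (c : M → Ch n M) (f : M → ℝ) : Prop :=
  ∀ a, ContDiffOn ℝ ∞ (fun x => f ((c a).symm x)) (c a).target

/-- The conformal metric `exp(2 f) g`. -/
noncomputable def conf (c : M → Ch n M) (f : M → ℝ) (g : M → Mtx n) : M → Mtx n :=
  fun a x => Real.exp (2 * f ((c a).symm x)) • g a x

/-- `g` minimises the integral of `(Scal⁻)^(n/2)`, which has the value `v`, among all metrics. -/
def Mini [MeasurableSpace M] (c : M → Ch n M) (v : ENNReal) : Prop :=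
  ∀ (g : M → Mtx n) (μ : Measure M), Met c g → Vol c g μ → v ≤ L n μ (sn c g)

/-- The time derivative of a family of metrics. -/
noncomputable def dtG (g : ℝ → Mtx n) (t : ℝ) (x : E n) (i j : Fin n) : ℝ :=
  deriv (fun s => g s x i j) t

/-- A smooth one-parameter family of Riemannian metrics. -/
structure Fam (c : M → Ch n M) (g : ℝ → M → Mtx n) : Prop where
  met : ∀ t, Met c (g t)
  smooth : ∀ a i j, ContDiffOn ℝ ∞ (fun q : ℝ × E n => g q.1 a q.2 i j)
    (Set.univ ×ˢ (c a).target)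

/-- `Ric + ∂g/∂t / 2 ≥ -ρ g` and `tr ∂g/∂t / 2 ≤ σ` at the time `t`. -/
def Mv (c : M → Ch n M) (g : ℝ → M → Mtx n) (ρ σ : M → ℝ) (t : ℝ) : Prop :=
  ∀ a, ∀ p ∈ (c a).source,
    (∀ w, -ρ p * bil (g t a (c a p)) w w ≤
      bil (fun i j => ric (g t a) (c a p) i j + 1 / 2 * dtG (fun s => g s a) t (c a p) i j) w w) ∧
    1 / 2 * ∑ i, ∑ j, (g t a (c a p))⁻¹ i j * dtG (fun s => g s a) t (c a p) i j ≤ σ p

/-- A Ricci flow for all times `t ≥ 0`. -/
structure RF (c : M → Ch n M) (g : ℝ → M → Mtx n) : Prop where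
  met : ∀ t, 0 ≤ t → Met c (g t)
  smooth : ∀ a i j, ContDiffOn ℝ ∞ (fun q : ℝ × E n => g q.1 a q.2 i j)
    (Set.Ici 0 ×ˢ (c a).target)
  flow : ∀ t, 0 < t → ∀ a, ∀ x ∈ (c a).target, ∀ i j,
    HasDerivAt (fun s => g s a x i j) (-2 * ric (g t a) x i j) t

/-- The standard simplex with `k` vertices. -/
abbrev Δ (k : ℕ) := stdSimplex ℝ (Fin k)

/-- Singular simplices with `k` vertices. -/
structure Simp (k : ℕ) (M : Type) [TopologicalSpace M] where
  f : Δ k → M
  cont : Continuous f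

/-- The point with barycentric coordinates `t` of the `i`-th face of the standard simplex. -/
noncomputable def fc {k : ℕ} (i : Fin (k + 1)) (t : Δ k) : Δ (k + 1) :=
  stdSimplex.map i.succAbove t

/-- The coefficient of `τ` in the singular boundary of a real singular chain `z`. -/
noncomputable def bd {k : ℕ} (z : Simp (k + 1) M →₀ ℝ) (τ : Simp k M) : ℝ :=
  z.sum fun σ r => ∑ᶠ (i : Fin (k + 1)) (_ : ∀ t, τ.f t = σ.f (fc i t)), (-1) ^ (i : ℕ) * r

/-- `s` is a positively oriented affine simplex in a smooth positively oriented chart, which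
contains `p` in its interior. -/
def Aff (c : M → Ch n M) (p : M) (s : Δ (n + 1) → M) : Prop :=
  ∃ (e : Ch n M) (w : E n) (A : Matrix (Fin n) (Fin n) ℝ), (∀ a, Comp e (c a)) ∧ 0 < A.det ∧
    (∀ t, s t ∈ e.source ∧ ∀ j, e (s t) j = w j + ∑ i : Fin n, t i.succ * A i j) ∧
    ∃ t, (∀ i, 0 < t i) ∧ s t = p

open Classical in
/-- `z` is a cycle which represents the fundamental class: for every point `p` there are a simplex
`s` as above and a chain `b`, such that `z - s - ∂b` is supported on simplices which do not meet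
`p`. -/
def IsFund (c : M → Ch n M) (z : Simp (n + 1) M →₀ ℝ) : Prop :=
  (∀ τ, bd z τ = 0) ∧ ∀ p, ∃ s, Aff c p s ∧ ∃ b : Simp (n + 2) M →₀ ℝ,
    ∀ τ : Simp (n + 1) M, (∃ t, τ.f t = p) → z τ = bd b τ + if τ.f = s then 1 else 0

/-- The simplicial volume. -/
noncomputable def sv (c : M → Ch n M) : ENNReal :=
  ⨅ (z : Simp (n + 1) M →₀ ℝ) (_ : IsFund c z), ENNReal.ofReal (z.sum fun _ r => |r|)

/-- The dimensional constant `n - 2 + √n`. -/
noncomputable def kap (n : ℕ) : ℝ := (n : ℝ) - 2 + √n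

end

end Vale.Agent.P223.J
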