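import Vale.Agent.P223.X.SpecX
import Vale.Agent.P223.H.B3c
import Vale.Agent.P223.H.B25c

/-! Block L3: the jet norm controls the Riemannian quantities (local version, uniform in time). -/

namespace Vale.Agent.P223.X.BddL

open scoped ContDiff
open Vale.Agent.P223.H
open Vale.Agent.P223.H.B3c

variable {n : ℕ} {Γ : Type} [Group Γ] [MulAction Γ (E n)] {J : Type} [Fintype J]

/-! ### Linear differential operators with smooth coefficients, depending on the time -/

inductive OpT (Fr : Frame n Γ J) : ℕ → (ℝ → (E n → ℝ) → E n → ℝ) → Prop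
  | word (w : List J) (m : ℕ) (hw : w.length ≤ m) (c : ℝ → E n → ℝ)
      (hc : ContDiff ℝ ∞ (fun p : ℝ × E n => c p.1 p.2)) :
      OpT Fr m (fun t f x => c t x * DV Fr w f x)
  | zero (m : ℕ) : OpT Fr m (fun _ _ _ => 0)
  | add {m : ℕ} {L L' : ℝ → (E n → ℝ) → E n → ℝ} : OpT Fr m L → OpT Fr m L' →
      OpT Fr m (fun t f x => L t f x + L' t f x)
  | congr {m : ℕ} {L L' : ℝ → (E n → ℝ) → E n → ℝ} : OpT Fr m L →
      (∀ t (f : E n → ℝ), ContDiff ℝ 4 f → L t f = L' t f) → OpT Fr m L'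

variable {Fr : Frame n Γ J} {m : ℕ} {L L' : ℝ → (E n → ℝ) → E n → ℝ}

theorem OpT.slice (h : OpT Fr m L) (t : ℝ) : Op Fr m (L t) := by
  induction h with
  | word w m hw c hc => exact Op.word w m hw (c t) (B25c.cd_at hc t)
  | zero m => exact Op.zero m
  | add _ _ h1 h2 => exact Op.add h1 h2
  | congr _ e h1 => exact Op.congr h1 (e t)

theorem OpT.mono (h : OpT Fr m L) {m' : ℕ} (hm : m ≤ m') : OpT Fr m' L := by
  induction h with
  | word w m hw c hc => exact OpT.word w m' (hw.trans hm) c hc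
  | zero m => exact OpT.zero m'
  | add _ _ h1 h2 => exact OpT.add (h1 hm) (h2 hm)
  | congr _ e h1 => exact OpT.congr (h1 hm) e

theorem OpT.smul (h : OpT Fr m L) {c : ℝ → E n → ℝ}
    (hc : ContDiff ℝ ∞ (fun p : ℝ × E n => c p.1 p.2)) :
    OpT Fr m (fun t f x => c t x * L t f x) := by
  induction h with
  | word w m hw d hd =>
    refine OpT.congr (OpT.word w m hw (fun t x => c t x * d t x) (hc.mul hd)) fun t f _ => ?_
    funext x; ring
  | zero m => exact OpT.congr (OpT.zero m) fun t f _ => by funext x; ring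
  | add _ _ h1 h2 =>
    refine OpT.congr (OpT.add h1 h2) fun t f _ => ?_
    funext x; ring
  | congr _ e h1 =>
    refine OpT.congr h1 fun t f hf => ?_
    funext x; rw [e t f hf]

theorem OpT.sum {κ : Type} (s : Finset κ) {L : κ → ℝ → (E n → ℝ) → E n → ℝ}
    (h : ∀ i ∈ s, OpT Fr m (L i)) : OpT Fr m (fun t f x => ∑ i ∈ s, L i t f x) := by
  classical
  induction s using Finset.induction_on with
  | empty => exact OpT.congr (OpT.zero m) fun t f _ => by simp
  | insert a s ha ih =>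
    refine OpT.congr (OpT.add (h a (Finset.mem_insert_self a s))
      (ih fun i hi => h i (Finset.mem_insert_of_mem hi))) fun t f _ => ?_
    funext x
    rw [Finset.sum_insert ha]

theorem OpT.diff (h : OpT Fr m L) (hm : m ≤ 3) {f : E n → ℝ} (hf : ContDiff ℝ 4 f) (t : ℝ) :
    Differentiable ℝ (L t f) := (h.slice t).diff hm hf

theorem smooth_th (Fr : Frame n Γ J) (j : J) (v : E n) :
    ContDiff ℝ ∞ (fun p : ℝ × E n => Fr.th j p.2 v) :=
  (B3c.smooth_th Fr j v).comp contDiff_snd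

theorem OpT.pd (h : OpT Fr m L) (hm : m ≤ 3) (i : Fin n) :
    OpT Fr (m + 1) (fun t f x => H.pd i (L t f) x) := by
  induction h with
  | word w m hw c hc =>
    have h1 : OpT Fr (m + 1) (fun t f x => H.pd i (c t) x * DV Fr w f x +
        ∑ j : J, (c t x * Fr.th j x (Pi.single i 1)) * DV Fr (w ++ [j]) f x) := by
      refine OpT.add (OpT.word w (m + 1) (by omega) (fun t x => H.pd i (c t) x)
        (B25c.cd_pd hc i)) (OpT.sum _ fun j _ => ?_)
      exact OpT.word (w ++ [j]) (m + 1) (by simpa using hw)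
        (fun t x => c t x * Fr.th j x (Pi.single i 1)) (hc.mul (smooth_th Fr j _))
    refine OpT.congr h1 fun t f hf => ?_
    funext x
    have hd1 : DifferentiableAt ℝ (c t) x := (B25c.cd_at hc t).differentiable (by simp) x
    have hd2 : DifferentiableAt ℝ (DV Fr w f) x := by
      have : ContDiff ℝ ((1 : ℕ) : WithTop ℕ∞) (DV Fr w f) := contDiff_DV Fr w 1 (hf.of_le (by
        have : 1 + w.length ≤ 4 := by omega
        exact_mod_cast this))
      exact this.differentiable (by simp) x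
    rw [Bridge.pd_mul hd1 hd2, pd_eq_sum Fr i (DV Fr w f), Finset.mul_sum]
    congr 1
    refine Finset.sum_congr rfl fun j _ => ?_
    rw [DV_append]; ring
  | zero m => exact OpT.congr (OpT.zero (m + 1)) fun t f _ => by funext x; rw [Bridge.pd_const]
  | add a b h1 h2 =>
    refine OpT.congr (OpT.add (h1 hm) (h2 hm)) fun t f hf => ?_
    funext x
    rw [Bridge.pd_add (a.diff hm hf t x) (b.diff hm hf t x)]
  | congr _ e h1 =>
    refine OpT.congr (h1 hm) fun t f hf => ?_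
    funext x; rw [e t f hf]

theorem OpT.id (Fr : Frame n Γ J) : OpT Fr 0 (fun _ f => f) :=
  OpT.congr (OpT.word [] 0 le_rfl (fun _ _ => 1) contDiff_const) fun t f _ => by
    funext x; rw [one_mul]; rfl

theorem OpT.bound (h : OpT Fr m L) (hm : m ≤ 4) (T : ℝ) (K : Set (E n)) (hK : IsCompact K) :
    ∃ C : ℝ, 0 ≤ C ∧ ∀ t : ℝ, 0 ≤ t → t ≤ T → ∀ f : E n → ℝ, ContDiff ℝ 4 f → ∀ x ∈ K,
      |L t f x| ≤ C * √(jet Fr f x) := by
  induction h with
  | word w m hw c hc =>
    obtain ⟨C, hC⟩ := ((isCompact_Icc (a := (0 : ℝ)) (b := T)).prod hK).exists_bound_of_continuousOn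
      hc.continuous.continuousOn
    refine ⟨max C 0, le_max_right _ _, fun t ht0 htT f _ x hx => ?_⟩
    rw [abs_mul]
    refine mul_le_mul ((hC (t, x) ⟨⟨ht0, htT⟩, hx⟩).trans (le_max_left _ _)) ?_ (abs_nonneg _)
      (le_max_right _ _)
    exact Real.abs_le_sqrt (DV_le Fr 4 Unit (fun y _ => f y) () w (hw.trans hm) x)
  | zero m => exact ⟨0, le_rfl, fun t _ _ f _ x _ => by simp⟩
  | add _ _ h1 h2 =>
    obtain ⟨C1, hC1, h1⟩ := h1 hm
    obtain ⟨C2, hC2, h2⟩ := h2 hm
    refine ⟨C1 + C2, by positivity, fun t ht0 htT f hf x hx => ?_⟩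
    rw [add_mul]
    exact (abs_add_le _ _).trans (add_le_add (h1 t ht0 htT f hf x hx) (h2 t ht0 htT f hf x hx))
  | congr _ e h1 =>
    obtain ⟨C1, hC1, h1⟩ := h1 hm
    exact ⟨C1, hC1, fun t ht0 htT f hf x hx => by rw [← e t f hf]; exact h1 t ht0 htT f hf x hx⟩

theorem OpT.grad (Fr : Frame n Γ J) (i : Fin n) : OpT Fr 1 (fun _ f x => H.pd i f x) :=
  (OpT.id Fr).pd (by norm_num) i

theorem OpT.hess (Fr : Frame n Γ J) (i j : Fin n) :
    OpT Fr 2 (fun _ f x => H.pd i (fun y => H.pd j f y) x) :=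
  (OpT.grad Fr j).pd (by norm_num) i

variable {G : ℝ → E n → Matrix (Fin n) (Fin n) ℝ}
  (hs : ∀ i j, ContDiff ℝ ∞ (fun p : ℝ × E n => G p.1 p.2 i j)) (hp : ∀ t x, (G t x).PosDef)
include hs hp

theorem OpT.lap (Fr : Frame n Γ J) : OpT Fr 2 (fun t f x => H.lap (G t) f x) := by
  have h1 : OpT Fr 2 (fun t f x => ∑ i, ∑ j, (G t x)⁻¹ i j * (H.pd i (fun y => H.pd j f y) x +
      ∑ k, -chr (G t) x k i j * H.pd k f x)) := by
    refine OpT.sum _ fun i _ => OpT.sum _ fun j _ => OpT.smul (c := fun t x => (G t x)⁻¹ i j)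
      ?_ (B25c.cd_G_inv hs hp i j)
    refine OpT.add (OpT.hess Fr i j) (OpT.sum _ fun k _ => ?_)
    exact OpT.smul (c := fun t x => -chr (G t) x k i j) ((OpT.grad Fr k).mono (by norm_num))
      (B25c.cd_chr hs hp k i j).neg
  refine OpT.congr h1 fun t f _ => ?_
  funext x
  unfold H.lap
  refine Finset.sum_congr rfl fun i _ => Finset.sum_congr rfl fun j _ => ?_
  rw [sub_eq_add_neg, ← Finset.sum_neg_distrib]
  simp only [neg_mul]

/-- bounds for the gradient of `F` from bounds for the partial derivatives -/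
theorem gradSq_bd (T : ℝ) (K : Set (E n)) (hK : IsCompact K) :
    ∃ D : Fin n → Fin n → ℝ, (∀ i j, 0 ≤ D i j) ∧ ∀ s : ℝ, 0 ≤ s → s ≤ T → ∀ x ∈ K,
      ∀ (F : E n → ℝ) (c : Fin n → ℝ)
      (t : ℝ), (∀ l, 0 ≤ c l) → 0 ≤ t → (∀ l, |H.pd l F x| ≤ c l * t) →
      gradSq (G s) F x ≤ (∑ i, ∑ j, D i j * c i * c j) * t ^ 2 := by
  have hb : ∀ i j, ∃ D : ℝ, 0 ≤ D ∧ ∀ s : ℝ, 0 ≤ s → s ≤ T → ∀ x ∈ K, |(G s x)⁻¹ i j| ≤ D := by
    intro i j
    obtain ⟨C, hC⟩ := ((isCompact_Icc (a := (0 : ℝ)) (b := T)).prod hK).exists_bound_of_continuousOn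
      (B25c.cd_G_inv hs hp i j).continuous.continuousOn
    exact ⟨max C 0, le_max_right _ _, fun s hs0 hsT x hx =>
      (hC (s, x) ⟨⟨hs0, hsT⟩, hx⟩).trans (le_max_left _ _)⟩
  choose D hD0 hD using hb
  refine ⟨D, hD0, fun s hs0 hsT x hx F c t hc ht hF => ?_⟩
  unfold gradSq gradIp
  rw [Finset.sum_mul]
  refine Finset.sum_le_sum fun i _ => ?_
  rw [Finset.sum_mul]
  refine Finset.sum_le_sum fun j _ => ?_
  calc (G s x)⁻¹ i j * H.pd i F x * H.pd j F x
      ≤ |(G s x)⁻¹ i j * H.pd i F x * H.pd j F x| := le_abs_self _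
    _ = |(G s x)⁻¹ i j| * |H.pd i F x| * |H.pd j F x| := by rw [abs_mul, abs_mul]
    _ ≤ D i j * (c i * t) * (c j * t) := by
        have h1 := hF i
        have h2 := hF j
        have h3 := hD i j s hs0 hsT x hx
        have h4 := mul_nonneg (hc i) ht
        have h5 := mul_nonneg (hc j) ht
        exact mul_le_mul (mul_le_mul h3 h1 (abs_nonneg _) (hD0 i j)) h2 (abs_nonneg _)
          (mul_nonneg (hD0 i j) h4)
    _ = _ := by ring

theorem local_bound (Fr : Frame n Γ J) (T : ℝ) (K : Set (E n)) (hK : IsCompact K) :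
    ∃ C : ℝ, 0 < C ∧ ∀ t : ℝ, 0 ≤ t → t ≤ T → ∀ f : E n → ℝ, ContDiff ℝ 4 f → ∀ x ∈ K,
    gradSq (G t) f x ≤ C * jet Fr f x ∧
    gradSq (G t) (fun y => gradSq (G t) f y) x ≤ C * jet Fr f x ^ 2 ∧
    H.lap (G t) f x ^ 2 ≤ C * jet Fr f x ∧
    gradSq (G t) (fun y => H.lap (G t) f y) x ≤ C * jet Fr f x := by
  obtain ⟨D, hD0, hD⟩ := gradSq_bd hs hp T K hK
  choose cA hcA0 hcA using fun i => (OpT.grad Fr i).bound (by norm_num) T K hK
  choose cB hcB0 hcB using fun i => fun j => (OpT.hess Fr i j).bound (by norm_num) T K hK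
  have hop : ∀ i j, OpT Fr 1 (fun t f x => (G t x)⁻¹ i j * H.pd i f x) := fun i j =>
    OpT.smul (c := fun t x => (G t x)⁻¹ i j) (OpT.grad Fr i) (B25c.cd_G_inv hs hp i j)
  choose cL hcL0 hcL using fun i => fun j => (hop i j).bound (by norm_num) T K hK
  choose cM hcM0 hcM using fun l => fun i => fun j =>
    ((hop i j).pd (by norm_num) l).bound (by norm_num) T K hK
  obtain ⟨cP, hcP0, hcP⟩ := (OpT.lap hs hp Fr).bound (by norm_num) T K hK
  choose cQ hcQ0 hcQ using fun l =>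
    ((OpT.lap hs hp Fr).pd (by norm_num) l).bound (by norm_num) T K hK
  set cR : Fin n → ℝ := fun l => ∑ i, ∑ j, (cM l i j * cA j + cL i j * cB l j) with hcR
  have hcR0 : ∀ l, 0 ≤ cR l := fun l => Finset.sum_nonneg fun i _ => Finset.sum_nonneg fun j _ =>
    add_nonneg (mul_nonneg (hcM0 l i j) (hcA0 j)) (mul_nonneg (hcL0 i j) (hcB0 l j))
  set C1 := ∑ i, ∑ j, D i j * cA i * cA j with hC1
  set C2 := ∑ i, ∑ j, D i j * cR i * cR j with hC2
  set C4 := ∑ i, ∑ j, D i j * cQ i * cQ j with hC4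
  have h1 : 0 ≤ C1 := Finset.sum_nonneg fun i _ => Finset.sum_nonneg fun j _ =>
    mul_nonneg (mul_nonneg (hD0 i j) (hcA0 i)) (hcA0 j)
  have h2 : 0 ≤ C2 := Finset.sum_nonneg fun i _ => Finset.sum_nonneg fun j _ =>
    mul_nonneg (mul_nonneg (hD0 i j) (hcR0 i)) (hcR0 j)
  have h4 : 0 ≤ C4 := Finset.sum_nonneg fun i _ => Finset.sum_nonneg fun j _ =>
    mul_nonneg (mul_nonneg (hD0 i j) (hcQ0 i)) (hcQ0 j)
  have h3 : 0 ≤ cP ^ 2 := sq_nonneg _
  refine ⟨1 + C1 + C2 + cP ^ 2 + C4, by positivity, fun t ht0 htT f hf x hx => ?_⟩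
  have hj := jet_nonneg Fr f x
  have hs0 : 0 ≤ √(jet Fr f x) := Real.sqrt_nonneg _
  have hss : √(jet Fr f x) ^ 2 = jet Fr f x := Real.sq_sqrt hj
  refine ⟨?_, ?_, ?_, ?_⟩
  · have := hD t ht0 htT x hx f cA (√(jet Fr f x)) hcA0 hs0 fun l => hcA l t ht0 htT f hf x hx
    rw [hss] at this
    refine this.trans (mul_le_mul_of_nonneg_right ?_ hj)
    linarith
  · have := hD t ht0 htT x hx (fun y => gradSq (G t) f y) cR (jet Fr f x) hcR0 hj fun l => ?_
    · refine this.trans (mul_le_mul_of_nonneg_right ?_ (sq_nonneg _))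
      linarith
    · have e : H.pd l (fun y => gradSq (G t) f y) x = ∑ i, ∑ j,
          (H.pd l (fun y => (G t y)⁻¹ i j * H.pd i f y) x * H.pd j f x +
            ((G t x)⁻¹ i j * H.pd i f x) * H.pd l (fun y => H.pd j f y) x) := by
        unfold gradSq gradIp
        have d1 : ∀ i j, DifferentiableAt ℝ (fun y => (G t y)⁻¹ i j * H.pd i f y) x := fun i j =>
          (hop i j).diff (by norm_num) hf t x
        have d2 : ∀ j, DifferentiableAt ℝ (fun y => H.pd j f y) x := fun j =>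
          (OpT.grad Fr j).diff (by norm_num) hf t x
        rw [Bridge.pd_sum fun i _ => DifferentiableAt.fun_sum fun j _ => (d1 i j).fun_mul (d2 j)]
        refine Finset.sum_congr rfl fun i _ => ?_
        rw [Bridge.pd_sum fun j _ => (d1 i j).fun_mul (d2 j)]
        refine Finset.sum_congr rfl fun j _ => ?_
        rw [Bridge.pd_mul (d1 i j) (d2 j)]
      rw [e, hcR]
      simp only [Finset.sum_mul]
      refine (Finset.abs_sum_le_sum_abs _ _).trans (Finset.sum_le_sum fun i _ => ?_)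
      refine (Finset.abs_sum_le_sum_abs _ _).trans (Finset.sum_le_sum fun j _ => ?_)
      refine (abs_add_le _ _).trans ?_
      rw [abs_mul, abs_mul ((G t x)⁻¹ i j * H.pd i f x), add_mul, ← hss]
      have a1 := hcM l i j t ht0 htT f hf x hx
      have a2 := hcA j t ht0 htT f hf x hx
      have a3 := hcL i j t ht0 htT f hf x hx
      have a4 := hcB l j t ht0 htT f hf x hx
      refine add_le_add ?_ ?_
      · calc _ ≤ (cM l i j * √(jet Fr f x)) * (cA j * √(jet Fr f x)) :=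
              mul_le_mul a1 a2 (abs_nonneg _) (mul_nonneg (hcM0 l i j) hs0)
          _ = _ := by ring
      · calc _ ≤ (cL i j * √(jet Fr f x)) * (cB l j * √(jet Fr f x)) :=
              mul_le_mul a3 a4 (abs_nonneg _) (mul_nonneg (hcL0 i j) hs0)
          _ = _ := by ring
  · have h := hcP t ht0 htT f hf x hx
    calc H.lap (G t) f x ^ 2 = |H.lap (G t) f x| ^ 2 := (sq_abs _).symm
      _ ≤ (cP * √(jet Fr f x)) ^ 2 := pow_le_pow_left₀ (abs_nonneg _) h 2
      _ = cP ^ 2 * jet Fr f x := by rw [mul_pow, hss]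
      _ ≤ _ := mul_le_mul_of_nonneg_right (by linarith) hj
  · have := hD t ht0 htT x hx (fun y => H.lap (G t) f y) cQ (√(jet Fr f x)) hcQ0 hs0 fun l =>
      hcQ l t ht0 htT f hf x hx
    rw [hss] at this
    refine this.trans (mul_le_mul_of_nonneg_right ?_ hj)
    linarith

omit hs hp

theorem main : SpecBddL := by
  intro n J _ F G T R hs hp
  have hK : IsCompact {y : E n | ‖y‖ ≤ R} := by
    have : {y : E n | ‖y‖ ≤ R} = Metric.closedBall 0 R := by
      ext y; simp
    rw [this]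
    exact isCompact_closedBall 0 R
  obtain ⟨c, hc, h⟩ := local_bound hs hp F T _ hK
  exact ⟨c, hc, fun t ht0 htT f hf y hy => ⟨sq_le_jet F f y, h t ht0 htT f hf y hy⟩⟩

end Vale.Agent.P223.X.BddL
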