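import Vale.Agent.P223.X.LapX
import Vale.Agent.P223.H.Conf

/-! Phase 3, block X24: conformal classes. -/

namespace Vale.Agent.P223.X.ConfX

open scoped ContDiff Matrix Topology
open MeasureTheory Vale.Agent.P223.H

section
variable {n : ℕ} {M X Γ I : Type} [TopologicalSpace M] [TopologicalSpace X] [Group Γ]
    [MulAction Γ X] {C : Cov n M X Γ I} {G : I → E n → Matrix (Fin n) (Fin n) ℝ}

/-- The conformal metric. -/
theorem confm_met (hG : MetX C G) {f : X → ℝ} (hf : C.Ck ∞ f)
    (hfi : ∀ (γ : Γ) x, f (γ • x) = f x) :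
    MetX C (fun i => confm (C.rep f 1 i) (G i)) where
  smooth i a b := by
    have : (fun y => confm (C.rep f 1 i) (G i) y a b) =
        fun y => Real.exp (2 * C.rep f 1 i y) * G i y a b := by
      funext x
      simp [confm, Matrix.smul_apply]
    rw [this]
    exact (contDiff_const.mul (hf 1 i)).exp.mul (hG.smooth i a b)
  pos i y := Conf.posDef_smul (hG.pos i y) (Real.exp_pos _)
  inv i j γ y hy v w := by
    have h := hG.inv i j γ y hy v w
    have h0 : C.rep f 1 j (C.tr i j γ y) = C.rep f 1 i y := by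
      show f ((1 : Γ) • C.ψ j (C.tr i j γ y)) = f ((1 : Γ) • C.ψ i y)
      rw [tr_spec C hy, hfi, hfi, hfi]
    have e1 : ∀ a b, confm (C.rep f 1 j) (G j) (C.tr i j γ y) a b =
        Real.exp (2 * C.rep f 1 i y) * G j (C.tr i j γ y) a b := fun a b => by
      simp [confm, Matrix.smul_apply, h0]
    have e2 : ∀ a b, confm (C.rep f 1 i) (G i) y a b =
        Real.exp (2 * C.rep f 1 i y) * G i y a b := fun a b => by
      simp [confm, Matrix.smul_apply]
    simp only [e1, e2]
    have h1 : ∀ p q : Fin n → Fin n → ℝ,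
        ∑ a, ∑ b, p a b * (Real.exp (2 * C.rep f 1 i y) * q a b) =
        Real.exp (2 * C.rep f 1 i y) * ∑ a, ∑ b, p a b * q a b := by
      intro p q
      simp only [Finset.mul_sum]
      exact Finset.sum_congr rfl fun a _ => Finset.sum_congr rfl fun b _ => by ring
    rw [h1 (fun a b => fderiv ℝ (C.tr i j γ) y v a * fderiv ℝ (C.tr i j γ) y w b)
      (fun a b => G j (C.tr i j γ y) a b), h1 (fun a b => v a * w b) (fun a b => G i y a b), h]

theorem gl_scal (hG : MetX C G) (γ : Γ) (i : I) (y : E n) :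
    C.gl (fun _ i y => H.scal (G i) y) (γ • C.ψ i y) = H.scal (G i) y :=
  gl_eq C (a := fun _ i y => H.scal (G i) y) (fun _ _ _ _ _ _ h => scal_chart hG h) γ i y

theorem gl_scal_inv (hG : MetX C G) (γ : Γ) (x : X) :
    C.gl (fun _ i y => H.scal (G i) y) (γ • x) = C.gl (fun _ i y => H.scal (G i) y) x := by
  obtain ⟨γ', j, z, -, rfl⟩ := exists_chart C x
  rw [← mul_smul, gl_scal hG, gl_scal hG]

/-- the scalar curvature on `M` -/
theorem scM_β (hG : MetX C G) (i : I) (y : E n) :
    scM C G (IntM.β C i y) = H.scal (G i) y := by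
  unfold scM
  rw [IntM.dn_β C (gl_scal_inv hG), ← one_smul Γ (C.ψ i y), gl_scal hG]

theorem continuous_scM (hG : MetX C G) : Continuous (scM C G) := by
  refine IntM.continuous_dn C (gl_scal_inv hG) ((Ck_zero_iff C).1 fun γ i => ?_)
  have : C.rep (C.gl fun _ i y => H.scal (G i) y) γ i = fun y => H.scal (G i) y :=
    funext fun y => gl_scal hG γ i y
  rw [this]
  exact contDiff_zero.2 (Cor.continuous_scal (hG.smooth i) (hG.pos i))

theorem exists_β (C : Cov n M X Γ I) (m : M) : ∃ (i : I) (y : E n), IntM.β C i y = m := by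
  obtain ⟨x, rfl⟩ := C.surj m
  obtain ⟨γ, i, y, hy, hx⟩ := exists_chart C x
  refine ⟨i, y, ?_⟩
  rw [← hx]
  exact (C.orb _ _).2 ⟨γ, rfl⟩

end

theorem main (hPart : SpecPart) : SpecConfX := by
  intro n M X Γ I _ _ _ _ _ _ _ _ _ _ C G ν ν' s f hn hG hV hs hscal hf hfi hV'
  obtain ⟨χ, hχ⟩ := hPart n M X Γ I C
  have hfin := IntM.isFiniteMeasure hG hV
  have hcomp := IntM.compactSpace C
  set p : ℝ := (n : ℝ) / 2 with hp
  have hn3 : (3 : ℝ) ≤ n := by exact_mod_cast hn
  have hp1 : 1 ≤ p := by rw [hp]; linarith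
  have hg := confm_met hG hf hfi
  set G' : I → E n → Matrix (Fin n) (Fin n) ℝ := fun i => confm (C.rep f 1 i) (G i) with hG'
  have hf2 : C.Ck 2 f := fun γ i => contDiff_infty.1 (hf γ i) 2
  have hfc : Continuous f := (Ck_zero_iff C).1 fun γ i => (hf γ i).of_le (by simp)
  have hLc : C.Ck 0 (lapX C G f) := fun γ i => by
    rw [rep_lapX hG hf2 γ i]
    exact contDiff_zero.2 (GrdX.continuous_lap (hG.smooth i) (hG.pos i) (hf2 γ i))
  set L : M → ℝ := C.dn (lapX C G f) with hL
  set φ : M → ℝ := C.dn f with hφ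
  have hLcont : Continuous L := IntM.continuous_dn C (LapX.lapX_inv hG hf2 hfi)
    ((Ck_zero_iff C).1 hLc)
  have hφcont : Continuous φ := IntM.continuous_dn C hfi hfc
  have hscc : Continuous (scM C G') := continuous_scM hg
  have hLβ : ∀ i y, L (IntM.β C i y) = lap (G i) (C.rep f 1 i) y := fun i y => by
    rw [hL, IntM.dn_β C (LapX.lapX_inv hG hf2 hfi)]
    have := lapX_eq hG hf2 1 i y
    rwa [one_smul] at this
  have hφβ : ∀ i y, φ (IntM.β C i y) = C.rep f 1 i y := fun i y => by
    rw [hφ, IntM.dn_β C hfi]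
    show _ = f ((1 : Γ) • C.ψ i y)
    rw [one_smul]
  set t : M → ℝ := fun m => Real.exp (2 * φ m) * max 0 (-scM C G' m) with ht
  have htc : Continuous t := (Real.continuous_exp.comp (continuous_const.mul hφcont)).mul
    (continuous_const.max hscc.neg)
  have ht0 : ∀ m, 0 ≤ t m := fun m => mul_nonneg (Real.exp_pos _).le (le_max_left _ _)
  have hts : ∀ m, s + 2 * ((n : ℝ) - 1) * L m ≤ t m := by
    intro m
    obtain ⟨i, y, rfl⟩ := exists_β C m
    have h1 := ConfScal.main n (G i) (hG.smooth i) (hG.pos i) (C.rep f 1 i) (hf 1 i) y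
    have h2 : -(Real.exp (2 * C.rep f 1 i y) * H.scal (G' i) y) ≤ t (IntM.β C i y) := by
      rw [ht]
      simp only
      rw [← mul_neg, hφβ, scM_β hg]
      exact mul_le_mul_of_nonneg_left (le_max_right _ _) (Real.exp_pos _).le
    have h3 := hscal i y
    have h4 : 0 ≤ ((n : ℝ) - 1) * ((n : ℝ) - 2) * gradSq (G i) (C.rep f 1 i) y :=
      mul_nonneg (mul_nonneg (by linarith) (by linarith)) (Grad.gradSq_nonneg' (hG.pos i y) _)
    rw [hLβ]
    have h5 : Real.exp (2 * C.rep f 1 i y) * H.scal (G' i) y =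
      H.scal (G i) y - 2 * ((n : ℝ) - 1) * lap (G i) (C.rep f 1 i) y -
        ((n : ℝ) - 1) * ((n : ℝ) - 2) * gradSq (G i) (C.rep f 1 i) y := h1
    linarith
  set c : ℝ := s ^ p * p * (2 * ((n : ℝ) - 1)) / s with hc
  have hpt : ∀ m, s ^ p + c * L m ≤ t m ^ p := by
    intro m
    refine le_trans ?_ (Conf.bernoulli hs (ht0 m) hp1)
    have h5 : 1 + p * ((s + 2 * ((n : ℝ) - 1) * L m) / s - 1) ≤ 1 + p * (t m / s - 1) := by
      have : (s + 2 * ((n : ℝ) - 1) * L m) / s ≤ t m / s :=
        div_le_div_of_nonneg_right (hts m) hs.le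
      have hp0 : 0 ≤ p := by linarith
      nlinarith
    refine le_trans (le_of_eq ?_) (mul_le_mul_of_nonneg_left h5 (Real.rpow_nonneg hs.le p))
    rw [hc]
    field_simp
    ring
  have hLI : ∫ m, L m ∂ν = 0 := LapX.main hPart n M X Γ I C G ν hG hV f hf2 hfi
  have hci : ∀ g : M → ℝ, Continuous g → Integrable g ν := fun g hgc => by
    have := hgc.continuousOn.integrableOn_compact (μ := ν) isCompact_univ
    rwa [integrableOn_univ] at this
  have hint1 : ∫ m, (s ^ p + c * L m) ∂ν = s ^ p * ν.real Set.univ := by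
    rw [integral_add (integrable_const _) ((hci L hLcont).const_mul c), integral_const_mul, hLI,
      mul_zero, add_zero, integral_const, smul_eq_mul, mul_comm]
  have htp : Continuous fun m => t m ^ p := htc.rpow_const fun m => Or.inr (by linarith)
  have hscp : Continuous fun m => max 0 (-scM C G' m) ^ p :=
    (continuous_const.max hscc.neg).rpow_const fun m => Or.inr (by linarith)
  calc ENNReal.ofReal (s ^ p) * ν Set.univ
      = ENNReal.ofReal (s ^ p * ν.real Set.univ) := by
        rw [ENNReal.ofReal_mul (Real.rpow_nonneg hs.le p), ofReal_measureReal]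
    _ ≤ ENNReal.ofReal (∫ m, t m ^ p ∂ν) := by
        rw [← hint1]
        exact ENNReal.ofReal_le_ofReal (integral_mono ((integrable_const _).add
          ((hci L hLcont).const_mul c)) (hci _ htp) hpt)
    _ = ∫⁻ m, ENNReal.ofReal (t m ^ p) ∂ν :=
        ofReal_integral_eq_lintegral_ofReal (hci _ htp)
          (ae_of_all _ fun m => Real.rpow_nonneg (ht0 m) p)
    _ = IS C G' ν' p := by
        unfold IS
        rw [IntM.lintegral_eq hG hV hχ htp.measurable.ennreal_ofReal,
          IntM.lintegral_eq hg hV' hχ hscp.measurable.ennreal_ofReal]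
        refine Finset.sum_congr rfl fun i _ => lintegral_congr fun y => ?_
        rw [mul_assoc, mul_assoc, ← ENNReal.ofReal_mul (Real.rpow_nonneg (ht0 _) p),
          ← ENNReal.ofReal_mul (Real.rpow_nonneg (le_max_left _ _) p)]
        congr 2
        have h6 : H.dens (G' i) y = Real.exp (n * C.rep f 1 i y) * H.dens (G i) y :=
          Conf.confm_dens (C.rep f 1 i) (G i) y
        rw [h6, ht]
        dsimp only
        rw [Real.mul_rpow (Real.exp_pos _).le (le_max_left _ _), ← Real.exp_mul, hφβ,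
          show 2 * C.rep f 1 i y * p = n * C.rep f 1 i y by rw [hp]; ring]
        ring

end Vale.Agent.P223.X.ConfX
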