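import Vale.Agent.P223.X.SpecX
import Vale.Agent.P223.H.B3b
import Vale.Agent.P223.H.Equiv

/-! Block L2: consistency of the averaging operators, local version. -/

namespace Vale.Agent.P223.X.ConsL

open scoped ContDiff Topology
open Vale.Agent.P223.H
open B3b B3c

theorem met_T1 {n : ℕ} {G : E n → Matrix (Fin n) (Fin n) ℝ}
    (hs : ∀ i j, ContDiff ℝ ∞ (fun x => G x i j)) (hp : ∀ x, (G x).PosDef) : Met n T1 G where
  smooth := hs
  pos := hp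
  inv γ x v w := by
    have : (fun y : E n => γ • y) = id := rfl
    rw [this, fderiv_id]; rfl

theorem fam_T1 {n : ℕ} {G : ℝ → E n → Matrix (Fin n) (Fin n) ℝ}
    (hs : ∀ i j, ContDiff ℝ ∞ (fun p : ℝ × E n => G p.1 p.2 i j)) (hp : ∀ t x, (G t x).PosDef) :
    Fam n T1 G where
  smooth := hs
  met t := met_T1 (fun i j => (hs i j).comp (contDiff_const.prodMk contDiff_id)) (hp t)

/-- bounds for the gradient, locally uniformly in time -/
theorem gradSq_bd {n : ℕ} {Γ : Type} [Group Γ] [MulAction Γ (E n)]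
    {G : ℝ → E n → Matrix (Fin n) (Fin n) ℝ} (hG : Fam n Γ G) (K : Set (ℝ × E n))
    (hK : IsCompact K) :
    ∃ D : Fin n → Fin n → ℝ, (∀ i j, 0 ≤ D i j) ∧ ∀ p ∈ K, ∀ (F : E n → ℝ) (c : Fin n → ℝ)
      (s : ℝ), (∀ l, 0 ≤ c l) → 0 ≤ s → (∀ l, |H.pd l F p.2| ≤ c l * s) →
      gradSq (G p.1) F p.2 ≤ (∑ i, ∑ j, D i j * c i * c j) * s ^ 2 := by
  have hb : ∀ i j, ∃ D : ℝ, 0 ≤ D ∧ ∀ p ∈ K, |(G p.1 p.2)⁻¹ i j| ≤ D := by
    intro i j
    obtain ⟨C, hC⟩ := hK.exists_bound_of_continuousOn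
      (Equiv.contDiff_inv hG i j).continuous.continuousOn
    exact ⟨max C 0, le_max_right _ _, fun x hx => (hC x hx).trans (le_max_left _ _)⟩
  choose D hD0 hD using hb
  refine ⟨D, hD0, fun p hp F c t hc ht hF => ?_⟩
  unfold gradSq gradIp
  rw [Finset.sum_mul]
  refine Finset.sum_le_sum fun i _ => ?_
  rw [Finset.sum_mul]
  refine Finset.sum_le_sum fun j _ => ?_
  calc (G p.1 p.2)⁻¹ i j * H.pd i F p.2 * H.pd j F p.2
      ≤ |(G p.1 p.2)⁻¹ i j * H.pd i F p.2 * H.pd j F p.2| := le_abs_self _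
    _ = |(G p.1 p.2)⁻¹ i j| * |H.pd i F p.2| * |H.pd j F p.2| := by rw [abs_mul, abs_mul]
    _ ≤ D i j * (c i * t) * (c j * t) := by
        have h1 := hF i
        have h2 := hF j
        have h3 := hD i j p hp
        have h4 := mul_nonneg (hc i) ht
        have h5 := mul_nonneg (hc j) ht
        exact mul_le_mul (mul_le_mul h3 h1 (abs_nonneg _) (hD0 i j)) h2 (abs_nonneg _)
          (mul_nonneg (hD0 i j) h4)
    _ = _ := by ring

section main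

variable {n : ℕ} {Γ : Type} [Group Γ] [MulAction Γ (E n)] {J : Type} [Fintype J]
variable {V : Type} [NormedAddCommGroup V] [NormedSpace ℝ V]
variable {Φ : ℝ × V → E n} (hΦ : ContDiff ℝ ∞ Φ)

/-- even part of the Taylor expansion of a differential operator along a map -/
theorem even_op (hΦ : ContDiff ℝ ∞ Φ) {Fr : Frame n Γ J} {m : ℕ}
    {L : (E n → ℝ) → ℝ × V → ℝ}
    (h : OpP Fr Φ m L) (hm : m ≤ 1) (K : Set V) (hK : IsCompact K) :
    ∃ C : ℝ, 0 ≤ C ∧ ∀ f : E n → ℝ, ContDiff ℝ 4 f → ∀ x ∈ K, ∀ ε : ℝ, 0 < ε → ε ≤ 1 →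
      ∀ B : ℝ, 0 ≤ B → (∀ r : ℝ, |r| ≤ ε → jet Fr f (Φ (r, x)) ≤ B ^ 2) →
      |(L f (ε, x) + L f (-ε, x)) / 2 - L f (0, x) -
        ε ^ 2 / 2 * B3b.dr (1, 0) (B3b.dr (1, 0) (L f)) (0, x)| ≤ C * (B * ε ^ 3) := by
  have h1 := h.dr hΦ (by omega) ((1 : ℝ), (0 : V))
  have h2 := h1.dr hΦ (by omega) ((1 : ℝ), (0 : V))
  have h3 := h2.dr hΦ (by omega) ((1 : ℝ), (0 : V))
  obtain ⟨C, hC, hb⟩ := h3.bound (by omega) (Set.Icc (-1 : ℝ) 1 ×ˢ K) (isCompact_Icc.prod hK)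
  refine ⟨C, hC, fun f hf x hx ε hε hε1 B hB hj => ?_⟩
  have := even_taylor (fun s => L f (s, x)) (fun s => B3b.dr (1, 0) (L f) (s, x))
    (fun s => B3b.dr (1, 0) (B3b.dr (1, 0) (L f)) (s, x))
    (fun s => B3b.dr (1, 0) (B3b.dr (1, 0) (B3b.dr (1, 0) (L f))) (s, x))
    (QC.hasDerivAt_slice _ (h.diff hΦ (by omega) hf) x)
    (QC.hasDerivAt_slice _ (h1.diff hΦ (by omega) hf) x)
    (QC.hasDerivAt_slice _ (h2.diff hΦ (by omega) hf) x) ε (C * B) hε (by positivity)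
    (fun s hs => hb f hf (s, x) ⟨abs_le.1 (hs.trans hε1), hx⟩ B hB (hj s hs))
  calc _ ≤ C * B * ε ^ 3 := this
    _ = _ := by ring

/-- second time derivative -/
noncomputable def F2 (Φ : ℝ × V → E n) (f : E n → ℝ) : ℝ × V → ℝ :=
  dr (1, 0) (dr (1, 0) (fun p => f (Φ p)))

theorem op2 (hΦ : ContDiff ℝ ∞ Φ) (Fr : Frame n Γ J) : OpP Fr Φ 2 (F2 Φ) :=
  ((OpP.base Fr Φ).dr hΦ (by norm_num) (1, 0)).dr hΦ (by norm_num) (1, 0)

/-- the remainder -/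
noncomputable def Rm (Φ : ℝ × V → E n) (f : E n → ℝ) (ε : ℝ) (y : V) : ℝ :=
  (f (Φ (ε, y)) + f (Φ (-ε, y))) / 2 - f (Φ (0, y)) - ε ^ 2 / 2 * F2 Φ f (0, y)

theorem iter_eq (hΦ : ContDiff ℝ ∞ Φ) (Fr : Frame n Γ J) (f : E n → ℝ) (hf : ContDiff ℝ 4 f)
    (y : V) : iteratedDeriv 2 (fun r => f (Φ (r, y))) 0 = F2 Φ f (0, y) := by
  have h0 := OpP.base Fr Φ
  have h1 := h0.dr hΦ (by norm_num) ((1 : ℝ), (0 : V))
  have e1 : deriv (fun r => f (Φ (r, y))) = fun r => dr (1, 0) (fun p => f (Φ p)) (r, y) := by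
    funext r
    exact (QC.hasDerivAt_slice (fun p => f (Φ p)) (h0.diff hΦ (by norm_num) hf) y r).deriv
  rw [show (2 : ℕ) = 1 + 1 from rfl, iteratedDeriv_succ, iteratedDeriv_one, e1]
  exact (QC.hasDerivAt_slice _ (h1.diff hΦ (by norm_num) hf) y 0).deriv

end main

section main2

variable {n : ℕ} {J : Type} [Fintype J] {Φ : ℝ × (ℝ × E n) → E n}

theorem diff_slice {F : ℝ × (ℝ × E n) → ℝ} (hF : Differentiable ℝ F) (r t : ℝ) :
    Differentiable ℝ (fun y : E n => F (r, (t, y))) := by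
  have h : Differentiable ℝ (fun y : E n => ((r, (t, y)) : ℝ × (ℝ × E n))) := by fun_prop
  exact hF.comp h

theorem pd_slice {F : ℝ × (ℝ × E n) → ℝ} (hF : Differentiable ℝ F) (r t : ℝ) (i : Fin n)
    (x : E n) : H.pd i (fun y => F (r, (t, y))) x = dr (0, (0, Pi.single i 1)) F (r, (t, x)) := by
  have h1 : Differentiable ℝ (fun q : ℝ × E n => F (r, q)) := by
    have h : Differentiable ℝ (fun q : ℝ × E n => ((r, q) : ℝ × (ℝ × E n))) := by fun_prop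
    exact hF.comp h
  have e1 := QC.fderiv_slice (fun q : ℝ × E n => F (r, q)) h1 t x (Pi.single i 1)
  have e2 := QC.fderiv_slice F hF r (t, x) ((0 : ℝ), (Pi.single i 1 : E n))
  exact e1.trans e2

theorem diff_Rm (hΦ : ContDiff ℝ ∞ Φ) (Fr : Frame n T1 J) (f : E n → ℝ)
    (hf : ContDiff ℝ 4 f) (ε t : ℝ) : Differentiable ℝ (fun y => Rm Φ f ε (t, y)) := by
  have h0 : Differentiable ℝ (fun p => f (Φ p)) := (OpP.base Fr Φ).diff hΦ (by norm_num) hf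
  have h2 := (op2 hΦ Fr).diff hΦ (by norm_num) hf
  have e2 : (fun y => Rm Φ f ε (t, y)) = fun y => (1 / 2 * (f (Φ (ε, (t, y))) +
      f (Φ (-ε, (t, y)))) - f (Φ (0, (t, y)))) - ε ^ 2 / 2 * F2 Φ f (0, (t, y)) := by
    funext y; unfold Rm; ring
  rw [e2]
  exact ((((diff_slice h0 ε t).fun_add (diff_slice h0 (-ε) t)).const_mul _).fun_sub
    (diff_slice h0 0 t)).fun_sub ((diff_slice h2 0 t).const_mul _)

theorem pd_Rm (hΦ : ContDiff ℝ ∞ Φ) (Fr : Frame n T1 J) (f : E n → ℝ)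
    (hf : ContDiff ℝ 4 f) (ε t : ℝ) (i : Fin n) (x : E n) :
    H.pd i (fun y => Rm Φ f ε (t, y)) x =
      (dr (0, (0, Pi.single i 1)) (fun p => f (Φ p)) (ε, (t, x)) +
        dr (0, (0, Pi.single i 1)) (fun p => f (Φ p)) (-ε, (t, x))) / 2 -
      dr (0, (0, Pi.single i 1)) (fun p => f (Φ p)) (0, (t, x)) -
      ε ^ 2 / 2 * dr (1, 0) (dr (1, 0) (dr (0, (0, Pi.single i 1)) (fun p => f (Φ p))))
        (0, (t, x)) := by
  have h0 : Differentiable ℝ (fun p => f (Φ p)) := (OpP.base Fr Φ).diff hΦ (by norm_num) hf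
  have h2 := (op2 hΦ Fr).diff hΦ (by norm_num) hf
  have hc0 : ContDiff ℝ ((4 : ℕ) : WithTop ℕ∞) (fun p => f (Φ p)) :=
    (OpP.base Fr Φ).contDiff hΦ 4 (by norm_num) hf
  have hc1 : ContDiff ℝ ((3 : ℕ) : WithTop ℕ∞) (dr (1, 0) (fun p => f (Φ p))) :=
    contDiff_dr 3 hc0 _
  have e : dr (1, 0) (dr (1, 0) (dr (0, (0, Pi.single i 1)) (fun p => f (Φ p)))) =
      dr (0, (0, Pi.single i 1)) (F2 Φ f) := by
    unfold F2
    rw [dr_comm (hc0.of_le (by norm_num)) (1, 0) (0, (0, Pi.single i 1)),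
      dr_comm (hc1.of_le (by norm_num)) (1, 0) (0, (0, Pi.single i 1))]
  rw [e, ← pd_slice h0 ε, ← pd_slice h0 (-ε), ← pd_slice h0 0, ← pd_slice h2 0]
  have s1 := diff_slice h0 ε t x
  have s2 := diff_slice h0 (-ε) t x
  have s3 := diff_slice h0 0 t x
  have s4 := diff_slice h2 0 t x
  have e2 : (fun y => Rm Φ f ε (t, y)) = fun y => (1 / 2 * (f (Φ (ε, (t, y))) +
      f (Φ (-ε, (t, y)))) - f (Φ (0, (t, y)))) - ε ^ 2 / 2 * F2 Φ f (0, (t, y)) := by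
    funext y; unfold Rm; ring
  rw [e2, Bridge.pd_sub (((s1.fun_add s2).const_mul _).fun_sub s3) (s4.const_mul _),
    Bridge.pd_sub ((s1.fun_add s2).const_mul _) s3, pd_cmul _ _ (s1.fun_add s2), pd_cmul _ _ s4,
    Bridge.pd_add s1 s2]
  ring

theorem local_bound (hΦ : ContDiff ℝ ∞ Φ) {G : ℝ → E n → Matrix (Fin n) (Fin n) ℝ}
    (hG : Fam n T1 G) (Fr : Frame n T1 J)
    (K : Set (ℝ × E n)) (hK : IsCompact K) : ∃ C : ℝ, 0 < C ∧ ∀ ε : ℝ, 0 < ε → ε ≤ 1 →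
    ∀ f : E n → ℝ, ContDiff ℝ 4 f → ∀ p ∈ K, ∀ B : ℝ, 0 ≤ B →
    (∀ (r : ℝ), |r| ≤ ε → jet Fr f (Φ (r, p)) ≤ B ^ 2) →
    |Rm Φ f ε p| ≤ C * ε ^ 3 * B ∧
    gradSq (G p.1) (fun y => Rm Φ f ε (p.1, y)) p.2 ≤ (C * ε ^ 3 * B) ^ 2 := by
  obtain ⟨D, hD0, hD⟩ := gradSq_bd hG K hK
  obtain ⟨A0, hA00, hC0⟩ := even_op hΦ (OpP.base Fr Φ) (by norm_num) K hK
  choose A1 hA10 hC1 using fun i => even_op hΦ
    ((OpP.base Fr Φ).dr hΦ (by norm_num) ((0 : ℝ), ((0 : ℝ), (Pi.single i 1 : E n))))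
    (by norm_num) K hK
  set A2 := ∑ i, ∑ j, D i j * A1 i * A1 j with hA2
  have hA20 : 0 ≤ A2 := Finset.sum_nonneg fun i _ => Finset.sum_nonneg fun j _ =>
    mul_nonneg (mul_nonneg (hD0 i j) (hA10 i)) (hA10 j)
  refine ⟨1 + A0 + A2, by positivity, fun ε hε hε1 f hf p hp B hB hj => ?_⟩
  have ht : 0 ≤ B * ε ^ 3 := by positivity
  constructor
  · have := hC0 f hf p hp ε hε hε1 B hB hj
    refine this.trans ?_
    calc A0 * (B * ε ^ 3) ≤ (1 + A0 + A2) * (B * ε ^ 3) :=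
          mul_le_mul_of_nonneg_right (by linarith) ht
      _ = _ := by ring
  · have := hD p hp (fun y => Rm Φ f ε (p.1, y)) A1 (B * ε ^ 3) hA10 ht fun l => by
      rw [pd_Rm hΦ Fr f hf ε p.1 l p.2]
      exact hC1 l f hf p hp ε hε hε1 B hB hj
    refine this.trans ?_
    rw [← hA2]
    calc A2 * (B * ε ^ 3) ^ 2 ≤ (1 + A0 + A2) ^ 2 * (B * ε ^ 3) ^ 2 :=
          mul_le_mul_of_nonneg_right (by nlinarith) (sq_nonneg _)
      _ = _ := by ring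

theorem main : SpecConsL := by
  intro n J _ Fr G ξ ζ T R hGs hGp hξ hζ hsupp
  have hG : Fam n T1 G := fam_T1 hGs hGp
  set Φ : ℝ × (ℝ × E n) → E n := fun p => p.2.2 + p.1 • ξ p.2.1 p.2.2 + p.1 ^ 2 • ζ p.2.1 p.2.2
    with hΦd
  have hΦ : ContDiff ℝ ∞ Φ := by
    have h1 : ContDiff ℝ ∞ (fun p : ℝ × (ℝ × E n) => ξ p.2.1 p.2.2) := hξ.comp contDiff_snd
    have h2 : ContDiff ℝ ∞ (fun p : ℝ × (ℝ × E n) => ζ p.2.1 p.2.2) := hζ.comp contDiff_snd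
    exact ((contDiff_snd.comp contDiff_snd).add (contDiff_fst.smul h1)).add
      ((contDiff_fst.pow 2).smul h2)
  obtain ⟨C, hC, hb⟩ := local_bound hΦ hG Fr (Set.Icc 0 T ×ˢ Metric.closedBall (0 : E n) R)
    (isCompact_Icc.prod (isCompact_closedBall _ _))
  refine ⟨C, hC, fun t ε ht0 htT hε hε1 f hf y B hB hj => ?_⟩
  have e : ∀ z, avg (ξ t) (ζ t) ε f z - f z - ε ^ 2 / 2 * gen (ξ t) (ζ t) f z =
      Rm Φ f ε (t, z) := by
    intro z
    have h1 : gen (ξ t) (ζ t) f z = F2 Φ f (0, (t, z)) := iter_eq hΦ Fr f hf (t, z)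
    have h2 : Φ (ε, (t, z)) = z + ε • ξ t z + ε ^ 2 • ζ t z := rfl
    have h3 : Φ (-ε, (t, z)) = z - ε • ξ t z + ε ^ 2 • ζ t z := by
      simp only [hΦd, neg_smul, even_two, Even.neg_pow, sub_eq_add_neg]
    have h4 : Φ (0, (t, z)) = z := by simp [hΦd]
    rw [h1]
    unfold Rm avg
    rw [h2, h3, h4]
  rcases le_or_gt ‖y‖ R with hy | hy
  · obtain ⟨b1, b2⟩ := hb ε hε hε1 f hf (t, y) ⟨⟨ht0, htT⟩, by simpa using hy⟩ B hB hj
    simp only [e]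
    exact ⟨b1, b2⟩
  · have hz : ∀ z : E n, R < ‖z‖ → avg (ξ t) (ζ t) ε f z - f z -
        ε ^ 2 / 2 * gen (ξ t) (ζ t) f z = 0 := by
      intro z hz
      obtain ⟨h1, h2⟩ := hsupp t z hz.le
      have e3 : gen (ξ t) (ζ t) f z = 0 := by
        unfold gen
        simp only [h1, h2, smul_zero, add_zero]
        simp [iteratedDeriv_const]
      rw [e3]
      unfold avg
      rw [h1, h2]
      simp
    refine ⟨by rw [hz y hy, abs_zero]; positivity, ?_⟩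
    have hev : (fun z => avg (ξ t) (ζ t) ε f z - f z - ε ^ 2 / 2 * gen (ξ t) (ζ t) f z) =ᶠ[𝓝 y]
        fun _ => 0 := by
      have hop : IsOpen {z : E n | R < ‖z‖} := isOpen_lt continuous_const continuous_norm
      filter_upwards [hop.mem_nhds hy] with z h
      exact hz z h
    have hpd : ∀ i, H.pd i (fun z => avg (ξ t) (ζ t) ε f z - f z -
        ε ^ 2 / 2 * gen (ξ t) (ζ t) f z) y = 0 := by
      intro i
      unfold H.pd
      rw [hev.fderiv_eq]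
      simp
    unfold gradSq gradIp
    simp only [hpd, mul_zero, Finset.sum_const_zero]
    positivity

end main2

end Vale.Agent.P223.X.ConsL
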