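import Vale.Agent.P223.X.Basic
import Vale.Agent.P223.H.TT

/-! Phase 3, block X8a: uniform equivalence of metrics. -/

namespace Vale.Agent.P223.X.EqX

open scoped ContDiff Matrix Topology
open Vale.Agent.P223.H Vale.Agent.P223.H.Equiv

theorem metT1 {n : ℕ} {G : E n → Matrix (Fin n) (Fin n) ℝ}
    (hs : ∀ i j, ContDiff ℝ ∞ fun x => G x i j) (hp : ∀ x, (G x).PosDef) : Met n T1 G where
  smooth := hs
  pos := hp
  inv γ x v w := by
    have : (fun y : E n => γ • y) = id := rfl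
    rw [this, fderiv_id]; rfl

variable {n : ℕ} {M X Γ I : Type} [TopologicalSpace M] [TopologicalSpace X] [Group Γ]
    [MulAction Γ X] {C : Cov n M X Γ I} {G : ℝ → I → E n → Matrix (Fin n) (Fin n) ℝ}

theorem famT1 (hG : FamX C G) (i : I) : Fam n T1 (fun t => G t i) where
  smooth := hG.smooth i
  met t := metT1 ((hG.met t).smooth i) ((hG.met t).pos i)

/-- every point of a chart has coordinates in the unit cube of another chart -/
theorem exists_small (C : Cov n M X Γ I) (i : I) (y : E n) : ∃ (γ : Γ) (j : I), y ∈ C.dom i j γ ∧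
    ‖C.tr i j γ y‖ ≤ 1 := by
  obtain ⟨γ, j, y', h1, h2⟩ := exists_chart C (C.ψ i y)
  refine ⟨γ⁻¹, j, ?_⟩
  have h3 : γ⁻¹ • C.ψ i y = C.ψ j y' := by rw [← h2, inv_smul_smul]
  obtain ⟨h4, h5⟩ := mem_dom C h3
  exact ⟨h4, by rw [h5]; exact h1.le⟩

/-- uniform equivalence on balls -/
theorem ball {G : ℝ → E n → Matrix (Fin n) (Fin n) ℝ} (hG : Fam n T1 G) (T r : ℝ) :
    ∃ L : ℝ, 0 < L ∧ ∀ t s : ℝ, 0 ≤ t → t ≤ T → 0 ≤ s → s ≤ T → ∀ x : E n, ‖x‖ ≤ r →
    H.dens (G t) x ≤ L * H.dens (G s) x ∧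
    (∀ w : E n, ∑ i, ∑ j, G t x i j * w i * w j ≤ L * ∑ i, ∑ j, G s x i j * w i * w j) := by
  have hK : IsCompact (Metric.closedBall (0 : E n) r) := isCompact_closedBall _ _
  have c1 : Continuous fun p : ℝ × E n => ∑ i, ∑ j, |G p.1 p.2 i j| :=
    continuous_finsetSum _ fun i _ => continuous_finsetSum _ fun j _ =>
      (hG.smooth i j).continuous.abs
  have c2 : Continuous fun p : ℝ × E n => ∑ i, ∑ j, |(G p.1 p.2)⁻¹ i j| :=
    continuous_finsetSum _ fun i _ => continuous_finsetSum _ fun j _ =>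
      (contDiff_inv hG i j).continuous.abs
  have c3 : Continuous fun p : ℝ × E n => H.dens (G p.1) p.2 := (contDiff_dens hG).continuous
  have c4 : Continuous fun p : ℝ × E n => (H.dens (G p.1) p.2)⁻¹ :=
    c3.inv₀ fun p => (Common.dens_pos (hG.met p.1) p.2).ne'
  obtain ⟨C1, p1, h1⟩ := exists_bound hK T _ c1
  obtain ⟨C2, p2, h2⟩ := exists_bound hK T _ c2
  obtain ⟨C3, p3, h3⟩ := exists_bound hK T _ c3
  obtain ⟨C4, p4, h4⟩ := exists_bound hK T _ c4
  have b1 : ∀ t, 0 ≤ t → t ≤ T → ∀ x ∈ Metric.closedBall (0 : E n) r,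
      ∑ i, ∑ j, |G t x i j| ≤ C1 := fun t h0 hT x hx => (le_abs_self _).trans (h1 t h0 hT x hx)
  have b2 : ∀ t, 0 ≤ t → t ≤ T → ∀ x ∈ Metric.closedBall (0 : E n) r,
      ∑ i, ∑ j, |(G t x)⁻¹ i j| ≤ C2 := fun t h0 hT x hx =>
    (le_abs_self _).trans (h2 t h0 hT x hx)
  refine ⟨C1 * C2 + C3 * C4, by positivity, fun t s ht ht' hs hs' x hx => ?_⟩
  have hγ : x ∈ Metric.closedBall (0 : E n) r := by simpa using hx
  refine ⟨?_, fun w => ?_⟩
  · have e1 : H.dens (G t) x ≤ C3 := (le_abs_self _).trans (h3 t ht ht' _ hγ)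
    have e2 : (H.dens (G s) x)⁻¹ ≤ C4 := (le_abs_self _).trans (h4 s hs hs' _ hγ)
    have e3 := Common.dens_pos (hG.met s) x
    have e4 : 1 ≤ C4 * H.dens (G s) x := by
      rw [inv_eq_one_div, div_le_iff₀ e3] at e2; exact e2
    nlinarith [mul_pos p1 p2, mul_pos (mul_pos p1 p2) e3, mul_le_mul_of_nonneg_left e4 p3.le]
  · have e1 := (quad_le (G t x) w).trans
      (mul_le_mul_of_nonneg_right (b1 t ht ht' _ hγ) (sq_nonneg _))
    have e2 := norm_le_form ((hG.met s).pos x) (b2 s hs hs' _ hγ) w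
    have e3 := quad_nonneg ((hG.met s).pos x) w
    have e4 := mul_le_mul_of_nonneg_left e2 p1.le
    have e5 := mul_nonneg (mul_pos p3 p4).le e3
    linarith

theorem dens_chart' {G : I → E n → Matrix (Fin n) (Fin n) ℝ} (hG : MetX C G) {i j : I} {γ : Γ}
    {y : E n} (h : y ∈ C.dom i j γ) :
    H.dens (G i) y = (fderiv ℝ (C.tr i j γ) y).det * H.dens (G j) (C.tr i j γ y) :=
  dens_chart hG h

/-- duality -/
theorem dual {A B : Matrix (Fin n) (Fin n) ℝ} (hA : A.PosDef) (hB : B.PosDef) {L : ℝ} (hL : 0 ≤ L)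
    (h : ∀ w : E n, ∑ i, ∑ j, A i j * w i * w j ≤ L * ∑ i, ∑ j, B i j * w i * w j) (ξ : E n) :
    ∑ i, ∑ j, B⁻¹ i j * ξ i * ξ j ≤ L * ∑ i, ∑ j, A⁻¹ i j * ξ i * ξ j := by
  have hu : IsUnit B.det := hB.det_pos.ne'.isUnit
  set w : E n := B⁻¹ *ᵥ ξ with hw
  have e1 : ∑ i, ξ i * w i = ∑ i, ∑ j, B⁻¹ i j * ξ i * ξ j := by
    rw [quad_eq]; rfl
  have e2 : ∑ i, ∑ j, B i j * w i * w j = ∑ i, ∑ j, B⁻¹ i j * ξ i * ξ j := by
    rw [quad_eq, hw, Matrix.mulVec_mulVec, Matrix.mul_nonsing_inv _ hu, Matrix.one_mulVec,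
      dotProduct_comm, ← quad_eq]
  have h0 := quad_nonneg hB.inv ξ
  have h1 := quad_nonneg hA.inv ξ
  have h2 := IBP.cs_pair (G := fun _ => A) (x := (0 : E n)) hA ξ w
  rw [e1] at h2
  have h3 := h w
  rw [e2] at h3
  set b := ∑ i, ∑ j, B⁻¹ i j * ξ i * ξ j
  set a := ∑ i, ∑ j, A⁻¹ i j * ξ i * ξ j
  rcases h0.eq_or_lt with hb | hb
  · rw [← hb]; positivity
  · have h4 : b * b ≤ (L * a) * b := by
      calc b * b = b ^ 2 := (sq b).symm
        _ ≤ a * _ := h2
        _ ≤ a * (L * b) := mul_le_mul_of_nonneg_left h3 h1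
        _ = (L * a) * b := by ring
    exact le_of_mul_le_mul_right h4 hb

theorem main : SpecEqX := by
  intro n M X Γ I _ _ _ _ _ _ C G hG T hT
  choose L hL hb using fun i : I => ball (famT1 hG i) T 1
  refine ⟨1 + ∑ i, L i, by have := Finset.sum_nonneg (fun i (_ : i ∈ Finset.univ) => (hL i).le); positivity, ?_⟩
  have hLi : ∀ i, L i ≤ 1 + ∑ i, L i := fun i => by
    have := Finset.single_le_sum (f := L) (fun i _ => (hL i).le) (Finset.mem_univ i)
    linarith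
  have hL0 : 0 ≤ 1 + ∑ i, L i := by
    have := Finset.sum_nonneg (fun i (_ : i ∈ Finset.univ) => (hL i).le); positivity
  have key : ∀ t s : ℝ, 0 ≤ t → t ≤ T → 0 ≤ s → s ≤ T → ∀ i (y : E n),
      H.dens (G t i) y ≤ (1 + ∑ i, L i) * H.dens (G s i) y ∧
      (∀ w : E n, ∑ a, ∑ b, G t i y a b * w a * w b ≤
        (1 + ∑ i, L i) * ∑ a, ∑ b, G s i y a b * w a * w b) := by
    intro t s ht ht' hs hs' i y
    obtain ⟨γ, j, hy, hy1⟩ := exists_small C i y
    obtain ⟨h1, h2⟩ := hb j t s ht ht' hs hs' (C.tr i j γ y) hy1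
    refine ⟨?_, fun w => ?_⟩
    · rw [dens_chart' (hG.met t) hy, dens_chart' (hG.met s) hy]
      have h3 := det_tr_pos C hy
      have h4 := Common.dens_pos ((famT1 hG j).met s) (C.tr i j γ y)
      calc (fderiv ℝ (C.tr i j γ) y).det * H.dens (G t j) (C.tr i j γ y)
          ≤ (fderiv ℝ (C.tr i j γ) y).det * (L j * H.dens (G s j) (C.tr i j γ y)) :=
            mul_le_mul_of_nonneg_left h1 h3.le
        _ ≤ (fderiv ℝ (C.tr i j γ) y).det * ((1 + ∑ i, L i) * H.dens (G s j) (C.tr i j γ y)) :=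
            mul_le_mul_of_nonneg_left (mul_le_mul_of_nonneg_right (hLi j) h4.le) h3.le
        _ = _ := by ring
    · have e : ∀ t, ∑ a, ∑ b, G t i y a b * w a * w b =
          ∑ a, ∑ b, G t j (C.tr i j γ y) a b * fderiv ℝ (C.tr i j γ) y w a *
            fderiv ℝ (C.tr i j γ) y w b := by
        intro t
        have := (hG.met t).inv i j γ y hy w w
        calc ∑ a, ∑ b, G t i y a b * w a * w b = ∑ a, ∑ b, w a * w b * G t i y a b :=
              Finset.sum_congr rfl fun a _ => Finset.sum_congr rfl fun b _ => by ring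
          _ = _ := this.symm
          _ = _ := Finset.sum_congr rfl fun a _ => Finset.sum_congr rfl fun b _ => by ring
      rw [e t, e s]
      refine (h2 _).trans (mul_le_mul_of_nonneg_right (hLi j) ?_)
      exact quad_nonneg ((hG.met s).pos j _) _
  intro t s ht ht' hs hs' i y
  refine ⟨(key t s ht ht' hs hs' i y).1, ?_, (key t s ht ht' hs hs' i y).2⟩
  exact dual ((hG.met s).pos i y) ((hG.met t).pos i y) hL0 (key s t hs hs' ht ht' i y).2

end Vale.Agent.P223.X.EqX
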