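import Vale.Agent.P223.X.SpecX
import Vale.Agent.P223.H.Ext

/-! Block X22a : reparametrisation of the time of a Ricci flow. -/

namespace Vale.Agent.P223.X.ExtX

open scoped ContDiff
open Vale.Agent.P223.H

theorem main : SpecExtX := by
  intro n M X Γ I _ _ _ _ C G hG t₀ h₀
  refine ⟨fun t => G (Ext.th t₀ t), ⟨?_, fun t => hG.met _ (Ext.th_pos h₀ t).le⟩, fun t ht => ?_⟩
  · intro i a b
    have h1 : ContDiff ℝ ∞ (fun p : ℝ × E n => (Ext.th t₀ p.1, p.2)) :=
      ((Ext.th_contDiff t₀).comp contDiff_fst).prodMk contDiff_snd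
    exact (hG.smooth i a b).comp_contDiff h1
      (fun p => ⟨(Ext.th_pos h₀ p.1).le, Set.mem_univ _⟩)
  · show G (Ext.th t₀ t) = G t
    rw [Ext.th_eq h₀ ht]

end Vale.Agent.P223.X.ExtX
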