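import Vale.Agent.P223.X.Form

/-! Phase 3 : finiteness of the weights. -/

namespace Vale.Agent.P223.X.FinX

open scoped ContDiff
open MeasureTheory Vale.Agent.P223.H

/-- This is `Main.SpecFin`. -/
theorem main : ∀ (n : ℕ) (M X Γ I : Type) [TopologicalSpace M] [TopologicalSpace X]
    [Group Γ] [MulAction Γ X] [Fintype I] [T2Space X] (C : Cov n M X Γ I) (χ : I → E n → ℝ),
    ∀ (ι : Type) [Fintype ι] (P : PUX C ι),
    {l : Fin (n + 1) → Γ × ι | (l 0).1 = 1 ∧ P.wt χ l ≠ 0}.Finite := by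
  intro n M X Γ I _ _ _ _ _ _ C χ ι _ P
  refine ((Form.good_wt (χ := χ) P).fin.image Subtype.val).subset ?_
  rintro l ⟨h1, h2⟩
  exact ⟨⟨l, h1⟩, h2, rfl⟩

end Vale.Agent.P223.X.FinX
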