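import Vale.Agent.P223.X.Basic
import Vale.Agent.P223.H.B3d
import Vale.Agent.P223.H.B25c

/-! Block X9: the discrete heat flow for a moving metric, general closed manifolds. -/

namespace Vale.Agent.P223.X.FlX

open scoped ContDiff
open MeasureTheory Vale.Agent.P223.H

variable {n : ℕ} {M X Γ I : Type} [TopologicalSpace M] [TopologicalSpace X] [Group Γ]
    [MulAction Γ X] {C : Cov n M X Γ I} {N : ℕ}

/-! ### The maps -/

theorem mv_eq (i : I) (ξ ζ : E n → E n) (r : ℝ) (γ : Γ) (y : E n) :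
    C.mv i ξ ζ r (γ • C.ψ i y) = γ • C.ψ i (y + r • ξ y + r ^ 2 • ζ y) := by
  have h : ∃ (γ' : Γ) (y' : E n), γ' • C.ψ i y' = γ • C.ψ i y := ⟨γ, y, rfl⟩
  have e : C.mv i ξ ζ r (γ • C.ψ i y) = h.choose • C.ψ i (h.choose_spec.choose +
      r • ξ h.choose_spec.choose + r ^ 2 • ζ h.choose_spec.choose) := dif_pos h
  have h1 : h.choose • C.ψ i h.choose_spec.choose = γ • C.ψ i y := h.choose_spec.choose_spec
  have h2 : (γ⁻¹ * h.choose) • C.ψ i h.choose_spec.choose = C.ψ i y := by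
    rw [mul_smul, h1, inv_smul_smul]
  have h3 : γ⁻¹ * h.choose = 1 := C.inj i _ _ _ h2
  have h4 : h.choose = γ := (inv_mul_eq_one.1 h3).symm
  have h5 : h.choose_spec.choose = y := by
    rw [h3, one_smul] at h2
    exact (C.emb i).injective h2
  rw [e, h5, h4]

theorem mv_of_not (i : I) (ξ ζ : E n → E n) (r : ℝ) {x : X}
    (h : ¬ ∃ (γ : Γ) (y : E n), γ • C.ψ i y = x) : C.mv i ξ ζ r x = x := dif_neg h

theorem mv_smul (i : I) (ξ ζ : E n → E n) (r : ℝ) (γ : Γ) (x : X) :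
    C.mv i ξ ζ r (γ • x) = γ • C.mv i ξ ζ r x := by
  by_cases h : ∃ (γ : Γ) (y : E n), γ • C.ψ i y = x
  · obtain ⟨γ', y, rfl⟩ := h
    rw [← mul_smul, mv_eq, mv_eq, mul_smul]
  · rw [mv_of_not i ξ ζ r h, mv_of_not i ξ ζ r]
    rintro ⟨γ', y, hy⟩
    exact h ⟨γ⁻¹ * γ', y, by rw [mul_smul, hy, inv_smul_smul]⟩

theorem equi (S : MpX C N) (a : Fin N) (t r : ℝ) (γ : Γ) (x : X) :
    S.φ a t r (γ • x) = γ • S.φ a t r x := mv_smul _ _ _ _ _ _

/-! ### Elementary properties of the averaging operator -/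

theorem P_mono (S : MpX C N) (t ε : ℝ) {f g : X → ℝ} (h : ∀ y, f y ≤ g y) (x : X) :
    S.P t ε f x ≤ S.P t ε g x := by
  unfold MpX.P
  refine mul_le_mul_of_nonneg_left (Finset.sum_le_sum fun a _ => ?_) (by positivity)
  have h1 := h (S.φ a t ε x)
  have h2 := h (S.φ a t (-ε) x)
  linarith

theorem P_smul (S : MpX C N) (t ε c : ℝ) (f : X → ℝ) (x : X) :
    S.P t ε (fun y => c * f y) x = c * S.P t ε f x := by
  unfold MpX.P
  simp only [Finset.mul_sum]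
  refine Finset.sum_congr rfl fun a _ => ?_
  ring

theorem P_const (hN : 0 < N) (S : MpX C N) (t ε c : ℝ) (x : X) :
    S.P t ε (fun _ => c) x = c := by
  unfold MpX.P
  have : (N : ℝ) ≠ 0 := by positivity
  simp only [Finset.sum_const, Finset.card_univ, Fintype.card_fin, nsmul_eq_mul]
  field_simp
  ring

theorem P_sum (hN : 0 < N) (S : MpX C N) (t ε : ℝ) {f : X → ℝ}
    (hf : ∀ x, HasSum (fun γ : Γ => f (γ • x)) 1) (x : X) :
    HasSum (fun γ : Γ => S.P t ε f (γ • x)) 1 := by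
  have h1 : HasSum (fun γ : Γ => (N : ℝ)⁻¹ *
      ∑ a, (f (γ • S.φ a t ε x) + f (γ • S.φ a t (-ε) x)) / 2)
      ((N : ℝ)⁻¹ * ∑ _a : Fin N, ((1 : ℝ) + 1) / 2) := by
    refine HasSum.mul_left _ (hasSum_sum fun a _ => HasSum.div_const ?_ _)
    exact (hf (S.φ a t ε x)).add (hf (S.φ a t (-ε) x))
  have h2 : (N : ℝ)⁻¹ * ∑ _a : Fin N, ((1 : ℝ) + 1) / 2 = 1 := by
    have : (N : ℝ) ≠ 0 := by positivity
    simp only [Finset.sum_const, Finset.card_univ, Fintype.card_fin, nsmul_eq_mul]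
    field_simp
    norm_num
  rw [h2] at h1
  refine h1.congr_fun ?_
  intro γ
  unfold MpX.P
  simp only [equi]

/-- comparison of the weights at `x` and `φ(t, r, x)` -/
theorem harnack_maps {W : X → ℝ} (hpos : ∀ x, 0 < W x)
    (hhar : ∀ R : ℝ, ∃ c : ℝ, ∀ (γ : Γ) i y y', ‖y‖ ≤ R → ‖y'‖ ≤ R →
      W (γ • C.ψ i y) ≤ c * W (γ • C.ψ i y')) (S : MpX C N) (T : ℝ) :
    ∃ H : ℝ, 1 ≤ H ∧ ∀ a (t r : ℝ) x, 0 ≤ t → t ≤ T → |r| ≤ 1 →
      W (S.φ a t r x) ≤ H * W x ∧ W x ≤ H * W (S.φ a t r x) := by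
  have hK : IsCompact {y : E n | ‖y‖ ≤ S.R} := by
    have : {y : E n | ‖y‖ ≤ S.R} = Metric.closedBall 0 S.R := by ext y; simp
    rw [this]
    exact isCompact_closedBall 0 S.R
  have hb : ∀ a : Fin N, ∃ D : ℝ, ∀ t : ℝ, 0 ≤ t → t ≤ T → ∀ r : ℝ, |r| ≤ 1 → ∀ y : E n,
      ‖y‖ ≤ S.R → ‖y + r • S.ξ a t y + r ^ 2 • S.ζ a t y‖ ≤ D := by
    intro a
    have hc : Continuous fun p : ℝ × ℝ × E n =>
        p.2.2 + p.2.1 • S.ξ a p.1 p.2.2 + p.2.1 ^ 2 • S.ζ a p.1 p.2.2 := by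
      have h0 : Continuous fun p : ℝ × ℝ × E n => (p.1, p.2.2) := by fun_prop
      have h1 : Continuous fun p : ℝ × ℝ × E n => S.ξ a p.1 p.2.2 :=
        (S.ξ_smooth a).continuous.comp h0
      have h2 : Continuous fun p : ℝ × ℝ × E n => S.ζ a p.1 p.2.2 :=
        (S.ζ_smooth a).continuous.comp h0
      fun_prop
    have hKK := (isCompact_Icc (a := (0 : ℝ)) (b := T)).prod
      ((isCompact_Icc (a := (-1 : ℝ)) (b := 1)).prod hK)
    obtain ⟨D, hD⟩ := hKK.exists_bound_of_continuousOn hc.continuousOn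
    exact ⟨D, fun t ht0 htT r hr y hy => hD (t, r, y) ⟨⟨ht0, htT⟩, abs_le.1 hr, hy⟩⟩
  choose D hD using hb
  obtain ⟨R', hR'⟩ : ∃ R' : ℝ, R' = max S.R 0 + ∑ a, |D a| := ⟨_, rfl⟩
  have hDR : ∀ a, D a ≤ R' := by
    intro a
    have h1 : |D a| ≤ ∑ a, |D a| :=
      Finset.single_le_sum (f := fun a => |D a|) (fun _ _ => abs_nonneg _) (Finset.mem_univ a)
    have h2 := le_abs_self (D a)
    have h3 := le_max_right S.R 0
    rw [hR']
    linarith
  have hSR : S.R ≤ R' := by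
    have h1 : 0 ≤ ∑ a, |D a| := Finset.sum_nonneg fun _ _ => abs_nonneg _
    have h3 := le_max_left S.R 0
    rw [hR']
    linarith
  obtain ⟨c, hc⟩ := hhar R'
  refine ⟨max c 1, le_max_right _ _, fun a t r x ht0 htT hr => ?_⟩
  have hx := hpos x
  have h1W : W x ≤ max c 1 * W x := by
    have := mul_le_mul_of_nonneg_right (le_max_right c 1) hx.le
    linarith
  by_cases h : ∃ (γ : Γ) (y : E n), γ • C.ψ (S.ch a) y = x
  · obtain ⟨γ, y, rfl⟩ := h
    have e : S.φ a t r (γ • C.ψ (S.ch a) y) =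
        γ • C.ψ (S.ch a) (y + r • S.ξ a t y + r ^ 2 • S.ζ a t y) := mv_eq _ _ _ _ _ _
    rcases le_or_gt S.R ‖y‖ with hy | hy
    · obtain ⟨e1, e2⟩ := S.supp a t y hy
      rw [e, e1, e2, smul_zero, smul_zero, add_zero, add_zero]
      exact ⟨h1W, h1W⟩
    · rw [e]
      have h2 := (hD a t ht0 htT r hr y hy.le).trans (hDR a)
      have h3 := hy.le.trans hSR
      have g1 := hc γ (S.ch a) _ _ h2 h3
      have g2 := hc γ (S.ch a) _ _ h3 h2
      exact ⟨g1.trans (mul_le_mul_of_nonneg_right (le_max_left _ _) (hpos _).le),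
        g2.trans (mul_le_mul_of_nonneg_right (le_max_left _ _) (hpos _).le)⟩
  · have e : S.φ a t r x = x := mv_of_not _ _ _ _ h
    rw [e]
    exact ⟨h1W, h1W⟩

section
variable {J : Type} [Fintype J] {F : FrX C J} {S : MpX C N}
  {G : ℝ → I → E n → Matrix (Fin n) (Fin n) ℝ}

/-- one step applied to a positive function with controlled jets -/
theorem one_step (CC CB T : ℝ) (hCC : 0 < CC) (hCB : 0 < CB)
    (hcons : ∀ t : ℝ, 0 ≤ t → t ≤ T → ∀ ε : ℝ, 0 < ε → ε ≤ 1 → ∀ f : X → ℝ, C.Ck 4 f →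
      ∀ (x : X) (B : ℝ), 0 ≤ B → (∀ a (r : ℝ), |r| ≤ ε → jetX F f (S.φ a t r x) ≤ B ^ 2) →
      |S.P t ε f x - f x - ε ^ 2 * (N : ℝ)⁻¹ * lapX C (G t) f x| ≤ CC * ε ^ 3 * B)
    (hlap : ∀ t : ℝ, 0 ≤ t → t ≤ T → ∀ f : X → ℝ, C.Ck 4 f → ∀ x,
      lapX C (G t) f x ^ 2 ≤ CB * jetX F f x)
    (u : X → ℝ) (hu : C.Ck 4 u) (hu0 : ∀ x, 0 < u x) (a b : ℝ) (ha : 0 < a) (hb : 0 < b)
    (hj : ∀ x, jetX F u x ≤ (a * u x) ^ 2)
    (hm : ∀ i (t r : ℝ) x, 0 ≤ t → t ≤ T → |r| ≤ 1 → u (S.φ i t r x) ≤ b * u x) :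
    ∃ K : ℝ, 0 < K ∧ ∀ t : ℝ, 0 ≤ t → t ≤ T → ∀ ε : ℝ, 0 < ε → ε ≤ 1 → ∀ x,
      |S.P t ε u x - u x| ≤ K * ε ^ 2 * u x := by
  refine ⟨(N : ℝ)⁻¹ * ((CB + 1) * a) + CC * (a * b), by positivity,
    fun t ht0 htT ε hε hε1 x => ?_⟩
  have hx := hu0 x
  have hε3 : ε ^ 3 ≤ ε ^ 2 := pow_le_pow_of_le_one hε.le hε1 (by norm_num)
  have hl : |lapX C (G t) u x| ≤ (CB + 1) * a * u x := by
    refine abs_le_of_sq_le_sq ((hlap t ht0 htT u hu x).trans ?_) (by positivity)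
    calc CB * jetX F u x ≤ CB * (a * u x) ^ 2 := mul_le_mul_of_nonneg_left (hj x) hCB.le
      _ ≤ (CB + 1) ^ 2 * (a * u x) ^ 2 := by
          refine mul_le_mul_of_nonneg_right ?_ (sq_nonneg _)
          nlinarith
      _ = _ := by ring
  have hc := hcons t ht0 htT ε hε hε1 u hu x (a * b * u x) (by positivity) fun i r hr => ?_
  · have e1 : CC * ε ^ 3 * (a * b * u x) ≤ CC * (a * b) * ε ^ 2 * u x := by
      have : 0 ≤ CC * (a * b) * u x := by positivity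
      nlinarith
    have e2 : |ε ^ 2 * (N : ℝ)⁻¹ * lapX C (G t) u x| ≤
        (N : ℝ)⁻¹ * ((CB + 1) * a) * ε ^ 2 * u x := by
      rw [abs_mul, abs_of_nonneg (by positivity : 0 ≤ ε ^ 2 * (N : ℝ)⁻¹)]
      calc ε ^ 2 * (N : ℝ)⁻¹ * |lapX C (G t) u x| ≤ ε ^ 2 * (N : ℝ)⁻¹ * ((CB + 1) * a * u x) :=
            mul_le_mul_of_nonneg_left hl (by positivity)
        _ = _ := by ring
    calc |S.P t ε u x - u x| = |(S.P t ε u x - u x - ε ^ 2 * (N : ℝ)⁻¹ * lapX C (G t) u x) +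
          ε ^ 2 * (N : ℝ)⁻¹ * lapX C (G t) u x| := by congr 1; ring
      _ ≤ _ := abs_add_le _ _
      _ ≤ CC * (a * b) * ε ^ 2 * u x + (N : ℝ)⁻¹ * ((CB + 1) * a) * ε ^ 2 * u x :=
          add_le_add (hc.trans e1) e2
      _ = _ := by ring
  · refine (hj _).trans ?_
    have h1 := hm i t r x ht0 htT (hr.trans hε1)
    have h2 := (hu0 (S.φ i t r x)).le
    refine pow_le_pow_left₀ (by positivity) ?_ 2
    calc a * u (S.φ i t r x) ≤ a * (b * u x) := mul_le_mul_of_nonneg_left h1 ha.le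
      _ = _ := by ring

/-- lower bound for one step, uniform in `ε` -/
theorem lower_step (hN : 0 < N) {W : X → ℝ} (hW : ∀ x, 0 < W x) {H K T : ℝ} (hH : 1 ≤ H)
    (hHar : ∀ a (t r : ℝ) x, 0 ≤ t → t ≤ T → |r| ≤ 1 → W x ≤ H * W (S.φ a t r x)) (hK : 0 < K)
    (hPW : ∀ t : ℝ, 0 ≤ t → t ≤ T → ∀ ε : ℝ, 0 < ε → ε ≤ 1 → ∀ x,
      |S.P t ε W x - W x| ≤ K * ε ^ 2 * W x) :
    ∃ L : ℝ, 0 < L ∧ ∀ t : ℝ, 0 ≤ t → t ≤ T → ∀ ε : ℝ, 0 < ε → ε ≤ 1 → ∀ x,
      Real.exp (-(L * ε ^ 2)) * W x ≤ S.P t ε W x := by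
  have hH0 : 0 < H := by linarith
  have hlogH : 0 ≤ Real.log H := Real.log_nonneg hH
  refine ⟨2 * K * (1 + Real.log H), by positivity, fun t ht0 htT ε hε hε1 x => ?_⟩
  have hx := hW x
  rcases le_or_gt (K * ε ^ 2) (1 / 2) with hs | hs
  · have h1 : (1 - K * ε ^ 2) * W x ≤ S.P t ε W x := by
      have := (abs_le.1 (hPW t ht0 htT ε hε hε1 x)).1
      linarith
    refine le_trans ?_ h1
    refine mul_le_mul_of_nonneg_right ?_ hx.le
    refine le_trans (Real.exp_le_exp.2 ?_) (B3d.one_sub_ge (by positivity) hs)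
    have : 0 ≤ K * Real.log H * ε ^ 2 := by positivity
    nlinarith
  · have h1 : H⁻¹ * W x ≤ S.P t ε W x := by
      have h2 : ∀ a : Fin N, ∀ r : ℝ, |r| ≤ 1 → H⁻¹ * W x ≤ W (S.φ a t r x) := by
        intro a r hr
        rw [inv_mul_le_iff₀ hH0]
        exact hHar a t r x ht0 htT hr
      have hε' : |ε| ≤ 1 := by rw [abs_of_pos hε]; exact hε1
      have hε'' : |-ε| ≤ 1 := by rw [abs_neg]; exact hε'
      calc H⁻¹ * W x = S.P t ε (fun _ => H⁻¹ * W x) x := (P_const hN S t ε _ x).symm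
        _ ≤ S.P t ε W x := by
            unfold MpX.P
            refine mul_le_mul_of_nonneg_left (Finset.sum_le_sum fun a _ => ?_) (by positivity)
            have h3 := h2 a ε hε'
            have h4 := h2 a (-ε) hε''
            linarith
    refine le_trans ?_ h1
    refine mul_le_mul_of_nonneg_right ?_ hx.le
    have e : H⁻¹ = Real.exp (-Real.log H) := by rw [Real.exp_neg, Real.exp_log hH0]
    rw [e]
    refine Real.exp_le_exp.2 ?_
    have h5 : 0 ≤ (2 * (K * ε ^ 2) - 1) * Real.log H := mul_nonneg (by linarith) hlogH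
    have h6 : 0 < K * ε ^ 2 := by positivity
    nlinarith

/-- the discrete flow -/
noncomputable def flow (S : MpX C N) (c ε : ℝ) (W : X → ℝ) : ℕ → X → ℝ
  | 0 => W
  | k + 1 => S.P (k * (c * ε ^ 2)) ε (flow S c ε W k)

theorem flow_succ (c ε : ℝ) (W : X → ℝ) (k : ℕ) :
    flow S c ε W (k + 1) = S.P (k * (c * ε ^ 2)) ε (flow S c ε W k) := rfl

theorem time_le {c ε T : ℝ} (hc : 0 < c) (hε : 0 < ε) {k : ℕ}
    (h : ((k + 1 : ℕ) : ℝ) * (c * ε ^ 2) ≤ T) : (k : ℝ) * (c * ε ^ 2) ≤ T := by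
  refine le_trans (mul_le_mul_of_nonneg_right ?_ (by positivity)) h
  push_cast
  linarith

theorem flow_Ck {W : X → ℝ} {c ε T : ℝ} (hc : 0 < c) (hε : 0 < ε) (hW : C.Ck 4 W)
    (h : ∀ t : ℝ, 0 ≤ t → t ≤ T → ∀ f : X → ℝ, C.Ck 4 f → C.Ck 4 (S.P t ε f)) (k : ℕ) :
    (k : ℝ) * (c * ε ^ 2) ≤ T → C.Ck 4 (flow S c ε W k) := by
  induction k with
  | zero => intro _; exact hW
  | succ k ih =>
    intro hk
    have hk' := time_le hc hε hk
    rw [flow_succ]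
    exact h _ (by positivity) hk' _ (ih hk')

theorem flow_sum (hN : 0 < N) (c ε : ℝ) {W : X → ℝ}
    (hW : ∀ x, HasSum (fun γ : Γ => W (γ • x)) 1) (k : ℕ) :
    ∀ x, HasSum (fun γ : Γ => flow S c ε W k (γ • x)) 1 := by
  induction k with
  | zero => exact hW
  | succ k ih => rw [flow_succ]; exact P_sum hN S _ ε ih

theorem flow_lower {W : X → ℝ} {L c ε T : ℝ} (hc : 0 < c) (hε : 0 < ε)
    (h : ∀ t : ℝ, 0 ≤ t → t ≤ T → ∀ x, Real.exp (-(L * ε ^ 2)) * W x ≤ S.P t ε W x) (k : ℕ) :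
    (k : ℝ) * (c * ε ^ 2) ≤ T → ∀ x,
      Real.exp (-(L * (k * ε ^ 2))) * W x ≤ flow S c ε W k x := by
  induction k with
  | zero =>
    intro _ x
    show Real.exp (-(L * (((0 : ℕ) : ℝ) * ε ^ 2))) * W x ≤ W x
    simp
  | succ k ih =>
    intro hk x
    have hk' := time_le hc hε hk
    rw [flow_succ]
    calc Real.exp (-(L * (((k + 1 : ℕ) : ℝ) * ε ^ 2))) * W x
        = Real.exp (-(L * (k * ε ^ 2))) * (Real.exp (-(L * ε ^ 2)) * W x) := by
          have e : -(L * (((k + 1 : ℕ) : ℝ) * ε ^ 2)) = -(L * (k * ε ^ 2)) + -(L * ε ^ 2) := by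
            push_cast
            ring
          rw [e, Real.exp_add, mul_assoc]
      _ ≤ Real.exp (-(L * (k * ε ^ 2))) * S.P (k * (c * ε ^ 2)) ε W x :=
          mul_le_mul_of_nonneg_left (h _ (by positivity) hk' x) (Real.exp_pos _).le
      _ = S.P (k * (c * ε ^ 2)) ε (fun y => Real.exp (-(L * (k * ε ^ 2))) * W y) x :=
          (P_smul _ _ _ _ _ _).symm
      _ ≤ _ := P_mono S _ ε (ih hk') x

theorem flow_jet (hN : 0 < N) {W U : X → ℝ} (hU : ∀ x, 0 < U x) {c ε CQ K D T : ℝ}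
    (hc : 0 < c) (hε : 0 < ε) (hCQ : 0 < CQ) (hD : 0 < D) (hWs : C.Ck 4 W)
    (hPC : ∀ t : ℝ, 0 ≤ t → t ≤ T → ∀ f : X → ℝ, C.Ck 4 f → C.Ck 4 (S.P t ε f))
    (hQC : ∀ t : ℝ, 0 ≤ t → t ≤ T → ∀ f : X → ℝ, C.Ck 4 f → ∀ x,
      jetX F (S.P t ε f) x ≤ (1 + CQ * ε ^ 2) * S.P t ε (jetX F f) x)
    (hPU : ∀ t : ℝ, 0 ≤ t → t ≤ T → ∀ x, |S.P t ε U x - U x| ≤ K * ε ^ 2 * U x)
    (hW : ∀ x, jetX F W x ≤ D * U x) (k : ℕ) : (k : ℝ) * (c * ε ^ 2) ≤ T →
    ∀ x, jetX F (flow S c ε W k) x ≤ (Real.exp ((CQ + K) * (k * ε ^ 2)) * D) * U x := by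
  induction k with
  | zero =>
    intro _ x
    show jetX F W x ≤ (Real.exp ((CQ + K) * (((0 : ℕ) : ℝ) * ε ^ 2)) * D) * U x
    simpa using hW x
  | succ k ih =>
    intro hk x
    have hk' := time_le hc hε hk
    have hCk := flow_Ck hc hε hWs hPC k hk'
    have ih' := ih hk'
    have ht0 : 0 ≤ (k : ℝ) * (c * ε ^ 2) := by positivity
    rw [flow_succ]
    obtain ⟨t, ht⟩ : ∃ t : ℝ, t = (k : ℝ) * (c * ε ^ 2) := ⟨_, rfl⟩
    rw [← ht] at hk' ht0 ⊢
    have hx := hU x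
    have b1 : 1 + CQ * ε ^ 2 ≤ Real.exp (CQ * ε ^ 2) := by
      linarith [Real.add_one_le_exp (CQ * ε ^ 2)]
    have b2 : S.P t ε U x ≤ Real.exp (K * ε ^ 2) * U x := by
      have h1 := (abs_le.1 (hPU t ht0 hk' x)).2
      have h2 : 1 + K * ε ^ 2 ≤ Real.exp (K * ε ^ 2) := by
        linarith [Real.add_one_le_exp (K * ε ^ 2)]
      calc S.P t ε U x ≤ (1 + K * ε ^ 2) * U x := by linarith
        _ ≤ _ := mul_le_mul_of_nonneg_right h2 hx.le
    have b3 : 0 ≤ S.P t ε U x := by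
      have := P_mono S t ε (f := fun _ => 0) (fun y => (hU y).le) x
      rwa [P_const hN] at this
    calc jetX F (S.P t ε (flow S c ε W k)) x
        ≤ (1 + CQ * ε ^ 2) * S.P t ε (jetX F (flow S c ε W k)) x :=
          hQC t ht0 hk' (flow S c ε W k) hCk x
      _ ≤ (1 + CQ * ε ^ 2) * S.P t ε (fun y =>
            (Real.exp ((CQ + K) * (k * ε ^ 2)) * D) * U y) x :=
          mul_le_mul_of_nonneg_left (P_mono S t ε ih' x) (by positivity)
      _ = (1 + CQ * ε ^ 2) * ((Real.exp ((CQ + K) * (k * ε ^ 2)) * D) * S.P t ε U x) := by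
          rw [P_smul]
      _ ≤ Real.exp (CQ * ε ^ 2) * ((Real.exp ((CQ + K) * (k * ε ^ 2)) * D) *
            (Real.exp (K * ε ^ 2) * U x)) :=
          mul_le_mul b1 (mul_le_mul_of_nonneg_left b2 (by positivity)) (by positivity)
            (Real.exp_pos _).le
      _ = (Real.exp (CQ * ε ^ 2) * Real.exp ((CQ + K) * (k * ε ^ 2)) *
            Real.exp (K * ε ^ 2)) * D * U x := by ring
      _ = _ := by
          rw [← Real.exp_add, ← Real.exp_add]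
          congr 3
          push_cast
          ring

/-- the bounds for a single time slice -/
theorem mk_step {G : I → E n → Matrix (Fin n) (Fin n) ℝ} {W v : X → ℝ} {CB s A q : ℝ}
    (hW : ∀ x, 0 < W x) (hCB : 0 < CB) (hS : 1 ≤ s)
    (hbdd : ∀ x, v x ^ 2 ≤ jetX F v x ∧ gsX C G v x ≤ CB * jetX F v x ∧
      gsX C G (gsX C G v) x ≤ CB * jetX F v x ^ 2 ∧
      lapX C G v x ^ 2 ≤ CB * jetX F v x ∧ gsX C G (lapX C G v) x ≤ CB * jetX F v x)
    (hv : C.Ck 4 v) (hsum : ∀ x, HasSum (fun γ : Γ => v (γ • x)) 1)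
    (hq : 0 < q) (hlow : ∀ x, W x ≤ q * v x) (hjet : ∀ x, jetX F v x ≤ (s * W x) ^ 2)
    (hA1 : q ≤ A) (hA2 : (CB + 1) * s ^ 2 ≤ A) : StX C G W A v := by
  have hS0 : 0 < s := by linarith
  have hSS : s ≤ s ^ 2 := by nlinarith
  have hA4 : (CB + 1) * s ≤ A := (mul_le_mul_of_nonneg_left hSS (by positivity)).trans hA2
  have hA5 : s ≤ A := by
    refine le_trans ?_ hA4
    nlinarith
  have hCB2 : CB ≤ (CB + 1) ^ 2 := by nlinarith
  have hsq : ∀ (a s t : ℝ), 0 ≤ s → s ≤ t → 0 ≤ a → (s * a) ^ 2 ≤ (t * a) ^ 2 := by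
    intro a s t hs hst ha
    exact pow_le_pow_left₀ (by positivity) (mul_le_mul_of_nonneg_right hst ha) 2
  have hj0 : ∀ x, 0 ≤ jetX F v x := fun x => (sq_nonneg _).trans (hbdd x).1
  have key : ∀ x, CB * jetX F v x ≤ (A * W x) ^ 2 := by
    intro x
    calc CB * jetX F v x ≤ (CB + 1) ^ 2 * (s * W x) ^ 2 :=
          mul_le_mul hCB2 (hjet x) (hj0 x) (by positivity)
      _ = ((CB + 1) * s * W x) ^ 2 := by ring
      _ ≤ (A * W x) ^ 2 := hsq _ _ _ (by positivity) hA4 (hW x).le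
  refine ⟨hv, fun x => ?_, fun x => ?_, fun x => ?_, fun x => ?_, fun x => ?_, fun x => ?_, hsum⟩
  · have h1 := hlow x
    have hvp : 0 < v x := by
      by_contra hc
      have := hW x
      nlinarith
    exact h1.trans (mul_le_mul_of_nonneg_right hA1 hvp.le)
  · have hx := hW x
    have h2 := abs_le_of_sq_le_sq ((hbdd x).1.trans (hjet x)) (by positivity)
    exact (le_abs_self _).trans (h2.trans (mul_le_mul_of_nonneg_right hA5 hx.le))
  · exact (hbdd x).2.1.trans (key x)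
  · have hx := hW x
    calc gsX C G (gsX C G v) x ≤ CB * jetX F v x ^ 2 := (hbdd x).2.2.1
      _ ≤ (CB + 1) ^ 2 * ((s * W x) ^ 2) ^ 2 :=
          mul_le_mul hCB2 (pow_le_pow_left₀ (hj0 x) (hjet x) 2) (by positivity) (by positivity)
      _ = ((CB + 1) * s ^ 2 * W x ^ 2) ^ 2 := by ring
      _ ≤ (A * W x ^ 2) ^ 2 := hsq _ _ _ (by positivity) hA2 (by positivity)
  · have hx := hW x
    have hA0 : 0 < A := lt_of_lt_of_le hS0 hA5
    exact abs_le_of_sq_le_sq ((hbdd x).2.2.2.1.trans (key x)) (by positivity)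
  · exact (hbdd x).2.2.2.2.trans (key x)

end

/-- `M` has finite volume. -/
theorem vol_lt_top [Fintype I] [MeasurableSpace M] {G : I → E n → Matrix (Fin n) (Fin n) ℝ}
    (hd : ∀ i, Continuous (dens (G i))) {ν : Measure M} (hν : VolM C G ν) : ν Set.univ < ⊤ := by
  have hcov : (Set.univ : Set M) ⊆ ⋃ i : I, (fun y => C.π (C.ψ i y)) ''
      Metric.closedBall (0 : E n) 1 := by
    intro m _
    obtain ⟨x, rfl⟩ := C.surj m
    obtain ⟨γ, i, y, hy, rfl⟩ := C.cover x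
    refine Set.mem_iUnion.2 ⟨i, y, ?_, ?_⟩
    · rw [mem_closedBall_zero_iff, pi_norm_le_iff_of_nonneg zero_le_one]
      exact fun k => (hy k).le
    · exact ((C.orb _ _).2 ⟨γ, rfl⟩)
  have hfin : ∀ i, ν ((fun y => C.π (C.ψ i y)) '' Metric.closedBall (0 : E n) 1) < ⊤ := by
    intro i
    rw [hν i _ Metric.isClosed_closedBall.measurableSet]
    have h1 : IntegrableOn (dens (G i)) (Metric.closedBall (0 : E n) 1) :=
      (hd i).continuousOn.integrableOn_compact (isCompact_closedBall 0 1)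
    exact h1.lintegral_lt_top
  refine (measure_mono hcov).trans_lt ((measure_iUnion_fintype_le _ _).trans_lt ?_)
  exact ENNReal.sum_lt_top.2 fun i _ => hfin i

theorem main (h1 : SpecFrX) (h2 : SpecWtX) (h3 : SpecMpX) (h3' : SpecUniX) (h4 : SpecEqX)
    (h5 : SpecVol) : SpecFlX := by
  intro n M X Γ I _ _ _ _ _ _ _ _ _ _ C G hG
  let _ : MeasurableSpace M := borel M
  have _ : BorelSpace M := ⟨rfl⟩
  obtain ⟨J, hJ, ⟨F⟩⟩ := h1 n M X Γ I C
  obtain ⟨hcount, ⟨μ₀, hμ₀⟩, -, -, -⟩ := h5 n M X Γ I C (G 0) (hG.met 0)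
  obtain ⟨W, U, C', hW, hUs, hU, hjW', hjU', hUW', hWU'⟩ :=
    h2 n M X Γ I C (G 0) J F μ₀ (hG.met 0) hμ₀
  have hWcont : Continuous W :=
    Ck_continuous C fun γ i => (hW.smooth γ i).of_le (by norm_cast)
  refine ⟨W, fun t μ ht hμ => ?_, fun T hT => ?_⟩
  · refine ⟨hW.smooth, hW.pos, hW.sum, ?_, ?_, hW.harnack⟩
    · obtain ⟨-, -, ⟨ν, hν⟩, hunf, -⟩ := h5 n M X Γ I C (G t) (hG.met t)
      have h6 := (hunf μ hμ).2 ν hν (fun x => ENNReal.ofReal (W x)) (fun _ => 1)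
        (by fun_prop) (fun x => ?_)
      · refine ⟨hWcont.aestronglyMeasurable, ?_⟩
        show ∫⁻ x, ‖W x‖ₑ ∂μ < ⊤
        have h7 : ∀ x, ‖W x‖ₑ = ENNReal.ofReal (W x) := fun x =>
          Real.enorm_of_nonneg (hW.pos x).le
        simp only [h7]
        rw [h6, lintegral_one]
        refine vol_lt_top (C := C) (G := G t) (fun i => ?_) hν
        exact (B25c.cd_dens (G := fun t => G t i) (hG.smooth i)
          (fun s y => (hG.met s).pos i y)).continuous.comp (Continuous.prodMk_right t)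
      · rw [← ENNReal.ofReal_tsum_of_nonneg (fun γ => (hW.pos _).le) (hW.sum x).summable,
          (hW.sum x).tsum_eq, ENNReal.ofReal_one]
    · obtain ⟨L, hL, hLe⟩ := h4 n M X Γ I C G hG (t + 1) (by linarith)
      obtain ⟨c, hc⟩ := hW.grad
      refine ⟨√L * c, fun x => ?_⟩
      have hg := (hLe t 0 ht (by linarith) le_rfl (by linarith) (C.pi x) (C.py x)).2.1
        (fun i => pd i (C.rep W (C.pg x) (C.pi x)) (C.py x))
      calc gsX C (G t) W x ≤ L * gsX C (G 0) W x := hg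
        _ ≤ L * (c * W x) ^ 2 := mul_le_mul_of_nonneg_left (hc x) hL.le
        _ = (√L) ^ 2 * (c * W x) ^ 2 := by rw [Real.sq_sqrt hL.le]
        _ = _ := by ring
  obtain ⟨N, S, hN, hgen⟩ := h3 n M X Γ I C G hG
  obtain ⟨CU, hCU, huni⟩ := h3' n M X Γ I C G J F N S T hG hN hgen
  obtain ⟨H, hH, hHar⟩ := harnack_maps hW.pos hW.harnack S T
  have hc₀ : (0 : ℝ) < (N : ℝ)⁻¹ := by positivity
  obtain ⟨c, hC1, hjW, hjU, hUW, hWU⟩ : ∃ c : ℝ, 1 ≤ c ∧ (∀ x, jetX F W x ≤ c * W x ^ 2) ∧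
      (∀ x, jetX F U x ≤ c * U x ^ 2) ∧ (∀ x, U x ≤ c * W x ^ 2) ∧
      (∀ x, W x ^ 2 ≤ c * U x) := by
    refine ⟨max C' 1, le_max_right _ _, fun x => ?_, fun x => ?_, fun x => ?_, fun x => ?_⟩
    · exact (hjW' x).trans (mul_le_mul_of_nonneg_right (le_max_left _ _) (sq_nonneg _))
    · exact (hjU' x).trans (mul_le_mul_of_nonneg_right (le_max_left _ _) (sq_nonneg _))
    · exact (hUW' x).trans (mul_le_mul_of_nonneg_right (le_max_left _ _) (sq_nonneg _))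
    · exact (hWU' x).trans (mul_le_mul_of_nonneg_right (le_max_left _ _) (hU x).le)
  have hC0 : 0 < c := by linarith
  have hH0 : 0 < H := by linarith
  have hCC2 : c ≤ c ^ 2 := by nlinarith
  have hWs : C.Ck 4 W := fun γ i => (hW.smooth γ i).of_le (by norm_cast)
  have hUs4 : C.Ck 4 U := fun γ i => (hUs γ i).of_le (by norm_cast)
  have hPC := fun t ht0 htT f hf ε hε hε1 => ((huni t ht0 htT f hf).1 ε hε hε1).1
  have hQC := fun t ht0 htT f hf ε hε hε1 => ((huni t ht0 htT f hf).1 ε hε hε1).2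
  have hcons := fun t ht0 htT f hf => (huni t ht0 htT f hf).2.1
  have hbdd := fun t ht0 htT f hf => (huni t ht0 htT f hf).2.2
  have hcons1 := fun t ht0 htT ε hε hε1 f hf x B hB hj =>
    (hcons t ht0 htT f hf ε hε hε1 x B hB hj).1
  have hlap := fun t ht0 htT f hf x => (hbdd t ht0 htT f hf x).2.2.2.1
  obtain ⟨K1, hK1, hPW⟩ := one_step (G := G) CU CU T hCU hCU hcons1 hlap W hWs hW.pos c H hC0 hH0
    (fun x => by
      calc jetX F W x ≤ c * W x ^ 2 := hjW x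
        _ ≤ c ^ 2 * W x ^ 2 := mul_le_mul_of_nonneg_right hCC2 (sq_nonneg _)
        _ = _ := by ring)
    (fun i t r x ht0 htT hr => (hHar i t r x ht0 htT hr).1)
  obtain ⟨K2, hK2, hPU⟩ := one_step (G := G) CU CU T hCU hCU hcons1 hlap U hUs4 hU c
    (c ^ 2 * H ^ 2) hC0 (by positivity)
    (fun x => by
      calc jetX F U x ≤ c * U x ^ 2 := hjU x
        _ ≤ c ^ 2 * U x ^ 2 := mul_le_mul_of_nonneg_right hCC2 (sq_nonneg _)
        _ = _ := by ring)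
    (fun i t r x ht0 htT hr => by
      have h2 := (hW.pos (S.φ i t r x)).le
      calc U (S.φ i t r x) ≤ c * W (S.φ i t r x) ^ 2 := hUW _
        _ ≤ c * (H * W x) ^ 2 :=
            mul_le_mul_of_nonneg_left (pow_le_pow_left₀ h2 (hHar i t r x ht0 htT hr).1 2) hC0.le
        _ = c * H ^ 2 * W x ^ 2 := by ring
        _ ≤ c * H ^ 2 * (c * U x) := mul_le_mul_of_nonneg_left (hWU x) (by positivity)
        _ = _ := by ring)
  obtain ⟨L, hL, hPW'⟩ := lower_step hN hW.pos hH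
    (fun a t r x ht0 htT hr => (hHar a t r x ht0 htT hr).2) hK1 hPW
  -- `k ε² ≤ N T`
  have hkN : ∀ (ε : ℝ) (k : ℕ), (k : ℝ) * ((N : ℝ)⁻¹ * ε ^ 2) ≤ T →
      (k : ℝ) * ε ^ 2 ≤ N * T := by
    intro ε k hk
    have hN0 : (0 : ℝ) < N := by positivity
    calc (k : ℝ) * ε ^ 2 = N * ((k : ℝ) * ((N : ℝ)⁻¹ * ε ^ 2)) := by field_simp
      _ ≤ _ := mul_le_mul_of_nonneg_left hk hN0.le
  obtain ⟨T', hT'⟩ : ∃ T' : ℝ, T' = N * T := ⟨_, rfl⟩
  have hT'0 : 0 < T' := by rw [hT']; positivity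
  rw [← hT'] at hkN
  obtain ⟨s, hS⟩ : ∃ s : ℝ, s = Real.exp ((CU + K2) * T') * c ^ 2 := ⟨_, rfl⟩
  have hexp1 : 1 ≤ Real.exp ((CU + K2) * T') := Real.one_le_exp (by positivity)
  have hS1 : 1 ≤ s := by
    rw [hS]
    exact one_le_mul_of_one_le_of_one_le hexp1 (one_le_pow₀ hC1)
  have hS0 : 0 < s := by linarith
  obtain ⟨A, hA1, hA2, hA3⟩ : ∃ A : ℝ, Real.exp (L * T') ≤ A ∧ (CU + 1) * s ^ 2 ≤ A ∧
      CU * (s * H) ≤ A := by
    refine ⟨Real.exp (L * T') + (CU + 1) * s ^ 2 + CU * (s * H), ?_, ?_, ?_⟩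
    · have : 0 ≤ (CU + 1) * s ^ 2 + CU * (s * H) := by positivity
      linarith
    · have : 0 ≤ Real.exp (L * T') + CU * (s * H) := by positivity
      linarith
    · have : 0 ≤ Real.exp (L * T') + (CU + 1) * s ^ 2 := by positivity
      linarith
  have hA0 : 0 < A := lt_of_lt_of_le (Real.exp_pos _) hA1
  have hjet' : ∀ ε : ℝ, 0 < ε → ε ≤ 1 → ∀ k : ℕ, k * ((N : ℝ)⁻¹ * ε ^ 2) ≤ T → ∀ x,
      jetX F (flow S (N : ℝ)⁻¹ ε W k) x ≤ (s * W x) ^ 2 := by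
    intro ε hε hε1 k hk x
    have hx := hW.pos x
    have h1 := flow_jet (D := c ^ 2) (T := T) (CQ := CU) (K := K2) hN hU hc₀ hε hCU
      (by positivity) hWs
      (fun t ht0 htT f hf => hPC t ht0 htT f hf ε hε hε1)
      (fun t ht0 htT f hf => hQC t ht0 htT f hf ε hε hε1)
      (fun t ht0 htT => hPU t ht0 htT ε hε hε1) (fun x => by
        calc jetX F W x ≤ c * W x ^ 2 := hjW x
          _ ≤ c * (c * U x) := mul_le_mul_of_nonneg_left (hWU x) hC0.le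
          _ = _ := by ring) k hk x
    have h3 : Real.exp ((CU + K2) * (k * ε ^ 2)) ≤ Real.exp ((CU + K2) * T') :=
      Real.exp_le_exp.2 (mul_le_mul_of_nonneg_left (hkN ε k hk) (by positivity))
    calc jetX F (flow S (N : ℝ)⁻¹ ε W k) x
        ≤ (Real.exp ((CU + K2) * (k * ε ^ 2)) * c ^ 2) * U x := h1
      _ ≤ (Real.exp ((CU + K2) * T') * c ^ 2) * (c * W x ^ 2) :=
          mul_le_mul (mul_le_mul_of_nonneg_right h3 (by positivity)) (hUW x) (hU x).le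
            (by positivity)
      _ = Real.exp ((CU + K2) * T') * (c ^ 3 * W x ^ 2) := by ring
      _ ≤ Real.exp ((CU + K2) * T') ^ 2 * (c ^ 4 * W x ^ 2) := by
          refine mul_le_mul ?_ (mul_le_mul_of_nonneg_right ?_ (sq_nonneg _)) (by positivity)
            (by positivity)
          · nlinarith
          · exact pow_le_pow_right₀ hC1 (by norm_num)
      _ = _ := by rw [hS]; ring
  refine ⟨(N : ℝ)⁻¹, A, hc₀, hA0, fun ε hε hε1 => ⟨flow S (N : ℝ)⁻¹ ε W, rfl,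
    fun k hk => ?_, fun k hk x => ?_⟩⟩
  · have ht0 : 0 ≤ (k : ℝ) * ((N : ℝ)⁻¹ * ε ^ 2) := by positivity
    have hlow := flow_lower hc₀ hε (fun t ht0 htT => hPW' t ht0 htT ε hε hε1) k hk
    have hCk := flow_Ck hc₀ hε hWs (fun t ht0 htT f hf => hPC t ht0 htT f hf ε hε hε1) k hk
    refine mk_step (F := F) (CB := CU) (s := s) (q := Real.exp (L * T')) hW.pos hCU hS1
      (hbdd _ ht0 hk (flow S (N : ℝ)⁻¹ ε W k) hCk) hCk
      (flow_sum hN _ ε hW.sum k) (Real.exp_pos _) (fun x => ?_) (hjet' ε hε hε1 k hk) hA1 hA2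
    have hx := hW.pos x
    have h1 := hlow x
    have hvp : 0 < flow S (N : ℝ)⁻¹ ε W k x := lt_of_lt_of_le (by positivity) h1
    have e : Real.exp (L * (k * ε ^ 2)) * (Real.exp (-(L * (k * ε ^ 2))) * W x) = W x := by
      rw [← mul_assoc, ← Real.exp_add]; simp
    have h3 : Real.exp (L * (k * ε ^ 2)) ≤ Real.exp (L * T') :=
      Real.exp_le_exp.2 (mul_le_mul_of_nonneg_left (hkN ε k hk) hL.le)
    calc W x = Real.exp (L * (k * ε ^ 2)) * (Real.exp (-(L * (k * ε ^ 2))) * W x) := e.symm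
      _ ≤ Real.exp (L * (k * ε ^ 2)) * flow S (N : ℝ)⁻¹ ε W k x :=
          mul_le_mul_of_nonneg_left h1 (Real.exp_pos _).le
      _ ≤ Real.exp (L * T') * flow S (N : ℝ)⁻¹ ε W k x := mul_le_mul_of_nonneg_right h3 hvp.le
  · have ht0 : 0 ≤ (k : ℝ) * ((N : ℝ)⁻¹ * ε ^ 2) := by positivity
    have hx := hW.pos x
    have hCk := flow_Ck hc₀ hε hWs (fun t ht0 htT f hf => hPC t ht0 htT f hf ε hε hε1) k hk
    have hc := hcons _ ht0 hk (flow S (N : ℝ)⁻¹ ε W k) hCk ε hε hε1 x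
      (s * H * W x) (by positivity) fun a r hr => ?_
    · rw [flow_succ]
      refine ⟨hc.1.trans ?_, hc.2.trans ?_⟩
      · calc CU * ε ^ 3 * (s * H * W x) = CU * (s * H) * (ε ^ 3 * W x) := by ring
          _ ≤ A * (ε ^ 3 * W x) := mul_le_mul_of_nonneg_right hA3 (by positivity)
          _ = _ := by ring
      · calc (CU * ε ^ 3 * (s * H * W x)) ^ 2 = (CU * (s * H) * (ε ^ 3 * W x)) ^ 2 := by ring
          _ ≤ (A * (ε ^ 3 * W x)) ^ 2 := pow_le_pow_left₀ (by positivity)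
              (mul_le_mul_of_nonneg_right hA3 (by positivity)) 2
          _ = _ := by ring
    · refine (hjet' ε hε hε1 k hk _).trans ?_
      have h1 := (hHar a _ r x ht0 hk (hr.trans hε1)).1
      have h2 := (hW.pos (S.φ a ((k : ℝ) * ((N : ℝ)⁻¹ * ε ^ 2)) r x)).le
      refine pow_le_pow_left₀ (by positivity) ?_ 2
      calc s * W (S.φ a _ r x) ≤ s * (H * W x) := mul_le_mul_of_nonneg_left h1 hS0.le
        _ = _ := by ring

end Vale.Agent.P223.X.FlX
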