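import Vale.Agent.P223.X.WtX
import Vale.Agent.P223.H.B6d

/-! Phase 3, blocks Y2a and Y2 : formal sums of weights. -/

namespace Vale.Agent.P223.X.Form

open scoped ContDiff Topology
open MeasureTheory Vale.Agent.P223.H Vale.Agent.P223.X Vale.Agent.P223.X.WtX
  Vale.Agent.P223.H.B6c Vale.Agent.P223.H.B6d Set Filter Function

section
variable {Γ : Type} [Group Γ] {ι : Type}

/-- Invariant weights, with finitely many nonzero values on normalised labels. -/
structure Gd (k : ℕ) (w : (Fin (k + 1) → Γ × ι) → ℝ) : Prop where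
  inv : ∀ (γ : Γ) l, w (B6c.tr γ l) = w l
  fin : {l : NL Γ ι k | w l.1 ≠ 0}.Finite

theorem Gd.fin_eqv {k : ℕ} {w : (Fin (k + 2) → Γ × ι) → ℝ} (hw : Gd (k + 1) w)
    (i : Fin (k + 2)) : {p : NL Γ ι k × (Γ × ι) | w (ins i p.2 p.1.1) ≠ 0}.Finite := by
  refine (hw.fin.preimage (f := eqv i) (eqv i).injective.injOn).subset fun p hp => ?_
  show w (B6c.tr _ _) ≠ 0
  rw [hw.inv]
  exact hp

theorem sum_face {k : ℕ} {w : (Fin (k + 2) → Γ × ι) → ℝ} (hw : Gd (k + 1) w)
    (F : (Fin (k + 1) → Γ × ι) → ℝ) (hF : ∀ (γ : Γ) l, F (B6c.tr γ l) = F l) (i : Fin (k + 2)) :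
    ∑ᶠ l : NL Γ ι (k + 1), w l.1 * F (l.1 ∘ i.succAbove) =
      ∑ᶠ m : NL Γ ι k, dd k w i m.1 * F m.1 := by
  rw [← finsum_comp_equiv (eqv i)]
  have h1 : ∀ p : NL Γ ι k × (Γ × ι),
      w (eqv i p).1 * F ((eqv i p).1 ∘ i.succAbove) = F p.1.1 • w (ins i p.2 p.1.1) := by
    intro p
    have e1 : (eqv i p).1 = B6c.tr (ins i p.2 p.1.1 0).1⁻¹ (ins i p.2 p.1.1) := rfl
    have e2 : (eqv i p).1 ∘ i.succAbove = B6c.tr (ins i p.2 p.1.1 0).1⁻¹ p.1.1 := by
      rw [e1, tr_ins, ins_comp]
    rw [e2, hF, e1, hw.inv, smul_eq_mul, mul_comm]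
  simp only [h1]
  rw [finsum_curry]
  · refine finsum_congr fun m => ?_
    show ∑ᶠ b : Γ × ι, F m.1 • w (ins i b m.1) = _
    rw [← smul_finsum, dd, smul_eq_mul, mul_comm]
  · refine (hw.fin_eqv i).subset fun p hp => ?_
    intro h0
    exact hp (by simp only [h0, smul_zero])

theorem sum_alt {k : ℕ} {w : (Fin (k + 2) → Γ × ι) → ℝ} (hw : Gd (k + 1) w)
    (F : (Fin (k + 1) → Γ × ι) → ℝ) (hF : ∀ (γ : Γ) l, F (B6c.tr γ l) = F l) :
    ∑ᶠ l : NL Γ ι (k + 1), w l.1 * ∑ i : Fin (k + 2), (-1 : ℝ) ^ (i : ℕ) * F (l.1 ∘ i.succAbove) =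
      ∑ i : Fin (k + 2), (-1 : ℝ) ^ (i : ℕ) * ∑ᶠ m : NL Γ ι k, dd k w i m.1 * F m.1 := by
  have h1 : ∀ l : NL Γ ι (k + 1),
      w l.1 * ∑ i : Fin (k + 2), (-1 : ℝ) ^ (i : ℕ) * F (l.1 ∘ i.succAbove) =
      ∑ i : Fin (k + 2), (-1 : ℝ) ^ (i : ℕ) * (w l.1 * F (l.1 ∘ i.succAbove)) := by
    intro l
    rw [Finset.mul_sum]
    exact Finset.sum_congr rfl fun i _ => by ring
  simp only [h1]
  have hs : ∀ i : Fin (k + 2), HasFiniteSupport fun l : NL Γ ι (k + 1) =>
      w l.1 * F (l.1 ∘ i.succAbove) := fun i => by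
    refine hw.fin.subset fun l hl => ?_
    exact left_ne_zero_of_mul hl
  rw [finsum_sum_comm]
  · refine Finset.sum_congr rfl fun i _ => ?_
    rw [← sum_face hw F hF i]
    simp only [← smul_eq_mul]
    rw [← smul_finsum]
  · intro i _
    refine (hs i).subset fun l hl => ?_
    exact right_ne_zero_of_mul hl

end

section
variable {n : ℕ} {M X Γ I : Type} [TopologicalSpace M] [TopologicalSpace X] [Group Γ]
    [MulAction Γ X] {C : Cov n M X Γ I} {ι : Type} [T2Space X]

omit [T2Space X] in
/-- Finiteness of the set of relevant normalised labels. -/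
theorem finite_labels [Finite I] [Finite ι] (C : Cov n M X Γ I) {K : Set X} (hK : IsCompact K)
    {k : ℕ} (w : (Fin (k + 1) → Γ × ι) → ℝ)
    (hw : ∀ l, w l ≠ 0 → ∃ x, ∀ j, (l j).1⁻¹ • x ∈ K) :
    {l : NL Γ ι k | w l.1 ≠ 0}.Finite := by
  have hT := DensX.proper0 C hK hK
  set T : Set Γ := {γ : Γ | ∃ x ∈ K, γ • x ∈ K} with hTd
  have hA : {a : Γ × ι | a.1⁻¹ ∈ T}.Finite := by
    have h1 : ((fun γ : Γ => γ⁻¹) ⁻¹' T).Finite := hT.preimage inv_injective.injOn
    refine (h1.prod (Set.finite_univ (α := ι))).subset fun a ha => ?_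
    exact ⟨ha, mem_univ _⟩
  have hB : {l : Fin (k + 1) → Γ × ι | ∀ j, l j ∈ {a : Γ × ι | a.1⁻¹ ∈ T}}.Finite := by
    have := Set.Finite.pi' (fun _ : Fin (k + 1) => hA)
    exact this
  refine (hB.preimage (f := fun l : NL Γ ι k => l.1) Subtype.val_injective.injOn).subset ?_
  intro l hl j
  obtain ⟨x, hx⟩ := hw l.1 hl
  have h0 := hx 0
  rw [l.2, inv_one, one_smul] at h0
  exact ⟨x, h0, hx j⟩

variable [Fintype I] {χ : I → E n → ℝ} [Fintype ι]

omit [T2Space X] in
theorem good_wt (P : PUX C ι) : Gd n (P.wt χ) := by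
  constructor
  · intro γ l
    have h1 : (fun k => P.fn (B6c.tr γ l k)) = fun k y => P.fn (l k) (γ⁻¹ • y) := by
      funext k y
      exact fn_mul P γ (l k) y
    rw [PUX.wt, h1, wtX_comp]
    rfl
  · refine finite_labels C (compact_sup P) _ fun l hl => ?_
    obtain ⟨x, hx⟩ := exists_mem hl
    exact ⟨x, fun j => mem_sup P _ (hx j)⟩

end

/-- Block Y2a. -/
theorem mainA : SpecFormCyc := by
  intro n M X Γ I _ _ _ _ _ _ C χ hn hχ ι _ P H hH
  obtain ⟨k, rfl⟩ : ∃ k, n = k + 1 := ⟨n - 1, by omega⟩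
  rw [← finsum_set_coe_eq_finsum_mem]
  have h1 := sum_alt (good_wt (χ := χ) P) H hH
  refine h1.trans ?_
  refine Finset.sum_eq_zero fun i _ => ?_
  have h2 : ∀ m : NL Γ ι k, dd k (P.wt χ) i m.1 = 0 := by
    intro m
    have h3 : ∀ ν, P.wt χ (ins i ν m.1) = wtX C χ (update (fun a => P.fn (ins i (m.1 0) m.1 a)) i
        (P.fn ν)) := by
      intro ν
      rw [PUX.wt]
      congr 1
      funext a
      by_cases ha : a = i
      · rw [ha, update_self, ins_self]
      · rw [update_of_ne ha, ins_ne ha ν (m.1 0)]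
    rw [dd]
    simp only [h3]
    exact sum_free hn hχ P _ (fun a => fn_cc P _) i
  simp only [h2, zero_mul, finsum_zero, mul_zero]

/-! ### The prism -/

section
variable {n : ℕ} {M X Γ I : Type} [TopologicalSpace M] [TopologicalSpace X] [Group Γ]
    [MulAction Γ X] {C : Cov n M X Γ I} {ι : Type} [Fintype ι]

/-- The functions of the prism. -/
noncomputable def pr (P P' : PUX C ι) (j : Fin (n + 1)) (l : Fin (n + 2) → Γ × ι)
    (k : Fin (n + 1)) : X → ℝ :=
  if k < j then P.fn (l k.castSucc) else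
    if k = j then fun x => P.fn (l k.castSucc) x * P'.fn (l k.succ) x else P'.fn (l k.succ)

variable [Fintype I] (χ : I → E n → ℝ)

/-- The weights of the prism. -/
noncomputable def pw (P P' : PUX C ι) (j : Fin (n + 1)) (l : Fin (n + 2) → Γ × ι) : ℝ :=
  wtX C χ (pr P P' j l)

/-- Mixed weights. -/
noncomputable def mx (P P' : PUX C ι) (j : ℕ) (l : Fin (n + 1) → Γ × ι) : ℝ :=
  wtX C χ fun k : Fin (n + 1) => if (k : ℕ) < j then P.fn (l k) else P'.fn (l k)

theorem mx_zero (P P' : PUX C ι) : mx χ P P' 0 = P'.wt χ := by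
  funext l
  simp only [mx, not_lt_zero, if_false]
  rfl

theorem mx_last (P P' : PUX C ι) : mx χ P P' (n + 1) = P.wt χ := by
  funext l
  have : (fun k : Fin (n + 1) => if (k : ℕ) < n + 1 then P.fn (l k) else P'.fn (l k)) =
      fun k => P.fn (l k) := by
    funext k
    rw [if_pos k.2]
  rw [mx, this]
  rfl

omit [Fintype I] in
theorem pr_cc (P P' : PUX C ι) (j : Fin (n + 1)) (l : Fin (n + 2) → Γ × ι)
    (k : Fin (n + 1)) : CX C (pr P P' j l k) := by
  unfold pr
  split_ifs
  · exact fn_cc P _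
  · exact CX.mul_left (fn_cc P _).1 (fn_cc P' _)
  · exact fn_cc P' _

variable [T2Space X]

omit [T2Space X] in
theorem good_pw (P P' : PUX C ι) (j : Fin (n + 1)) : Gd (n + 1) (pw χ P P' j) := by
  constructor
  · intro γ l
    have h1 : pr P P' j (B6c.tr γ l) = fun k y => pr P P' j l k (γ⁻¹ • y) := by
      funext k y
      unfold pr
      split_ifs
      · exact fn_mul P γ (l k.castSucc) y
      · exact congrArg₂ (· * ·) (fn_mul P γ (l k.castSucc) y) (fn_mul P' γ (l k.succ) y)
      · exact fn_mul P' γ (l k.succ) y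
    rw [pw, h1, wtX_comp]
    rfl
  · refine finite_labels C ((compact_sup P).union (compact_sup P')) _ fun l hl => ?_
    obtain ⟨x, hx⟩ := exists_mem hl
    refine ⟨x, fun a => ?_⟩
    by_cases ha : (a : ℕ) ≤ j
    · have hk : (a : ℕ) < n + 1 := lt_of_le_of_lt ha j.2
      set k : Fin (n + 1) := ⟨a, hk⟩ with hkd
      have hka : k.castSucc = a := rfl
      have h1 := hx k
      unfold pr at h1
      split_ifs at h1 with h2 h3
      · rw [hka] at h1; exact Or.inl (mem_sup P _ h1)
      · rw [hka] at h1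
        exact Or.inl (mem_sup P _ (tsupport_mul_subset_left h1))
      · exfalso
        have h4 : k ≤ j := ha
        exact h3 (le_antisymm h4 (not_lt.1 h2))
    · push Not at ha
      have hk : (a : ℕ) - 1 < n + 1 := by have := a.2; omega
      set k : Fin (n + 1) := ⟨a - 1, hk⟩ with hkd
      have hka : k.succ = a := by
        apply Fin.ext
        show (a : ℕ) - 1 + 1 = a
        omega
      have hkj : j ≤ k := by
        show (j : ℕ) ≤ (a : ℕ) - 1
        omega
      have h1 := hx k
      unfold pr at h1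
      rw [if_neg (not_lt.2 hkj)] at h1
      split_ifs at h1 with h3
      · rw [hka] at h1
        exact Or.inr (mem_sup P' _ (tsupport_mul_subset_right h1))
      · rw [hka] at h1; exact Or.inr (mem_sup P' _ h1)

variable {χ}

theorem dd_zero (hn : 1 ≤ n) (hχ : Part C χ) (P P' : PUX C ι) (j : Fin (n + 1))
    (i : Fin (n + 2)) (h1 : i ≠ j.castSucc) (h2 : i ≠ j.succ) (m : Fin (n + 1) → Γ × ι) :
    dd n (pw χ P P' j) i m = 0 := by
  rcases lt_or_gt_of_ne h1 with h | h
  · -- the place `k₀ = i < j`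
    have hv : (i : ℕ) < j := h
    have hk : (i : ℕ) < n + 1 := lt_trans hv j.2
    set k₀ : Fin (n + 1) := ⟨i, hk⟩ with hk₀
    have hki : k₀.castSucc = i := rfl
    have hkj : k₀ < j := hv
    have h3 : ∀ ν, pw χ P P' j (ins i ν m) =
        wtX C χ (update (pr P P' j (ins i (m 0) m)) k₀ (P.fn ν)) := by
      intro ν
      rw [pw]
      congr 1
      funext k
      by_cases hkk : k = k₀
      · rw [hkk, update_self]
        unfold pr
        rw [if_pos hkj, hki, ins_self]
      · rw [update_of_ne hkk]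
        have e1 : k.castSucc ≠ i := fun hc => hkk (Fin.castSucc_injective _ hc)
        unfold pr
        split_ifs with c1 c2
        · rw [ins_ne e1 ν (m 0)]
        · have e2 : k.succ ≠ i := by
            intro hc
            have := congrArg Fin.val hc
            rw [Fin.val_succ, c2] at this
            omega
          rw [ins_ne e1 ν (m 0), ins_ne e2 ν (m 0)]
        · have e2 : k.succ ≠ i := by
            intro hc
            have := congrArg Fin.val hc
            rw [Fin.val_succ] at this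
            have : ¬ (k : ℕ) < j := c1
            omega
          rw [ins_ne e2 ν (m 0)]
    rw [dd]
    simp only [h3]
    exact sum_free hn hχ P _ (fun k => pr_cc P P' j _ k) k₀
  · have hv : (j : ℕ) < i := h
    have hv2 : (i : ℕ) ≠ j + 1 := fun hc => h2 (Fin.ext (by rw [Fin.val_succ]; exact hc))
    have hk : (i : ℕ) - 1 < n + 1 := by have := i.2; omega
    set k₀ : Fin (n + 1) := ⟨i - 1, hk⟩ with hk₀
    have hki : k₀.succ = i := by
      apply Fin.ext
      show (i : ℕ) - 1 + 1 = i
      omega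
    have hkj : j < k₀ := by
      show (j : ℕ) < (i : ℕ) - 1
      omega
    have h3 : ∀ ν, pw χ P P' j (ins i ν m) =
        wtX C χ (update (pr P P' j (ins i (m 0) m)) k₀ (P'.fn ν)) := by
      intro ν
      rw [pw]
      congr 1
      funext k
      by_cases hkk : k = k₀
      · rw [hkk, update_self]
        unfold pr
        rw [if_neg (not_lt.2 hkj.le), if_neg hkj.ne', hki, ins_self]
      · rw [update_of_ne hkk]
        have e1 : k.succ ≠ i := fun hc => hkk (Fin.succ_injective _ (hc.trans hki.symm))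
        unfold pr
        split_ifs with c1 c2
        · have e2 : k.castSucc ≠ i := by
            intro hc
            have := congrArg Fin.val hc
            rw [Fin.val_castSucc] at this
            have : (k : ℕ) < j := c1
            omega
          rw [ins_ne e2 ν (m 0)]
        · have e2 : k.castSucc ≠ i := by
            intro hc
            have := congrArg Fin.val hc
            rw [Fin.val_castSucc, c2] at this
            omega
          rw [ins_ne e1 ν (m 0), ins_ne e2 ν (m 0)]
        · rw [ins_ne e1 ν (m 0)]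
    rw [dd]
    simp only [h3]
    exact sum_free hn hχ P' _ (fun k => pr_cc P P' j _ k) k₀

theorem dd_cast (hχ : Part C χ) (P P' : PUX C ι) (j : Fin (n + 1)) (m : Fin (n + 1) → Γ × ι) :
    dd n (pw χ P P' j) j.castSucc m = mx χ P P' j m := by
  have h3 : ∀ ν, pw χ P P' j (ins j.castSucc ν m) =
      wtX C χ (update (pr P P' j (ins j.castSucc (m 0) m)) j
        fun x => P.fn ν x * P'.fn (m j) x) := by
    intro ν
    rw [pw]
    congr 1
    funext k
    by_cases hkk : k = j
    · rw [hkk, update_self]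
      unfold pr
      rw [if_neg (lt_irrefl _), if_pos rfl, ins_self, ins_succ (Fin.castSucc_lt_succ)]
    · rw [update_of_ne hkk]
      unfold pr
      split_ifs with c1
      · rw [ins_ne (fun hc => hkk (Fin.castSucc_injective _ hc)) ν (m 0)]
      · have e2 : k.succ ≠ j.castSucc := by
          intro hc
          have := congrArg Fin.val hc
          rw [Fin.val_succ, Fin.val_castSucc] at this
          have : ¬ (k : ℕ) < j := c1
          omega
        rw [ins_ne e2 ν (m 0)]
  rw [dd]
  simp only [h3]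
  rw [sum_mul hχ P _ (fun k => pr_cc P P' j _ k) j _ (fn_cc P' (m j)), mx]
  congr 1
  funext k
  by_cases hkk : k = j
  · rw [hkk, update_self, if_neg (lt_irrefl _)]
  · rw [update_of_ne hkk]
    unfold pr
    by_cases c1 : k < j
    · rw [if_pos c1, if_pos (show (k : ℕ) < j from c1), ins_castSucc (i := j.castSucc) c1]
    · have c2 : j < k := lt_of_le_of_ne (not_lt.1 c1) (Ne.symm hkk)
      rw [if_neg c1, if_neg hkk, if_neg (show ¬ (k : ℕ) < j from c1), ins_succ]
      show (j : ℕ) < (k : ℕ) + 1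
      have : (j : ℕ) < k := c2
      omega

theorem dd_succ (hχ : Part C χ) (P P' : PUX C ι) (j : Fin (n + 1)) (m : Fin (n + 1) → Γ × ι) :
    dd n (pw χ P P' j) j.succ m = mx χ P P' (j + 1) m := by
  have h3 : ∀ ν, pw χ P P' j (ins j.succ ν m) =
      wtX C χ (update (pr P P' j (ins j.succ (m 0) m)) j fun x => P'.fn ν x * P.fn (m j) x) := by
    intro ν
    rw [pw]
    congr 1
    funext k
    by_cases hkk : k = j
    · rw [hkk, update_self]
      unfold pr
      rw [if_neg (lt_irrefl _), if_pos rfl, ins_self, ins_castSucc (Fin.castSucc_lt_succ)]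
      funext x
      exact mul_comm _ _
    · rw [update_of_ne hkk]
      unfold pr
      split_ifs with c1
      · have e2 : k.castSucc ≠ j.succ := by
          intro hc
          have := congrArg Fin.val hc
          rw [Fin.val_succ, Fin.val_castSucc] at this
          have : (k : ℕ) < j := c1
          omega
        rw [ins_ne e2 ν (m 0)]
      · rw [ins_ne (fun hc => hkk (Fin.succ_injective _ hc)) ν (m 0)]
  rw [dd]
  simp only [h3]
  rw [sum_mul hχ P' _ (fun k => pr_cc P P' j _ k) j _ (fn_cc P (m j)), mx]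
  congr 1
  funext k
  by_cases hkk : k = j
  · rw [hkk, update_self, if_pos (Nat.lt_succ_self _)]
  · rw [update_of_ne hkk]
    unfold pr
    by_cases c1 : k < j
    · have c1' : (k : ℕ) < j := c1
      rw [if_pos c1, if_pos (show (k : ℕ) < j + 1 by omega), ins_castSucc]
      show (k : ℕ) < (j : ℕ) + 1
      omega
    · have c2 : j < k := lt_of_le_of_ne (not_lt.1 c1) (Ne.symm hkk)
      have c2' : (j : ℕ) < k := c2
      rw [if_neg c1, if_neg hkk, if_neg (show ¬ (k : ℕ) < j + 1 by omega), ins_succ]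
      show (j : ℕ) + 1 < (k : ℕ) + 1
      omega

/-- Sums of a cocycle. -/
noncomputable def SS (w : (Fin (n + 1) → Γ × ι) → ℝ) (F : (Fin (n + 1) → Γ) → ℝ) : ℝ :=
  ∑ᶠ l : NL Γ ι n, w l.1 * F fun k => (l.1 k).1

theorem step (hn : 1 ≤ n) (hχ : Part C χ) (P P' : PUX C ι) (F : (Fin (n + 1) → Γ) → ℝ)
    (hF : ∀ (γ : Γ) g, F (fun k => γ * g k) = F g)
    (hF' : ∀ g : Fin (n + 2) → Γ, ∑ k : Fin (n + 2), (-1 : ℝ) ^ (k : ℕ) * F (g ∘ k.succAbove) = 0)
    (j : Fin (n + 1)) : SS (mx χ P P' j) F = SS (mx χ P P' (j + 1)) F := by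
  have h1 := sum_alt (good_pw χ P P' j) (fun l => F fun k => (l k).1)
    (fun γ l => hF γ fun k => (l k).1)
  have h2 : ∀ l : NL Γ ι (n + 1), pw χ P P' j l.1 * ∑ i : Fin (n + 2), (-1 : ℝ) ^ (i : ℕ) *
      F (fun k => ((l.1 ∘ i.succAbove) k).1) = 0 := by
    intro l
    have h3 := hF' fun k => (l.1 k).1
    rw [show ∑ i : Fin (n + 2), (-1 : ℝ) ^ (i : ℕ) * F (fun k => ((l.1 ∘ i.succAbove) k).1) = 0
      from h3, mul_zero]
  simp only [h2, finsum_zero] at h1
  rw [Finset.sum_eq_add j.castSucc j.succ (Fin.castSucc_lt_succ).ne] at h1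
  · have e1 : dd n (pw χ P P' j) j.castSucc = mx χ P P' j := funext fun m => dd_cast hχ P P' j m
    have e2 : dd n (pw χ P P' j) j.succ = mx χ P P' (j + 1) := funext fun m => dd_succ hχ P P' j m
    rw [e1, e2, Fin.val_castSucc, Fin.val_succ, pow_succ] at h1
    have h4 : ((-1 : ℝ) ^ (j : ℕ)) * (SS (mx χ P P' j) F - SS (mx χ P P' (j + 1)) F) = 0 := by
      rw [mul_sub]
      unfold SS
      linarith
    rcases mul_eq_zero.1 h4 with h5 | h5
    · exact absurd h5 (pow_ne_zero _ (by norm_num))
    · linarith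
  · intro i _ hi
    have e1 : dd n (pw χ P P' j) i = fun _ => 0 :=
      funext fun m => dd_zero hn hχ P P' j i hi.1 hi.2 m
    simp only [e1, zero_mul, finsum_zero, mul_zero]
  · intro h; exact absurd (Finset.mem_univ _) h
  · intro h; exact absurd (Finset.mem_univ _) h

theorem same (hn : 1 ≤ n) (hχ : Part C χ) (P P' : PUX C ι) (F : (Fin (n + 1) → Γ) → ℝ)
    (hF : ∀ (γ : Γ) g, F (fun k => γ * g k) = F g)
    (hF' : ∀ g : Fin (n + 2) → Γ, ∑ k : Fin (n + 2), (-1 : ℝ) ^ (k : ℕ) * F (g ∘ k.succAbove) = 0) :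
    SS (P.wt χ) F = SS (P'.wt χ) F := by
  have h : ∀ j : ℕ, j ≤ n + 1 → SS (mx χ P P' j) F = SS (mx χ P P' 0) F := by
    intro j
    induction j with
    | zero => intro _; rfl
    | succ j ih =>
      intro hj
      rw [← ih (by omega)]
      exact (step hn hχ P P' F hF hF' ⟨j, by omega⟩).symm
  rw [← mx_last χ P P', ← mx_zero χ P P']
  exact h _ le_rfl

end

/-! ### Different index sets -/

section
variable {n : ℕ} {M X Γ I : Type} [TopologicalSpace M] [TopologicalSpace X] [Group Γ]
    [MulAction Γ X] {C : Cov n M X Γ I} {ι : Type} [Fintype ι]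

/-- Pull a partition of unity back to a larger index set. -/
noncomputable def ext (P : PUX C ι) {κ : Type} [Fintype κ] (e : κ → Option ι)
    (he : ∀ i, ∃! a, e a = some i) : PUX C κ where
  φ a := match e a with
    | some i => P.φ i
    | none => fun _ => 0
  smooth a := by
    rcases e a with _ | i
    · exact fun _ _ => contDiff_const
    · exact P.smooth i
  supp a := by
    rcases e a with _ | i
    · exact HasCompactSupport.zero
    · exact P.supp i
  sum x := by
    classical
    rw [← P.sum x]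
    choose s hs hs' using he
    have hinj : Injective s := fun i j hij => by
      have := hs i
      rw [hij, hs j] at this
      exact (Option.some_injective _ this).symm
    rw [← Finset.sum_subset (Finset.subset_univ (Finset.univ.image s)),
      Finset.sum_image hinj.injOn]
    · refine Finset.sum_congr rfl fun i _ => ?_
      simp only [hs i]
    · intro a _ ha
      have h1 : e a = none := by
        cases hea : e a with
        | none => rfl
        | some i =>
          exact absurd (Finset.mem_image.2 ⟨i, Finset.mem_univ _, (hs' i a hea).symm⟩) ha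
      simp only [h1]
      simp

variable [Fintype I] {χ : I → E n → ℝ}

theorem SS_ext (P : PUX C ι) {κ : Type} [Fintype κ] (e : κ → Option ι)
    (he : ∀ i, ∃! a, e a = some i) (s : ι → κ) (hs : ∀ i, e (s i) = some i)
    (F : (Fin (n + 1) → Γ) → ℝ) : SS ((ext P e he).wt χ) F = SS (P.wt χ) F := by
  have hinj : Injective s := fun i j hij => by
    have := hs i
    rw [hij, hs j] at this
    exact (Option.some_injective _ this).symm
  have hfn : ∀ a : Γ × ι, (ext P e he).fn (a.1, s a.2) = P.fn a := by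
    intro a
    funext x
    simp only [PUX.fn, ext, hs]
  have hfn0 : ∀ a : Γ × κ, e a.2 = none → (ext P e he).fn a = fun _ => 0 := by
    intro a ha
    funext x
    simp only [PUX.fn, ext, ha]
  rw [SS, SS]
  set g : NL Γ ι n → NL Γ κ n := fun l => ⟨fun j => ((l.1 j).1, s (l.1 j).2), l.2⟩ with hg
  have hginj : Injective g := by
    intro l l' h
    have h1 := congrArg Subtype.val h
    refine Subtype.ext (funext fun j => ?_)
    have h2 : ((l.1 j).1, s (l.1 j).2) = ((l'.1 j).1, s (l'.1 j).2) := congrFun h1 j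
    exact Prod.ext (Prod.ext_iff.1 h2).1 (hinj (Prod.ext_iff.1 h2).2)
  rw [← finsum_mem_univ, finsum_mem_inter_support_eq' _ Set.univ (Set.range g),
    finsum_mem_range hginj]
  · refine finsum_congr fun l => ?_
    have h1 : (ext P e he).wt χ (g l).1 = P.wt χ l.1 := by
      rw [PUX.wt, PUX.wt]
      congr 1
      funext k
      exact hfn (l.1 k)
    rw [h1]
  · intro l hl
    refine iff_of_true (mem_univ _) ?_
    have h1 : (ext P e he).wt χ l.1 ≠ 0 := left_ne_zero_of_mul hl
    obtain ⟨x, hx⟩ := exists_mem h1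
    have h2 : ∀ k, ∃ i, e (l.1 k).2 = some i := by
      intro k
      cases hea : e (l.1 k).2 with
      | some i => exact ⟨i, rfl⟩
      | none =>
        have h3 := hx k
        rw [hfn0 (l.1 k) hea] at h3
        simp [tsupport] at h3
    choose i hi using h2
    refine ⟨⟨fun j => ((l.1 j).1, i j), l.2⟩, ?_⟩
    refine Subtype.ext (funext fun j => ?_)
    refine Prod.ext rfl ?_
    show s (i j) = (l.1 j).2
    exact (he (i j)).unique (hs (i j)) (hi j)

end

/-- Block Y2. -/
theorem main : SpecFormX := by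
  intro n M X Γ I _ _ _ _ _ _ C χ F hn hχ hF hF' ι ι' _ _ P P'
  rw [← finsum_set_coe_eq_finsum_mem, ← finsum_set_coe_eq_finsum_mem]
  set e : ι ⊕ ι' → Option ι := Sum.elim some fun _ => none with he
  set e' : ι ⊕ ι' → Option ι' := Sum.elim (fun _ => none) some with he'
  have h1 : ∀ i, ∃! a, e a = some i := by
    intro i
    refine ⟨Sum.inl i, rfl, ?_⟩
    rintro (a | a) ha
    · exact congrArg Sum.inl (Option.some_injective _ ha)
    · exact absurd ha (by simp [he])
  have h2 : ∀ i, ∃! a, e' a = some i := by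
    intro i
    refine ⟨Sum.inr i, rfl, ?_⟩
    rintro (a | a) ha
    · exact absurd ha (by simp [he'])
    · exact congrArg Sum.inr (Option.some_injective _ ha)
  have h3 := same hn hχ (ext P e h1) (ext P' e' h2) F hF hF'
  rw [SS_ext P e h1 Sum.inl (fun i => rfl) F, SS_ext P' e' h2 Sum.inr (fun i => rfl) F] at h3
  exact h3

end Vale.Agent.P223.X.Form
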