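import Vale.Agent.P223.X.SpecF
import Vale.Agent.P223.H.B8d

/-! Block F1: alternating simplices. -/

namespace Vale.Agent.P223.X.Fund.Alt

open scoped ContDiff
open Vale.Agent.P223.H
open Vale.Agent.P223.H.B8d (ll ll_same ll_succAbove ll_of face_a face_other)

variable {n : ℕ} {M X Γ I : Type} [TopologicalSpace M] [TopologicalSpace X]
  [Group Γ] [MulAction Γ X] (C : Cov n M X Γ I) (i₀ : I)

/-- the simplex with vertices `q (k 0), …, q (k n)` -/
noncomputable def sx (q : Fin (n + 1) → E n) (k : Fin (n + 1) → Fin (n + 1)) :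
    Simp (n + 1) M := C.π.comp (SX C n fun m => (1, i₀, q (k m)))

/-- the degenerate simplices -/
def Dg (q : Fin (n + 1) → E n) : Set (Simp (n + 1) (M)) :=
  {σ | ∃ k : Fin (n + 1) → Fin (n + 1), ¬ Function.Surjective k ∧ σ = sx C i₀ q k}

/-- boundaries plus degenerate chains -/
noncomputable def NS (q : Fin (n + 1) → E n) :
    Submodule ℝ (Chain (n + 1) (M)) :=
  LinearMap.range (bd (M := M) (n + 1)) ⊔ Finsupp.supported ℝ ℝ (Dg C i₀ q)

theorem deg_mem (q : Fin (n + 1) → E n) (k : Fin (n + 1) → Fin (n + 1))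
    (hk : ¬ Function.Surjective k) (a : ℝ) : Finsupp.single (sx C i₀ q k) a ∈ NS C i₀ q :=
  Submodule.mem_sup_right (Finsupp.single_mem_supported ℝ a ⟨k, hk, rfl⟩)

theorem adj (q : Fin (n + 1) → E n) (i : Fin n) (π : Equiv.Perm (Fin (n + 1))) :
    Finsupp.single (sx C i₀ q ⇑(π * Equiv.swap i.castSucc i.succ)) (1 : ℝ) +
      Finsupp.single (sx C i₀ q π) 1 ∈ NS C i₀ q := by
  set l : Fin (n + 2) → Γ × (I × E n) := fun m => (1, i₀, q (ll i π m)) with hl
  have hg : Gd C (n + 1) l := (F_affine C 1 i₀ (n + 1) l fun j => ⟨rfl, rfl⟩).1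
  have hb : bd (M := M) (n + 1) (Finsupp.single (C.π.comp (SX C (n + 1) l)) 1) =
      ∑ j : Fin (n + 2), Finsupp.single (sx C i₀ q (ll i π ∘ j.succAbove)) ((-1 : ℝ) ^ (j : ℕ)) := by
    rw [bd, Finsupp.linearCombination_single, one_smul]
    refine Finset.sum_congr rfl fun j _ => ?_
    rw [ContinuousMap.comp_assoc, SX_face C hg]
    rfl
  set a : Fin (n + 2) := i.castSucc.castSucc with ha
  set p : Fin (n + 2) := i.succ.succ with hp
  have hap : p ≠ a := fun h => by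
    have := congrArg Fin.val h
    simp only [ha, hp, Fin.val_succ, Fin.val_castSucc] at this
    omega
  have hm : (∑ j : Fin (n + 2), Finsupp.single (sx C i₀ q (ll i π ∘ j.succAbove))
      ((-1 : ℝ) ^ (j : ℕ))) ∈ NS C i₀ q := by
    rw [← hb]; exact Submodule.mem_sup_left ⟨_, rfl⟩
  rw [← Finset.add_sum_erase Finset.univ _ (Finset.mem_univ a),
    ← Finset.add_sum_erase _ _ (Finset.mem_erase.2 ⟨hap, Finset.mem_univ p⟩)] at hm
  have hr : (∑ j ∈ (Finset.univ.erase a).erase p,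
      Finsupp.single (sx C i₀ q (ll i π ∘ j.succAbove)) ((-1 : ℝ) ^ (j : ℕ))) ∈ NS C i₀ q := by
    refine Submodule.sum_mem _ fun j hj => ?_
    rw [Finset.mem_erase, Finset.mem_erase] at hj
    exact deg_mem C i₀ q _ (face_other i π j hj.2.1 hj.1) _
  have h1 := Submodule.sub_mem _ hm hr
  have h2 := Submodule.smul_mem _ ((-1 : ℝ) ^ (i : ℕ)) h1
  have e1 : (ll i π ∘ a.succAbove) = (π * Equiv.swap i.castSucc i.succ : Equiv.Perm _) :=
    funext fun m => face_a i π m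
  have e2 : (ll i π ∘ p.succAbove) = π := funext fun m => ll_succAbove i π m
  rw [e1, e2] at h2
  have hv1 : ((-1 : ℝ) ^ (a : ℕ)) = (-1 : ℝ) ^ (i : ℕ) := by simp [ha]
  have hv2 : ((-1 : ℝ) ^ (p : ℕ)) = (-1 : ℝ) ^ (i : ℕ) := by simp [hp, pow_succ]
  have hsq : (-1 : ℝ) ^ (i : ℕ) * (-1 : ℝ) ^ (i : ℕ) = 1 := by
    rw [← mul_pow]; simp
  rw [hv1, hv2] at h2
  convert h2 using 1
  rw [add_sub_assoc, add_sub_cancel_right, smul_add, Finsupp.smul_single, Finsupp.smul_single,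
    smul_eq_mul, hsq]

theorem perm (q : Fin (n + 1) → E n) (τ : Equiv.Perm (Fin (n + 1))) :
    ∀ π : Equiv.Perm (Fin (n + 1)), Finsupp.single (sx C i₀ q ⇑(π * τ)) (1 : ℝ) -
      ((Equiv.Perm.sign τ : ℤ) : ℝ) • Finsupp.single (sx C i₀ q π) 1 ∈ NS C i₀ q := by
  have hτ : τ ∈ Submonoid.closure (Set.range fun i : Fin n => Equiv.swap i.castSucc i.succ) := by
    rw [Equiv.Perm.mclosure_swap_castSucc_succ]; trivial
  induction hτ using Submonoid.closure_induction with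
  | mem τ hτ =>
    intro π
    obtain ⟨i, rfl⟩ := hτ
    rw [Equiv.Perm.sign_swap (fun h => by have := congrArg Fin.val h; simp at this)]
    have := adj C i₀ q i π
    simpa using this
  | one => intro π; simp
  | mul τ₁ τ₂ _ _ h1 h2 =>
    intro π
    have h3 := h2 (π * τ₁)
    have h4 := Submodule.smul_mem _ ((Equiv.Perm.sign τ₂ : ℤ) : ℝ) (h1 π)
    have h5 := Submodule.add_mem _ h3 h4
    have e : Finsupp.single (sx C i₀ q ⇑(π * (τ₁ * τ₂))) (1 : ℝ) -
        ((Equiv.Perm.sign (τ₁ * τ₂) : ℤ) : ℝ) • Finsupp.single (sx C i₀ q π) 1 =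
        Finsupp.single (sx C i₀ q ⇑(π * τ₁ * τ₂)) (1 : ℝ) -
        ((Equiv.Perm.sign τ₂ : ℤ) : ℝ) • Finsupp.single (sx C i₀ q ⇑(π * τ₁)) 1 +
        ((Equiv.Perm.sign τ₂ : ℤ) : ℝ) • (Finsupp.single (sx C i₀ q ⇑(π * τ₁)) 1 -
        ((Equiv.Perm.sign τ₁ : ℤ) : ℝ) • Finsupp.single (sx C i₀ q π) 1) := by
      rw [Equiv.Perm.sign_mul, mul_assoc, smul_sub, smul_smul]
      push_cast
      rw [mul_comm ((Equiv.Perm.sign τ₂ : ℤ) : ℝ)]
      abel
    rw [e]
    exact h5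

theorem main : SpecAltX := by
  intro n M X Γ I _ _ _ _ C i₀ q π
  have h := perm C i₀ q π 1
  rw [one_mul, NS, Submodule.mem_sup] at h
  obtain ⟨_, ⟨b, rfl⟩, c, hc, h⟩ := h
  refine ⟨b, c, ?_, fun σ hσ => ?_⟩
  · have h2 : Finsupp.single (sx C i₀ q π) (1 : ℝ) = ((Equiv.Perm.sign π : ℤ) : ℝ) •
      Finsupp.single (sx C i₀ q (1 : Equiv.Perm (Fin (n + 1)))) 1 + bd (n + 1) b + c := by
      rw [add_assoc, h]; abel
    exact h2
  · exact (Finsupp.mem_supported ℝ c).1 hc hσ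

end Vale.Agent.P223.X.Fund.Alt
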