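import Vale.Agent.P223.X.SpecF

/-! Block F7: case analysis near a point. -/

namespace Vale.Agent.P223.X.Fund.Case

open scoped ContDiff
open Vale.Agent.P223.H B8b

theorem main (hN : SpecNear) : SpecCaseX := by
  intro n M X Γ I _ _ _ _ _ _ _ C χ hn hχ i p hp ε hε
  obtain ⟨r, hr, hN⟩ := hN n M X Γ I C χ hn hχ i p hp
  obtain ⟨η, hη, hun⟩ := unif C 4 hr
  obtain ⟨ε₁, hε₁, hsm⟩ := small C n (min (η / 2) 1) (by positivity)
  obtain ⟨c, δ, b, κ, hκ, P, D, hc, -, hδ, hP, hb1, hb2, hb3, -, hφ, hT, hD, hfar⟩ :=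
    hN (min ε (min ε₁ (η / 2))) (by positivity)
  have hle1 : min ε (min ε₁ (η / 2)) ≤ ε := min_le_left _ _
  have hle2 : min ε (min ε₁ (η / 2)) ≤ ε₁ := (min_le_right _ _).trans (min_le_left _ _)
  have hle3 : min ε (min ε₁ (η / 2)) ≤ η / 2 := (min_le_right _ _).trans (min_le_right _ _)
  refine ⟨c, b, κ, hκ, P, D, hc, fun j => ⟨(hP j).1, fun x hx => ?_⟩, hb1, hb2, hb3, hφ, hD, ?_⟩
  · obtain ⟨y, hy, hy'⟩ := (hP j).2 x hx
    exact ⟨y, hy.trans hle1, hy'⟩
  intro l x hx t ht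
  obtain ⟨hg, hF⟩ := hsm (lab D l) ((hP.sm hx).mono hle2)
  obtain ⟨u, hu, huF⟩ := hF t t.2
  rw [SX_apply C hg] at ht
  rw [ht] at huF
  have hu' : ‖u - (D (l 0).2).2‖ < min (η / 2) 1 := hu
  have huF' : (l 0).1 • C.ψ (D (l 0).2).1 u = C.ψ i p := huF.symm
  have hu4 : ‖u‖ ≤ 4 := by
    have h1 := norm_sub_norm_le u (D (l 0).2).2
    have h2 := (hP (l 0).2).1
    have h3 := min_le_right (η / 2) 1
    linarith
  obtain ⟨y', hy', hyx⟩ := hP.near (hx 0)
  have h1 : ‖y' - u‖ < η := by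
    have h3 : y' - u = (y' - (D (l 0).2).2) - (u - (D (l 0).2).2) := by abel
    rw [h3]
    refine (norm_sub_le _ _).trans_lt ?_
    have h4 := min_le_left (η / 2) 1
    linarith
  obtain ⟨v, hv, hv'⟩ := hun _ _ _ u p hu4 (by linarith) huF' y' h1
  have hxv : x = C.ψ i v := hyx.symm.trans hv'
  have hvb : v ∈ Metric.ball p r := by rw [mem_ball_iff_norm]; exact hv
  have hinj := (C.emb i).injective
  -- special functions
  have hinl : ∀ m k, (l m).2 = Sum.inl k → (l m).1 = 1 ∧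
      v ∈ tsupport (fun y => b y * tht k (crd p c y)) := by
    intro m k hm
    have h2 := mem_fn (hx m)
    rw [hm] at h2
    obtain ⟨w, hw, hw'⟩ := hT k h2
    rw [hxv] at hw'
    have h3 := C.inj i _ v w hw'.symm
    refine ⟨inv_eq_one.1 h3, ?_⟩
    rw [h3, one_smul] at hw'
    rwa [← hinj hw']
  have hinr : ∀ m j, (l m).2 = Sum.inr j → (l m).1 = 1 ∧ (D (Sum.inr j)).1 = i ∧
      dist (D (Sum.inr j)).2 v ≤ δ ∧ ¬ Cub p c v := by
    intro m j hm
    have h2 := mem_fn (hx m)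
    rw [hm] at h2
    exact hfar j _ _ v h2 hvb (by rw [smul_inv_smul, hxv])
  have hone : ∀ m, (l m).1 = 1 ∧ (D (l m).2).1 = i := by
    intro m
    rcases hm : (l m).2 with k | j
    · exact ⟨(hinl m k hm).1, by rw [hD]⟩
    · exact ⟨(hinr m j hm).1, (hinr m j hm).2.1⟩
  have haff := SX_affine C (l := lab D l) (γ := 1) (i := i) hone t
  rw [SX_apply C hg, ht, one_smul] at haff
  have hp' : ∑ m, t m • (D (l m).2).2 = p := (hinj haff).symm
  have hc1 := case1b hn p hc (fun m => (l m).2) (fun j => (D j).2) (fun k => by rw [hD]) v hδ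
    (fun m k hm => (mem_tsupport_special (hinl m k hm).2).2)
    (fun m j hm => (hinr m j hm).2.2) t t.2.1 t.2.2 hp'
  exact fun m => ⟨(hone m).1, hc1 m⟩

end Vale.Agent.P223.X.Fund.Case
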