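import Vale.Agent.P223.X.Form

/-! Phase 3 : the prism identity with values in a general function, localisation of weights. -/

namespace Vale.Agent.P223.X.FormW

open scoped ContDiff Topology
open MeasureTheory Vale.Agent.P223.H Vale.Agent.P223.X Vale.Agent.P223.X.WtX
  Vale.Agent.P223.X.DensX Vale.Agent.P223.X.StokesX Vale.Agent.P223.X.Form
  Vale.Agent.P223.H.B6c Set Filter Function

section
variable {n : ℕ} {M X Γ I : Type} [TopologicalSpace M] [TopologicalSpace X] [Group Γ]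
    [MulAction Γ X] {C : Cov n M X Γ I} [Fintype I] [T2Space X] {χ : I → E n → ℝ}

/-- Localisation (W2). -/
theorem wtX_loc (hχ : Part C χ) (f : Fin (n + 1) → X → ℝ) (hf : ∀ k, C.Ck 1 (f k))
    (k : Fin (n + 1)) (hc : HasCompactSupport (f k)) (γ : Γ) (i : I)
    (hr : tsupport (f k) ⊆ range fun y => γ • C.ψ i y) :
    wtX C χ f = H.wt fun k => C.rep (f k) γ i := by
  have hn := nice_igx hf k hc
  rw [wtX_eq, intg_chart hχ hn.cont ?_ hc (fun γ i y h => igx_zero k h) γ i hr]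
  · rfl
  · exact (dn_jdet fun k : Fin n => hf k.succ).mul (f 0)

variable {ι : Type} [Fintype ι]

/-- Sums. -/
noncomputable def SH (w : (Fin (n + 1) → Γ × ι) → ℝ) (H : (Fin (n + 1) → Γ × ι) → ℝ) : ℝ :=
  ∑ᶠ l : NL Γ ι n, w l.1 * H l.1

theorem stepH (hn : 1 ≤ n) (hχ : Part C χ) (P P' : PUX C ι) (H : (Fin (n + 1) → Γ × ι) → ℝ)
    (hH : ∀ (γ : Γ) l, H (B6c.tr γ l) = H l) (j : Fin (n + 1)) :
    ∑ᶠ l : NL Γ ι (n + 1), ((-1 : ℝ) ^ (j : ℕ) * pw χ P P' j l.1) *
        ∑ i : Fin (n + 2), (-1 : ℝ) ^ (i : ℕ) * H (l.1 ∘ i.succAbove) =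
      SH (mx χ P P' j) H - SH (mx χ P P' (j + 1)) H := by
  have h1 := sum_alt (good_pw χ P P' j) H hH
  have h0 : ∀ l : NL Γ ι (n + 1), ((-1 : ℝ) ^ (j : ℕ) * pw χ P P' j l.1) *
      ∑ i : Fin (n + 2), (-1 : ℝ) ^ (i : ℕ) * H (l.1 ∘ i.succAbove) = (-1 : ℝ) ^ (j : ℕ) •
      (pw χ P P' j l.1 * ∑ i : Fin (n + 2), (-1 : ℝ) ^ (i : ℕ) * H (l.1 ∘ i.succAbove)) :=
    fun l => by rw [smul_eq_mul, mul_assoc]
  simp only [h0]
  rw [← smul_finsum, smul_eq_mul, h1,
    Finset.sum_eq_add j.castSucc j.succ (Fin.castSucc_lt_succ).ne]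
  · have e1 : dd n (pw χ P P' j) j.castSucc = mx χ P P' j := funext fun m => dd_cast hχ P P' j m
    have e2 : dd n (pw χ P P' j) j.succ = mx χ P P' (j + 1) := funext fun m => dd_succ hχ P P' j m
    rw [e1, e2, Fin.val_castSucc, Fin.val_succ, pow_succ]
    unfold SH
    rw [mul_add, ← mul_assoc, ← mul_assoc, ← mul_assoc, ← pow_add,
      Even.neg_one_pow ⟨(j : ℕ), rfl⟩]
    ring
  · intro i _ hi
    have e1 : dd n (pw χ P P' j) i = fun _ => 0 :=
      funext fun m => dd_zero hn hχ P P' j i hi.1 hi.2 m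
    simp only [e1, zero_mul, finsum_zero, mul_zero]
  · intro h; exact absurd (Finset.mem_univ _) h
  · intro h; exact absurd (Finset.mem_univ _) h

/-- Summed prism weights. -/
noncomputable def PW (χ : I → E n → ℝ) (P P' : PUX C ι) (l : Fin (n + 2) → Γ × ι) : ℝ :=
  -∑ j : Fin (n + 1), (-1 : ℝ) ^ (j : ℕ) * pw χ P P' j l

theorem good_PW (P P' : PUX C ι) : Gd (n + 1) (PW χ P P') := by
  constructor
  · intro γ l
    unfold PW
    simp only [(good_pw χ P P' _).inv]
  · refine (Set.finite_iUnion fun j : Fin (n + 1) => (good_pw χ P P' j).fin).subset fun l hl => ?_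
    by_contra hc
    refine hl ?_
    rw [mem_iUnion] at hc
    push Not at hc
    unfold PW
    rw [Finset.sum_eq_zero, neg_zero]
    intro j _
    have : pw χ P P' j l.1 = 0 := by
      by_contra h
      exact hc j h
    rw [this, mul_zero]

theorem prismH (hn : 1 ≤ n) (hχ : Part C χ) (P P' : PUX C ι) (H : (Fin (n + 1) → Γ × ι) → ℝ)
    (hH : ∀ (γ : Γ) l, H (B6c.tr γ l) = H l) :
    SH (P.wt χ) H - SH (P'.wt χ) H = ∑ᶠ l : NL Γ ι (n + 1), PW χ P P' l.1 *
      ∑ i : Fin (n + 2), (-1 : ℝ) ^ (i : ℕ) * H (l.1 ∘ i.succAbove) := by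
  have h0 : ∀ l : NL Γ ι (n + 1), PW χ P P' l.1 *
      ∑ i : Fin (n + 2), (-1 : ℝ) ^ (i : ℕ) * H (l.1 ∘ i.succAbove) = (-1 : ℝ) •
      ∑ j : Fin (n + 1), ((-1 : ℝ) ^ (j : ℕ) * pw χ P P' j l.1) *
      ∑ i : Fin (n + 2), (-1 : ℝ) ^ (i : ℕ) * H (l.1 ∘ i.succAbove) := by
    intro l
    rw [← Finset.sum_mul, PW, smul_eq_mul, neg_mul, neg_mul, one_mul]
  simp only [h0]
  rw [← smul_finsum, finsum_sum_comm]
  · simp only [stepH hn hχ P P' H hH]
    rw [Fin.sum_univ_eq_sum_range fun j => SH (mx χ P P' j) H - SH (mx χ P P' (j + 1)) H,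
      Finset.sum_range_sub' fun j => SH (mx χ P P' j) H, mx_zero, mx_last, smul_eq_mul]
    ring
  · intro j _
    refine (good_pw χ P P' j).fin.subset fun l hl => ?_
    exact right_ne_zero_of_mul (left_ne_zero_of_mul hl)

end

section
variable {n : ℕ} {M X Γ I : Type} [TopologicalSpace M] [TopologicalSpace X] [Group Γ]
    [MulAction Γ X] {C : Cov n M X Γ I} [Fintype I] {χ : I → E n → ℝ}
    {ι ι' : Type} [Fintype ι] [Fintype ι']

omit [Fintype ι] [Fintype ι'] in
theorem ex1 (i : ι) : ∃! a, (Sum.elim some fun _ => none : ι ⊕ ι' → Option ι) a = some i := by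
  refine ⟨Sum.inl i, rfl, ?_⟩
  rintro (a | a) ha
  · exact congrArg Sum.inl (Option.some_injective _ ha)
  · exact absurd ha (by simp)

omit [Fintype ι] [Fintype ι'] in
theorem ex2 (i : ι') : ∃! a, (Sum.elim (fun _ => none) some : ι ⊕ ι' → Option ι') a = some i := by
  refine ⟨Sum.inr i, rfl, ?_⟩
  rintro (a | a) ha
  · exact absurd ha (by simp)
  · exact congrArg Sum.inr (Option.some_injective _ ha)

theorem SH_ext (P : PUX C ι) {κ : Type} [Fintype κ] (e : κ → Option ι)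
    (he : ∀ i, ∃! a, e a = some i) (s : ι → κ) (hs : ∀ i, e (s i) = some i)
    (H : (Fin (n + 1) → Γ × κ) → ℝ) : SH ((ext P e he).wt χ) H =
      SH (P.wt χ) fun l => H fun k => ((l k).1, s (l k).2) := by
  have hinj : Injective s := fun i j hij => by
    have := hs i
    rw [hij, hs j] at this
    exact (Option.some_injective _ this).symm
  have hfn : ∀ a : Γ × ι, (ext P e he).fn (a.1, s a.2) = P.fn a := by
    intro a
    funext x
    simp only [PUX.fn, Form.ext, hs]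
  have hfn0 : ∀ a : Γ × κ, e a.2 = none → (ext P e he).fn a = fun _ => 0 := by
    intro a ha
    funext x
    simp only [PUX.fn, Form.ext, ha]
  rw [SH, SH]
  set g : NL Γ ι n → NL Γ κ n := fun l => ⟨fun j => ((l.1 j).1, s (l.1 j).2), l.2⟩ with hg
  have hginj : Injective g := by
    intro l l' h
    have h1 := congrArg Subtype.val h
    refine Subtype.ext (funext fun j => ?_)
    have h2 : ((l.1 j).1, s (l.1 j).2) = ((l'.1 j).1, s (l'.1 j).2) := congrFun h1 j
    exact Prod.ext (Prod.ext_iff.1 h2).1 (hinj (Prod.ext_iff.1 h2).2)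
  rw [← finsum_mem_univ, finsum_mem_inter_support_eq' _ Set.univ (Set.range g),
    finsum_mem_range hginj]
  · refine finsum_congr fun l => ?_
    have h1 : (ext P e he).wt χ (g l).1 = P.wt χ l.1 := by
      rw [PUX.wt, PUX.wt]
      congr 1
      funext k
      exact hfn (l.1 k)
    rw [h1]
  · intro l hl
    refine iff_of_true (mem_univ _) ?_
    have h1 : (ext P e he).wt χ l.1 ≠ 0 := left_ne_zero_of_mul hl
    obtain ⟨x, hx⟩ := exists_mem h1
    have h2 : ∀ k, ∃ i, e (l.1 k).2 = some i := by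
      intro k
      cases hea : e (l.1 k).2 with
      | some i => exact ⟨i, rfl⟩
      | none =>
        have h3 := hx k
        rw [hfn0 (l.1 k) hea] at h3
        simp [tsupport] at h3
    choose i hi using h2
    refine ⟨⟨fun j => ((l.1 j).1, i j), l.2⟩, ?_⟩
    refine Subtype.ext (funext fun j => ?_)
    refine Prod.ext rfl ?_
    show s (i j) = (l.1 j).2
    exact (he (i j)).unique (hs (i j)) (hi j)

/-- The prism identity (W1). -/
theorem prism [T2Space X] (hn : 1 ≤ n) (hχ : Part C χ) (P : PUX C ι) (P' : PUX C ι') :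
    ∃ W : (Fin (n + 2) → Γ × (ι ⊕ ι')) → ℝ,
      (∀ (γ : Γ) l, W (fun k => (γ * (l k).1, (l k).2)) = W l) ∧
      {l : Fin (n + 2) → Γ × (ι ⊕ ι') | (l 0).1 = 1 ∧ W l ≠ 0}.Finite ∧
      (∀ l, W l ≠ 0 → ∃ x, ∀ k,
        (∀ i, (l k).2 = Sum.inl i → x ∈ tsupport (P.fn ((l k).1, i))) ∧
        (∀ i, (l k).2 = Sum.inr i → x ∈ tsupport (P'.fn ((l k).1, i)))) ∧
      ∀ H : (Fin (n + 1) → Γ × (ι ⊕ ι')) → ℝ,
        (∀ (γ : Γ) l, H (fun k => (γ * (l k).1, (l k).2)) = H l) →
        (∑ᶠ l ∈ {l : Fin (n + 1) → Γ × ι | (l 0).1 = 1},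
          P.wt χ l * H (fun k => ((l k).1, Sum.inl (l k).2))) -
        (∑ᶠ l ∈ {l : Fin (n + 1) → Γ × ι' | (l 0).1 = 1},
          P'.wt χ l * H (fun k => ((l k).1, Sum.inr (l k).2))) =
        ∑ᶠ l ∈ {l : Fin (n + 2) → Γ × (ι ⊕ ι') | (l 0).1 = 1},
          W l * ∑ k : Fin (n + 2), (-1 : ℝ) ^ (k : ℕ) * H (l ∘ k.succAbove) := by
  set Q : PUX C (ι ⊕ ι') := ext P (Sum.elim some fun _ => none) ex1 with hQ
  set Q' : PUX C (ι ⊕ ι') := ext P' (Sum.elim (fun _ => none) some) ex2 with hQ'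
  have hgood := good_PW (χ := χ) Q Q'
  have hl : ∀ (g : Γ) (i : ι), Q.fn (g, Sum.inl i) = P.fn (g, i) := fun _ _ => rfl
  have hr : ∀ (g : Γ) (i : ι'), Q.fn (g, Sum.inr i) = fun _ => 0 := fun _ _ => rfl
  have hl' : ∀ (g : Γ) (i : ι), Q'.fn (g, Sum.inl i) = fun _ => 0 := fun _ _ => rfl
  have hr' : ∀ (g : Γ) (i : ι'), Q'.fn (g, Sum.inr i) = P'.fn (g, i) := fun _ _ => rfl
  have h0 : ∀ x : X, x ∉ tsupport (fun _ : X => (0 : ℝ)) := by simp [tsupport]
  refine ⟨PW χ Q Q', hgood.inv, ?_, ?_, ?_⟩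
  · have := hgood.fin.image Subtype.val
    refine this.subset ?_
    rintro l ⟨h1, h2⟩
    exact ⟨⟨l, h1⟩, h2, rfl⟩
  · intro l hl0
    obtain ⟨j, hj⟩ : ∃ j, pw χ Q Q' j l ≠ 0 := by
      by_contra hc
      push Not at hc
      refine hl0 ?_
      unfold PW
      simp only [hc, mul_zero, Finset.sum_const_zero, neg_zero]
    obtain ⟨x, hx⟩ := exists_mem hj
    refine ⟨x, fun a => ?_⟩
    by_cases ha : (a : ℕ) ≤ j
    · have hk : (a : ℕ) < n + 1 := lt_of_le_of_lt ha j.2
      set k : Fin (n + 1) := ⟨a, hk⟩ with hkd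
      have hka : k.castSucc = a := rfl
      have h1 : x ∈ tsupport (Q.fn (l a)) := by
        have h1 := hx k
        unfold Form.pr at h1
        split_ifs at h1 with h2 h3
        · rwa [hka] at h1
        · rw [hka] at h1
          exact tsupport_mul_subset_left h1
        · exfalso
          have h4 : k ≤ j := ha
          exact h3 (le_antisymm h4 (not_lt.1 h2))
      have hla : l a = ((l a).1, (l a).2) := rfl
      refine ⟨fun i hi => ?_, fun i hi => ?_⟩
      · rwa [hla, hi, hl] at h1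
      · rw [hla, hi, hr] at h1
        exact absurd h1 (h0 x)
    · push Not at ha
      have hk : (a : ℕ) - 1 < n + 1 := by have := a.2; omega
      set k : Fin (n + 1) := ⟨a - 1, hk⟩ with hkd
      have hka : k.succ = a := by
        apply Fin.ext
        show (a : ℕ) - 1 + 1 = a
        omega
      have hkj : j ≤ k := by
        show (j : ℕ) ≤ (a : ℕ) - 1
        omega
      have h1 : x ∈ tsupport (Q'.fn (l a)) := by
        have h1 := hx k
        unfold Form.pr at h1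
        rw [if_neg (not_lt.2 hkj)] at h1
        split_ifs at h1 with h3
        · rw [hka] at h1
          exact tsupport_mul_subset_right h1
        · rwa [hka] at h1
      have hla : l a = ((l a).1, (l a).2) := rfl
      refine ⟨fun i hi => ?_, fun i hi => ?_⟩
      · rw [hla, hi, hl'] at h1
        exact absurd h1 (h0 x)
      · rwa [hla, hi, hr'] at h1
  · intro H hH
    rw [← finsum_set_coe_eq_finsum_mem, ← finsum_set_coe_eq_finsum_mem,
      ← finsum_set_coe_eq_finsum_mem]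
    have h1 := prismH hn hχ Q Q' H hH
    rw [hQ, hQ', SH_ext P _ ex1 Sum.inl (fun i => rfl) H,
      SH_ext P' _ ex2 Sum.inr (fun i => rfl) H, ← hQ, ← hQ'] at h1
    exact h1

end

end Vale.Agent.P223.X.FormW
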