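import Vale.Agent.P223.X.FundC
import Vale.Agent.P223.X.FormW
import Vale.Agent.P223.X.FinX

/-! Block Y5 : assembly of `SpecFundX`. -/

namespace Vale.Agent.P223.X.FundE

open scoped ContDiff Topology
open Set Vale.Agent.P223.H Vale.Agent.P223.X.Fund

theorem formHom : SpecFormHom :=
  fun _ _ _ _ _ _ _ _ _ _ _ _ _ hn hχ _ _ _ _ P P' => FormW.prism hn hχ P P'

theorem wts : SpecWts :=
  fun n M X Γ I _ _ _ _ _ _ C χ _ _ ι _ P => ⟨fun γ l => (Form.good_wt P).inv γ l,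
    FinX.main n M X Γ I C χ ι P, fun _ hl => WtX.exists_mem hl⟩

section
variable {n : ℕ} {M X Γ I : Type} [TopologicalSpace M] [TopologicalSpace X] [Group Γ]
    [MulAction Γ X] (C : Cov n M X Γ I)

theorem inj_wt (hR : SpecRepX) [Fintype I] [T2Space X] {χ : I → E n → ℝ} (hn : 1 ≤ n)
    (hχ : Part C χ) {κ : Type} [Fintype κ] {D : κ → I × E n} {P : PUX C κ} {ε : ℝ}
    (hP : Adp C D P ε) {l : Fin (n + 1) → Γ × κ} (hl : P.wt χ l ≠ 0) :
    Function.Injective fun k => (l k).2 := by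
  intro a b hab
  by_contra hne
  apply hl
  refine hR n M X Γ I C χ hn hχ κ P l a b hne ?_
  obtain ⟨x, hx⟩ := (wts n M X Γ I C χ hn hχ κ P).2.2 l hl
  obtain ⟨y, -, hy⟩ := hP.near (hx a)
  obtain ⟨z, -, hz⟩ := hP.near (hx b)
  have hab' : (l a).2 = (l b).2 := hab
  rw [← hab'] at hz
  have h1 : ((l b).1⁻¹ * (l a).1) • C.ψ (D (l a).2).1 y = C.ψ (D (l a).2).1 z := by
    rw [mul_smul, hy, ← hz, inv_smul_smul]
  have h2 := C.inj _ _ _ _ h1
  exact Prod.ext (inv_mul_eq_one.1 h2).symm hab'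

end

theorem main (hR : SpecRepX) (hL : SpecLocX) : SpecFundX := by
  intro n M X Γ I _ _ _ _ _ _ _ _ C χ hn hχ
  obtain ⟨ε₁, hε₁, h1⟩ := small C n 1 one_pos
  obtain ⟨ε₂, hε₂, h2⟩ := small C (n + 1) 1 one_pos
  set ε := min ε₁ ε₂ with hε
  have hε0 : 0 < ε := lt_min hε₁ hε₂
  have g1 : ∀ l : Fin (n + 1) → Γ × (I × E n), Fund.Sm C ε l → Gd C n l := fun l hl =>
    (h1 l (hl.mono (min_le_left _ _))).1
  have g2 : ∀ l : Fin (n + 2) → Γ × (I × E n), Fund.Sm C ε l → Gd C (n + 1) l := fun l hl =>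
    (h2 l (hl.mono (min_le_right _ _))).1
  obtain ⟨κ, _, P, D, hP, hD⟩ := FundC.main n M X Γ I C χ hn hχ ε hε0
  refine ⟨κ, inferInstance, P, fun k => C.ψ (D k).1 (D k).2, fun l => SX C n (lab D l), hD,
    fun l hl => inj_wt C hR hn hχ hP hl, fun l hl k => ?_, ?_, fun p => ?_⟩
  · obtain ⟨x, hx⟩ := (wts n M X Γ I C χ hn hχ κ P).2.2 l hl
    exact SX_vertex C (g1 _ (hP.sm hx)) k
  · exact bd_cy C Form.mainA wts hn hχ hP g1
  · obtain ⟨κ', _, P', D', hP', i, w, A, s, s', hA, hs, hs', ht, b, c, hc, hz⟩ :=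
      hL n M X Γ I C χ hn hχ p ε hε0
    obtain ⟨b', hb'⟩ := hom_cy C formHom wts hn hχ hP hP' g2
    refine ⟨i, w, A, s, s', hA, hs, hs', ht, b + b', c, hc, ?_⟩
    have h3 : cy C χ D P = cy C χ D' P' + bd (n + 1) b' := by rw [← hb']; abel
    refine (show _ = cy C χ D P from rfl).trans ?_
    rw [h3, hz, map_add]
    abel

end Vale.Agent.P223.X.FundE
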