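import Vale.Agent.P223.X.Avg

/-! Block Y5: generic small partitions of unity, adapted to a ball in a chart. -/

namespace Vale.Agent.P223.X.FundG

open Set Metric Vale.Agent.P223.H Vale.Agent.P223.X.Avg
open scoped ContDiff Topology

variable {n : ℕ} {M X Γ I : Type} [TopologicalSpace M] [TopologicalSpace X] [Group Γ]
    [MulAction Γ X] (C : Cov n M X Γ I)

theorem closed_orbit [Finite I] [T2Space X] {K : Set X} (hK : IsCompact K) (i : I) :
    IsClosed {y : E n | ∃ γ : Γ, γ • C.ψ i y ∈ K} := by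
  have h1 : {y : E n | ∃ γ : Γ, γ • C.ψ i y ∈ K} = ⋃ γ : Γ, {y : E n | γ • C.ψ i y ∈ K} := by
    ext y; simp
  rw [h1]
  refine LocallyFinite.isClosed_iUnion ?_ fun γ =>
    hK.isClosed.preimage ((C.cont γ).comp (C.emb i).continuous)
  intro y
  refine ⟨closedBall y 1, closedBall_mem_nhds y one_pos, ?_⟩
  have hL : IsCompact (C.ψ i '' closedBall y 1) :=
    (isCompact_closedBall y 1).image (C.emb i).continuous
  refine (properX' C hL hK).subset ?_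
  rintro γ ⟨z, hz, hz'⟩
  exact ⟨C.ψ i z, ⟨z, hz', rfl⟩, hz⟩

theorem gen [Finite I] [T2Space X] (i₀ : I) (y₀ : E n) (hy₀ : ‖y₀‖ ≤ 1) (r₂ : ℝ) (_hr₀ : 0 < r₂)
    (hr₂ : r₂ < 2) (ε : ℝ) (hε : 0 < ε) :
    ∃ (ι : Type) (_ : Fintype ι) (φ : ι → X → ℝ) (D : ι → I × E n),
      (∀ i, C.Ck ∞ (φ i)) ∧ (∀ i x, 0 ≤ φ i x) ∧ (∀ i, HasCompactSupport (φ i)) ∧
      (∀ x, ∑ i, ∑ᶠ γ : Γ, φ i (γ⁻¹ • x) = 1) ∧
      (∀ i, ‖(D i).2‖ ≤ 3 ∧ ∀ x ∈ tsupport (φ i), ∃ y, ‖y - (D i).2‖ ≤ ε ∧ C.ψ (D i).1 y = x) ∧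
      (∀ i (γ : Γ), (∃ x ∈ tsupport (φ i), γ • x ∈ C.ψ i₀ '' ball y₀ r₂) →
        γ = 1 ∧ (D i).1 = i₀) := by
  classical
  have := Fintype.ofFinite I
  set r₃ : ℝ := (r₂ + 2) / 2 with hr₃
  have h23 : r₂ < r₃ := by rw [hr₃]; linarith
  have h32 : r₃ ≤ 2 := by rw [hr₃]; linarith
  -- the compact sets in the charts
  set KB : I → Set (E n) := fun i => closedBall (0 : E n) 1 ∩
    {y | ∀ γ : Γ, γ • C.ψ i y ∉ C.ψ i₀ '' ball y₀ r₃} with hKB
  have hKBc : ∀ i, IsCompact (KB i) := fun i => by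
    refine (isCompact_closedBall (0 : E n) 1).inter_right ?_
    have : {y | ∀ γ : Γ, γ • C.ψ i y ∉ C.ψ i₀ '' ball y₀ r₃} =
        ⋂ γ : Γ, (fun y => γ • C.ψ i y) ⁻¹' (C.ψ i₀ '' ball y₀ r₃)ᶜ := by
      ext y; simp
    rw [this]
    exact isClosed_iInter fun γ => ((C.emb i₀).isOpenMap _ isOpen_ball).isClosed_compl.preimage
      ((C.cont γ).comp (C.emb i).continuous)
  set CC : I → Set (E n) := fun i => {y : E n | ∃ γ : Γ, γ • C.ψ i y ∈
    C.ψ i₀ '' closedBall y₀ r₂} with hCC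
  have hCCc : ∀ i, IsClosed (CC i) := fun i =>
    closed_orbit C ((isCompact_closedBall y₀ r₂).image (C.emb i₀).continuous) i
  have hdis : ∀ i, Disjoint (KB i) (CC i) := fun i => by
    refine Set.disjoint_left.2 fun y hy hy' => ?_
    obtain ⟨γ, hγ⟩ := hy'
    exact hy.2 γ (image_mono (closedBall_subset_ball h23) hγ)
  choose δ₁ hδ₁ hdis' using fun i => (hdis i).exists_cthickenings (hKBc i) (hCCc i)
  obtain ⟨δ', hδ'0, hδ'1, hδ'2⟩ : ∃ δ' : ℝ, 0 < δ' ∧ δ' ≤ ε ∧ ∀ i, δ' ≤ δ₁ i := by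
    have h1 : ∀ᶠ δ in 𝓝[>] (0 : ℝ), δ ≤ ε := nhdsWithin_le_nhds (Iic_mem_nhds hε)
    have h2 : ∀ᶠ δ in 𝓝[>] (0 : ℝ), ∀ i, δ ≤ δ₁ i :=
      Filter.eventually_all.2 fun i => nhdsWithin_le_nhds (Iic_mem_nhds (hδ₁ i))
    obtain ⟨δ, ⟨h3, h4⟩, h5⟩ := ((h1.and h2).and self_mem_nhdsWithin).exists
    exact ⟨δ, h5, h3, h4⟩
  set L : I → Set (E n) := fun i => KB i ∪ {y | i = i₀ ∧ y ∈ closedBall y₀ r₃} with hL
  have hLc : ∀ i, IsCompact (L i) := fun i => by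
    refine (hKBc i).union ?_
    by_cases hi : i = i₀
    · have : {y : E n | i = i₀ ∧ y ∈ closedBall y₀ r₃} = closedBall y₀ r₃ := by
        ext y; simp [hi]
      rw [this]; exact isCompact_closedBall _ _
    · have : {y : E n | i = i₀ ∧ y ∈ closedBall y₀ r₃} = ∅ := by
        ext y; simp [hi]
      rw [this]; exact isCompact_empty
  have hLcov : ∀ x : X, ∃ (γ : Γ) (i : I) (y : E n), y ∈ L i ∧ γ • C.ψ i y = x := by
    intro x
    obtain ⟨γ, i, y, hy, rfl⟩ := exists_chart C x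
    by_cases h : y ∈ KB i
    · exact ⟨γ, i, y, Or.inl h, rfl⟩
    · have h2 : ¬ ∀ γ' : Γ, γ' • C.ψ i y ∉ C.ψ i₀ '' ball y₀ r₃ := fun h3 => h
        ⟨by rw [mem_closedBall, dist_zero_right]; exact hy.le, h3⟩
      push Not at h2
      obtain ⟨γ', z, hz, hz'⟩ := h2
      refine ⟨γ * γ'⁻¹, i₀, z, Or.inr ⟨rfl, ball_subset_closedBall hz⟩, ?_⟩
      rw [mul_smul, hz', inv_smul_smul]
  choose t htL htcov using fun i => (hLc i).elim_nhds_subcover (fun q => ball q δ')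
    fun q _ => ball_mem_nhds q hδ'0
  -- bump functions
  have hη : ∀ q : E n, ∃ η : E n → ℝ, Function.support η = ball q δ' ∧ ContDiff ℝ ∞ η ∧
      ∀ x, 0 ≤ η x := by
    intro q
    obtain ⟨η, h1, h2, h3⟩ := (isOpen_ball (x := q) (ε := δ')).exists_contDiff_support_eq
      (n := ⊤)
    exact ⟨η, h1, h2, fun x => (h3 ⟨x, rfl⟩).1⟩
  choose η hη1 hη2 hη0 using hη
  have hηts : ∀ q, tsupport (η q) ⊆ closedBall q δ' := fun q => by
    rw [tsupport, hη1]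
    exact closure_ball_subset_closedBall
  have hηc : ∀ q, HasCompactSupport (η q) := fun q =>
    HasCompactSupport.of_support_subset_isCompact (isCompact_closedBall q δ')
      (by rw [hη1]; exact ball_subset_closedBall)
  let ι : Type := Σ i : I, t i
  let D : ι → I × E n := fun l => (l.1, (l.2 : E n))
  let ζ : ι → X → ℝ := fun l => C.ex l.1 (η l.2)
  have hζc : ∀ l, HasCompactSupport (ζ l) := fun l => hcs_ex C (hηc _)
  have hζs : ∀ l, C.Ck ∞ (ζ l) := fun l => Ck_ex C (hη2 _) (hηc _)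
  have hζ0 : ∀ l x, 0 ≤ ζ l x := fun l x => ex_nonneg C l.1 (hη0 _) x
  have hζts : ∀ l, tsupport (ζ l) ⊆ C.ψ l.1 '' closedBall (l.2 : E n) δ' := fun l => by
    have hcl : IsClosed (C.ψ l.1 '' closedBall (l.2 : E n) δ') :=
      ((isCompact_closedBall _ _).image (C.emb l.1).continuous).isClosed
    refine closure_minimal (fun x hx => ?_) hcl
    by_cases hr : x ∈ Set.range (C.ψ l.1)
    · obtain ⟨y, rfl⟩ := hr
      refine ⟨y, hηts _ (subset_tsupport _ fun h0 => hx ?_), rfl⟩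
      show C.ex l.1 (η l.2) (C.ψ l.1 y) = 0
      rw [ex_ψ, h0]
    · exact absurd (if_neg hr) hx
  have hfin : ∀ (l : ι) (x : X), (Function.support fun γ : Γ => ζ l (γ⁻¹ • x)).Finite := by
    intro l x
    refine (properX' C (K := tsupport (ζ l)) (K' := {x}) (hζc l) isCompact_singleton).subset
      fun g hg => ⟨g⁻¹ • x, subset_tsupport _ hg, ?_⟩
    simp
  let N : X → ℝ := fun x => ∑ l, gav (fun _ : Γ => (1 : ℝ)) (ζ l) x
  have hNs : C.Ck ∞ N := fun γ i => by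
    show ContDiff ℝ ∞ fun y => ∑ l, gav (fun _ : Γ => (1 : ℝ)) (ζ l) (γ • C.ψ i y)
    exact ContDiff.sum fun l _ => Ck_gav C (fun _ => 1) (ζ l) (hζc l) (hζs l) γ i
  have hNinv : ∀ (γ : Γ) x, N (γ • x) = N x := fun γ x =>
    Finset.sum_congr rfl fun l _ => gav_one_inv (ζ l) γ x
  have hge : ∀ l x, gav (fun _ : Γ => (1 : ℝ)) (ζ l) x = ∑ᶠ γ : Γ, ζ l (γ⁻¹ • x) := fun l x =>
    finsum_congr fun γ => one_smul _ _
  have hNpos : ∀ x, 0 < N x := by
    intro x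
    obtain ⟨γ, i, y, hy, rfl⟩ := hLcov x
    obtain ⟨q, hq, hq'⟩ := mem_iUnion₂.1 (htcov i hy)
    refine Finset.sum_pos' (fun l _ => ?_) ⟨⟨i, ⟨q, hq⟩⟩, Finset.mem_univ _, ?_⟩
    · rw [hge]; exact finsum_nonneg fun γ => hζ0 _ _
    · rw [hge]
      refine finsum_pos (fun γ => hζ0 _ _) ⟨γ, ?_⟩ (hfin _ _)
      refine lt_of_le_of_ne (hζ0 _ _) (Ne.symm ?_)
      show C.ex i (η q) (γ⁻¹ • γ • C.ψ i y) ≠ 0
      rw [inv_smul_smul, ex_ψ]
      have : y ∈ Function.support (η q) := by rw [hη1]; exact hq'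
      exact this
  have hts : ∀ l : ι, tsupport (fun x => ζ l x / N x) ⊆ tsupport (ζ l) := by
    intro l
    refine closure_mono fun x hx h0 => hx ?_
    show ζ l x / N x = 0
    rw [h0, zero_div]
  refine ⟨ι, inferInstance, fun l x => ζ l x / N x, D, ?_, ?_, ?_, ?_, ?_, ?_⟩
  · exact fun l γ i => (hζs l γ i).div (hNs γ i) fun y => (hNpos _).ne'
  · exact fun l x => div_nonneg (hζ0 l x) (hNpos x).le
  · exact fun l => (hζc l).of_isClosed_subset (isClosed_tsupport _) (hts l)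
  · intro x
    have h1 : ∀ (l : ι) (γ : Γ), ζ l (γ⁻¹ • x) / N (γ⁻¹ • x) = ζ l (γ⁻¹ • x) * (N x)⁻¹ := by
      intro l γ
      rw [hNinv, div_eq_mul_inv]
    simp_rw [h1]
    have h2 : ∀ l : ι, ∑ᶠ γ : Γ, ζ l (γ⁻¹ • x) * (N x)⁻¹ =
        gav (fun _ : Γ => (1 : ℝ)) (ζ l) x * (N x)⁻¹ := fun l => by
      rw [hge]; exact (finsum_mul' _ _ (hfin l x)).symm
    simp_rw [h2]
    rw [← Finset.sum_mul]
    exact mul_inv_cancel₀ (hNpos x).ne'
  · intro l
    refine ⟨?_, fun x hx => ?_⟩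
    · show ‖(l.2 : E n)‖ ≤ 3
      rcases htL l.1 l.2 l.2.2 with h | ⟨_, h⟩
      · have := h.1
        rw [mem_closedBall, dist_zero_right] at this
        linarith
      · rw [mem_closedBall, dist_eq_norm] at h
        have := norm_sub_norm_le (l.2 : E n) y₀
        linarith
    · obtain ⟨y, hy, rfl⟩ := hζts l (hts l hx)
      rw [mem_closedBall, dist_eq_norm] at hy
      exact ⟨y, hy.trans hδ'1, rfl⟩
  · rintro l γ ⟨x, hx, z, hz, hγx⟩
    obtain ⟨y, hy, rfl⟩ := hζts l (hts l hx)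
    rcases htL l.1 l.2 l.2.2 with hq | ⟨hi, hq⟩
    · exfalso
      have h1 : y ∈ cthickening (δ₁ l.1) (KB l.1) :=
        cthickening_mono (hδ'2 l.1) _ (closedBall_subset_cthickening hq δ' hy)
      have h2 : y ∈ cthickening (δ₁ l.1) (CC l.1) :=
        self_subset_cthickening (CC l.1) ⟨γ, z, ball_subset_closedBall hz, hγx⟩
      exact Set.disjoint_left.1 (hdis' l.1) h1 h2
    · have hi' : l.1 = i₀ := hi
      refine ⟨?_, hi'⟩
      rw [hi'] at hγx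
      exact C.inj i₀ γ y z hγx.symm

end Vale.Agent.P223.X.FundG
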