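import Vale.Agent.P223.X.SpecF
import Vale.Agent.P223.X.FundG

/-! Block F6 (`SpecNear`) : partitions of unity adapted to a point. -/

namespace Vale.Agent.P223.X.FundN

open scoped ContDiff Topology
open Set Metric Vale.Agent.P223.H B8b Vale.Agent.P223.X.Fund Vale.Agent.P223.X.Avg

variable {n : ℕ} {M X Γ I : Type} [TopologicalSpace M] [TopologicalSpace X] [Group Γ]
    [MulAction Γ X] (C : Cov n M X Γ I)

theorem tsup_ex [T2Space X] (i : I) {h : E n → ℝ} (hc : HasCompactSupport h) :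
    tsupport (C.ex i h) ⊆ C.ψ i '' tsupport h := by
  refine closure_minimal (fun x hx => ?_)
    (IsCompact.image (s := tsupport h) hc (C.emb i).continuous).isClosed
  by_cases hr : x ∈ range (C.ψ i)
  · obtain ⟨y, rfl⟩ := hr
    refine ⟨y, subset_tsupport _ fun h0 => hx ?_, rfl⟩
    rw [ex_ψ, h0]
  · exact absurd (if_neg hr) hx

include C in
theorem fin_supp [Finite I] [T2Space X] {f : X → ℝ} (hf : HasCompactSupport f) (x : X) :
    (Function.support fun γ : Γ => f (γ⁻¹ • x)).Finite := by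
  refine (properX' C (K := tsupport f) (K' := {x}) hf isCompact_singleton).subset
    fun g hg => ⟨g⁻¹ • x, subset_tsupport _ hg, ?_⟩
  simp

theorem sum_ex (i : I) (b : E n → ℝ) (p : E n) (c : ℝ) (x : X) :
    ∑ k : Fin (n + 1), C.ex i (fun y => b y * tht k (crd p c y)) x = C.ex i b x := by
  by_cases hr : x ∈ range (C.ψ i)
  · obtain ⟨y, rfl⟩ := hr
    simp only [ex_ψ]
    rw [← Finset.mul_sum, sum_tht, mul_one]
  · have h0 : ∀ h : E n → ℝ, C.ex i h x = 0 := fun h => if_neg hr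
    simp only [h0, Finset.sum_const_zero]

/-- the average of `b` -/
noncomputable def av (i : I) (b : E n → ℝ) : X → ℝ := gav (fun _ : Γ => (1 : ℝ)) (C.ex i b)

theorem av_eq (i : I) (b : E n → ℝ) (x : X) : av C i b x = ∑ᶠ γ : Γ, C.ex i b (γ⁻¹ • x) :=
  finsum_congr fun _ => one_smul _ _

theorem av_inv (i : I) (b : E n → ℝ) (γ : Γ) (x : X) : av C i b (γ • x) = av C i b x :=
  gav_one_inv _ γ x

theorem sum_sp [Finite I] [T2Space X] (i : I) (b : E n → ℝ) (hbc : HasCompactSupport b)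
    (p : E n) (c : ℝ) (x : X) :
    ∑ k : Fin (n + 1), ∑ᶠ γ : Γ, C.ex i (fun y => b y * tht k (crd p c y)) (γ⁻¹ • x) =
      av C i b x := by
  rw [← finsum_sum_comm]
  · rw [av_eq]
    exact finsum_congr fun γ => sum_ex C i b p c _
  · intro k _
    exact fin_supp C (hcs_ex C (hbc.mul_right)) x

theorem sum_gen [Finite I] [T2Space X] (i : I) (b : E n → ℝ) {φ : X → ℝ}
    (hφ : HasCompactSupport φ) (x : X) :
    ∑ᶠ γ : Γ, (1 - av C i b (γ⁻¹ • x)) * φ (γ⁻¹ • x) =
      (1 - av C i b x) * ∑ᶠ γ : Γ, φ (γ⁻¹ • x) := by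
  rw [mul_finsum' _ _ (fin_supp C hφ x)]
  exact finsum_congr fun γ => by rw [av_inv]

theorem Ck_sp [T2Space X] (i : I) (b : E n → ℝ) (hbs : ContDiff ℝ 1 b)
    (hbc : HasCompactSupport b) (p : E n) (c : ℝ) (k : Fin (n + 1)) :
    C.Ck 1 (C.ex i (fun y => b y * tht k (crd p c y))) := by
  have hcrd : ContDiff ℝ 1 (crd p c) := by
    unfold crd
    fun_prop
  exact Ck_ex C (hbs.mul ((tht_contDiff k).comp hcrd)) hbc.mul_right

theorem Ck_gen [Finite I] [T2Space X] (i : I) (b : E n → ℝ) (hbs : ContDiff ℝ 1 b)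
    (hbc : HasCompactSupport b) {φ : X → ℝ} (hφ : C.Ck 1 φ) :
    C.Ck 1 (fun x => (1 - av C i b x) * φ x) := by
  intro γ i'
  have h1 : ContDiff ℝ 1 (C.rep (av C i b) γ i') :=
    Ck_gav C (fun _ => 1) _ (hcs_ex C hbc) (Ck_ex C hbs hbc) γ i'
  have h2 : ContDiff ℝ 1 (C.rep φ γ i') := hφ γ i'
  have h3 : ContDiff ℝ 1 (fun y => (1 - C.rep (av C i b) γ i' y) * C.rep φ γ i' y) :=
    (contDiff_const.sub h1).mul h2
  exact h3

/-- the special partition of unity -/
noncomputable def PS [Finite I] [T2Space X] (i : I) (b : E n → ℝ) (hbs : ContDiff ℝ 1 b)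
    (hbc : HasCompactSupport b) (p : E n) (c : ℝ) {κ : Type} [Fintype κ] (φ : κ → X → ℝ)
    (hφ : ∀ j, C.Ck 1 (φ j)) (hφc : ∀ j, HasCompactSupport (φ j))
    (hφ1 : ∀ x, ∑ j, ∑ᶠ γ : Γ, φ j (γ⁻¹ • x) = 1) : PUX C (Fin (n + 1) ⊕ κ) where
  φ := Sum.elim (fun k => C.ex i (fun y => b y * tht k (crd p c y)))
    (fun j x => (1 - av C i b x) * φ j x)
  smooth := by
    rintro (k | j)
    · exact Ck_sp C i b hbs hbc p c k
    · exact Ck_gen C i b hbs hbc (hφ j)
  supp := by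
    rintro (k | j)
    · exact hcs_ex (h := fun y => b y * tht k (crd p c y)) C hbc.mul_right
    · exact HasCompactSupport.mul_left (f := fun x => 1 - av C i b x) (hφc j)
  sum := by
    intro x
    rw [Fintype.sum_sum_type]
    simp only [Sum.elim_inl, Sum.elim_inr]
    rw [sum_sp C i b hbc p c x, Finset.sum_congr rfl fun j _ => sum_gen C i b (hφc j) x,
      ← Finset.mul_sum, hφ1]
    ring

theorem main : SpecNear := by
  classical
  intro n M X Γ I _ _ _ _ _ _ _ C χ hn hχ i p hp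
  refine ⟨1, one_pos, fun ε hε => ?_⟩
  have hn0 : (0 : ℝ) < n := by exact_mod_cast hn
  have hn1 : (1 : ℝ) ≤ n := by exact_mod_cast hn
  set c : ℝ := min (ε / 4) (1 / 5) with hc
  have hc0 : 0 < c := by positivity
  have hc1 : 4 * c ≤ ε := by
    have := min_le_left (ε / 4) (1 / 5 : ℝ); rw [← hc] at this; linarith
  have hc2 : 4 * c < 1 := by
    have := min_le_right (ε / 4) (1 / 5 : ℝ); rw [← hc] at this; linarith
  set δ := min ε (c / (4 * n)) with hδ
  have hδ0 : 0 < δ := by positivity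
  have hδ1 : δ ≤ c / (4 * n) := min_le_right _ _
  have hδε : δ ≤ ε := min_le_left _ _
  have hδc : 2 * (c⁻¹ * δ) < 1 / n := by
    have h1 : c⁻¹ * δ ≤ c⁻¹ * (c / (4 * n)) := mul_le_mul_of_nonneg_left hδ1 (by positivity)
    have h2 : c⁻¹ * (c / (4 * n)) = 1 / n / 4 := by field_simp
    have h3 : 0 < 1 / (n : ℝ) := by positivity
    linarith
  obtain ⟨κ, hκ, φ, q, hφ, hφ0, hφc, hφ1, hφq, hφr⟩ :=
    FundG.gen C i p hp.le 1 one_pos (by norm_num) δ hδ0
  let b : ContDiffBump p := ⟨2 * c, 3 * c, by positivity, by linarith⟩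
  have hb1 : ∀ y ∈ closedBall p (2 * c), b y = 1 := fun y hy => b.one_of_mem_closedBall hy
  have hbt : tsupport b = closedBall p (3 * c) := b.tsupport_eq
  have hbs : ContDiff ℝ 1 b := b.contDiff
  have hbc : HasCompactSupport b := b.hasCompactSupport
  have hav1 : ∀ y, Cub p c y → av C i b (C.ψ i y) = 1 := by
    intro y hy
    have hy2 := hy.mem hc0
    rw [av_eq, finsum_eq_single _ (1 : Γ)]
    · rw [inv_one, one_smul, ex_ψ]; exact hb1 y hy2
    · intro γ hγ
      by_contra h0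
      apply hγ
      obtain ⟨z, -, hz⟩ := tsup_ex C i hbc (subset_tsupport _ h0)
      have := C.inj i γ⁻¹ y z hz.symm
      rwa [inv_eq_one] at this
  have hTc : ∀ k : Fin (n + 1), HasCompactSupport (fun y => b y * tht k (crd p c y)) := fun k =>
    hbc.mul_right
  obtain ⟨P, hP⟩ : ∃ P, P = PS C i b hbs hbc p c φ (fun j γ i' => contDiff_infty.1 (hφ j γ i') 1)
    hφc hφ1 := ⟨_, rfl⟩
  have hPl : ∀ k, P.φ (Sum.inl k) = C.ex i (fun y => b y * tht k (crd p c y)) := fun k => by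
    rw [hP]; rfl
  have hPr : ∀ j, P.φ (Sum.inr j) = fun x => (1 - av C i b x) * φ j x := fun j => by
    rw [hP]; rfl
  let D : Fin (n + 1) ⊕ κ → I × E n := Sum.elim (fun k => (i, crdInv p c (vtx n k))) q
  -- supports of the generic functions
  have hT2 : ∀ j, ∀ x ∈ tsupport (P.φ (Sum.inr j)), x ∈ tsupport (φ j) ∧
      ∀ y, x = C.ψ i y → ¬ Cub p c y := by
    intro j x hx
    have hop : IsOpen (C.ψ i '' {y | Cub p c y}) := (C.emb i).isOpenMap _ (isOpen_cub p c)
    have hcl : IsClosed (tsupport (φ j) ∩ (C.ψ i '' {y | Cub p c y})ᶜ) :=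
      (isClosed_tsupport _).inter hop.isClosed_compl
    have h3 : tsupport (P.φ (Sum.inr j)) ⊆ tsupport (φ j) ∩ (C.ψ i '' {y | Cub p c y})ᶜ := by
      refine closure_minimal ?_ hcl
      intro z hz
      have hz' : (1 - av C i b z) * φ j z ≠ 0 := by
        have h := hz
        rw [hPr] at h
        exact h
      refine ⟨subset_tsupport _ (right_ne_zero_of_mul hz'), ?_⟩
      rintro ⟨y, hy, rfl⟩
      apply left_ne_zero_of_mul hz'
      rw [hav1 y hy]; ring
    refine ⟨(h3 hx).1, fun y hy hcu => (h3 hx).2 ⟨y, hcu, hy.symm⟩⟩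
  have hsp : ∀ k : Fin (n + 1), tsupport (P.φ (Sum.inl k)) ⊆
      C.ψ i '' tsupport (fun y => b y * tht k (crd p c y)) := fun k => by
    rw [hPl]; exact tsup_ex C i (hTc k)
  refine ⟨c, δ, b, κ, hκ, P, D, hc0, hc2, hδc, ?_, hbs, hbc,
    fun y hy => hb1 y (Cub.mem hc0 hy), hbt.le, hPl, hsp, fun k => rfl, ?_⟩
  · rintro (k | j)
    · have hd := dist_vtx p hc0 k
      refine ⟨?_, fun x hx => ?_⟩
      · show ‖crdInv p c (vtx n k)‖ ≤ 3
        rw [dist_eq_norm] at hd
        have := norm_sub_norm_le (crdInv p c (vtx n k)) p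
        linarith
      · obtain ⟨y, hy, rfl⟩ := hsp k hx
        have hy' := (mem_tsupport_special hy).1
        rw [hbt, mem_closedBall] at hy'
        refine ⟨y, ?_, rfl⟩
        show ‖y - crdInv p c (vtx n k)‖ ≤ ε
        rw [← dist_eq_norm]
        have := dist_triangle_right y (crdInv p c (vtx n k)) p
        linarith
    · refine ⟨(hφq j).1, fun x hx => ?_⟩
      obtain ⟨y, hy, hyx⟩ := (hφq j).2 x (hT2 j x hx).1
      exact ⟨y, hy.trans hδε, hyx⟩
  · intro j γ x y hx hy hγ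
    obtain ⟨h1, h2⟩ := hT2 j x hx
    obtain ⟨h3, h4⟩ := hφr j γ ⟨x, h1, y, hy, hγ.symm⟩
    rw [h3, one_smul] at hγ
    refine ⟨h3, h4, ?_, h2 y hγ⟩
    obtain ⟨z, hz, hzx⟩ := (hφq j).2 x h1
    have h5 : C.ψ i z = C.ψ i y := by rw [← hγ, ← hzx, h4]
    have h6 := (C.emb i).injective h5
    show dist (q j).2 y ≤ δ
    rw [dist_comm, dist_eq_norm, ← h6]
    exact hz

end Vale.Agent.P223.X.FundN
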