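import Vale.Agent.P223.X.ThetaX

/-! Phase 3 : the weights are alternating. -/

namespace Vale.Agent.P223.X.AltX

open scoped ContDiff Topology
open MeasureTheory Vale.Agent.P223.H Vale.Agent.P223.X Vale.Agent.P223.X.WtX
  Vale.Agent.P223.X.DensX Vale.Agent.P223.X.StokesX Set Function

section loc
variable {n : ℕ}

/-- pointwise identity -/
theorem swap_pt (f : Fin (n + 1) → E n → ℝ) (hf : ∀ i, ContDiff ℝ 1 (f i)) (j : Fin n) (x : E n) :
    B6b.ig f x + B6b.ig (fun m => f (Equiv.swap 0 j.succ m)) x =
      jdet (update (fun l : Fin n => f l.succ) j (fun y => f 0 y * f j.succ y)) x := by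
  classical
  have e : B6b.ig (fun m => f (Equiv.swap 0 j.succ m)) x =
      f j.succ x * jdet (fun l => f (Equiv.swap 0 j.succ l.succ)) x := by
    unfold B6b.ig
    simp only [Equiv.swap_apply_left]
  rw [e, B6b.ig]
  set A : Matrix (Fin n) (Fin n) ℝ := Matrix.of fun i l => H.pd l (f i.succ) x with hM
  have h1 : jdet (fun i => f i.succ) x = (A.updateRow j (A j)).det := by
    rw [Matrix.updateRow_eq_self]; rfl
  have h2 : jdet (fun l => f (Equiv.swap 0 j.succ l.succ)) x =
      (A.updateRow j (fun l => H.pd l (f 0) x)).det := by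
    unfold jdet
    congr 1
    ext a b
    rw [Matrix.of_apply, Matrix.updateRow_apply]
    split_ifs with h
    · dsimp only
      rw [h, Equiv.swap_apply_right]
    · dsimp only
      rw [Equiv.swap_apply_of_ne_of_ne (Fin.succ_ne_zero a) (fun h' => h (Fin.succ_injective _ h'))]
      rfl
  have h3 : jdet (update (fun l : Fin n => f l.succ) j (fun y => f 0 y * f j.succ y)) x =
      (A.updateRow j (f 0 x • A j + f j.succ x • fun l => H.pd l (f 0) x)).det := by
    unfold jdet
    congr 1
    ext a b
    rw [Matrix.of_apply, Matrix.updateRow_apply]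
    split_ifs with h
    · rw [h, update_self, B8c.pd_mul (hf 0) (hf _)]
      rfl
    · rw [update_of_ne h]
      rfl
  rw [h1, h2, h3, Matrix.det_updateRow_add, Matrix.det_updateRow_smul, Matrix.det_updateRow_smul]

theorem swap_succ_pt (f : Fin (n + 1) → E n → ℝ) {i j : Fin n} (hij : i ≠ j) (x : E n) :
    B6b.ig (fun m => f (Equiv.swap i.succ j.succ m)) x = - B6b.ig f x := by
  classical
  unfold B6b.ig
  dsimp only
  rw [Equiv.swap_apply_of_ne_of_ne (Fin.succ_ne_zero i).symm (Fin.succ_ne_zero j).symm]
  have h : jdet (fun l : Fin n => f (Equiv.swap i.succ j.succ l.succ)) x =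
      ((Matrix.of fun a l => H.pd l (f a.succ) x).submatrix (Equiv.swap i j) id).det := by
    unfold jdet
    congr 1
    ext a b
    rw [Matrix.submatrix_apply, Matrix.of_apply, Matrix.of_apply, id]
    congr 2
    rcases eq_or_ne a i with rfl | hi
    · simp
    · rcases eq_or_ne a j with rfl | hj
      · simp
      · dsimp only
        rw [Equiv.swap_apply_of_ne_of_ne hi hj, Equiv.swap_apply_of_ne_of_ne (by simpa using hi)
          (by simpa using hj)]
  rw [h, Matrix.det_permute, Equiv.Perm.sign_swap hij]
  simp only [Units.val_neg, Units.val_one, Int.cast_neg, Int.cast_one, neg_mul, one_mul, mul_neg]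
  rfl

end loc

section
variable {n : ℕ} {M X Γ I : Type} [TopologicalSpace M] [TopologicalSpace X] [Group Γ]
    [MulAction Γ X] {C : Cov n M X Γ I} [Fintype I] [T2Space X] {χ : I → E n → ℝ}

theorem wtX_swap (_ : 1 ≤ n) (hχ : Part C χ) {f : Fin (n + 1) → X → ℝ} (hf : ∀ k, CX C (f k))
    {a b : Fin (n + 1)} (hab : a ≠ b) :
    wtX C χ (fun m => f (Equiv.swap a b m)) = - wtX C χ f := by
  have hzero : ∀ j : Fin n, wtX C χ (fun m => f (Equiv.swap 0 j.succ m)) = - wtX C χ f := by
    intro j
    have h1 := nice_igx (fun k => (hf k).1) 0 (hf 0).2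
    have h2 := nice_igx (f := fun m => f (Equiv.swap 0 j.succ m)) (fun k => (hf _).1) 0 (hf _).2
    have h3 := intg_add hχ h1 h2
    have h4 : Intg C χ (fun γ i y => igx C f γ i y +
        igx C (fun m => f (Equiv.swap 0 j.succ m)) γ i y) = 0 := by
      have h5 := stokes hχ (update (fun l : Fin n => f l.succ) j fun x => f 0 x * f j.succ x)
        (Ck_update (fun l => (hf l.succ).1) j (Ck_mul (hf 0).1 (hf j.succ).1)) j (by
          rw [update_self]; exact (hf 0).2.mul_right)
      rw [← h5]
      refine intg_congr fun γ i y => ?_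
      rw [rep_update]
      exact swap_pt (fun k => C.rep (f k) γ i) (fun k => (hf k).1 γ i) j y
    rw [wtX_eq, wtX_eq]
    linarith
  induction a using Fin.cases with
  | zero =>
    induction b using Fin.cases with
    | zero => exact absurd rfl hab
    | succ j => exact hzero j
  | succ i =>
    induction b using Fin.cases with
    | zero =>
      rw [Equiv.swap_comm]
      exact hzero i
    | succ j =>
      have hij : i ≠ j := by rintro rfl; exact hab rfl
      have h1 : wtX C χ (fun m => f (Equiv.swap i.succ j.succ m)) =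
          Intg C χ fun γ k y => -igx C f γ k y := by
        rw [wtX_eq]
        refine intg_congr fun γ k y => ?_
        exact swap_succ_pt (fun m => C.rep (f m) γ k) hij y
      rw [h1, wtX_eq]
      unfold Intg
      rw [← Finset.sum_neg_distrib]
      refine Finset.sum_congr rfl fun k _ => ?_
      rw [← finsum_neg_distrib]
      refine finsum_congr fun γ => ?_
      rw [← integral_neg]
      simp only [mul_neg]

theorem wtX_perm (hn : 1 ≤ n) (hχ : Part C χ) {f : Fin (n + 1) → X → ℝ} (hf : ∀ k, CX C (f k))
    (π : Equiv.Perm (Fin (n + 1))) :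
    wtX C χ (fun m => f (π m)) = ((Equiv.Perm.sign π : ℤ) : ℝ) * wtX C χ f := by
  classical
  induction π using Equiv.Perm.swap_induction_on' with
  | one => simp
  | mul_swap π a b hab ih =>
    have := wtX_swap hn hχ (f := fun m => f (π m)) (fun i => hf _) hab
    simp only [Equiv.Perm.mul_apply]
    rw [this, ih, Equiv.Perm.sign_mul, Equiv.Perm.sign_swap hab]
    simp

/-- The weight vanishes if a function is repeated. -/
theorem wtX_eq_zero (hn : 1 ≤ n) (hχ : Part C χ) {f : Fin (n + 1) → X → ℝ}
    (hf : ∀ k, CX C (f k)) {a b : Fin (n + 1)} (hab : a ≠ b) (h : f a = f b) :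
    wtX C χ f = 0 := by
  classical
  have h1 := wtX_swap hn hχ hf hab
  have h2 : (fun m => f (Equiv.swap a b m)) = f := by
    funext m
    rcases eq_or_ne m a with rfl | ha
    · rw [Equiv.swap_apply_left, h]
    · rcases eq_or_ne m b with rfl | hb
      · rw [Equiv.swap_apply_right, h]
      · rw [Equiv.swap_apply_of_ne_of_ne ha hb]
  rw [h2] at h1
  linarith

/-- If the supports of the translates of each function are disjoint, then only labels with
different second components have nonzero weight. -/
theorem inj_of_wt_ne {ι : Type} [Fintype ι] (hn : 1 ≤ n) (hχ : Part C χ) (P : PUX C ι)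
    (hP : ∀ (i : ι) (γ : Γ) (x : X), x ∈ tsupport (P.φ i) → γ • x ∈ tsupport (P.φ i) → γ = 1)
    (l : Fin (n + 1) → Γ × ι) (hl : P.wt χ l ≠ 0) : Injective fun k => (l k).2 := by
  intro a b hab
  by_contra hne
  obtain ⟨x, hx⟩ := exists_mem hl
  have h1 : ∀ k, (l k).1⁻¹ • x ∈ tsupport (P.φ (l k).2) := by
    intro k
    have h1 : tsupport (P.fn (l k)) ⊆
        (fun y : X => (l k).1⁻¹ • y) ⁻¹' tsupport (P.φ (l k).2) :=
      closure_minimal (fun y hy => subset_tsupport _ hy)
        ((isClosed_tsupport _).preimage (C.cont (l k).1⁻¹))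
    exact h1 (hx k)
  have hab' : (l a).2 = (l b).2 := hab
  have h2 := h1 a
  have h3 := h1 b
  rw [← hab'] at h3
  have h4 := hP (l a).2 ((l b).1⁻¹ * (l a).1) ((l a).1⁻¹ • x) h2 (by
    rw [mul_smul, smul_inv_smul]; exact h3)
  have h5 : (l a).1 = (l b).1 := by
    rw [inv_mul_eq_one] at h4
    exact h4.symm
  have h6 : l a = l b := Prod.ext h5 hab'
  exact hl (wtX_eq_zero hn hχ (fun k => fn_cc P _) hne (by rw [h6]))

end

end Vale.Agent.P223.X.AltX
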