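import Vale.Agent.P223.X.SpecF
import Vale.Agent.P223.X.AltX
import Vale.Agent.P223.X.FinX

/-! Block Y5, F3 and F4, and the formal hypotheses. -/

namespace Vale.Agent.P223.X.Fund.Rep

open scoped ContDiff Topology
open Vale.Agent.P223.H B8b Vale.Agent.P223.X.WtX

/-- Block F3. -/
theorem main : SpecRepX := by
  intro n M X Γ I _ _ _ _ _ _ C χ hn hχ ι _ P l a b hab h
  exact AltX.wtX_eq_zero hn hχ (fun k => fn_cc P _) hab (by rw [h])

theorem formHom : SpecFormHom := by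
  intro n M X Γ I _ _ _ _ _ _ C χ hn hχ ι ι' _ _ P P'
  exact FormW.prism hn hχ P P'

theorem wts : SpecWts := by
  intro n M X Γ I _ _ _ _ _ _ C χ hn hχ ι _ P
  exact ⟨(Form.good_wt P).inv, FinX.main n M X Γ I C χ ι P, fun l hl => exists_mem hl⟩

/-- Block F4. -/
theorem theta : SpecThetaX := by
  intro n M X Γ I _ _ _ _ _ _ C χ hn hχ i p c hc b hb hb' hb1 κ _ P hP
  obtain ⟨h1, h2⟩ := ThetaX.theta n M X Γ I C χ hn hχ i p c hc b hb hb' hb1
  have h3 : ∀ k, P.fn (1, Sum.inl k) = C.ex i (fun y => b y * tht k (crd p c y)) := by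
    intro k
    funext x
    rw [PUX.fn, inv_one, one_smul, hP]
  refine ⟨fun π => ?_, fun k hk => ?_⟩
  · rw [PUX.wt]
    simp only [h3]
    exact h1 π
  · rw [PUX.wt]
    simp only [h3]
    exact h2 k hk

end Vale.Agent.P223.X.Fund.Rep
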