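import Vale.Agent.P223.X.Int
import Vale.Agent.P223.H.IBP

/-! Phase 3, block X10: integration by parts on `X`. -/

namespace Vale.Agent.P223.X.IBPX

open scoped ContDiff Matrix Topology
open MeasureTheory Filter Vale.Agent.P223.H Vale.Agent.P223.H.IBP

section
variable {n : ℕ} {M X Γ I : Type} [TopologicalSpace M] [TopologicalSpace X] [Group Γ]
    [MulAction Γ X] {C : Cov n M X Γ I} {G : I → E n → Matrix (Fin n) (Fin n) ℝ}
    {χ : I → E n → ℝ}

/-- the functions of the partition of unity -/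
noncomputable def th (C : Cov n M X Γ I) (χ : I → E n → ℝ) (γ : Γ) (i : I) (x : X) : ℝ :=
  C.ex i (χ i) (γ • x)

/-- the pairing of the differentials with the vector field -/
noncomputable def pp (C : Cov n M X Γ I) (χ : I → E n → ℝ) (Z : Γ → I → E n → E n) (γ : Γ) (i : I)
    (x : X) : ℝ := C.ex i (pair (χ i) (Z γ⁻¹ i)) (γ • x)

theorem pair_eq (h : E n → ℝ) (Z : E n → E n) (y : E n) : pair h Z y = fderiv ℝ h y (Z y) := by
  have h1 : Z y = ∑ i, Z y i • (Pi.single i (1 : ℝ) : E n) := by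
    ext k
    simp [Finset.sum_apply, Pi.single_apply]
  conv_rhs => rw [h1, map_sum]
  unfold pair H.pd
  refine Finset.sum_congr rfl fun i _ => ?_
  rw [map_smul, smul_eq_mul, mul_comm]

theorem ex_of_notMem {i : I} {h : E n → ℝ} {x : X} (hx : x ∉ Set.range (C.ψ i)) :
    C.ex i h x = 0 := by
  unfold Cov.ex
  rw [if_neg hx]

/-- the finite set of relevant elements of `Γ` -/
noncomputable def SF (C : Cov n M X Γ I) (j i : I) : Finset Γ := (C.proper j i 2).toFinset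

/-- elements which can contribute near a point in the chart `γ₀ • ψ j` -/
theorem mem_SF {γ γ₀ : Γ} {i j : I} {y y' : E n} (hy : ‖y‖ ≤ 2) (hy' : ‖y'‖ ≤ 2)
    (h : γ • γ₀ • C.ψ j y = C.ψ i y') : γ * γ₀ ∈ SF C j i := by
  unfold SF
  rw [Set.Finite.mem_toFinset]
  exact ⟨y, y', hy, hy', by rw [mul_smul]; exact h⟩

variable [Fintype I]

open Classical in
/-- all elements which can contribute near a point in the chart `γ₀ • ψ j` -/
noncomputable def FF (C : Cov n M X Γ I) (γ₀ : Γ) (j : I) : Finset Γ :=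
  Finset.univ.biUnion fun i => (SF C j i).image (fun g => g * γ₀⁻¹)

theorem mem_FF {γ γ₀ : Γ} {i j : I} {y y' : E n} (hy : ‖y‖ ≤ 2) (hy' : ‖y'‖ ≤ 2)
    (h : γ • γ₀ • C.ψ j y = C.ψ i y') : γ ∈ FF C γ₀ j := by
  classical
  unfold FF
  refine Finset.mem_biUnion.2 ⟨i, Finset.mem_univ _, ?_⟩
  exact Finset.mem_image.2 ⟨γ * γ₀, mem_SF hy hy' h, by simp⟩

/-- counting -/
theorem sum_bound (q : Γ → I → ℝ) (x : X)
    (hq : ∀ γ i, q γ i ≠ 0 → ∃ y : E n, ‖y‖ ≤ 2 ∧ γ • x = C.ψ i y) (b : ℝ)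
    (hqb : ∀ γ i, |q γ i| ≤ b) (F : Finset Γ) :
    |∑ i, ∑ γ ∈ F, q γ i| ≤ (∑ j : I, ∑ i : I, ((SF C j i).card : ℝ)) * b := by
  classical
  obtain ⟨γ₀, j, y₀, h1, h2⟩ := exists_chart C x
  have hb : 0 ≤ b := (abs_nonneg _).trans (hqb 1 j)
  have e : ∀ i, |∑ γ ∈ F, q γ i| ≤ ((SF C j i).card : ℝ) * b := by
    intro i
    set S := (SF C j i).image (fun g => g * γ₀⁻¹) with hS
    have e1 : ∑ γ ∈ F ∪ S, |q γ i| = ∑ γ ∈ S, |q γ i| := by
      symm
      refine Finset.sum_subset Finset.subset_union_right fun γ _ hγ => ?_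
      by_contra h0
      obtain ⟨y, hy, hy'⟩ := hq γ i (fun h => h0 (by rw [h, abs_zero]))
      apply hγ
      rw [← h2] at hy'
      exact Finset.mem_image.2 ⟨γ * γ₀, mem_SF (by linarith) hy hy', by simp⟩
    calc |∑ γ ∈ F, q γ i| ≤ ∑ γ ∈ F, |q γ i| := Finset.abs_sum_le_sum_abs _ _
      _ ≤ ∑ γ ∈ F ∪ S, |q γ i| := Finset.sum_le_sum_of_subset_of_nonneg Finset.subset_union_left
          fun _ _ _ => abs_nonneg _
      _ = ∑ γ ∈ S, |q γ i| := e1
      _ ≤ ∑ γ ∈ S, b := Finset.sum_le_sum fun γ _ => hqb γ i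
      _ = (S.card : ℝ) * b := by rw [Finset.sum_const, nsmul_eq_mul]
      _ ≤ ((SF C j i).card : ℝ) * b := mul_le_mul_of_nonneg_right
          (by exact_mod_cast Finset.card_image_le) hb
  calc |∑ i, ∑ γ ∈ F, q γ i| ≤ ∑ i, |∑ γ ∈ F, q γ i| := Finset.abs_sum_le_sum_abs _ _
    _ ≤ ∑ i, ((SF C j i).card : ℝ) * b := Finset.sum_le_sum fun i _ => e i
    _ = (∑ i, ((SF C j i).card : ℝ)) * b := by rw [Finset.sum_mul]
    _ ≤ (∑ j : I, ∑ i : I, ((SF C j i).card : ℝ)) * b := by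
        refine mul_le_mul_of_nonneg_right ?_ hb
        exact Finset.single_le_sum (f := fun j => ∑ i : I, ((SF C j i).card : ℝ))
          (fun j _ => Finset.sum_nonneg fun i _ => Nat.cast_nonneg _) (Finset.mem_univ j)

variable (hχ : Part C χ)
include hχ

theorem hasCompactSupport_χ (i : I) : HasCompactSupport (χ i) := by
  refine HasCompactSupport.intro (isCompact_closedBall (0 : E n) 2) fun y hy => ?_
  refine hχ.supp i y ?_
  simp only [Metric.mem_closedBall, dist_zero_right, not_le] at hy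
  exact hy.le

theorem fderiv_χ_zero (i : I) {y : E n} (hy : 2 < ‖y‖) : fderiv ℝ (χ i) y = 0 := by
  have : χ i =ᶠ[𝓝 y] fun _ => 0 := by
    filter_upwards [(isOpen_lt continuous_const continuous_norm).mem_nhds hy] with z hz
    exact hχ.supp i z (le_of_lt hz)
  rw [this.fderiv_eq]; simp

theorem th_nonneg (γ : Γ) (i : I) (x : X) : 0 ≤ th C χ γ i x := by
  by_cases hx : γ • x ∈ Set.range (C.ψ i)
  · obtain ⟨y, hy⟩ := hx
    unfold th
    rw [← hy, ex_ψ]; exact hχ.nonneg i y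
  · unfold th
    rw [ex_of_notMem hx]

/-- the coordinates of the points with `th ≠ 0` -/
theorem th_ne_zero {γ : Γ} {i : I} {x : X} (h : th C χ γ i x ≠ 0) :
    ∃ y : E n, ‖y‖ ≤ 2 ∧ γ • x = C.ψ i y := by
  by_cases hx : γ • x ∈ Set.range (C.ψ i)
  · obtain ⟨y, hy⟩ := hx
    refine ⟨y, ?_, hy.symm⟩
    by_contra hcon
    push Not at hcon
    apply h
    unfold th
    rw [← hy, ex_ψ]
    exact hχ.supp i y hcon.le
  · exfalso
    apply h
    unfold th
    exact ex_of_notMem hx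

theorem pp_ne_zero {Z : Γ → I → E n → E n} {γ : Γ} {i : I} {x : X} (h : pp C χ Z γ i x ≠ 0) :
    ∃ y : E n, ‖y‖ ≤ 2 ∧ γ • x = C.ψ i y := by
  by_cases hx : γ • x ∈ Set.range (C.ψ i)
  · obtain ⟨y, hy⟩ := hx
    refine ⟨y, ?_, hy.symm⟩
    by_contra hcon
    push Not at hcon
    apply h
    unfold pp
    rw [← hy, ex_ψ, pair_eq, fderiv_χ_zero hχ i hcon]
    simp
  · exfalso
    apply h
    unfold pp
    exact ex_of_notMem hx

theorem sum_th_eq (x : X) (F : Finset Γ)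
    (hF : ∀ i (γ : Γ) (y : E n), ‖y‖ ≤ 2 → γ • x = C.ψ i y → γ ∈ F) :
    ∑ i, ∑ γ ∈ F, th C χ γ i x = 1 := by
  rw [← hχ.sum x]
  refine Finset.sum_congr rfl fun i _ => ?_
  refine (finsum_eq_sum_of_support_subset _ fun γ hγ => ?_).symm
  obtain ⟨y, hy, hy'⟩ := th_ne_zero hχ hγ
  exact hF i γ y hy hy'

theorem sum_th_le (x : X) (F : Finset Γ) : ∑ i, ∑ γ ∈ F, th C χ γ i x ≤ 1 := by
  classical
  obtain ⟨γ₀, j, y₀, h1, h2⟩ := exists_chart C x
  rw [← sum_th_eq hχ x (F ∪ FF C γ₀ j) fun i γ y hy hx =>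
    Finset.mem_union_right _ (mem_FF (y := y₀) (by linarith) hy (by rw [h2]; exact hx))]
  exact Finset.sum_le_sum fun i _ => Finset.sum_le_sum_of_subset_of_nonneg
    Finset.subset_union_left fun γ _ _ => th_nonneg hχ γ i x

theorem sum_th_nonneg (x : X) (F : Finset Γ) : 0 ≤ ∑ i, ∑ γ ∈ F, th C χ γ i x :=
  Finset.sum_nonneg fun i _ => Finset.sum_nonneg fun γ _ => th_nonneg hχ γ i x

variable [T2Space X]

theorem Ck_th (γ : Γ) (i : I) : C.Ck ∞ (th C χ γ i) :=
  Ck_smul C (Ck_ex C (hχ.smooth i) (hasCompactSupport_χ hχ i)) γ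

theorem fderiv_th {Z : Γ → I → E n → E n} (hZ : VfX C Z) (γ γ₀ : Γ) (i j : I) (y₀ : E n) :
    fderiv ℝ (C.rep (th C χ γ i) γ₀ j) y₀ (Z γ₀ j y₀) = pp C χ Z γ i (γ₀ • C.ψ j y₀) := by
  by_cases hx : γ • γ₀ • C.ψ j y₀ ∈ Set.range (C.ψ i)
  · obtain ⟨y, hy⟩ := hx
    have h1 : (γ * γ₀) • C.ψ j y₀ = C.ψ i y := by rw [mul_smul, hy]
    obtain ⟨h2, h3⟩ := mem_dom C h1
    have e1 : C.rep (th C χ γ i) γ₀ j =ᶠ[𝓝 y₀] fun z => χ i (C.tr j i (γ * γ₀) z) := by
      filter_upwards [(isOpen_dom C j i (γ * γ₀)).mem_nhds h2] with z hz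
      show C.ex i (χ i) (γ • γ₀ • C.ψ j z) = _
      rw [← mul_smul, ← tr_spec C hz, ex_ψ]
    have e2 : fderiv ℝ (fun z => χ i (C.tr j i (γ * γ₀) z)) y₀ =
        (fderiv ℝ (χ i) (C.tr j i (γ * γ₀) y₀)).comp (fderiv ℝ (C.tr j i (γ * γ₀)) y₀) :=
      fderiv_comp y₀ ((hχ.smooth i).differentiable (by simp) _)
        ((contDiffAt_tr C h2).differentiableAt (by simp))
    have e3 := hZ.inv γ₀ γ⁻¹ j i y₀ y (by rw [hy, inv_smul_smul])
    rw [inv_inv] at e3
    rw [e1.fderiv_eq, e2, ContinuousLinearMap.comp_apply, ← e3, h3]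
    unfold pp
    rw [← hy, ex_ψ, pair_eq]
  · have e0 : pp C χ Z γ i (γ₀ • C.ψ j y₀) = 0 := ex_of_notMem hx
    rw [e0]
    have hK : IsClosed (C.ψ i '' Metric.closedBall (0 : E n) 2) :=
      ((isCompact_closedBall _ _).image (C.emb i).continuous).isClosed
    have hcont : Continuous (fun z : E n => γ • γ₀ • C.ψ j z) :=
      (C.cont γ).comp ((C.cont γ₀).comp (C.emb j).continuous)
    have e1 : C.rep (th C χ γ i) γ₀ j =ᶠ[𝓝 y₀] fun _ => 0 := by
      have hmem : (fun z : E n => γ • γ₀ • C.ψ j z) ⁻¹'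
          (C.ψ i '' Metric.closedBall (0 : E n) 2)ᶜ ∈ 𝓝 y₀ := by
        refine (hK.isOpen_compl.preimage hcont).mem_nhds ?_
        intro hcon
        obtain ⟨y, -, hy⟩ := hcon
        exact hx ⟨y, hy⟩
      filter_upwards [hmem] with z hz
      by_contra h0
      obtain ⟨y, hy, hy'⟩ := th_ne_zero hχ (x := γ₀ • C.ψ j z) h0
      exact hz ⟨y, by simpa using hy, hy'.symm⟩
    rw [e1.fderiv_eq]
    simp

theorem sum_pp_eq {Z : Γ → I → E n → E n} (hZ : VfX C Z) (γ₀ : Γ) (j : I) (y₀ : E n)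
    (hy₀ : ‖y₀‖ < 1) (F : Finset Γ) (hF : FF C γ₀ j ⊆ F) :
    ∑ i, ∑ γ ∈ F, pp C χ Z γ i (γ₀ • C.ψ j y₀) = 0 := by
  have hd : ∀ γ i, DifferentiableAt ℝ (C.rep (th C χ γ i) γ₀ j) y₀ := fun γ i =>
    ((Ck_th hχ γ i) γ₀ j).differentiable (by simp) _
  have e1 : (fun y => ∑ i, ∑ γ ∈ F, C.rep (th C χ γ i) γ₀ j y) =ᶠ[𝓝 y₀] fun _ => (1 : ℝ) := by
    filter_upwards [(isOpen_lt continuous_norm continuous_const).mem_nhds hy₀] with y hy
    exact sum_th_eq hχ (γ₀ • C.ψ j y) F fun i γ y' hy' hx =>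
      hF (mem_FF (y := y) (by linarith [show ‖y‖ < 1 from hy]) hy' hx)
  have e2 : fderiv ℝ (fun y => ∑ i, ∑ γ ∈ F, C.rep (th C χ γ i) γ₀ j y) y₀ = 0 := by
    rw [e1.fderiv_eq]; simp
  have e3 : fderiv ℝ (fun y => ∑ i, ∑ γ ∈ F, C.rep (th C χ γ i) γ₀ j y) y₀ =
      ∑ i, ∑ γ ∈ F, fderiv ℝ (C.rep (th C χ γ i) γ₀ j) y₀ := by
    rw [fderiv_fun_sum fun i _ => DifferentiableAt.fun_sum fun γ _ => hd γ i]
    exact Finset.sum_congr rfl fun i _ => fderiv_fun_sum fun γ _ => hd γ i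
  rw [e3] at e2
  have e4 := congrArg (fun L : E n →L[ℝ] ℝ => L (Z γ₀ j y₀)) e2
  simp only [sum_apply, zero_apply] at e4
  rw [← e4]
  exact Finset.sum_congr rfl fun i _ => Finset.sum_congr rfl fun γ _ =>
    (fderiv_th hχ hZ γ γ₀ i j y₀).symm

end

section measure
variable {n : ℕ} {M X Γ I : Type} [TopologicalSpace M] [TopologicalSpace X] [Group Γ]
    [MulAction Γ X] {C : Cov n M X Γ I} {G : I → E n → Matrix (Fin n) (Fin n) ℝ}
    {χ : I → E n → ℝ} [Fintype I] [T2Space X] [MeasurableSpace X] [BorelSpace X]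
    {μ : Measure X} {W : X → ℝ} {Z : Γ → I → E n → E n} {c : ℝ}

omit [Fintype I] [T2Space X] [MeasurableSpace X] [BorelSpace X] in
theorem continuous_pair (h : E n → ℝ) (hh : ContDiff ℝ 1 h) (Y : E n → E n) (hY : Continuous Y) :
    Continuous (pair h Y) := by
  unfold pair
  exact continuous_finsetSum _ fun i _ => ((hh.continuous_fderiv (by simp)).clm_apply
    continuous_const).mul ((continuous_apply i).comp hY)

omit [T2Space X] [MeasurableSpace X] [BorelSpace X] in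
/-- pointwise bound for the pairing -/
theorem exists_grad_bound (hG : MetX C G) (hχ : Part C χ) : ∃ B : ℝ, 0 < B ∧ ∀ i y,
    √(gradSq (G i) (χ i) y) ≤ B := by
  have h : ∀ i, ∃ B : ℝ, 0 < B ∧ ∀ y, √(gradSq (G i) (χ i) y) ≤ B := by
    intro i
    have hM := EqX.metT1 (hG.smooth i) (hG.pos i)
    set g : E n → ℝ := fun x => √(gradSq (G i) (χ i) x) with hg
    have hgc : Continuous g := by
      refine Real.continuous_sqrt.comp ?_
      unfold gradSq gradIp
      have hcg : Continuous fun x => (G i x) := continuous_matrix fun a b =>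
        (hG.smooth i a b).continuous
      have hinv : Continuous fun x => (G i x)⁻¹ := by
        have h : (fun x => (G i x)⁻¹) = fun x => ((G i x).det)⁻¹ • (G i x).adjugate := by
          funext x
          rw [Matrix.inv_def, Ring.inverse_eq_inv']
        rw [h]
        exact (hcg.matrix_det.inv₀ fun x => (hG.pos i x).det_pos.ne').smul hcg.matrix_adjugate
      have hpd : ∀ a, Continuous fun x => H.pd a (χ i) x := fun a =>
        (((hχ.smooth i).continuous_fderiv (by simp)).clm_apply continuous_const)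
      exact continuous_finsetSum _ fun a _ => continuous_finsetSum _ fun b _ =>
        ((hinv.matrix_elem a b).mul (hpd a)).mul (hpd b)
    obtain ⟨B, hB⟩ := (isCompact_closedBall (0 : E n) 2).exists_bound_of_continuousOn
      hgc.continuousOn
    refine ⟨max B 1, by positivity, fun y => ?_⟩
    by_cases hy : ‖y‖ ≤ 2
    · exact (le_abs_self _).trans ((hB y (by simpa using hy)).trans (le_max_left _ _))
    · have h0 : gradSq (G i) (χ i) y = 0 := by
        simp [gradSq, gradIp, H.pd, fderiv_χ_zero hχ i (not_le.1 hy)]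
      rw [h0, Real.sqrt_zero]
      positivity
  choose B hB0 hB using h
  have hs : 0 ≤ ∑ i, B i := Finset.sum_nonneg fun i _ => (hB0 i).le
  refine ⟨1 + ∑ i, B i, by positivity, fun i y => (hB i y).trans ?_⟩
  have := Finset.single_le_sum (f := B) (fun i _ => (hB0 i).le) (Finset.mem_univ i)
  linarith

omit [T2Space X] [MeasurableSpace X] [BorelSpace X] [Fintype I] in
theorem abs_pp_le (hG : MetX C G) {B : ℝ} (hB0 : 0 < B)
    (hB : ∀ i y, √(gradSq (G i) (χ i) y) ≤ B) (hW : ∀ x, 0 < W x)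
    (hZW : ∀ (γ : Γ) i y, ∑ a, ∑ b, G i y a b * Z γ i y a * Z γ i y b ≤
      (c * W (γ • C.ψ i y)) ^ 2) (γ : Γ) (i : I) (x : X) :
    |pp C χ Z γ i x| ≤ B * (|c| * W x) := by
  by_cases hx : γ • x ∈ Set.range (C.ψ i)
  · obtain ⟨y, hy⟩ := hx
    have hx' : x = γ⁻¹ • C.ψ i y := by rw [hy, inv_smul_smul]
    have e : pp C χ Z γ i x = pair (χ i) (Z γ⁻¹ i) y := by
      unfold pp
      rw [← hy, ex_ψ]
    rw [e]
    have h1 := abs_pair_le (hG.pos i y) (χ i) (Z γ⁻¹ i) hB0.le (hB i y) (hZW γ⁻¹ i y)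
    rwa [abs_mul, ← hx', abs_of_pos (hW x)] at h1
  · have e : pp C χ Z γ i x = 0 := ex_of_notMem hx
    rw [e, abs_zero]
    have := hW x
    positivity

omit [T2Space X] in
/-- integration by parts in one chart -/
theorem chart_le (hG : MetX C G) (hV : VolX C G μ) (hχ : Part C χ) (hZ : VfX C Z)
    {f h : X → ℝ} (hf : Integrable f μ) (hh : Integrable h μ)
    (hfh : ∀ (γ : Γ) i y, f (γ • C.ψ i y) ≤ h (γ • C.ψ i y) + divg (G i) (Z γ i) y)
    (γ : Γ) (i : I) :
    ∫ x, th C χ γ i x * f x ∂μ ≤ ∫ x, th C χ γ i x * h x ∂μ - ∫ x, pp C χ Z γ i x ∂μ := by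
  have hM := EqX.metT1 (hG.smooth i) (hG.pos i)
  have hrange : ∀ x, x ∉ Set.range (fun y => γ⁻¹ • C.ψ i y) → γ • x ∉ Set.range (C.ψ i) := by
    intro x hx ⟨y, hy⟩
    exact hx ⟨y, by simp only [hy, inv_smul_smul]⟩
  have hth : ∀ y, th C χ γ i (γ⁻¹ • C.ψ i y) = χ i y := fun y => by
    unfold th
    rw [smul_inv_smul, ex_ψ]
  have hpp : ∀ y, pp C χ Z γ i (γ⁻¹ • C.ψ i y) = pair (χ i) (Z γ⁻¹ i) y := fun y => by
    unfold pp
    rw [smul_inv_smul, ex_ψ]
  have hint : ∀ u : X → ℝ, ∫ x, th C χ γ i x * u x ∂μ =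
      ∫ y, χ i y * (u (γ⁻¹ • C.ψ i y) * H.dens (G i) y) := by
    intro u
    rw [Int.integral_chart hG hV γ⁻¹ i]
    · refine integral_congr_ae (Eventually.of_forall fun y => ?_)
      simp only
      rw [hth, mul_assoc]
    · intro x hx
      have : th C χ γ i x = 0 := ex_of_notMem (hrange x hx)
      rw [this, zero_mul]
  have hintp : ∫ x, pp C χ Z γ i x ∂μ = ∫ y, pair (χ i) (Z γ⁻¹ i) y * H.dens (G i) y := by
    rw [Int.integral_chart hG hV γ⁻¹ i]
    · simp only [hpp]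
    · intro x hx
      exact ex_of_notMem (hrange x hx)
  have hcs1 : ContDiff ℝ 1 (χ i) := contDiff_infty.1 (hχ.smooth i) 1
  have hcc : Continuous (χ i) := hcs1.continuous
  have hcomp := hasCompactSupport_χ hχ i
  have hZ1 : ContDiff ℝ 1 (Z γ⁻¹ i) := hZ.smooth γ⁻¹ i
  have hdc : Continuous (H.dens (G i)) := Int.cont_dens hG i
  have hi := ibp hM (χ i) hcs1 hcomp (Z γ⁻¹ i) hZ1
  obtain ⟨K, hK⟩ := hcomp.exists_bound_of_continuous hcc
  have hbd : ∀ u : X → ℝ, Integrable u μ →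
      Integrable (fun y => χ i y * (u (γ⁻¹ • C.ψ i y) * H.dens (G i) y)) := by
    intro u hu
    have hu' := Int.integrable_chart hG hV γ⁻¹ i u hu
    exact hu'.bdd_mul hcc.aestronglyMeasurable (Eventually.of_forall hK)
  have hdiv : Continuous (fun x => divg (G i) (Z γ⁻¹ i) x) := by
    unfold divg
    refine (hdc.inv₀ fun x => (Int.dens_pos hG i x).ne').mul (continuous_finsetSum _ fun a _ => ?_)
    have hd1 : ContDiff ℝ 1 (H.dens (G i)) := contDiff_infty.1 (contDiff_dens hM) 1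
    exact ((hd1.mul (contDiff_pi.1 hZ1 a)).continuous_fderiv (by simp)).clm_apply
      continuous_const
  have hintd : Integrable (fun y => χ i y * divg (G i) (Z γ⁻¹ i) y * H.dens (G i) y) :=
    ((hcc.mul hdiv).mul hdc).integrable_of_hasCompactSupport
      ((hcomp.mul_right).mul_right)
  have h2 : ∫ y, χ i y * (f (γ⁻¹ • C.ψ i y) * H.dens (G i) y) ≤
      ∫ y, (χ i y * (h (γ⁻¹ • C.ψ i y) * H.dens (G i) y) +
        χ i y * divg (G i) (Z γ⁻¹ i) y * H.dens (G i) y) := by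
    refine integral_mono (hbd f hf) ((hbd h hh).add hintd) fun y => ?_
    have h3 : 0 ≤ χ i y * H.dens (G i) y := mul_nonneg (hχ.nonneg i y) (Int.dens_pos hG i y).le
    have h4 := mul_le_mul_of_nonneg_left (hfh γ⁻¹ i y) h3
    simp only
    nlinarith
  rw [integral_add (hbd h hh) hintd, hi] at h2
  rw [hint f, hint h, hintp]
  linarith

end measure

theorem main (hPart : SpecPart) (hVol : SpecVol) : SpecIBPX := by
  intro n M X Γ I _ _ _ _ _ _ _ _ _ _ C G μ W hG hV hW Z c f h hZ hZW hf hh hfh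
  obtain ⟨χ, hχ⟩ := hPart n M X Γ I C
  have hcount : Countable Γ := by
    let _ : MeasurableSpace M := borel M
    have : BorelSpace M := ⟨rfl⟩
    exact (hVol n M X Γ I C G hG).1
  obtain ⟨B, hB0, hB⟩ := exists_grad_bound hG hχ
  have hpw : ∀ γ i x, |pp C χ Z γ i x| ≤ B * (|c| * W x) := fun γ i x =>
    abs_pp_le hG hB0 hB hW.pos hZW γ i x
  set N : ℝ := ∑ j : I, ∑ i : I, ((SF C j i).card : ℝ) with hN
  have hsum : ∀ (F : Finset Γ) x, |∑ i, ∑ γ ∈ F, pp C χ Z γ i x| ≤ N * (B * (|c| * W x)) :=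
    fun F x => sum_bound (fun γ i => pp C χ Z γ i x) x (fun γ i h0 => pp_ne_zero hχ h0) _
      (fun γ i => hpw γ i x) F
  have hthc : ∀ γ i, Continuous (th C χ γ i) := fun γ i =>
    Ck_continuous C (fun γ' j => ((Ck_th hχ γ i) γ' j).of_le (by simp))
  have hex0 : ∀ γ i, C.Ck 0 (C.ex i (pair (χ i) (Z γ⁻¹ i))) := fun γ i => by
    refine Ck_ex C ?_ ?_
    · exact contDiff_zero.2 (continuous_pair _ (contDiff_infty.1 (hχ.smooth i) 1) _
        (hZ.smooth γ⁻¹ i).continuous)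
    · refine HasCompactSupport.intro (isCompact_closedBall (0 : E n) 2) fun y hy => ?_
      rw [pair_eq, fderiv_χ_zero hχ i (by simpa using hy)]
      simp
  have hppc : ∀ γ i, Continuous (pp C χ Z γ i) := fun γ i =>
    Ck_continuous C (Ck_smul C (hex0 γ i) γ)
  have hppi : ∀ γ i, Integrable (pp C χ Z γ i) μ := fun γ i =>
    ((hW.integ.const_mul |c|).const_mul B).mono' (hppc γ i).aestronglyMeasurable
      (Eventually.of_forall fun x => hpw γ i x)
  -- the cutoff functions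
  have hcutc : ∀ F : Finset Γ, Continuous fun x => ∑ i, ∑ γ ∈ F, th C χ γ i x := fun F =>
    continuous_finsetSum _ fun i _ => continuous_finsetSum _ fun γ _ => hthc γ i
  have hth1 : ∀ γ i x, ‖th C χ γ i x‖ ≤ 1 := fun γ i x => by
    rw [Real.norm_eq_abs, abs_of_nonneg (th_nonneg hχ γ i x)]
    refine le_trans ?_ (sum_th_le hχ x {γ})
    simp only [Finset.sum_singleton]
    exact Finset.single_le_sum (f := fun i => th C χ γ i x) (fun i _ => th_nonneg hχ γ i x)
      (Finset.mem_univ i)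
  have hthi : ∀ u : X → ℝ, Integrable u μ → ∀ γ i, Integrable (fun x => th C χ γ i x * u x) μ :=
    fun u hu γ i => hu.bdd_mul (hthc γ i).aestronglyMeasurable (Eventually.of_forall (hth1 γ i))
  have lim : ∀ u : X → ℝ, Integrable u μ →
      Tendsto (fun F : Finset Γ => ∑ i, ∑ γ ∈ F, ∫ x, th C χ γ i x * u x ∂μ) atTop
        (𝓝 (∫ x, u x ∂μ)) := by
    intro u hu
    have e : ∀ F : Finset Γ, ∑ i, ∑ γ ∈ F, ∫ x, th C χ γ i x * u x ∂μ =
        ∫ x, (∑ i, ∑ γ ∈ F, th C χ γ i x) * u x ∂μ := by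
      intro F
      have e1 : ∀ x, (∑ i, ∑ γ ∈ F, th C χ γ i x) * u x =
          ∑ i, ∑ γ ∈ F, th C χ γ i x * u x := fun x => by
        rw [Finset.sum_mul]
        exact Finset.sum_congr rfl fun i _ => Finset.sum_mul _ _ _
      simp only [e1]
      rw [integral_finsetSum _ fun i _ => integrable_finsetSum _ fun γ _ => hthi u hu γ i]
      exact Finset.sum_congr rfl fun i _ => (integral_finsetSum _ fun γ _ => hthi u hu γ i).symm
    simp only [e]
    refine tendsto_integral_filter_of_dominated_convergence (fun x => ‖u x‖)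
      (Eventually.of_forall fun F => (hcutc F).aestronglyMeasurable.mul hu.aestronglyMeasurable)
      (Eventually.of_forall fun F => Eventually.of_forall fun x => ?_) hu.norm
      (Eventually.of_forall fun x => ?_)
    · rw [norm_mul, Real.norm_eq_abs, abs_of_nonneg (sum_th_nonneg hχ x F)]
      exact (mul_le_mul_of_nonneg_right (sum_th_le hχ x F) (norm_nonneg _)).trans_eq (one_mul _)
    · obtain ⟨γ₀, j, y₀, h1, h2⟩ := exists_chart C x
      refine tendsto_const_nhds.congr' ?_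
      filter_upwards [eventually_ge_atTop (FF C γ₀ j)] with F hF
      rw [sum_th_eq hχ x F fun i γ y hy hx =>
        hF (mem_FF (y := y₀) (by linarith) hy (by rw [h2]; exact hx)), one_mul]
  have limp : Tendsto (fun F : Finset Γ => ∑ i, ∑ γ ∈ F, ∫ x, pp C χ Z γ i x ∂μ) atTop (𝓝 0) := by
    have e : ∀ F : Finset Γ, ∑ i, ∑ γ ∈ F, ∫ x, pp C χ Z γ i x ∂μ =
        ∫ x, ∑ i, ∑ γ ∈ F, pp C χ Z γ i x ∂μ := by
      intro F
      rw [integral_finsetSum _ fun i _ => integrable_finsetSum _ fun γ _ => hppi γ i]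
      exact Finset.sum_congr rfl fun i _ => (integral_finsetSum _ fun γ _ => hppi γ i).symm
    simp only [e]
    have := tendsto_integral_filter_of_dominated_convergence (μ := μ)
      (l := (atTop : Filter (Finset Γ))) (F := fun F x => ∑ i, ∑ γ ∈ F, pp C χ Z γ i x)
      (f := fun _ => (0 : ℝ)) (fun x => N * (B * (|c| * W x)))
      (Eventually.of_forall fun F => (continuous_finsetSum _ fun i _ =>
        continuous_finsetSum _ fun γ _ => hppc γ i).aestronglyMeasurable)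
      (Eventually.of_forall fun F => Eventually.of_forall fun x => hsum F x)
      (((hW.integ.const_mul |c|).const_mul B).const_mul N)
      (Eventually.of_forall fun x => ?_)
    · simpa using this
    · obtain ⟨γ₀, j, y₀, h1, h2⟩ := exists_chart C x
      refine tendsto_const_nhds.congr' ?_
      filter_upwards [eventually_ge_atTop (FF C γ₀ j)] with F hF
      rw [← h2]
      exact (sum_pp_eq hχ hZ γ₀ j y₀ h1 F hF).symm
  have key : ∀ F : Finset Γ, ∑ i, ∑ γ ∈ F, ∫ x, th C χ γ i x * f x ∂μ ≤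
      (∑ i, ∑ γ ∈ F, ∫ x, th C χ γ i x * h x ∂μ) - ∑ i, ∑ γ ∈ F, ∫ x, pp C χ Z γ i x ∂μ := by
    intro F
    rw [← Finset.sum_sub_distrib]
    refine Finset.sum_le_sum fun i _ => ?_
    rw [← Finset.sum_sub_distrib]
    exact Finset.sum_le_sum fun γ _ => chart_le hG hV hχ hZ hf hh hfh γ i
  have := le_of_tendsto_of_tendsto' (lim f hf) ((lim h hh).sub limp) key
  simpa using this

end Vale.Agent.P223.X.IBPX
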