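import Vale.Agent.P223.X.IBPX
import Vale.Agent.P223.H.ConfScal
import Vale.Agent.P223.H.LapInt

/-! Phase 3: gradient vector fields. -/

namespace Vale.Agent.P223.X.GrdX

open scoped ContDiff Matrix Topology
open MeasureTheory Vale.Agent.P223.H

section loc
variable {n : ℕ} {G : E n → Matrix (Fin n) (Fin n) ℝ}

/-- `⟨grad f, w⟩ = df(w)` -/
theorem grd_ip (hp : ∀ y, (G y).PosDef) (f : E n → ℝ) (y w : E n) :
    ∑ a, ∑ b, grd G f y a * w b * G y a b = fderiv ℝ f y w := by
  rw [← IBPX.pair_eq f (fun _ => w) y]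
  unfold IBP.pair
  rw [Finset.sum_comm]
  refine Finset.sum_congr rfl fun b _ => ?_
  rw [← ConfScal.g_grd hp f y b, Finset.sum_mul]
  refine Finset.sum_congr rfl fun a _ => ?_
  rw [ConfScal.g_symm hp y a b]
  ring

/-- nondegeneracy -/
theorem eq_of_ip {A : Matrix (Fin n) (Fin n) ℝ} (hA : A.PosDef) {u v : E n}
    (h : ∀ w : E n, ∑ a, ∑ b, u a * w b * A a b = ∑ a, ∑ b, v a * w b * A a b) : u = v := by
  have h1 : ∀ z : E n, ∑ a, ∑ b, z a * z b * A a b = z ⬝ᵥ (A *ᵥ z) := by
    intro z
    simp only [dotProduct, Matrix.mulVec, Finset.mul_sum]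
    exact Finset.sum_congr rfl fun a _ => Finset.sum_congr rfl fun b _ => by ring
  have h2 : ∑ a, ∑ b, (u - v) a * (u - v) b * A a b = 0 := by
    have h3 := h (u - v)
    have h4 : ∑ a, ∑ b, (u - v) a * (u - v) b * A a b =
        ∑ a, ∑ b, u a * (u - v) b * A a b - ∑ a, ∑ b, v a * (u - v) b * A a b := by
      rw [← Finset.sum_sub_distrib]
      refine Finset.sum_congr rfl fun a _ => ?_
      rw [← Finset.sum_sub_distrib]
      exact Finset.sum_congr rfl fun b _ => by simp only [Pi.sub_apply]; ring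
    rw [h4, h3, sub_self]
  by_contra hne
  have h5 := hA.dotProduct_mulVec_pos (x := u - v) (sub_ne_zero.2 hne)
  rw [h1] at h2
  simp only [star_trivial] at h5
  linarith

theorem contDiff_grd (hs : ∀ i j, ContDiff ℝ ∞ (fun x => G x i j)) (hp : ∀ y, (G y).PosDef)
    {f : E n → ℝ} (hf : ContDiff ℝ 2 f) : ContDiff ℝ 1 (grd G f) := by
  have hM := Bridge.metricOn hs hp
  refine contDiff_pi.2 fun i => ?_
  refine ContDiff.sum fun j _ => ContDiff.mul ?_ (Bridge.contDiff_pd hf (by norm_num) j)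
  refine contDiff_iff_contDiffAt.2 fun x => ?_
  exact (hM.sm_inv isOpen_univ (Set.mem_univ x) i j).of_le (by exact_mod_cast le_top)

theorem continuous_lap (hs : ∀ i j, ContDiff ℝ ∞ (fun x => G x i j)) (hp : ∀ y, (G y).PosDef)
    {f : E n → ℝ} (hf : ContDiff ℝ 2 f) : Continuous (lap G f) := by
  have : lap G f = fun x => divg G (grd G f) x :=
    funext fun x => LapInt.lap_eq_divg hs hp hf x
  rw [this]
  unfold divg
  have hG : Met n T1 G := EqX.metT1 hs hp
  have hd : ContDiff ℝ 1 (H.dens G) := contDiff_infty.1 (IBP.contDiff_dens hG) 1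
  refine (hd.continuous.inv₀ fun x => (Common.dens_pos hG x).ne').mul ?_
  refine continuous_finsetSum _ fun i _ => ?_
  exact ((hd.mul (contDiff_pi.1 (contDiff_grd hs hp hf) i)).continuous_fderiv
    one_ne_zero).clm_apply continuous_const

theorem continuous_gradSq (hs : ∀ i j, ContDiff ℝ ∞ (fun x => G x i j))
    (hp : ∀ y, (G y).PosDef) {f : E n → ℝ} (hf : ContDiff ℝ 1 f) :
    Continuous fun x => gradSq G f x := by
  have hM := Bridge.metricOn hs hp
  unfold gradSq gradIp
  refine continuous_finsetSum _ fun i _ => continuous_finsetSum _ fun j _ => ?_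
  have h1 : Continuous fun x => (G x)⁻¹ i j := continuous_iff_continuousAt.2 fun x =>
    (hM.sm_inv isOpen_univ (Set.mem_univ x) i j).continuousAt
  exact (h1.mul (Bridge.contDiff_pd hf (k := 0) (by norm_num) i).continuous).mul
    (Bridge.contDiff_pd hf (k := 0) (by norm_num) j).continuous

end loc

section
variable {n : ℕ} {M X Γ I : Type} [TopologicalSpace M] [TopologicalSpace X] [Group Γ]
    [MulAction Γ X] {C : Cov n M X Γ I} {G : I → E n → Matrix (Fin n) (Fin n) ℝ}

/-- gradients are vector fields -/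
theorem vfX_grd (hG : MetX C G) {f : X → ℝ} (hf : C.Ck 2 f) :
    VfX C (fun γ i => grd (G i) (C.rep f γ i)) where
  smooth γ i := contDiff_grd (hG.smooth i) (hG.pos i) (hf γ i)
  inv γ γ' i i' y y' h := by
    obtain ⟨h1, h2⟩ := chart_eq C h
    set g := γ'⁻¹ * γ with hg
    set T := C.tr i i' g with hT
    have hd : DifferentiableAt ℝ (C.rep f γ' i') y' := (hf γ' i').differentiable (by simp) _
    have e1 : fderiv ℝ (C.rep f γ i) y = (fderiv ℝ (C.rep f γ' i') y').comp (fderiv ℝ T y) := by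
      have e2 := rep_tr_eventually C f h1 γ'
      rw [show γ' * g = γ by rw [hg, mul_inv_cancel_left]] at e2
      rw [e2.fderiv_eq]
      have := fderiv_comp (g := C.rep f γ' i') (f := T) y (by rw [h2]; exact hd)
        ((contDiffAt_tr C h1).differentiableAt (by simp))
      rw [h2] at this
      exact this
    refine eq_of_ip (hG.pos i' y') fun w => ?_
    -- `w = DT w'`
    obtain ⟨h3, h4⟩ := tr_tr C h1
    set w' := fderiv ℝ (C.tr i' i g⁻¹) y' w with hw'
    have h5 : fderiv ℝ T y w' = w := by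
      have h6 := fderiv_tr_inv C h3 w
      rw [h4, inv_inv, ← hT, h2] at h6
      exact h6
    rw [grd_ip (hG.pos i'), ← h5]
    have h7 := hG.inv i i' g y h1 (grd (G i) (C.rep f γ i) y) w'
    rw [← hT, h2] at h7
    rw [h7, grd_ip (hG.pos i), e1]
    rfl

end

end Vale.Agent.P223.X.GrdX
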