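import Vale.Agent.P223.X.IntM
import Vale.Agent.P223.X.GrdX

/-! Phase 3, block X20: the integral of a Laplacian vanishes. -/

namespace Vale.Agent.P223.X.LapX

open scoped ContDiff Matrix Topology
open MeasureTheory Vale.Agent.P223.H

section
variable {n : ℕ} {M X Γ I : Type} [TopologicalSpace M] [TopologicalSpace X] [Group Γ]
    [MulAction Γ X] {C : Cov n M X Γ I} {G : I → E n → Matrix (Fin n) (Fin n) ℝ}

theorem rep_inv {f : X → ℝ} (hfi : ∀ (γ : Γ) x, f (γ • x) = f x) (γ γ' : Γ) (i : I) :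
    C.rep f γ i = C.rep f γ' i := by
  funext y
  show f (γ • C.ψ i y) = f (γ' • C.ψ i y)
  rw [hfi, hfi]

theorem lapX_inv (hG : MetX C G) {f : X → ℝ} (hf : C.Ck 2 f)
    (hfi : ∀ (γ : Γ) x, f (γ • x) = f x) (γ : Γ) (x : X) :
    lapX C G f (γ • x) = lapX C G f x := by
  rw [← lapX_smul hG hf γ x]
  congr 1
  funext z
  exact hfi γ z

variable [Fintype I] [T2Space X] {χ : I → E n → ℝ}

/-- the sum of the pairings vanishes -/
theorem sum_up_pair (hχ : Part C χ) {Z : Γ → I → E n → E n} (hZ : VfX C Z)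
    (hZi : ∀ γ γ' i, Z γ i = Z γ' i) (m : M) :
    ∑ i, IntM.up C i (IBP.pair (χ i) (Z 1 i)) m = 0 := by
  classical
  set x := Function.surjInv C.surj m with hx
  obtain ⟨γ₀, j, y₀, h1, h2⟩ := exists_chart C x
  rw [← IBPX.sum_pp_eq hχ hZ γ₀ j y₀ h1 (IBPX.FF C γ₀ j) le_rfl]
  refine Finset.sum_congr rfl fun i _ => ?_
  unfold IntM.up
  rw [h2, ← hx]
  have e : ∀ γ : Γ, C.ex i (IBP.pair (χ i) (Z 1 i)) (γ • x) = IBPX.pp C χ Z γ i x := fun γ => by
    unfold IBPX.pp
    rw [hZi γ⁻¹ 1 i]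
  simp only [e]
  refine finsum_eq_sum_of_support_subset _ fun γ hγ => ?_
  obtain ⟨y, hy, hy'⟩ := IBPX.pp_ne_zero hχ hγ
  exact IBPX.mem_FF (y := y₀) (by linarith) hy (by rw [h2]; exact hy')

end

theorem main (hPart : SpecPart) : SpecLapX := by
  intro n M X Γ I _ _ _ _ _ _ _ _ _ _ C G ν hG hV f hf hfi
  obtain ⟨χ, hχ⟩ := hPart n M X Γ I C
  have hZ := GrdX.vfX_grd hG hf
  have hZi : ∀ (γ γ' : Γ) i, grd (G i) (C.rep f γ i) = grd (G i) (C.rep f γ' i) :=
    fun γ γ' i => by rw [rep_inv hfi γ γ' i]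
  have hβ : ∀ i y, C.dn (lapX C G f) (IntM.β C i y) = lap (G i) (C.rep f 1 i) y := fun i y => by
    rw [IntM.dn_β C (lapX_inv hG hf hfi)]
    have := lapX_eq hG hf 1 i y
    rwa [one_smul] at this
  have hlc : ∀ i, Continuous (lap (G i) (C.rep f 1 i)) := fun i =>
    GrdX.continuous_lap (hG.smooth i) (hG.pos i) (hf 1 i)
  rw [IntM.integral_eq hG hV hχ fun i => by simp only [hβ]; exact hlc i]
  have hcomp := IBPX.hasCompactSupport_χ hχ
  have e1 : ∀ i, ∫ y, χ i y * C.dn (lapX C G f) (IntM.β C i y) * H.dens (G i) y =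
      -∫ m, IntM.up C i (IBP.pair (χ i) (grd (G i) (C.rep f 1 i))) m * 1 ∂ν := by
    intro i
    rw [IntM.integral_up hG hV i _ fun _ => 1]
    have h1 := IBP.ibp (EqX.metT1 (hG.smooth i) (hG.pos i)) (χ i)
      (contDiff_infty.1 (hχ.smooth i) 1) (hcomp i) (grd (G i) (C.rep f 1 i)) (hZ.smooth 1 i)
    simp only [hβ, mul_one]
    rw [← h1]
    refine integral_congr_ae (ae_of_all _ fun y => ?_)
    simp only
    rw [LapInt.lap_eq_divg (hG.smooth i) (hG.pos i) (hf 1 i) y]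
  simp only [e1]
  rw [Finset.sum_neg_distrib, ← integral_finsetSum, neg_eq_zero]
  · have e2 : ∀ m, ∑ i, IntM.up C i (IBP.pair (χ i) (grd (G i) (C.rep f 1 i))) m * 1 = 0 := by
      intro m
      simp only [mul_one]
      exact sum_up_pair hχ hZ hZi m
    simp only [e2, integral_zero]
  · intro i _
    refine IntM.integrable_up hG hV i ?_ ?_ continuous_const
    · exact IBPX.continuous_pair _ (contDiff_infty.1 (hχ.smooth i) 1) _ (hZ.smooth 1 i).continuous
    · refine HasCompactSupport.intro (isCompact_closedBall (0 : E n) 2) fun y hy => ?_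
      rw [IBPX.pair_eq, IBPX.fderiv_χ_zero hχ i (by simpa using hy)]
      simp

end Vale.Agent.P223.X.LapX
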