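import Vale.Agent.P223.X.LapX
import Vale.Agent.P223.H.B25c

/-! Phase 3, block X21: monotonicity of the integral of `(Scal⁻)^{n/2}` under the Ricci flow. -/

namespace Vale.Agent.P223.X.MonoX

open scoped ContDiff Matrix Topology
open MeasureTheory Vale.Agent.P223.H Vale.Agent.P223.H.B25c

section
variable {n : ℕ} {M X Γ I : Type} [TopologicalSpace M] [TopologicalSpace X] [Group Γ]
    [MulAction Γ X] {C : Cov n M X Γ I}

/-- the scalar curvature on `X` -/
noncomputable def scX (C : Cov n M X Γ I) (G : I → E n → Matrix (Fin n) (Fin n) ℝ) : X → ℝ :=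
  C.gl fun _ i y => H.scal (G i) y

variable {G : I → E n → Matrix (Fin n) (Fin n) ℝ}

theorem scX_eq (hG : MetX C G) (γ : Γ) (i : I) (y : E n) :
    scX C G (γ • C.ψ i y) = H.scal (G i) y :=
  gl_eq C (a := fun _ i y => H.scal (G i) y) (fun _ _ _ _ _ _ h => scal_chart hG h) γ i y

theorem scX_inv (hG : MetX C G) (γ : Γ) (x : X) : scX C G (γ • x) = scX C G x := by
  obtain ⟨γ', i, y, -, rfl⟩ := exists_chart C x
  rw [smul_smul, scX_eq hG, scX_eq hG]

theorem scM_β (hG : MetX C G) (i : I) (y : E n) :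
    scM C G (IntM.β C i y) = H.scal (G i) y := by
  have h1 : scM C G (IntM.β C i y) = scX C G (C.ψ i y) := IntM.dn_β C (scX_inv hG) i y
  rw [h1]
  have := scX_eq hG 1 i y
  rwa [one_smul] at this

theorem rep_comp (hG : MetX C G) (φ : ℝ → ℝ) (γ : Γ) (i : I) :
    C.rep (fun x => φ (scX C G x)) γ i = fun y => φ (H.scal (G i) y) := by
  funext y
  show φ (scX C G (γ • C.ψ i y)) = _
  rw [scX_eq hG]

/-- local smoothness of the scalar curvature -/
theorem scal_cd (hG : MetX C G) (i : I) : ContDiff ℝ ∞ (fun y => H.scal (G i) y) :=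
  cd_at (f := fun _ y => H.scal (G i) y)
    (cd_scal (G := fun _ => G i) (fun a b => (hG.smooth i a b).comp contDiff_snd)
      (fun _ y => hG.pos i y)) 0

theorem dens_cd (hG : MetX C G) (i : I) : ContDiff ℝ ∞ (fun y => H.dens (G i) y) :=
  cd_at (f := fun _ y => H.dens (G i) y)
    (cd_dens (G := fun _ => G i) (fun a b => (hG.smooth i a b).comp contDiff_snd)
      (fun _ y => hG.pos i y)) 0

theorem scM_continuous (hG : MetX C G) : Continuous (scM C G) := by
  have h : Continuous (scX C G) := by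
    refine Ck_continuous C (f := scX C G) fun γ i => ?_
    have e := rep_comp hG id γ i
    simp only [id] at e
    have : C.rep (scX C G) γ i = fun y => H.scal (G i) y := e
    rw [this]
    exact (scal_cd hG i).of_le (by simp)
  exact IntM.continuous_dn C (scX_inv hG) h

end

section
variable {n : ℕ} {M X Γ I : Type} [TopologicalSpace M] [TopologicalSpace X] [Group Γ]
    [MulAction Γ X] {C : Cov n M X Γ I} [MeasurableSpace M] [BorelSpace M] [Fintype I]
    {G : I → E n → Matrix (Fin n) (Fin n) ℝ} {ν : Measure M} {χ : I → E n → ℝ}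

/-- the integral of `φ (Scal)` -/
theorem integral_sc (hG : MetX C G) (hV : VolM C G ν) (hχ : Part C χ) {φ : ℝ → ℝ}
    (hφ : Continuous φ) : ∫ m, φ (scM C G m) ∂ν =
      ∑ i, ∫ y in Metric.closedBall (0 : E n) 2,
        χ i y * (φ (H.scal (G i) y) * H.dens (G i) y) := by
  have e : ∀ i y, φ (scM C G (IntM.β C i y)) = φ (H.scal (G i) y) := fun i y => by
    rw [scM_β hG]
  rw [IntM.integral_eq (g := fun m => φ (scM C G m)) hG hV hχ fun i => by
    simp only [e]; exact hφ.comp (scal_cd hG i).continuous]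
  simp only [e]
  refine Finset.sum_congr rfl fun i _ => ?_
  rw [setIntegral_eq_integral_of_forall_compl_eq_zero]
  · exact integral_congr_ae (Filter.Eventually.of_forall fun y => mul_assoc _ _ _)
  · intro y hy
    rw [hχ.supp i y (by simpa using (not_le.1 (by simpa using hy)).le), zero_mul]

theorem integrable_sc (hG : MetX C G) (hV : VolM C G ν) {φ : ℝ → ℝ}
    (hφ : Continuous φ) : Integrable (fun m => φ (scM C G m)) ν := by
  have := IntM.isFiniteMeasure hG hV
  have := IntM.compactSpace C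
  have hc : Continuous fun m => φ (scM C G m) := hφ.comp (scM_continuous hG)
  exact hc.integrable_of_hasCompactSupport (HasCompactSupport.of_compactSpace _)

/-- `IS` as a real integral -/
theorem IS_eq (hG : MetX C G) (hV : VolM C G ν) {p : ℝ} (hp : 0 < p) :
    IS C G ν p = ENNReal.ofReal (∫ m, max 0 (-scM C G m) ^ p ∂ν) := by
  unfold IS
  rw [ofReal_integral_eq_lintegral_ofReal]
  · exact integrable_sc hG hV (φ := fun u => max 0 (-u) ^ p)
      ((continuous_const.max continuous_neg).rpow_const fun x => Or.inr hp.le)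
  · refine Filter.Eventually.of_forall fun x => ?_
    show (0 : ℝ) ≤ max 0 (-scM C G x) ^ p
    positivity

theorem IS_le (hG : MetX C G) (hV : VolM C G ν) {p : ℝ} (hp : 0 < p) {η : ℝ} (hη : 0 < η) :
    IS C G ν p ≤ ENNReal.ofReal (∫ m, B25c.FF p η (scM C G m) ∂ν) := by
  rw [IS_eq hG hV hp]
  refine ENNReal.ofReal_le_ofReal (integral_mono
    (integrable_sc hG hV (φ := fun u => max 0 (-u) ^ p)
      ((continuous_const.max continuous_neg).rpow_const fun x => Or.inr hp.le))
    (integrable_sc hG hV (FF_cd hη).continuous) fun m => ?_)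
  exact Real.rpow_le_rpow (le_max_left _ _) (le_hh hη _) hp.le

/-- the limit `η → 0` -/
theorem lim_sc (hG : MetX C G) (hV : VolM C G ν) {p : ℝ} (hp0 : 0 < p) :
    Filter.Tendsto (fun k : ℕ => ∫ m, B25c.FF p (1 / ((k : ℝ) + 1)) (scM C G m) ∂ν) Filter.atTop
      (𝓝 (∫ m, max 0 (-scM C G m) ^ p ∂ν)) := by
  have hηk : ∀ k : ℕ, (0 : ℝ) < 1 / ((k : ℝ) + 1) := fun k => by positivity
  refine tendsto_integral_of_dominated_convergence
    (fun m => (max 0 (-scM C G m) + 1) ^ p) ?_ ?_ ?_ ?_
  · intro k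
    exact (integrable_sc hG hV (FF_cd (hηk k)).continuous).aestronglyMeasurable
  · exact integrable_sc hG hV (φ := fun u => (max 0 (-u) + 1) ^ p)
      (((continuous_const.max continuous_neg).add continuous_const).rpow_const
        fun x => Or.inr hp0.le)
  · intro k
    refine Filter.Eventually.of_forall fun x => ?_
    have h1 := FF_nonneg (p := p) (hηk k) (scM C G x)
    rw [Real.norm_of_nonneg h1]
    refine Real.rpow_le_rpow (hh_pos (hηk k) _).le ?_ hp0.le
    refine (hh_le (hηk k) _).trans ?_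
    have h3 : 1 / ((k : ℝ) + 1) ≤ 1 := by
      rw [div_le_one (by positivity)]
      have : (0 : ℝ) ≤ k := Nat.cast_nonneg k
      linarith
    linarith
  · refine Filter.Eventually.of_forall fun x => ?_
    have h1 : Filter.Tendsto (fun k : ℕ => hh (1 / ((k : ℝ) + 1)) (scM C G x)) Filter.atTop
        (𝓝 (max 0 (-scM C G x))) := by
      refine tendsto_of_tendsto_of_tendsto_of_le_of_le tendsto_const_nhds ?_
        (fun k => le_hh (hηk k) _) (fun k => hh_le (hηk k) _)
      have := (tendsto_one_div_add_atTop_nhds_zero_nat (𝕜 := ℝ)).const_add (max 0 (-scM C G x))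
      simpa using this
    exact h1.rpow_const (Or.inr hp0.le)

end

/-! ### the derivative -/

section
variable {n : ℕ} {M X Γ I : Type} [TopologicalSpace M] [TopologicalSpace X] [Group Γ]
    [MulAction Γ X] {C : Cov n M X Γ I} [MeasurableSpace M] [BorelSpace M] [Fintype I]
    [T2Space X] [ConnectedSpace X] [T2Space M]
    {G : ℝ → I → E n → Matrix (Fin n) (Fin n) ℝ} {χ : I → E n → ℝ}

/-- the integrand in the chart `i` -/
noncomputable def KK (G : ℝ → I → E n → Matrix (Fin n) (Fin n) ℝ) (χ : I → E n → ℝ) (p η : ℝ)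
    (i : I) (t : ℝ) (y : E n) : ℝ := χ i y * (B25c.FF p η (H.scal (G t i) y) * H.dens (G t i) y)

omit [MeasurableSpace M] [BorelSpace M] [T2Space X] [ConnectedSpace X] [T2Space M] in
theorem KK_cd (hF : FamX C G) (hχ : Part C χ) {p η : ℝ} (hη : 0 < η) (i : I) :
    ContDiff ℝ ∞ (fun q : ℝ × E n => KK G χ p η i q.1 q.2) :=
  ((hχ.smooth i).comp contDiff_snd).mul
    (cd_K (G := fun t => G t i) (hF.smooth i) (fun t y => (hF.met t).pos i y) hη)

theorem der_le_X (hL : SpecLapX) (hE : SpecEvol) (hF : FamX C G) (hχ : Part C χ) {p η τ : ℝ}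
    (hη : 0 < η) (hn0 : (0 : ℝ) < n) (hpn : p = (n : ℝ) / 2) (hp1 : 1 ≤ p) {ν : Measure M}
    (hV : VolM C (G τ) ν)
    (hflow : ∀ i y a b, dtG (fun s => G s i) τ y a b = -2 * ric (G τ i) y a b) :
    ∑ i, ∫ y in Metric.closedBall (0 : E n) 2, deriv (fun s => KK G χ p η i s y) τ ≤
      η * ∫ m, B25c.FF p η (scM C (G τ) m) ∂ν := by
  have hG := hF.met τ
  have hs := fun i => hF.smooth i
  have hp := fun i t y => (hF.met t).pos i y
  set F : X → ℝ := fun x => B25c.FF p η (scX C (G τ) x) with hFdef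
  have hrep : ∀ γ i, C.rep F γ i = fun y => B25c.FF p η (H.scal (G τ i) y) := fun γ i =>
    rep_comp hG _ γ i
  have hcf : C.Ck 2 F := fun γ i => by
    rw [hrep]
    exact contDiff_infty.1 ((FF_cd hη).comp (scal_cd hG i)) 2
  have hFi : ∀ (γ : Γ) x, F (γ • x) = F x := fun γ x => by
    show B25c.FF p η (scX C (G τ) (γ • x)) = B25c.FF p η (scX C (G τ) x)
    rw [scX_inv hG]
  have hL0 := hL n M X Γ I C (G τ) ν hG hV F hcf hFi
  have hβ : ∀ i y, C.dn (lapX C (G τ) F) (IntM.β C i y) =
      H.lap (G τ i) (fun y => B25c.FF p η (H.scal (G τ i) y)) y := fun i y => by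
    rw [IntM.dn_β C (LapX.lapX_inv hG hcf hFi)]
    have := lapX_eq hG hcf 1 i y
    rw [hrep] at this
    rwa [one_smul] at this
  have hlc : ∀ i, Continuous (H.lap (G τ i) (fun y => B25c.FF p η (H.scal (G τ i) y))) := fun i =>
    GrdX.continuous_lap (hG.smooth i) (hG.pos i)
      (contDiff_infty.1 ((FF_cd hη).comp (scal_cd hG i)) 2)
  rw [IntM.integral_eq hG hV hχ fun i => by simp only [hβ]; exact hlc i] at hL0
  simp only [hβ] at hL0
  have hball : Bornology.IsBounded (Metric.closedBall (0 : E n) 2) := Metric.isBounded_closedBall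
  have e0 : ∀ (i : I) (g : E n → ℝ), ∫ y, χ i y * g y =
      ∫ y in Metric.closedBall (0 : E n) 2, χ i y * g y := by
    intro i g
    rw [setIntegral_eq_integral_of_forall_compl_eq_zero]
    intro y hy
    rw [hχ.supp i y (by simpa using (not_le.1 (by simpa using hy)).le), zero_mul]
  have hχc : ∀ i, Continuous (χ i) := fun i => (hχ.smooth i).continuous
  have hdc : ∀ i, Continuous (H.dens (G τ i)) := fun i => (dens_cd hG i).continuous
  have hfc : ∀ i, Continuous (fun y => B25c.FF p η (H.scal (G τ i) y)) := fun i =>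
    (FF_cd hη).continuous.comp (scal_cd hG i).continuous
  -- pointwise
  have h1 : ∀ i, ∫ y in Metric.closedBall (0 : E n) 2, deriv (fun s => KK G χ p η i s y) τ ≤
      ∫ y in Metric.closedBall (0 : E n) 2, (χ i y *
        (H.lap (G τ i) (fun y => B25c.FF p η (H.scal (G τ i) y)) y * H.dens (G τ i) y) +
        η * (χ i y * (B25c.FF p η (H.scal (G τ i) y) * H.dens (G τ i) y))) := by
    intro i
    refine integral_mono (integral_deriv (KK_cd hF hχ hη i) hball τ).2.1 ?_ fun y => ?_
    · refine intOn hball ?_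
      exact ((hχc i).mul ((hlc i).mul (hdc i))).add
        (continuous_const.mul ((hχc i).mul ((hfc i).mul (hdc i))))
    · obtain ⟨d1, d2, d3⟩ := hE n (fun t => G t i) (hs i) (hp i) τ (hflow i) y
      have h2 := pt_le (G := fun t => G t i) (hs i) (hp i) hη hn0 hpn hp1 y d1 d2 d3
      have h3 : deriv (fun s => KK G χ p η i s y) τ =
          χ i y * deriv (fun s => B25c.FF p η (H.scal (G s i) y) * H.dens (G s i) y) τ := by
        show deriv (fun s => χ i y * (B25c.FF p η (H.scal (G s i) y) * H.dens (G s i) y)) τ = _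
        exact deriv_const_mul_field _
      show deriv (fun s => KK G χ p η i s y) τ ≤ _
      rw [h3]
      calc _ ≤ χ i y * _ := mul_le_mul_of_nonneg_left h2 (hχ.nonneg i y)
        _ = _ := by ring
  refine (Finset.sum_le_sum fun i _ => h1 i).trans (le_of_eq ?_)
  have h4 : ∀ i, ∫ y in Metric.closedBall (0 : E n) 2, (χ i y *
        (H.lap (G τ i) (fun y => B25c.FF p η (H.scal (G τ i) y)) y * H.dens (G τ i) y) +
        η * (χ i y * (B25c.FF p η (H.scal (G τ i) y) * H.dens (G τ i) y))) =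
      (∫ y, χ i y * H.lap (G τ i) (fun y => B25c.FF p η (H.scal (G τ i) y)) y *
        H.dens (G τ i) y) +
      η * ∫ y in Metric.closedBall (0 : E n) 2,
        χ i y * (B25c.FF p η (H.scal (G τ i) y) * H.dens (G τ i) y) := by
    intro i
    have i1 : IntegrableOn (fun y => χ i y * (H.lap (G τ i)
        (fun y => B25c.FF p η (H.scal (G τ i) y)) y * H.dens (G τ i) y))
        (Metric.closedBall (0 : E n) 2) :=
      intOn hball ((hχc i).mul ((hlc i).mul (hdc i)))
    have i2 : IntegrableOn (fun y => η * (χ i y * (B25c.FF p η (H.scal (G τ i) y) *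
        H.dens (G τ i) y))) (Metric.closedBall (0 : E n) 2) :=
      intOn hball (continuous_const.mul ((hχc i).mul ((hfc i).mul (hdc i))))
    rw [integral_add i1 i2, integral_const_mul, ← e0]
    congr 1
    exact integral_congr_ae (Filter.Eventually.of_forall fun y => (mul_assoc _ _ _).symm)
  rw [Finset.sum_congr rfl fun i _ => h4 i, Finset.sum_add_distrib, hL0, zero_add,
    ← Finset.mul_sum, integral_sc hG hV hχ (FF_cd hη).continuous]

end

/-- Block X21 -/
theorem main (hPart : SpecPart) (hL : SpecLapX) (hE : SpecEvol) : SpecMonoX := by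
  intro n M X Γ I _ _ _ _ _ _ _ _ _ _ C G ν t₀ hn hF hV hflow s t hs₀ hst
  obtain ⟨χ, hχ⟩ := hPart n M X Γ I C
  have hn3 : (3 : ℝ) ≤ n := by exact_mod_cast hn
  have hn0 : (0 : ℝ) < n := by linarith
  obtain ⟨p, hp⟩ : ∃ p : ℝ, p = (n : ℝ) / 2 := ⟨_, rfl⟩
  rw [← hp]
  have hp1 : 1 ≤ p := by rw [hp]; linarith
  have hp0 : 0 < p := by linarith
  have hball : Bornology.IsBounded (Metric.closedBall (0 : E n) 2) := Metric.isBounded_closedBall
  have hmono : ∀ η : ℝ, 0 < η → ∫ m, B25c.FF p η (scM C (G t) m) ∂(ν t) ≤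
      Real.exp (η * (t - s)) * ∫ m, B25c.FF p η (scM C (G s) m) ∂(ν s) := by
    intro η hη
    have e : ∀ τ, t₀ ≤ τ → ∫ m, B25c.FF p η (scM C (G τ) m) ∂(ν τ) =
        ∑ i, ∫ y in Metric.closedBall (0 : E n) 2, KK G χ p η i τ y := fun τ hτ =>
      integral_sc (hF.met τ) (hV τ hτ) hχ (FF_cd hη).continuous
    rw [e t (hs₀.trans hst), e s hs₀]
    refine gronwall (I := fun τ => ∑ i, ∫ y in Metric.closedBall (0 : E n) 2, KK G χ p η i τ y)
      (I' := fun τ => ∑ i, ∫ y in Metric.closedBall (0 : E n) 2,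
        deriv (fun s => KK G χ p η i s y) τ) (fun τ => ?_) (fun τ hτ => ?_) hst
    · exact HasDerivAt.fun_sum fun i _ => (integral_deriv (KK_cd hF hχ hη i) hball τ).2.2
    · have hτ₀ : t₀ < τ := lt_of_le_of_lt hs₀ hτ
      show _ ≤ η * ∑ i, ∫ y in Metric.closedBall (0 : E n) 2, KK G χ p η i τ y
      rw [← e τ hτ₀.le]
      exact der_le_X hL hE hF hχ hη hn0 hp hp1 (hV τ hτ₀.le) (hflow τ hτ₀)
  -- the limit
  have hlim := lim_sc (hF.met s) (hV s hs₀) hp0
  have hexp : Filter.Tendsto (fun k : ℕ => Real.exp (1 / ((k : ℝ) + 1) * (t - s)))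
      Filter.atTop (𝓝 1) := by
    have h1 := ((tendsto_one_div_add_atTop_nhds_zero_nat (𝕜 := ℝ)).mul_const (t - s))
    rw [zero_mul] at h1
    have h2 := (Real.continuous_exp.tendsto 0).comp h1
    rw [Real.exp_zero] at h2
    exact h2
  have hprod := hexp.mul hlim
  rw [one_mul] at hprod
  have hofr := (ENNReal.continuous_ofReal.tendsto _).comp hprod
  rw [IS_eq (hF.met s) (hV s hs₀) hp0]
  refine ge_of_tendsto' hofr fun k => ?_
  have hη : (0 : ℝ) < 1 / ((k : ℝ) + 1) := by positivity
  exact (IS_le (hF.met t) (hV t (hs₀.trans hst)) hp0 hη).trans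
    (ENNReal.ofReal_le_ofReal (hmono _ hη))

end Vale.Agent.P223.X.MonoX
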