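import Vale.Agent.P223.X.Basic
import Vale.Agent.P223.H.B2
import Vale.Agent.P223.H.B25c

/-! Block X6: families of maps whose average generates the Laplacian, general manifolds. -/

namespace Vale.Agent.P223.X.MpX

open scoped ContDiff Topology Matrix
open Vale.Agent.P223.H

variable {n : ℕ} {M X Γ I : Type} [TopologicalSpace M] [TopologicalSpace X] [Group Γ]
    [MulAction Γ X] (C : Cov n M X Γ I)

/-! ### local computation -/

/-- The generator of one family of maps, in a chart. -/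
theorem gen_chart {G : E n → Matrix (Fin n) (Fin n) ℝ} {q : E n → ℝ} (hq : ContDiff ℝ 2 q)
    (y : E n) (θ : ℝ) (v : Fin n → Fin n → ℝ)
    (hv : ∀ a b, (G y)⁻¹ a b = ∑ k, v k a * v k b) (hsy : ∀ a b, (G y)⁻¹ a b = (G y)⁻¹ b a)
    (Ξ Z : Option (Fin n) → E n) (h1 : Ξ none = 0)
    (h2 : ∀ k, Ξ (some k) = (√2 * θ) • v k)
    (h3 : Z none = fun k => -(θ ^ 2 * ∑ a, ∑ b, (G y)⁻¹ a b * H.chr G y k a b))
    (h4 : ∀ k, Z (some k) = 0) :
    ∑ k : Option (Fin n), iteratedDeriv 2 (fun r : ℝ => q (y + r • Ξ k + r ^ 2 • Z k)) 0 =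
      2 * θ ^ 2 * H.lap G q y := by
  rw [Finset.sum_congr rfl fun k _ => B2.second q hq y (Ξ k) (Z k), Fintype.sum_option]
  have e3 : (∑ a, ∑ b, Ξ none a * Ξ none b * H.pd b (fun z => H.pd a q z) y) +
      2 * ∑ a, Z none a * H.pd a q y =
      - (2 * θ ^ 2 * ∑ k, ∑ a, ∑ b, (G y)⁻¹ a b * H.chr G y k a b * H.pd k q y) := by
    have z1 : ∀ a, Ξ none a = 0 := fun a => by rw [h1]; rfl
    simp only [z1, zero_mul, Finset.sum_const_zero, zero_add]
    rw [Finset.mul_sum, Finset.mul_sum, ← Finset.sum_neg_distrib]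
    refine Finset.sum_congr rfl fun k _ => ?_
    have z3 : ∑ a, ∑ b, (G y)⁻¹ a b * H.chr G y k a b * H.pd k q y =
        (∑ a, ∑ b, (G y)⁻¹ a b * H.chr G y k a b) * H.pd k q y := by
      rw [Finset.sum_mul]
      exact Finset.sum_congr rfl fun a _ => by rw [Finset.sum_mul]
    rw [z3, h3]; ring
  have e4 : ∑ k : Fin n, ((∑ a, ∑ b, Ξ (some k) a * Ξ (some k) b *
        H.pd b (fun z => H.pd a q z) y) + 2 * ∑ a, Z (some k) a * H.pd a q y) =
      2 * θ ^ 2 * ∑ a, ∑ b, (G y)⁻¹ a b * H.pd a (fun z => H.pd b q z) y := by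
    have z1 : ∀ k a, Z (some k) a = 0 := fun k a => by rw [h4]; rfl
    have z2 : ∀ k a, Ξ (some k) a = √2 * θ * v k a := fun k a => by rw [h2]; rfl
    simp only [z1, z2, zero_mul, Finset.sum_const_zero, mul_zero, add_zero]
    calc ∑ k : Fin n, ∑ a, ∑ b, √2 * θ * v k a * (√2 * θ * v k b) *
          H.pd b (fun z => H.pd a q z) y
        = ∑ k : Fin n, ∑ a, ∑ b, 2 * θ ^ 2 * ((v k a * v k b) *
          H.pd b (fun z => H.pd a q z) y) := by
          refine Finset.sum_congr rfl fun k _ => Finset.sum_congr rfl fun a _ =>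
            Finset.sum_congr rfl fun b _ => ?_
          have : √2 * √2 = (2 : ℝ) := Real.mul_self_sqrt (by norm_num)
          calc _ = (√2 * √2) * (θ ^ 2 * ((v k a * v k b) *
              H.pd b (fun z => H.pd a q z) y)) := by ring
            _ = _ := by rw [this]; ring
      _ = 2 * θ ^ 2 * ∑ k : Fin n, ∑ a, ∑ b, ((v k a * v k b) *
          H.pd b (fun z => H.pd a q z) y) := by
          simp only [Finset.mul_sum]
      _ = 2 * θ ^ 2 * ∑ a, ∑ b, ∑ k : Fin n, ((v k a * v k b) *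
          H.pd b (fun z => H.pd a q z) y) := by
          congr 1
          rw [Finset.sum_comm]
          exact Finset.sum_congr rfl fun a _ => Finset.sum_comm
      _ = 2 * θ ^ 2 * ∑ a, ∑ b, (G y)⁻¹ a b * H.pd b (fun z => H.pd a q z) y := by
          congr 1
          refine Finset.sum_congr rfl fun a _ => Finset.sum_congr rfl fun b _ => ?_
          rw [← Finset.sum_mul, ← hv a b]
      _ = _ := by
          congr 1
          rw [Finset.sum_comm]
          exact Finset.sum_congr rfl fun a _ => Finset.sum_congr rfl fun b _ => by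
            rw [hsy b a]
  rw [e3, e4]
  have e5 : H.lap G q y = (∑ a, ∑ b, (G y)⁻¹ a b * H.pd a (fun z => H.pd b q z) y) -
      ∑ k, ∑ a, ∑ b, (G y)⁻¹ a b * H.chr G y k a b * H.pd k q y := by
    have : ∑ k, ∑ a, ∑ b, (G y)⁻¹ a b * H.chr G y k a b * H.pd k q y =
        ∑ a, ∑ b, (G y)⁻¹ a b * ∑ k, H.chr G y k a b * H.pd k q y := by
      rw [Finset.sum_comm]
      refine Finset.sum_congr rfl fun a _ => ?_
      rw [Finset.sum_comm]
      refine Finset.sum_congr rfl fun b _ => ?_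
      rw [Finset.mul_sum]
      exact Finset.sum_congr rfl fun k _ => by ring
    rw [this, H.lap, ← Finset.sum_sub_distrib]
    refine Finset.sum_congr rfl fun a _ => ?_
    rw [← Finset.sum_sub_distrib]
    exact Finset.sum_congr rfl fun b _ => by rw [mul_sub]
  rw [e5]; ring

/-! ### charts -/

variable {C}

theorem uniq {i : I} {γ γ' : Γ} {y y' : E n} (h : γ • C.ψ i y = γ' • C.ψ i y') :
    γ = γ' ∧ y = y' := by
  have h1 : (γ'⁻¹ * γ) • C.ψ i y = C.ψ i y' := by rw [mul_smul, h, inv_smul_smul]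
  have h2 := C.inj i _ _ _ h1
  have h3 : γ = γ' := (inv_mul_eq_one.1 h2).symm
  subst h3
  exact ⟨rfl, (C.emb i).injective (by rw [← h1, h2, one_smul])⟩

theorem ex_of_not (i : I) (h : E n → ℝ) {x : X} (hx : x ∉ Set.range (C.ψ i)) :
    C.ex i h x = 0 := by
  unfold Cov.ex
  rw [if_neg hx]

theorem fs_eq (i : I) (h : E n → ℝ) (γ₀ : Γ) (y : E n) :
    ∑ᶠ γ : Γ, C.ex i h (γ • (γ₀ • C.ψ i y)) = h y := by
  rw [finsum_eq_single _ γ₀⁻¹, inv_smul_smul, ex_ψ]
  intro γ hγ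
  refine ex_of_not i h ?_
  rintro ⟨y', hy'⟩
  have h1 : (γ * γ₀) • C.ψ i y = C.ψ i y' := by rw [mul_smul, hy']
  exact hγ (mul_eq_one_iff_eq_inv.1 (C.inj i _ _ _ h1))

theorem fs_zero (i : I) (h : E n → ℝ) {x : X} (hx : ¬ ∃ (γ : Γ) (y : E n), γ • C.ψ i y = x) :
    ∑ᶠ γ : Γ, C.ex i h (γ • x) = 0 := by
  rw [finsum_congr fun γ => ex_of_not i h (x := γ • x) ?_, finsum_zero]
  rintro ⟨y, hy⟩
  exact hx ⟨γ⁻¹, y, by rw [hy, inv_smul_smul]⟩

theorem fs_smul (i : I) (h : E n → ℝ) (g : Γ) (x : X) :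
    ∑ᶠ γ : Γ, C.ex i h (γ • (g • x)) = ∑ᶠ γ : Γ, C.ex i h (γ • x) := by
  have := finsum_comp_equiv (Equiv.mulRight g) (f := fun γ : Γ => C.ex i h (γ • x))
  simp only [Equiv.coe_mulRight, mul_smul] at this
  exact this

theorem mv_eq (i : I) (ξ ζ : E n → E n) (r : ℝ) (γ : Γ) (y : E n) :
    C.mv i ξ ζ r (γ • C.ψ i y) = γ • C.ψ i (y + r • ξ y + r ^ 2 • ζ y) := by
  have h : ∃ (γ' : Γ) (y' : E n), γ' • C.ψ i y' = γ • C.ψ i y := ⟨γ, y, rfl⟩
  unfold Cov.mv
  rw [dif_pos h]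
  obtain ⟨h1, h2⟩ := uniq h.choose_spec.choose_spec
  rw [h2, h1]

theorem mv_of_not (i : I) (ξ ζ : E n → E n) (r : ℝ) {x : X}
    (hx : ¬ ∃ (γ : Γ) (y : E n), γ • C.ψ i y = x) : C.mv i ξ ζ r x = x := by
  unfold Cov.mv
  rw [dif_neg hx]

theorem hcs {h : E n → ℝ} (hs : ∀ y, 2 ≤ ‖y‖ → h y = 0) : HasCompactSupport h :=
  HasCompactSupport.of_support_subset_isCompact (isCompact_closedBall (0 : E n) 2) fun y hy => by
    rw [mem_closedBall_zero_iff]
    by_contra hn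
    exact hy (hs y (not_le.1 hn).le)

theorem smooth_fs [T2Space X] (i j : I) {h : E n → ℝ} (hh : ContDiff ℝ ∞ h)
    (hs : ∀ y, 2 ≤ ‖y‖ → h y = 0) :
    ContDiff ℝ ∞ fun y => ∑ᶠ γ : Γ, C.ex i h (γ • C.ψ j y) := by
  have hlf : LocallyFinite fun γ : Γ => Function.support fun y : E n =>
      C.ex i h (γ • C.ψ j y) := by
    intro y₀
    refine ⟨Metric.ball 0 (‖y₀‖ + 1), Metric.isOpen_ball.mem_nhds (by simp), ?_⟩
    refine (C.proper j i (max (‖y₀‖ + 1) 2)).subset ?_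
    rintro γ ⟨y, hy1, hy2⟩
    have h1 : γ • C.ψ j y ∈ Set.range (C.ψ i) := by
      by_contra hn
      exact hy1 (ex_of_not i h hn)
    obtain ⟨y', hy'⟩ := h1
    refine ⟨y, y', ?_, ?_, hy'.symm⟩
    · exact (mem_ball_zero_iff.1 hy2).le.trans (le_max_left _ _)
    · refine le_trans ?_ (le_max_right _ _)
      by_contra hn
      apply hy1
      show C.ex i h (γ • C.ψ j y) = 0
      rw [← hy', ex_ψ]
      exact hs y' (not_le.1 hn).le
  have hsm : ∀ γ : Γ, ContDiff ℝ ∞ fun y : E n => C.ex i h (γ • C.ψ j y) := fun γ =>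
    Ck_ex C hh (hcs hs) γ j
  refine contDiff_iff_contDiffAt.2 fun x => ?_
  obtain ⟨t, ht, hft⟩ := hlf x
  have : (fun y : E n => ∑ᶠ γ : Γ, C.ex i h (γ • C.ψ j y)) =ᶠ[𝓝 x]
      fun y => ∑ γ ∈ hft.toFinset, C.ex i h (γ • C.ψ j y) := by
    filter_upwards [ht] with y hy
    refine finsum_eq_sum_of_support_subset _ fun i hi => ?_
    simp only [Set.Finite.coe_toFinset, Set.mem_ofPred_eq]
    exact ⟨y, hi, hy⟩
  exact (ContDiffAt.sum fun i _ => (hsm i).contDiffAt).congr_of_eventuallyEq this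

/-- Squares of smooth functions form a partition of unity. -/
theorem sqPart [Fintype I] [T2Space X] {χ : I → E n → ℝ} (hχ : Part C χ) :
    ∃ θ : I → E n → ℝ, (∀ i, ContDiff ℝ ∞ (θ i)) ∧ (∀ i y, 2 ≤ ‖y‖ → θ i y = 0) ∧
      ∀ x : X, ∑ i, ∑ᶠ γ : Γ, C.ex i (fun y => θ i y ^ 2) (γ • x) = 1 := by
  classical
  let P : I → X → ℝ := fun j x => ∑ᶠ γ : Γ, C.ex j (χ j) (γ • x)
  let Q : X → ℝ := fun x => ∑ j, P j x ^ 2
  have hQ : ∀ x, 0 < Q x := by
    intro x
    have h0 : 0 ≤ Q x := Finset.sum_nonneg fun j _ => sq_nonneg _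
    refine lt_of_le_of_ne h0 fun h => ?_
    have h1 : ∀ j, P j x = 0 := fun j => by
      have := (Finset.sum_eq_zero_iff_of_nonneg fun j _ => sq_nonneg _).1 h.symm j
        (Finset.mem_univ j)
      exact pow_eq_zero_iff two_ne_zero |>.1 this
    have h2 := hχ.sum x
    rw [Finset.sum_eq_zero fun j _ => h1 j] at h2
    exact zero_ne_one h2
  have hQs : ∀ (g : Γ) x, Q (g • x) = Q x := fun g x =>
    Finset.sum_congr rfl fun j _ => by
      show (∑ᶠ γ : Γ, C.ex j (χ j) (γ • (g • x))) ^ 2 = _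
      rw [fs_smul]
  have hQc : ∀ i, ContDiff ℝ ∞ fun y => Q (C.ψ i y) := fun i =>
    ContDiff.sum fun j _ => (smooth_fs j i (hχ.smooth j) (hχ.supp j)).pow 2
  refine ⟨fun i y => χ i y / √(Q (C.ψ i y)), fun i => ?_, fun i y hy => ?_, fun x => ?_⟩
  · exact (hχ.smooth i).div ((hQc i).sqrt fun y => (hQ _).ne')
      fun y => (Real.sqrt_pos.2 (hQ _)).ne'
  · show χ i y / √(Q (C.ψ i y)) = 0
    rw [hχ.supp i y hy, zero_div]
  · have e : ∀ i, ∑ᶠ γ : Γ, C.ex i (fun y => (χ i y / √(Q (C.ψ i y))) ^ 2) (γ • x) =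
        P i x ^ 2 / Q x := by
      intro i
      by_cases hx : ∃ (γ : Γ) (y : E n), γ • C.ψ i y = x
      · obtain ⟨γ, y, rfl⟩ := hx
        rw [fs_eq, hQs, div_pow, Real.sq_sqrt (hQ _).le]
        congr 2
        exact (fs_eq i (χ i) γ y).symm
      · rw [fs_zero i _ hx]
        have : P i x = 0 := fs_zero i _ hx
        rw [this]; simp
    rw [Finset.sum_congr rfl fun i _ => e i, ← Finset.sum_div, div_self (hQ x).ne']

/-- Corrected statement of block X6 (`X` is nonempty). -/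
def Stmt : Prop := ∀ (n : ℕ) (M X Γ I : Type) [TopologicalSpace M] [TopologicalSpace X]
  [Group Γ] [MulAction Γ X] [Fintype I] [T2Space X] [Nonempty X] (C : Cov n M X Γ I)
  (G : ℝ → I → E n → Matrix (Fin n) (Fin n) ℝ), FamX C G →
  ∃ (N : ℕ) (S : MpX C N), 0 < N ∧ ∀ (t : ℝ) (f : X → ℝ), C.Ck 2 f → ∀ x,
    ∑ a, iteratedDeriv 2 (fun r => f (S.φ a t r x)) 0 = 2 * lapX C (G t) f x

theorem main (hPart : SpecPart) : Stmt := by
  intro n M X Γ I _ _ _ _ _ _ hne C G hG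
  obtain ⟨χ, hχ⟩ := hPart n M X Γ I C
  obtain ⟨θ, hθ, hθs, hθ1⟩ := sqPart hχ
  have hpos : ∀ i t y, (G t i y).PosDef := fun i t y => (hG.met t).pos i y
  have hinv : ∀ i a b, ContDiff ℝ ∞ (fun p : ℝ × E n => (G p.1 i p.2)⁻¹ a b) := fun i a b =>
    B25c.cd_G_inv (G := fun t y => G t i y) (hG.smooth i) (hpos i) a b
  have hchr : ∀ i k a b, ContDiff ℝ ∞ (fun p : ℝ × E n => H.chr (G p.1 i) p.2 k a b) :=
    fun i k a b => B25c.cd_chr (G := fun t y => G t i y) (hG.smooth i) (hpos i) k a b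
  have hfac : ∀ i, ∃ v : Fin n → ℝ × E n → Fin n → ℝ,
      (∀ k a, ContDiff ℝ ∞ fun p => v k p a) ∧
        ∀ p : ℝ × E n, ∀ a b, (G p.1 i p.2)⁻¹ a b = ∑ k, v k p a * v k p b := fun i =>
    B2.factor n (fun p : ℝ × E n => (G p.1 i p.2)⁻¹) (hinv i) fun p => (hpos i p.1 p.2).inv
  choose v hv hv' using hfac
  have hsy : ∀ i t y a b, (G t i y)⁻¹ a b = (G t i y)⁻¹ b a := by
    intro i t y a b
    have := congrFun (congrFun (hpos i t y).inv.isHermitian b) a
    simpa using this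
  -- the index type
  let A := I × Option (Fin n)
  let ξ : A → ℝ → E n → E n := fun a t y => match a.2 with
    | none => 0
    | some k => (√2 * θ a.1 y) • v a.1 k (t, y)
  let ζ : A → ℝ → E n → E n := fun a t y => match a.2 with
    | none => fun k => -(θ a.1 y ^ 2 * ∑ i, ∑ j, (G t a.1 y)⁻¹ i j * H.chr (G t a.1) y k i j)
    | some _ => 0
  have hξs : ∀ a, ContDiff ℝ ∞ (fun p : ℝ × E n => ξ a p.1 p.2) := by
    rintro ⟨i, k⟩
    cases k with
    | none => exact contDiff_const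
    | some k =>
      exact (contDiff_const.mul ((hθ i).comp contDiff_snd)).smul
        (contDiff_pi.2 fun j => hv i k j)
  have hζs : ∀ a, ContDiff ℝ ∞ (fun p : ℝ × E n => ζ a p.1 p.2) := by
    rintro ⟨i, k⟩
    cases k with
    | none =>
      refine contDiff_pi.2 fun k => ((((hθ i).comp contDiff_snd).pow 2).mul ?_).neg
      exact ContDiff.sum fun a _ => ContDiff.sum fun b _ => (hinv i a b).mul (hchr i k a b)
    | some k => exact contDiff_const
  have hsupp : ∀ a t y, 2 ≤ ‖y‖ → ξ a t y = 0 ∧ ζ a t y = 0 := by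
    rintro ⟨i, k⟩ t y hy
    have h0 := hθs i y hy
    cases k with
    | none =>
      refine ⟨rfl, ?_⟩
      funext j
      simp only [ζ]
      rw [h0]; simp
    | some k =>
      refine ⟨?_, rfl⟩
      simp only [ξ]
      rw [h0]; simp
  have hgen : ∀ (t : ℝ) (f : X → ℝ), C.Ck 2 f → ∀ x,
      ∑ a : A, iteratedDeriv 2 (fun r => f (C.mv a.1 (ξ a t) (ζ a t) r x)) 0 =
        2 * lapX C (G t) f x := by
    intro t f hf x
    have key : ∀ i : I, ∑ k : Option (Fin n),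
        iteratedDeriv 2 (fun r => f (C.mv i (ξ (i, k) t) (ζ (i, k) t) r x)) 0 =
          2 * (∑ᶠ γ : Γ, C.ex i (fun y => θ i y ^ 2) (γ • x)) * lapX C (G t) f x := by
      intro i
      by_cases hx : ∃ (γ : Γ) (y : E n), γ • C.ψ i y = x
      · obtain ⟨γ, y, rfl⟩ := hx
        rw [fs_eq, lapX_eq (hG.met t) hf γ i y]
        rw [← gen_chart (G := G t i) (hf γ i) y (θ i y) (fun k => v i k (t, y))
          (fun a b => hv' i (t, y) a b) (hsy i t y) (fun k => ξ (i, k) t y)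
          (fun k => ζ (i, k) t y) rfl (fun k => rfl) rfl (fun k => rfl)]
        refine Finset.sum_congr rfl fun k _ => ?_
        congr 1
        funext r
        rw [mv_eq]
        rfl
      · rw [fs_zero i _ hx, mul_zero, zero_mul]
        refine Finset.sum_eq_zero fun k _ => ?_
        have : (fun r => f (C.mv i (ξ (i, k) t) (ζ (i, k) t) r x)) = fun _ => f x :=
          funext fun r => by rw [mv_of_not i _ _ r hx]
        rw [this, iteratedDeriv_const]; simp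
    rw [Fintype.sum_prod_type, Finset.sum_congr rfl fun i _ => key i, ← Finset.sum_mul,
      ← Finset.mul_sum, hθ1 x, mul_one]
  obtain ⟨x₀⟩ := hne
  obtain ⟨-, i₀, -⟩ := C.cover x₀
  refine ⟨Fintype.card A,
    { ch := fun a => ((Fintype.equivFin A).symm a).1
      ξ := fun a => ξ ((Fintype.equivFin A).symm a)
      ζ := fun a => ζ ((Fintype.equivFin A).symm a)
      ξ_smooth := fun a => hξs _
      ζ_smooth := fun a => hζs _
      R := 2
      supp := fun a t y hy => hsupp _ t y hy }, Fintype.card_pos_iff.2 ⟨(i₀, none)⟩, ?_⟩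
  intro t f hf x
  rw [← hgen t f hf x]
  exact (Fintype.equivFin A).symm.sum_comp fun a =>
    iteratedDeriv 2 (fun r => f (C.mv a.1 (ξ a t) (ζ a t) r x)) 0

end Vale.Agent.P223.X.MpX
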