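import Vale.Agent.P223.X.SpecU
import Vale.Agent.P223.H.Bridge

/-! Block U2e: naturality of the curvature under the coordinate changes of an atlas. -/

namespace Vale.Agent.P223.X.RicU

open scoped ContDiff Topology Matrix
open Vale.Agent.P223.H

variable {n : ℕ} {M : Type} [TopologicalSpace M] {c : M → J.Ch n M} {I : Type}

/-! ### the parametrisations of the cubes -/

theorem hasDerivAt_s (s : ℝ) :
    HasDerivAt (fun s : ℝ => s / √(1 + s ^ 2)) (1 / √(1 + s ^ 2) ^ 3) s := by
  have hp : (0 : ℝ) < 1 + s ^ 2 := by positivity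
  have h0 : √(1 + s ^ 2) ≠ 0 := (Real.sqrt_pos.2 hp).ne'
  have h1 : HasDerivAt (fun s : ℝ => 1 + s ^ 2) (2 * s) s := by
    have := (hasDerivAt_pow 2 s).const_add 1
    simpa using this
  have h2 := (hasDerivAt_id s).div (h1.sqrt hp.ne') h0
  have hs : √(1 + s ^ 2) ^ 2 = 1 + s ^ 2 := Real.sq_sqrt hp.le
  refine h2.congr_deriv ?_
  simp only [id]
  rw [div_eq_div_iff (pow_ne_zero 2 h0) (pow_ne_zero 3 h0)]
  field_simp
  linear_combination hs

theorem contDiff_th (a : E n) (r : ℝ) : ContDiff ℝ ∞ (th a r) := by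
  refine contDiff_pi.2 fun k => contDiff_const.add (contDiff_const.mul ?_)
  have h1 : ContDiff ℝ ∞ fun y : E n => y k := contDiff_apply ℝ ℝ k
  have h2 : ContDiff ℝ ∞ fun y : E n => 1 + y k ^ 2 := contDiff_const.add (h1.pow 2)
  exact h1.div (h2.sqrt fun y => by positivity) fun y => by
    have : (0 : ℝ) < 1 + y k ^ 2 := by positivity
    exact (Real.sqrt_pos.2 this).ne'

theorem jac_th (a : E n) (r : ℝ) (y : E n) :
    jac (th a r) y = Matrix.diagonal fun k => dth r (y k) := by
  ext k i
  have h1 : HasFDerivAt (fun z : E n => z k / √(1 + z k ^ 2))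
      ((1 / √(1 + y k ^ 2) ^ 3) • ContinuousLinearMap.proj (R := ℝ) (φ := fun _ : Fin n => ℝ) k)
      y := by
    have h0 : HasFDerivAt (fun z : E n => z k)
      (ContinuousLinearMap.proj (R := ℝ) (φ := fun _ : Fin n => ℝ) k) y := hasFDerivAt_apply k y
    exact HasDerivAt.comp_hasFDerivAt (h₂ := fun s : ℝ => s / √(1 + s ^ 2)) y
      (hasDerivAt_s (y k)) h0
  have h2 := (h1.const_mul r).const_add (a k)
  have h3 : jac (th a r) y k i = fderiv ℝ (fun z : E n => a k + r * (z k / √(1 + z k ^ 2))) y
      (Pi.single i 1) := rfl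
  rw [h3, h2.fderiv, Matrix.diagonal_apply]
  simp only [smul_apply, ContinuousLinearMap.proj_apply, smul_eq_mul, dth]
  by_cases h : k = i
  · subst h; rw [if_pos rfl, Pi.single_eq_same]; ring
  · rw [if_neg h, Pi.single_eq_of_ne h]; ring

theorem dth_pos {r : ℝ} (hr : 0 < r) (s : ℝ) : 0 < dth r s := by
  unfold dth
  have : (0 : ℝ) < 1 + s ^ 2 := by positivity
  have := Real.sqrt_pos.2 this
  positivity

/-! ### metrics in charts -/

theorem met_on {g : M → J.Mtx n} (hg : J.Met c g) (a : M) : IsMetricOn (c a).target (g a) where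
  smooth i j x hx := by
    have hp := (c a).map_target hx
    have := ((hg a _ hp).1 i j)
    rw [(c a).right_inv hx] at this
    exact this.contDiffWithinAt
  posDef x hx := by
    have hp := (c a).map_target hx
    have := (hg a _ hp).2.1
    rwa [(c a).right_inv hx] at this

theorem bil_G (B : Box c I) (g : M → J.Mtx n) (i : I) (y v w : E n) :
    J.bil (B.G g i y) v w = J.bil (g (B.a i) (B.x i y)) (B.D i y v) (B.D i y w) := by
  unfold J.bil Box.G Box.D
  exact Finset.sum_congr rfl fun k _ => Finset.sum_congr rfl fun l _ => by ring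

theorem G_eq (B : Box c I) (g : M → J.Mtx n) (i : I) (y : E n) :
    B.G g i y = (jac (B.x i) y)ᵀ * g (B.a i) (B.x i y) * jac (B.x i) y := by
  have h : jac (B.x i) y = Matrix.diagonal fun k => dth (B.r i) (y k) := jac_th _ _ y
  rw [h]
  ext k l
  rw [Matrix.mul_apply, Finset.sum_eq_single l]
  · rw [Matrix.diagonal_transpose, Matrix.diagonal_mul, Matrix.diagonal_apply_eq]
    unfold Box.G
    ring
  · intro m _ hm
    rw [Matrix.diagonal_apply_ne _ hm, mul_zero]
  · intro h; exact absurd (Finset.mem_univ l) h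

theorem contDiff_x (B : Box c I) (i : I) : ContDiff ℝ ∞ (B.x i) := contDiff_th _ _

theorem G_on (B : Box c I) {g : M → J.Mtx n} (hg : J.Met c g) (i : I) :
    IsMetricOn Set.univ (B.G g i) where
  smooth k l := by
    have h1 : ContDiff ℝ ∞ fun y : E n => g (B.a i) (B.x i y) k l := by
      refine contDiff_iff_contDiffAt.2 fun y => ?_
      have hx := B.sub i y
      have h2 := ((met_on hg (B.a i)).smooth k l).contDiffAt ((c (B.a i)).open_target.mem_nhds hx)
      exact ContDiffAt.comp y h2 (contDiff_x B i).contDiffAt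
    have h3 : ∀ k, ContDiff ℝ ∞ fun y : E n => dth (B.r i) (y k) := fun k => by
      unfold dth
      have h1 : ContDiff ℝ ∞ fun y : E n => y k := contDiff_apply ℝ ℝ k
      have h2 : ContDiff ℝ ∞ fun y : E n => 1 + y k ^ 2 := contDiff_const.add (h1.pow 2)
      exact contDiff_const.div ((h2.sqrt fun y => by positivity).pow 3) fun y => by
        have : (0 : ℝ) < 1 + y k ^ 2 := by positivity
        exact pow_ne_zero 3 (Real.sqrt_pos.2 this).ne'
    exact (((h3 k).mul (h3 l)).mul h1).contDiffOn
  posDef y _ := by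
    have hx := (met_on hg (B.a i)).posDef _ (B.sub i y)
    rw [G_eq]
    have hd : jac (B.x i) y = Matrix.diagonal fun k => dth (B.r i) (y k) := jac_th _ _ y
    have hdet : (jac (B.x i) y).det ≠ 0 := by
      rw [hd, Matrix.det_diagonal]
      exact Finset.prod_ne_zero_iff.2 fun k _ => (dth_pos (B.pos i) _).ne'
    have hu : IsUnit (jac (B.x i) y) := (Matrix.isUnit_iff_isUnit_det _).2 hdet.isUnit
    have := Matrix.PosDef.conjTranspose_mul_mul_same (B := jac (B.x i) y) hx
      (Matrix.mulVec_injective_of_isUnit hu)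
    rwa [Matrix.conjTranspose_eq_transpose_of_trivial] at this

theorem chgG (B : Box c I) (g : M → J.Mtx n) (i : I) :
    Chg Set.univ Set.univ (c (B.a i)).target (B.x i) (B.G g i) (g (B.a i)) where
  isOpen := isOpen_univ
  sub := subset_rfl
  maps := fun y _ => B.sub i y
  smooth := fun _ _ => (contDiff_x B i).contDiffAt
  compat := fun y _ => G_eq B g i y

theorem ric_G (B : Box c I) {g : M → J.Mtx n} (hg : J.Met c g) (i : I) (y : E n) (k l : Fin n) :
    ric (B.G g i) y k l =
      dth (B.r i) (y k) * dth (B.r i) (y l) * J.ric (g (B.a i)) (B.x i y) k l := by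
  have h := ricci_trans (G_on B hg i) isOpen_univ (met_on hg (B.a i)) (c (B.a i)).open_target
    (chgG B g i) (Set.mem_univ y) k l
  have hd : jac (B.x i) y = Matrix.diagonal fun k => dth (B.r i) (y k) := jac_th _ _ y
  rw [hd] at h
  have e1 : ric (B.G g i) y k l = ricci (B.G g i) y k l := rfl
  have e2 : J.ric (g (B.a i)) (B.x i y) k l = ricci (g (B.a i)) (B.x i y) k l := rfl
  rw [e1, e2, h, Finset.sum_eq_single l, Finset.sum_eq_single k]
  · rw [Matrix.diagonal_apply_eq, Matrix.diagonal_apply_eq]; ring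
  · intro m _ hm; rw [Matrix.diagonal_apply_ne _ hm]; ring
  · intro h; exact absurd (Finset.mem_univ k) h
  · intro m _ hm
    refine Finset.sum_eq_zero fun q _ => ?_
    rw [Matrix.diagonal_apply_ne _ hm]; ring
  · intro h; exact absurd (Finset.mem_univ l) h

theorem scal_G (B : Box c I) {g : M → J.Mtx n} (hg : J.Met c g) (i : I) (y : E n) :
    scal (B.G g i) y = J.scal (g (B.a i)) (B.x i y) :=
  scal_trans (G_on B hg i) isOpen_univ (met_on hg (B.a i)) (c (B.a i)).open_target
    (chgG B g i) (Set.mem_univ y)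

/-! ### coordinate changes of the atlas -/

/-- the domain of the coordinate change -/
def cd (c : M → J.Ch n M) (a a' : M) : Set (E n) :=
  (c a).target ∩ (c a).symm ⁻¹' (c a').source

theorem mem_cd {a a' : M} {x : E n} : x ∈ cd c a a' ↔
    x ∈ (c a).target ∧ (c a).symm x ∈ (c a').source := Iff.rfl

theorem isOpen_cd (a a' : M) : IsOpen (cd c a a') :=
  (c a).symm.isOpen_inter_preimage (c a').open_source

theorem smooth_cm (hc : J.Atl c) {a a' : M} {x : E n} (hx : x ∈ cd c a a') :
    ContDiffAt ℝ ∞ (J.cm (c a) (c a')) x := by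
  have := ((hc a).2 a' _ ((c a).map_target hx.1) hx.2).1
  rwa [(c a).right_inv hx.1] at this

theorem jac_apply {φ : E n → E n} {x : E n} (h : DifferentiableAt ℝ φ x) (k i : Fin n) :
    jac φ x k i = fderiv ℝ φ x (Pi.single i 1) k := by
  have h1 : jac φ x k i = fderiv ℝ (fun z => φ z k) x (Pi.single i 1) := rfl
  rw [h1]
  have h2 : HasFDerivAt (fun z => φ z k)
      ((ContinuousLinearMap.proj (R := ℝ) (φ := fun _ : Fin n => ℝ) k).comp (fderiv ℝ φ x)) x :=
    (hasFDerivAt_pi'.1 h.hasFDerivAt) k
  rw [h2.fderiv]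
  rfl

theorem bil_single (A : Matrix (Fin n) (Fin n) ℝ) (i j : Fin n) :
    J.bil A (Pi.single i 1) (Pi.single j 1) = A i j := by
  unfold J.bil
  rw [Finset.sum_eq_single i, Finset.sum_eq_single j]
  · simp
  · intro m _ hm; rw [Pi.single_eq_of_ne hm]; ring
  · intro h; exact absurd (Finset.mem_univ j) h
  · intro m _ hm
    refine Finset.sum_eq_zero fun q _ => ?_
    rw [Pi.single_eq_of_ne hm]; ring
  · intro h; exact absurd (Finset.mem_univ i) h

theorem chg (hc : J.Atl c) {g : M → J.Mtx n} (hg : J.Met c g) (a a' : M) :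
    Chg (cd c a a') (c a).target (c a').target (J.cm (c a) (c a')) (g a) (g a') where
  isOpen := isOpen_cd a a'
  sub := Set.inter_subset_left
  maps x hx := (c a').map_source hx.2
  smooth x hx := smooth_cm hc hx
  compat x hx := by
    have hp := (c a).map_target hx.1
    have h := (hg a _ hp).2.2 a' hx.2
    rw [(c a).right_inv hx.1] at h
    have hd : DifferentiableAt ℝ (J.cm (c a) (c a')) x := (smooth_cm hc hx).differentiableAt (by simp)
    have hcm : J.cm (c a) (c a') x = c a' ((c a).symm x) := rfl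
    rw [hcm]
    ext i j
    rw [← bil_single (g a x) i j, h, Matrix.mul_apply]
    unfold J.bil
    rw [Finset.sum_comm]
    refine Finset.sum_congr rfl fun l _ => ?_
    rw [Matrix.mul_apply, Finset.sum_mul]
    refine Finset.sum_congr rfl fun k _ => ?_
    rw [Matrix.transpose_apply, jac_apply hd, jac_apply hd]
    ring

theorem scal_chart (hc : J.Atl c) {g : M → J.Mtx n} (hg : J.Met c g) (a a' p : M)
    (h : p ∈ (c a).source) (h' : p ∈ (c a').source) :
    J.scal (g a) (c a p) = J.scal (g a') (c a' p) := by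
  have hx : c a p ∈ cd c a a' := ⟨(c a).map_source h, by
    simp only [Set.mem_preimage]; rwa [(c a).left_inv h]⟩
  have := scal_trans (met_on hg a) (c a).open_target (met_on hg a') (c a').open_target
    (chg hc hg a a') hx
  have e : J.cm (c a) (c a') (c a p) = c a' p := by unfold J.cm; rw [(c a).left_inv h]
  rw [e] at this
  exact this

theorem main : SpecRicU := by
  intro n M I _ c B g hc hg
  refine ⟨fun i y v w => bil_G B g i y v w, fun i y v w => ?_, fun i y => scal_G B hg i y,
    fun a a' p h h' => scal_chart hc hg a a' p h h'⟩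
  unfold J.bil Box.D
  refine Finset.sum_congr rfl fun k _ => Finset.sum_congr rfl fun l _ => ?_
  rw [ric_G B hg i y k l]; ring

end Vale.Agent.P223.X.RicU
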