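import Vale.Agent.P223.X.FinalM
import Vale.Agent.P223.X.RicU

/-! Phase 3: moving metrics on closed manifolds. -/

namespace Vale.Agent.P223.X.MvU

open scoped ContDiff
open MeasureTheory Vale.Agent.P223.H

variable {n : ℕ} {M : Type} [TopologicalSpace M] {c : M → J.Ch n M}

theorem dtG_G {I : Type} (B : Box c I) (g : ℝ → M → J.Mtx n) (i : I) (t : ℝ) (y : E n)
    (k l : Fin n) : H.dtG (fun s => B.G (g s) i) t y k l =
      dth (B.r i) (y k) * dth (B.r i) (y l) *
        J.dtG (fun s => g s (B.a i)) t (B.x i y) k l := by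
  unfold H.dtG J.dtG Box.G
  exact deriv_const_mul_field _

theorem inv_G {I : Type} (B : Box c I) {g : M → J.Mtx n} (i : I) (y : E n)
    (hg : IsUnit (g (B.a i) (B.x i y)).det) (k l : Fin n) :
    (B.G g i y)⁻¹ k l = (dth (B.r i) (y k))⁻¹ * (dth (B.r i) (y l))⁻¹ *
      (g (B.a i) (B.x i y))⁻¹ k l := by
  have hd : ∀ k, dth (B.r i) (y k) ≠ 0 := fun k => (RicU.dth_pos (B.pos i) _).ne'
  have h : (B.G g i y)⁻¹ = Matrix.of fun k l => (dth (B.r i) (y k))⁻¹ *
      (dth (B.r i) (y l))⁻¹ * (g (B.a i) (B.x i y))⁻¹ k l := by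
    refine Matrix.inv_eq_right_inv ?_
    ext k l
    rw [Matrix.mul_apply]
    have h1 := congrFun (congrFun (Matrix.mul_nonsing_inv _ hg) k) l
    rw [Matrix.mul_apply] at h1
    have h2 : ∀ m, B.G g i y k m * (Matrix.of (fun k l => (dth (B.r i) (y k))⁻¹ *
        (dth (B.r i) (y l))⁻¹ * (g (B.a i) (B.x i y))⁻¹ k l)) m l =
        dth (B.r i) (y k) * (dth (B.r i) (y l))⁻¹ *
          (g (B.a i) (B.x i y) k m * (g (B.a i) (B.x i y))⁻¹ m l) := by
      intro m
      rw [Matrix.of_apply]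
      unfold Box.G
      field_simp [hd m]
    simp only [h2]
    rw [← Finset.mul_sum, h1]
    by_cases hkl : k = l
    · subst hkl
      rw [Matrix.one_apply_eq, mul_one, mul_inv_cancel₀ (hd k)]
    · rw [Matrix.one_apply_ne hkl, mul_zero]
  rw [h, Matrix.of_apply]

variable [CompactSpace M] [T2Space M] [ConnectedSpace M] [MeasurableSpace M] [BorelSpace M]

/-- moving metrics -/
theorem moving (hb : Final.Blk) (hu : FinalM.BlkU) (hn : 4 ≤ n) (hc : J.Atl c)
    (g : ℝ → M → J.Mtx n) (μ : ℝ → Measure M) (hg : J.Fam c g) (ρ σ : ℝ → M → ℝ)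
    (hρ : Continuous fun p : ℝ × M => ρ p.1 p.2) (hσ : Continuous fun p : ℝ × M => σ p.1 p.2)
    (B : ENNReal) (h : ∀ t, 0 ≤ t → J.Vol c (g t) (μ t) ∧ J.Mv c g (ρ t) (σ t) t ∧
      J.L n (μ t) (fun p => max 0 (ρ t p + σ t p / ((n : ℝ) - 2))) ≤ B) :
    J.sv c ≤ ENNReal.ofReal (J.kap n ^ n) * B := by
  obtain ⟨d⟩ := FinalM.exists_data hu (by omega) c hc
  refine (hu.sv n M d.X d.Γ d.I c d.B d.C hc d.hCB).trans ?_
  have hM := hu.met n M d.X d.Γ d.I c d.B d.C hc d.hCB
  refine Final.moving hb d.C d.inf hn (fun t => d.B.G (g t)) (hM.2.1 g hg) ρ σ hρ hσ ?_ ?_ μ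
    (fun t ht => hu.vol n M d.X d.Γ d.I c d.B d.C (g t) (μ t) hc d.hCB (hg.met t) (h t ht).1) B
    (fun t ht => (h t ht).2.2)
  · intro t ht i y w
    obtain ⟨h1, h2, -, -⟩ := hu.ric n M d.I c d.B (g t) hc (hg.met t)
    obtain ⟨h3, h4⟩ := FinalM.coord hc d.B i y
    have h5 := ((h t ht).2.1 (d.B.a i) _ h3).1 (d.B.D i y w)
    rw [h4, ← h1, ← d.hCB] at h5
    refine h5.trans (le_of_eq ?_)
    have e1 : ∀ (A A' : Fin n → Fin n → ℝ) (v : E n),
        J.bil (fun i j => A i j + A' i j) v v = J.bil A v v + J.bil A' v v := by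
      intro A A' v
      unfold J.bil
      simp only [mul_add, Finset.sum_add_distrib]
    have e2 : (∑ a, ∑ b, w a * w b * (H.ric (d.B.G (g t) i) y a b +
        1 / 2 * H.dtG (fun s => d.B.G (g s) i) t y a b)) =
        J.bil (H.ric (d.B.G (g t) i) y) w w +
          J.bil (fun a b => 1 / 2 * H.dtG (fun s => d.B.G (g s) i) t y a b) w w := by
      rw [← e1]; rfl
    rw [e2, e1, h2]
    congr 1
    unfold J.bil Box.D
    simp only [dtG_G]
    exact Finset.sum_congr rfl fun k _ => Finset.sum_congr rfl fun l _ => by ring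
  · intro t ht i y
    obtain ⟨h3, h4⟩ := FinalM.coord hc d.B i y
    have h5 := ((h t ht).2.1 (d.B.a i) _ h3).2
    rw [h4, ← d.hCB] at h5
    refine le_trans (le_of_eq ?_) h5
    unfold H.trh
    congr 1
    have hdet : IsUnit (g t (d.B.a i) (d.B.x i y)).det := by
      have := (hg.met t (d.B.a i) _ h3).2.1.det_pos
      rw [h4] at this
      exact this.ne'.isUnit
    refine Finset.sum_congr rfl fun k _ => Finset.sum_congr rfl fun l _ => ?_
    rw [inv_G d.B i y hdet, dtG_G]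
    have hk := (RicU.dth_pos (d.B.pos i) (y k)).ne'
    have hl := (RicU.dth_pos (d.B.pos i) (y l)).ne'
    field_simp

end Vale.Agent.P223.X.MvU
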