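import Vale.Agent.P223.X.WtX
import Vale.Agent.P223.H.Norm

/-! Phase 3, block Y3 : the norm estimate. -/

namespace Vale.Agent.P223.X.NormX

open scoped ContDiff Topology ENNReal
open MeasureTheory Vale.Agent.P223.H Vale.Agent.P223.X Vale.Agent.P223.X.WtX
  Vale.Agent.P223.X.DensX Set Filter Function

theorem sum_lintegral_le {α β : Type} [MeasurableSpace α] (μ : Measure α) (s : Finset β)
    (f : β → α → ℝ≥0∞) : ∑ b ∈ s, ∫⁻ x, f b x ∂μ ≤ ∫⁻ x, ∑ b ∈ s, f b x ∂μ := by
  classical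
  induction s using Finset.induction_on with
  | empty => simp
  | insert a s ha ih =>
    simp only [Finset.sum_insert ha]
    exact (add_le_add le_rfl ih).trans (le_lintegral_add _ _)

theorem tsum_lintegral_le {α β : Type} [MeasurableSpace α] (μ : Measure α)
    (f : β → α → ℝ≥0∞) : ∑' b, ∫⁻ x, f b x ∂μ ≤ ∫⁻ x, ∑' b, f b x ∂μ := by
  refine ENNReal.summable.tsum_le_of_sum_le fun s => ?_
  exact (sum_lintegral_le μ s f).trans (lintegral_mono fun x => ENNReal.sum_le_tsum s)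

theorem enorm_finsum_le {β : Type} (f : β → ℝ) : ‖∑ᶠ b, f b‖ₑ ≤ ∑' b, ‖f b‖ₑ := by
  by_cases h : (Function.support f).Finite
  · rw [finsum_eq_sum_of_support_subset f (s := h.toFinset) (by simp)]
    exact (enorm_sum_le _ _).trans (ENNReal.sum_le_tsum _)
  · rw [finsum_of_infinite_support h]
    simp

section
variable {n : ℕ} {M X Γ I : Type} [TopologicalSpace M] [TopologicalSpace X] [Group Γ]
    [MulAction Γ X] {C : Cov n M X Γ I}

theorem inj_pi (C : Cov n M X Γ I) (i : I) : Injective fun y => C.π (C.ψ i y) := by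
  intro y y' h
  obtain ⟨γ, hγ⟩ := (C.orb _ _).1 h
  have h1 := C.inj i γ y y' hγ
  rw [h1, one_smul] at hγ
  exact (C.emb i).injective hγ

theorem emb_pi (C : Cov n M X Γ I) (i : I) :
    Topology.IsOpenEmbedding fun y => C.π (C.ψ i y) :=
  Topology.IsOpenEmbedding.of_continuous_injective_isOpenMap
    (C.π.continuous.comp (C.emb i).continuous) (inj_pi C i)
    (C.cov.isLocalHomeomorph.isOpenMap.comp (C.emb i).isOpenMap)

variable [MeasurableSpace M] [BorelSpace M] {G : I → E n → Matrix (Fin n) (Fin n) ℝ}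

omit [MeasurableSpace M] [BorelSpace M] in
theorem continuous_dens' (hG : MetX C G) (i : I) : Continuous (dens (G i)) :=
  Real.continuous_sqrt.comp
    (continuous_matrix fun a b => (hG.smooth i a b).continuous).matrix_det

theorem lintegral_chart (hG : MetX C G) {ν : Measure M} (hν : VolM C G ν) (i : I)
    (F : M → ℝ≥0∞) : ∫⁻ y, F (C.π (C.ψ i y)) * ENNReal.ofReal (dens (G i) y) =
      ∫⁻ m in range fun y => C.π (C.ψ i y), F m ∂ν := by
  have hme : MeasurableEmbedding fun y => C.π (C.ψ i y) := (emb_pi C i).measurableEmbedding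
  have h1 : ν.comap (fun y => C.π (C.ψ i y)) =
      volume.withDensity fun y => ENNReal.ofReal (dens (G i) y) := by
    ext B hB
    rw [hme.comap_apply, withDensity_apply _ hB]
    exact hν i B hB
  rw [← hme.map_comap, hme.lintegral_map, h1,
    lintegral_withDensity_eq_lintegral_mul_non_measurable]
  · exact lintegral_congr fun y => mul_comm _ _
  · exact (continuous_dens' hG i).measurable.ennreal_ofReal
  · exact Eventually.of_forall fun y => ENNReal.ofReal_lt_top

end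

section
variable {n : ℕ} {M X Γ I : Type} [TopologicalSpace M] [TopologicalSpace X] [Group Γ]
    [MulAction Γ X] {C : Cov n M X Γ I} [Fintype I] {χ : I → E n → ℝ} [T2Space X]
    {G : I → E n → Matrix (Fin n) (Fin n) ℝ}

omit [Fintype I] [T2Space X] in
theorem finite_orbit (C : Cov n M X Γ I) {K : Set X} (hK : IsCompact K) (x : X) :
    {γ : Γ | γ • x ∈ K}.Finite :=
  (DensX.proper0 C (isCompact_singleton (x := x)) hK).subset fun _ hγ => ⟨x, rfl, hγ⟩

omit [Fintype I] [T2Space X] in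
theorem gsX_supp (hG : MetX C G) {f : X → ℝ} {x : X} (h : x ∉ tsupport f) :
    gsX C G f x = 0 := by
  obtain ⟨γ, i, y, _, rfl⟩ := exists_chart C x
  rw [gsX_eq hG]
  have h1 : C.rep f γ i =ᶠ[𝓝 y] fun _ => 0 := rep_ev (notMem_tsupport_iff_eventuallyEq.1 h)
  simp [gradSq, gradIp, H.pd, h1.fderiv_eq]

/-- The length of the differential. -/
noncomputable def sg (C : Cov n M X Γ I) (G : I → E n → Matrix (Fin n) (Fin n) ℝ) (φ : X → ℝ)
    (x : X) : ℝ≥0∞ := ENNReal.ofReal √(gsX C G φ x)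

omit [T2Space X] in
theorem wt_le (hχ : Part C χ) (hG : MetX C G) (P : PUX C Unit) (hP : ∀ x, 0 ≤ P.φ () x)
    (l : Fin (n + 1) → Γ × Unit) (hl : (l 0).1 = 1) :
    ENNReal.ofReal |P.wt χ l| ≤ ∑ i, ∑' γ : Γ, ∫⁻ y, ENNReal.ofReal (χ i y) *
      (ENNReal.ofReal (P.φ () (γ • C.ψ i y)) *
      ∏ k : Fin n, sg C G (P.φ ()) ((l k.succ).1⁻¹ • γ • C.ψ i y)) *
      ENNReal.ofReal (dens (G i) y) := by
  rw [← Real.enorm_eq_ofReal_abs, PUX.wt, wtX]
  refine (enorm_sum_le _ _).trans (Finset.sum_le_sum fun i _ => ?_)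
  refine (enorm_finsum_le _).trans (ENNReal.tsum_le_tsum fun γ => ?_)
  refine (enorm_integral_le_lintegral_enorm _).trans (lintegral_mono fun y => ?_)
  have e0 : C.rep (P.fn (l 0)) γ i y = P.φ () (γ • C.ψ i y) := by
    rw [Cov.rep, PUX.fn, hl]; simp
  have e1 : ∀ k : Fin n, gradSq (G i) (C.rep (P.fn (l k.succ)) γ i) y =
      gsX C G (P.φ ()) ((l k.succ).1⁻¹ • γ • C.ψ i y) := by
    intro k
    rw [← gsX_eq hG]
    exact gsX_smul hG (P.φ ()) (l k.succ).1⁻¹ (γ • C.ψ i y)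
  have h := Norm.jdet_le (G i) (fun k => C.rep (P.fn (l k.succ)) γ i) y (hG.pos i y)
  simp only [e1] at h
  rw [Real.enorm_eq_ofReal_abs]
  simp only [sg]
  rw [e0, abs_mul, abs_mul, abs_of_nonneg (hP _), abs_of_nonneg (hχ.nonneg i y)]
  rw [← ENNReal.ofReal_prod_of_nonneg fun i _ => Real.sqrt_nonneg _,
    ← ENNReal.ofReal_mul (hP _), ← ENNReal.ofReal_mul (hχ.nonneg i y), ← ENNReal.ofReal_mul
      (mul_nonneg (hχ.nonneg i y) (mul_nonneg (hP _)
        (Finset.prod_nonneg fun i _ => Real.sqrt_nonneg _)))]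
  refine ENNReal.ofReal_le_ofReal ?_
  rw [mul_assoc, mul_assoc]
  refine mul_le_mul_of_nonneg_left (mul_le_mul_of_nonneg_left ?_ (hP _)) (hχ.nonneg i y)
  rw [mul_comm]
  exact h

end

/-- Block Y3. -/
theorem main : SpecNormX := by
  classical
  intro n M X Γ I _ _ _ _ _ _ _ _ _ _ C χ G ν hn hχ hG hν P hP
  set φ := P.φ () with hφdef
  -- the sums
  set H : X → ℝ≥0∞ := fun x => ∑' γ : Γ, sg C G φ (γ • x) with hH
  have hHinv : ∀ (γ : Γ) x, H (γ • x) = H x := by
    intro γ x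
    simp only [hH, smul_smul]
    exact (Equiv.mulRight γ).tsum_eq fun δ : Γ => sg C G φ (δ • x)
  have hHi : ∀ x, ∑' γ : Γ, sg C G φ (γ⁻¹ • x) = H x := fun x =>
    (Equiv.inv Γ).tsum_eq fun δ : Γ => sg C G φ (δ • x)
  have hone : ∀ x, ∑' γ : Γ, ENNReal.ofReal (φ (γ • x)) = 1 := by
    intro x
    have h1 : ∑ᶠ γ : Γ, φ (γ⁻¹ • x) = 1 := by
      have := P.sum x
      simpa using this
    have hf : (Function.support fun γ : Γ => φ (γ⁻¹ • x)).Finite := by
      by_contra hinf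
      rw [finsum_of_infinite_support hinf] at h1
      exact zero_ne_one h1
    rw [finsum_eq_sum_of_support_subset _ (s := hf.toFinset) (by simp)] at h1
    rw [← (Equiv.inv Γ).tsum_eq fun δ : Γ => ENNReal.ofReal (φ (δ • x))]
    simp only [Equiv.inv_apply]
    rw [tsum_eq_sum (s := hf.toFinset), ← ENNReal.ofReal_sum_of_nonneg, h1, ENNReal.ofReal_one]
    · exact fun γ _ => hP _
    · intro γ hγ
      have : φ (γ⁻¹ • x) = 0 := by simpa using hγ
      rw [this, ENNReal.ofReal_zero]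
  have hHx : ∀ x, ENNReal.ofReal ((∑ᶠ γ : Γ, √(gsX C G φ (γ • x))) ^ n) = H x ^ n := by
    intro x
    have hfin : (Function.support fun γ : Γ => √(gsX C G φ (γ • x))).Finite := by
      refine (finite_orbit C (P.supp ()) x).subset fun γ hγ => ?_
      by_contra hcon
      apply hγ
      show √(gsX C G φ (γ • x)) = 0
      rw [gsX_supp hG hcon, Real.sqrt_zero]
    have hs : ∑ᶠ γ : Γ, √(gsX C G φ (γ • x)) =
        ∑ γ ∈ hfin.toFinset, √(gsX C G φ (γ • x)) :=
      finsum_eq_sum_of_support_subset _ (by simp)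
    have hnn : 0 ≤ ∑ᶠ γ : Γ, √(gsX C G φ (γ • x)) := by
      rw [hs]; exact Finset.sum_nonneg fun γ _ => Real.sqrt_nonneg _
    rw [ENNReal.ofReal_pow hnn]
    congr 1
    rw [hs, ENNReal.ofReal_sum_of_nonneg fun γ _ => Real.sqrt_nonneg _]
    symm
    refine tsum_eq_sum fun γ hγ => ?_
    have : √(gsX C G φ (γ • x)) = 0 := by simpa using hγ
    rw [sg, this, ENNReal.ofReal_zero]
  -- the partition of unity on `M`
  set b : I → M → ℝ≥0∞ := fun i m => ENNReal.ofReal (C.dn (fun x => ∑ᶠ γ : Γ,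
    C.ex i (χ i) (γ • x)) m) with hb
  have hex0 : ∀ i x, 0 ≤ C.ex i (χ i) x := by
    intro i x
    unfold Cov.ex
    split_ifs
    · exact hχ.nonneg i _
    · exact le_rfl
  have hbsum : ∀ m, ∑ i, b i m = 1 := by
    intro m
    simp only [hb, Cov.dn]
    rw [← ENNReal.ofReal_sum_of_nonneg fun i _ => finsum_nonneg fun γ => hex0 i _,
      hχ.sum, ENNReal.ofReal_one]
  have hdn : ∀ (F : X → ℝ) (_ : ∀ (γ : Γ) x, F (γ • x) = F x) (x : X),
      C.dn F (C.π x) = F x := by
    intro F hF x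
    have h1 : C.π (Function.surjInv C.surj (C.π x)) = C.π x := Function.surjInv_eq C.surj _
    obtain ⟨γ, hγ⟩ := (C.orb _ _).1 h1
    rw [Cov.dn, ← hF γ, hγ]
  have hbψ : ∀ i y, b i (C.π (C.ψ i y)) = ENNReal.ofReal (χ i y) := by
    intro i y
    simp only [hb]
    rw [hdn]
    · congr 1
      rw [finsum_eq_single _ (1 : Γ)]
      · rw [one_smul, ex_ψ]
      · intro γ hγ
        unfold Cov.ex
        rw [if_neg]
        rintro ⟨z, hz⟩
        exact hγ (C.inj i γ y z hz.symm)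
    · intro γ x
      simp only [smul_smul]
      exact finsum_comp_equiv (Equiv.mulRight γ) (f := fun δ : Γ => C.ex i (χ i) (δ • x))
  set h : M → ℝ≥0∞ := fun m => ENNReal.ofReal
    (C.dn (fun x => ∑ᶠ γ : Γ, √(gsX C G φ (γ • x))) m ^ n) with hh
  have hhψ : ∀ x, h (C.π x) = H x ^ n := by
    intro x
    simp only [hh]
    rw [hdn, hHx]
    intro γ x
    simp only [smul_smul]
    exact finsum_comp_equiv (Equiv.mulRight γ) (f := fun δ : Γ => √(gsX C G φ (δ • x)))
  -- main estimate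
  have key : ∑ i, ∑' γ : Γ, ∫⁻ y, ENNReal.ofReal (χ i y) *
      (ENNReal.ofReal (φ (γ • C.ψ i y)) * H (γ • C.ψ i y) ^ n) * ENNReal.ofReal (dens (G i) y) ≤
      ∫⁻ m, h m ∂ν := by
    calc ∑ i, ∑' γ : Γ, ∫⁻ y, ENNReal.ofReal (χ i y) *
      (ENNReal.ofReal (φ (γ • C.ψ i y)) * H (γ • C.ψ i y) ^ n) * ENNReal.ofReal (dens (G i) y)
        ≤ ∑ i, ∫⁻ y, ∑' γ : Γ, ENNReal.ofReal (χ i y) *
      (ENNReal.ofReal (φ (γ • C.ψ i y)) * H (γ • C.ψ i y) ^ n) * ENNReal.ofReal (dens (G i) y) :=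
          Finset.sum_le_sum fun i _ => tsum_lintegral_le _ _
      _ = ∑ i, ∫⁻ y, b i (C.π (C.ψ i y)) * h (C.π (C.ψ i y)) *
            ENNReal.ofReal (dens (G i) y) := by
          refine Finset.sum_congr rfl fun i _ => lintegral_congr fun y => ?_
          simp only [hHinv]
          rw [ENNReal.tsum_mul_right, ENNReal.tsum_mul_left, ENNReal.tsum_mul_right, hone,
            one_mul, hbψ, hhψ]
      _ = ∑ i, ∫⁻ m in range fun y => C.π (C.ψ i y), b i m * h m ∂ν := by
          refine Finset.sum_congr rfl fun i _ => ?_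
          exact lintegral_chart hG hν i fun m => b i m * h m
      _ ≤ ∑ i, ∫⁻ m, b i m * h m ∂ν := Finset.sum_le_sum fun i _ => setLIntegral_le_lintegral _ _
      _ ≤ ∫⁻ m, ∑ i, b i m * h m ∂ν := sum_lintegral_le _ _ _
      _ = ∫⁻ m, h m ∂ν := by
          refine lintegral_congr fun m => ?_
          rw [← Finset.sum_mul, hbsum, one_mul]
  refine le_trans ?_ key
  -- the sum of the weights
  by_cases hfin : ({l : Fin (n + 1) → Γ × Unit | (l 0).1 = 1} ∩
      Function.support fun l : Fin (n + 1) → Γ × Unit => |P.wt χ l|).Finite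
  · have hF1 : ∀ l ∈ hfin.toFinset, (l 0).1 = 1 := fun l hl =>
      ((Set.Finite.mem_toFinset hfin).1 hl).1
    rw [finsum_mem_eq_sum _ hfin]
    calc ENNReal.ofReal (∑ l ∈ hfin.toFinset, |P.wt χ l|)
        = ∑ l ∈ hfin.toFinset, ENNReal.ofReal |P.wt χ l| :=
          ENNReal.ofReal_sum_of_nonneg fun l _ => abs_nonneg _
      _ ≤ ∑ l ∈ hfin.toFinset, ∑ i, ∑' γ : Γ, ∫⁻ y, ENNReal.ofReal (χ i y) *
          (ENNReal.ofReal (φ (γ • C.ψ i y)) *
          ∏ k : Fin n, sg C G φ ((l k.succ).1⁻¹ • γ • C.ψ i y)) *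
          ENNReal.ofReal (dens (G i) y) :=
          Finset.sum_le_sum fun l hl => wt_le hχ hG P hP l (hF1 l hl)
      _ = ∑ i, ∑' γ : Γ, ∑ l ∈ hfin.toFinset, ∫⁻ y, ENNReal.ofReal (χ i y) *
          (ENNReal.ofReal (φ (γ • C.ψ i y)) *
          ∏ k : Fin n, sg C G φ ((l k.succ).1⁻¹ • γ • C.ψ i y)) *
          ENNReal.ofReal (dens (G i) y) := by
          rw [Finset.sum_comm]
          refine Finset.sum_congr rfl fun i _ => ?_
          exact (Summable.tsum_finsetSum fun _ _ => ENNReal.summable).symm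
      _ ≤ ∑ i, ∑' γ : Γ, ∫⁻ y, ENNReal.ofReal (χ i y) *
      (ENNReal.ofReal (φ (γ • C.ψ i y)) * H (γ • C.ψ i y) ^ n) *
          ENNReal.ofReal (dens (G i) y) := by
          refine Finset.sum_le_sum fun i _ => ENNReal.tsum_le_tsum fun γ => ?_
          refine (sum_lintegral_le _ _ _).trans (lintegral_mono fun y => ?_)
          rw [← Finset.sum_mul, ← Finset.mul_sum, ← Finset.mul_sum]
          gcongr
          refine (Norm.sum_prod_le hfin.toFinset hF1 fun δ =>
            sg C G φ (δ⁻¹ • γ • C.ψ i y)).trans (le_of_eq ?_)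
          rw [hHi]
  · rw [finsum_mem_eq_zero_of_infinite hfin, ENNReal.ofReal_zero]
    exact zero_le

end Vale.Agent.P223.X.NormX
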