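import Vale.Agent.P223.X.Avg
import Mathlib.Analysis.SpecialFunctions.SmoothTransition

/-! Block X2: partition of unity. -/

namespace Vale.Agent.P223.X.PartX

open scoped ContDiff Topology
open MeasureTheory Vale.Agent.P223.H
open Avg

/-- the bump function -/
noncomputable def bmp {n : ℕ} (y : E n) : ℝ := ∏ k, Real.smoothTransition (4 - y k ^ 2)

variable {n : ℕ}

theorem bmp_smooth : ContDiff ℝ ∞ (bmp (n := n)) := by
  unfold bmp
  refine contDiff_prod fun k _ => ?_
  exact Real.smoothTransition.contDiff.comp (contDiff_const.sub ((contDiff_apply ℝ ℝ k).pow 2))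

theorem bmp_nonneg (y : E n) : 0 ≤ bmp y :=
  Finset.prod_nonneg fun _ _ => Real.smoothTransition.nonneg _

theorem bmp_pos {y : E n} (hy : ∀ k, |y k| < 1) : 0 < bmp y := by
  refine Finset.prod_pos fun k _ => Real.smoothTransition.pos_of_pos ?_
  have := abs_lt.1 (hy k)
  nlinarith

theorem bmp_zero {y : E n} (hy : 2 ≤ ‖y‖) : bmp y = 0 := by
  have h : ∃ k, 2 ≤ |y k| := by
    by_contra hcon
    push Not at hcon
    exact absurd ((pi_norm_lt_iff (by norm_num)).2 fun k => by
      rw [Real.norm_eq_abs]; exact hcon k) (not_lt.2 hy)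
  obtain ⟨k, hk⟩ := h
  refine Finset.prod_eq_zero (Finset.mem_univ k) (Real.smoothTransition.zero_of_nonpos ?_)
  have : 4 ≤ y k ^ 2 := by
    rw [← sq_abs]; nlinarith
  linarith

theorem bmp_hcs : HasCompactSupport (bmp (n := n)) :=
  HasCompactSupport.of_support_subset_isCompact (isCompact_closedBall (0 : E n) 2) fun y hy => by
    by_contra h
    rw [mem_closedBall_zero_iff, not_le] at h
    exact hy (bmp_zero h.le)

variable {M X Γ I : Type} [TopologicalSpace M] [TopologicalSpace X] [Group Γ]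
    [MulAction Γ X] [Fintype I] [T2Space X] (C : Cov n M X Γ I)

/-- the sum of all translates of the bump functions -/
noncomputable def NNs (x : X) : ℝ := ∑ i, gav (fun _ : Γ => (1 : ℝ)) (C.ex i bmp) x

theorem NNs_smooth : C.Ck ∞ (NNs C) := fun γ j => by
  unfold NNs Cov.rep
  exact ContDiff.sum fun i _ => Ck_gav C _ _ (hcs_ex C bmp_hcs) (Ck_ex C bmp_smooth bmp_hcs) γ j

omit [T2Space X] in
theorem NNs_inv (γ : Γ) (x : X) : NNs C (γ • x) = NNs C x := by
  unfold NNs
  exact Finset.sum_congr rfl fun i _ => gav_one_inv _ γ x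

theorem fin_supp (i : I) (x : X) : (Function.support fun g : Γ =>
    (1 : ℝ) • C.ex i bmp (g⁻¹ • x)).Finite := by
  refine (properX' C (K := tsupport (C.ex i bmp)) (K' := {x}) (hcs_ex C bmp_hcs)
    isCompact_singleton).subset ?_
  intro g hg
  refine ⟨g⁻¹ • x, subset_tsupport _ fun h0 => hg ?_, by simp⟩
  change (1 : ℝ) • C.ex i bmp (g⁻¹ • x) = 0
  rw [h0, smul_zero]

theorem NNs_pos (x : X) : 0 < NNs C x := by
  obtain ⟨γ, i, y, hy, rfl⟩ := C.cover x
  have h0 : ∀ j, 0 ≤ gav (fun _ : Γ => (1 : ℝ)) (C.ex j bmp) (γ • C.ψ i y) := fun j =>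
    finsum_nonneg fun g => by rw [one_smul]; exact ex_nonneg C j bmp_nonneg _
  have h1 : 0 < gav (fun _ : Γ => (1 : ℝ)) (C.ex i bmp) (γ • C.ψ i y) := by
    have h2 := single_le_finsum γ (fin_supp C i (γ • C.ψ i y)) fun g => by
      rw [one_smul]; exact ex_nonneg C i bmp_nonneg _
    refine lt_of_lt_of_le ?_ h2
    rw [one_smul, inv_smul_smul, ex_ψ]
    exact bmp_pos hy
  exact Finset.sum_pos' (fun j _ => h0 j) ⟨i, Finset.mem_univ _, h1⟩

theorem main : SpecPart := by
  intro n M X Γ I _ _ _ _ _ _ C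
  refine ⟨fun i y => bmp y / NNs C (C.ψ i y), fun i => ?_, fun i y => ?_, fun i y hy => ?_,
    fun x => ?_⟩
  · have h : ContDiff ℝ ∞ fun y => NNs C (C.ψ i y) := by
      have := NNs_smooth C 1 i
      unfold Cov.rep at this
      simpa only [one_smul] using this
    exact bmp_smooth.div h fun y => (NNs_pos C _).ne'
  · exact div_nonneg (bmp_nonneg y) (NNs_pos C _).le
  · rw [bmp_zero hy, zero_div]
  · have h1 : ∀ i (z : X), C.ex i (fun y => bmp y / NNs C (C.ψ i y)) z =
        C.ex i bmp z / NNs C z := by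
      intro i z
      by_cases hz : z ∈ Set.range (C.ψ i)
      · obtain ⟨y, rfl⟩ := hz
        rw [ex_ψ, ex_ψ]
      · unfold Cov.ex
        rw [if_neg hz, if_neg hz, zero_div]
    have h2 : ∀ i, ∑ᶠ γ : Γ, C.ex i (fun y => bmp y / NNs C (C.ψ i y)) (γ • x) =
        gav (fun _ : Γ => (1 : ℝ)) (C.ex i bmp) x / NNs C x := by
      intro i
      have e : gav (fun _ : Γ => (1 : ℝ)) (C.ex i bmp) x / NNs C x =
          ∑ᶠ g : Γ, ((1 : ℝ) • C.ex i bmp (g⁻¹ • x)) / NNs C x := by
        simp only [div_eq_mul_inv]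
        exact finsum_mul' _ _ (fin_supp C i x)
      rw [e]
      refine finsum_eq_of_bijective (fun γ : Γ => γ⁻¹) inv_involutive.bijective fun γ => ?_
      rw [h1, NNs_inv, inv_inv, one_smul]
    simp only [h2]
    rw [← Finset.sum_div]
    exact div_self (NNs_pos C x).ne'

end Vale.Agent.P223.X.PartX
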