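import Vale.Agent.P223.X.SpecX
import Vale.Agent.P223.H.QC

/-! Block L1: quasi-contraction of the jet norms, local version. -/

namespace Vale.Agent.P223.X.QCL

open scoped ContDiff Topology
open Vale.Agent.P223.H

/-! ### Multipliers -/

section mult

variable {n : ℕ} {J : Type} [Fintype J]

/-- Matrix multipliers, trivial at `r = 0`. -/
structure Mult (n : ℕ) (ι : Type) [Fintype ι] where
  T : ι → ι → ℝ × (ℝ × E n) → ℝ
  smooth : ∀ i k, ContDiff ℝ ∞ (T i k)
  one : ∀ q (m : ι → ℝ) i, ∑ k, T i k (0, q) * m k = m i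

variable {ι : Type} [Fintype ι] (Φ : ℝ × (ℝ × E n) → E n)

/-- `T(r,x) u(φ(r,x))` -/
noncomputable def app (T : Mult n ι) (t r : ℝ)
    (u : E n → ι → ℝ) (x : E n) (i : ι) : ℝ := ∑ k, T.T i k (r, (t, x)) * u (Φ (r, (t, x))) k

/-- the averaging operator with multipliers -/
noncomputable def PT (T : Mult n ι) (t ε : ℝ) (u : E n → ι → ℝ)
    (x : E n) (i : ι) : ℝ := (app Φ T t ε u x i + app Φ T t (-ε) u x i) / 2

/-- the averaging operator -/
noncomputable def AV (t ε : ℝ) (f : E n → ℝ) (x : E n) : ℝ :=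
  (f (Φ (ε, (t, x))) + f (Φ (-ε, (t, x)))) / 2

theorem Mult.bounds (T : Mult n ι) (K : Set (ℝ × E n)) (hK : IsCompact K) : ∃ C : ℝ, 0 ≤ C ∧
    ∀ q ∈ K, ∀ (r : ℝ), 0 ≤ r → r ≤ 1 → ∀ i k,
      |T.T i k (r, q) - T.T i k (-r, q)| ≤ C * r ∧
      |T.T i k (r, q) + T.T i k (-r, q) - 2 * T.T i k (0, q)| ≤ C * r ^ 2 := by
  choose C1 hC1n hC1 using fun (q : ι × ι) =>
    QC.bound1 (T.T q.1 q.2) (contDiff_infty.1 (T.smooth q.1 q.2) 1) K hK
  choose C2 hC2n hC2 using fun (q : ι × ι) =>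
    QC.bound2 (T.T q.1 q.2) (contDiff_infty.1 (T.smooth q.1 q.2) 2) K hK
  refine ⟨∑ q, (C1 q + C2 q), Finset.sum_nonneg fun q _ => add_nonneg (hC1n q) (hC2n q),
    fun x hx r hr0 hr1 i k => ?_⟩
  have hle : C1 (i, k) + C2 (i, k) ≤ ∑ q, (C1 q + C2 q) :=
    Finset.single_le_sum (f := fun q => C1 q + C2 q)
      (fun q _ => add_nonneg (hC1n q) (hC2n q)) (Finset.mem_univ (i, k))
  have hr : |r| ≤ 1 := by rwa [abs_of_nonneg hr0]
  have h1 := hC1 (i, k) x hx r hr
  have h2 := hC2 (i, k) x hx r hr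
  rw [abs_of_nonneg hr0] at h1
  constructor
  · refine h1.trans (mul_le_mul_of_nonneg_right ?_ hr0)
    linarith [hC2n (i, k)]
  · refine h2.trans (mul_le_mul_of_nonneg_right ?_ (sq_nonneg r))
    linarith [hC1n (i, k)]

theorem norm_est (T : Mult n ι) (K : Set (ℝ × E n)) (hK : IsCompact K) :
    ∃ C : ℝ, 0 < C ∧ ∀ ε : ℝ, 0 < ε → ε ≤ 1 → ∀ (u : E n → ι → ℝ) (t : ℝ) (x : E n), (t, x) ∈ K →
      ∑ i, PT Φ T t ε u x i ^ 2 ≤ (1 + C * ε ^ 2) * AV Φ t ε (fun y => ∑ i, u y i ^ 2) x := by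
  obtain ⟨C, hC0, hC⟩ := T.bounds K hK
  set C' : ℝ := 2 * C * (Fintype.card ι + 1) + 3 * C ^ 2 * (Fintype.card ι + 1) ^ 2 with hC'
  have hC'0 : 0 ≤ C' := by positivity
  refine ⟨C' + 1, by positivity, fun ε hε hε1 u t x hx => ?_⟩
  have h := QC.alg C ε hC0 hε.le hε1
    (fun i k => (T.T i k (ε, (t, x)) + T.T i k (-ε, (t, x))) / 2 - T.T i k (0, (t, x)))
    (fun i k => (T.T i k (ε, (t, x)) - T.T i k (-ε, (t, x))) / 2)
    (fun i k => by
      have := (hC (t, x) hx ε hε.le hε1 i k).2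
      have e : (T.T i k (ε, (t, x)) + T.T i k (-ε, (t, x))) / 2 - T.T i k (0, (t, x)) =
        (T.T i k (ε, (t, x)) + T.T i k (-ε, (t, x)) - 2 * T.T i k (0, (t, x))) / 2 := by ring
      rw [e, abs_div, abs_two]
      have h0 : 0 ≤ C * ε ^ 2 := by positivity
      linarith)
    (fun i k => by
      have := (hC (t, x) hx ε hε.le hε1 i k).1
      rw [abs_div, abs_two]
      have h0 : 0 ≤ C * ε := by positivity
      linarith)
    (fun k => (u (Φ (ε, (t, x))) k + u (Φ (-ε, (t, x))) k) / 2)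
    (fun k => (u (Φ (ε, (t, x))) k - u (Φ (-ε, (t, x))) k) / 2)
  have e1 : ∀ i, (u (Φ (ε, (t, x))) i + u (Φ (-ε, (t, x))) i) / 2 +
      ∑ k, ((T.T i k (ε, (t, x)) + T.T i k (-ε, (t, x))) / 2 - T.T i k (0, (t, x))) *
        ((u (Φ (ε, (t, x))) k + u (Φ (-ε, (t, x))) k) / 2) +
      ∑ k, (T.T i k (ε, (t, x)) - T.T i k (-ε, (t, x))) / 2 *
        ((u (Φ (ε, (t, x))) k - u (Φ (-ε, (t, x))) k) / 2) = PT Φ T t ε u x i := by
    intro i
    have h1 := T.one (t, x) (fun k => (u (Φ (ε, (t, x))) k + u (Φ (-ε, (t, x))) k) / 2) i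
    rw [← h1, ← Finset.sum_add_distrib, ← Finset.sum_add_distrib]
    simp only [PT, app]
    rw [← Finset.sum_add_distrib, Finset.sum_div]
    refine Finset.sum_congr rfl fun k _ => ?_
    ring
  have e2 : ∑ k, ((u (Φ (ε, (t, x))) k + u (Φ (-ε, (t, x))) k) / 2) ^ 2 +
      ∑ k, ((u (Φ (ε, (t, x))) k - u (Φ (-ε, (t, x))) k) / 2) ^ 2 =
      AV Φ t ε (fun y => ∑ i, u y i ^ 2) x := by
    unfold AV
    rw [← Finset.sum_add_distrib, ← Finset.sum_add_distrib, Finset.sum_div]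
    refine Finset.sum_congr rfl fun k _ => ?_
    ring
  simp only [e1] at h
  rw [e2] at h
  refine h.trans ?_
  have hP : 0 ≤ AV Φ t ε (fun y => ∑ i, u y i ^ 2) x := by
    unfold AV
    have h1 : 0 ≤ ∑ i, u (Φ (ε, (t, x))) i ^ 2 := Finset.sum_nonneg fun _ _ => sq_nonneg _
    have h2 : 0 ≤ ∑ i, u (Φ (-ε, (t, x))) i ^ 2 := Finset.sum_nonneg fun _ _ => sq_nonneg _
    simp only
    linarith
  refine mul_le_mul_of_nonneg_right ?_ hP
  nlinarith [sq_nonneg ε]

end mult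

/-! ### Prolongation of multipliers -/

section prolong

variable {n : ℕ} {J : Type} [Fintype J] {Φ : ℝ × (ℝ × E n) → E n}

theorem diff_slice {W : Type*} [NormedAddCommGroup W] [NormedSpace ℝ W]
    {F : ℝ × (ℝ × E n) → W} (hF : Differentiable ℝ F) (r t : ℝ) :
    Differentiable ℝ (fun y : E n => F (r, (t, y))) := by
  have h : Differentiable ℝ (fun y : E n => ((r, (t, y)) : ℝ × (ℝ × E n))) := by fun_prop
  exact hF.comp h

theorem fderiv_slice {W : Type*} [NormedAddCommGroup W] [NormedSpace ℝ W]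
    {F : ℝ × (ℝ × E n) → W} (hF : Differentiable ℝ F) (r t : ℝ)
    (x v : E n) : fderiv ℝ (fun y => F (r, (t, y))) x v = fderiv ℝ F (r, (t, x)) (0, (0, v)) := by
  have h1 : Differentiable ℝ (fun q : ℝ × E n => F (r, q)) := by
    have h : Differentiable ℝ (fun q : ℝ × E n => ((r, q) : ℝ × (ℝ × E n))) := by fun_prop
    exact hF.comp h
  have e1 := QC.fderiv_slice (fun q : ℝ × E n => F (r, q)) h1 t x v
  have e2 := QC.fderiv_slice F hF r (t, x) ((0 : ℝ), v)
  exact e1.trans e2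

open scoped Classical in
/-- coefficients of the derivative of the maps in the frame -/
noncomputable def cc (Fr : Frame n T1 J) (Φ : ℝ × (ℝ × E n) → E n) (j l : J)
    (p : ℝ × (ℝ × E n)) : ℝ :=
  Fr.th l (Φ p) (fderiv ℝ Φ p (0, (0, Fr.V j p.2.2))) +
    (if j = l then 1 else 0) - Fr.th l (Φ p) (Fr.V j (Φ p))

theorem cc_smooth (Fr : Frame n T1 J) (hφ : ContDiff ℝ ∞ Φ) (j l : J) :
    ContDiff ℝ ∞ (cc Fr Φ j l) := by
  classical
  have h1 : ContDiff ℝ ∞ (fun p => Fr.th l (Φ p)) := (Fr.th_smooth l).comp hφ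
  have h2 : ContDiff ℝ ∞ (fun p : ℝ × (ℝ × E n) =>
      fderiv ℝ Φ p ((0 : ℝ), ((0 : ℝ), Fr.V j p.2.2))) :=
    (hφ.fderiv_right (m := ∞) (by simp)).clm_apply
      (contDiff_const.prodMk (contDiff_const.prodMk
        ((Fr.V_smooth j).comp (contDiff_snd.comp contDiff_snd))))
  have h3 : ContDiff ℝ ∞ (fun p => Fr.V j (Φ p)) := (Fr.V_smooth j).comp hφ
  exact ((h1.clm_apply h2).add contDiff_const).sub (h1.clm_apply h3)

theorem cc_eq (Fr : Frame n T1 J) (hφ : ContDiff ℝ ∞ Φ) (j l : J) (r t : ℝ) (x : E n)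
    [Decidable (j = l)] :
    cc Fr Φ j l (r, (t, x)) = Fr.th l (Φ (r, (t, x)))
      (fderiv ℝ (fun y : E n => Φ (r, (t, y))) x (Fr.V j x)) +
    (if j = l then 1 else 0) - Fr.th l (Φ (r, (t, x))) (Fr.V j (Φ (r, (t, x)))) := by
  rw [fderiv_slice (hφ.differentiable (by simp)) r t x (Fr.V j x)]
  unfold cc
  congr

theorem cc_zero (Fr : Frame n T1 J) (hφ : ContDiff ℝ ∞ Φ) (h0 : ∀ q, Φ (0, q) = q.2) (j l : J)
    (q : ℝ × E n) [Decidable (j = l)] :
    cc Fr Φ j l (0, q) = if j = l then 1 else 0 := by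
  obtain ⟨t, x⟩ := q
  rw [cc_eq Fr hφ]
  have h : (fun y : E n => Φ (0, (t, y))) = id := by funext y; exact h0 (t, y)
  rw [h, fderiv_id, h0]
  simp

theorem cc_sum (Fr : Frame n T1 J) (hφ : ContDiff ℝ ∞ Φ) (j : J) (r t : ℝ) (x : E n)
    (L : E n →L[ℝ] ℝ) : ∑ l, cc Fr Φ j l (r, (t, x)) * L (Fr.V l (Φ (r, (t, x)))) =
      L (fderiv ℝ (fun y : E n => Φ (r, (t, y))) x (Fr.V j x)) := by
  classical
  have hd : ∀ w, ∑ l, Fr.th l (Φ (r, (t, x))) w * L (Fr.V l (Φ (r, (t, x)))) = L w := by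
    intro w
    conv_rhs => rw [← Fr.dual (Φ (r, (t, x))) w]
    simp
  simp only [cc_eq Fr hφ, sub_mul, add_mul, Finset.sum_sub_distrib, Finset.sum_add_distrib, hd]
  simp

variable {ι : Type} [Fintype ι]

/-- the prolonged multipliers -/
noncomputable def prT (Fr : Frame n T1 J) (Φ : ℝ × (ℝ × E n) → E n) (T : Mult n ι) :
    Option J × ι → Option J × ι → ℝ × (ℝ × E n) → ℝ
  | (none, i), (none, k), p => T.T i k p
  | (none, _), (some _, _), _ => 0
  | (some j, i), (none, k), p => fderiv ℝ (T.T i k) p (0, (0, Fr.V j p.2.2))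
  | (some j, i), (some l, k), p => T.T i k p * cc Fr Φ j l p

theorem Mult.const (T : Mult n ι) [DecidableEq ι] (i k : ι) (q : ℝ × E n) :
    T.T i k (0, q) = (Pi.single k 1 : ι → ℝ) i := by
  rw [← T.one q (Pi.single k 1) i]
  simp [Pi.single_apply]

theorem Mult.diff (T : Mult n ι) (i k : ι) : Differentiable ℝ (T.T i k) :=
  (T.smooth i k).differentiable (by simp)

theorem Mult.fderiv_zero (T : Mult n ι) (i k : ι) (q : ℝ × E n) (v : E n) :
    fderiv ℝ (T.T i k) (0, q) (0, (0, v)) = 0 := by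
  classical
  obtain ⟨t, x⟩ := q
  rw [← fderiv_slice (T.diff i k)]
  simp only [T.const]
  simp

/-- prolongation of multipliers -/
noncomputable def pr (Fr : Frame n T1 J) (hφ : ContDiff ℝ ∞ Φ) (h0 : ∀ q, Φ (0, q) = q.2)
    (T : Mult n ι) : Mult n (Option J × ι) where
  T := prT Fr Φ T
  smooth := by
    rintro ⟨_ | j, i⟩ ⟨_ | l, k⟩
    · exact T.smooth i k
    · exact contDiff_const
    · exact ((T.smooth i k).fderiv_right (m := ∞) (by simp)).clm_apply
        (contDiff_const.prodMk (contDiff_const.prodMk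
          ((Fr.V_smooth j).comp (contDiff_snd.comp contDiff_snd))))
    · exact (T.smooth i k).mul (cc_smooth Fr hφ j l)
  one := by
    classical
    rintro q m ⟨_ | j, i⟩
    · rw [Fintype.sum_prod_type, Fintype.sum_option]
      simp only [prT]
      rw [T.one q (fun k => m (none, k)) i]
      simp
    · rw [Fintype.sum_prod_type, Fintype.sum_option]
      simp only [prT, T.fderiv_zero, cc_zero Fr hφ h0]
      have h := T.one q (fun k => m (some j, k)) i
      simp only [zero_mul, Finset.sum_const_zero, zero_add]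
      rw [Finset.sum_eq_single j]
      · simpa using h
      · intro l _ hl
        simp [Ne.symm hl]
      · simp

theorem app_pr_none (Fr : Frame n T1 J) (hφ : ContDiff ℝ ∞ Φ) (h0 : ∀ q, Φ (0, q) = q.2)
    (T : Mult n ι) (t r : ℝ) (u : E n → ι → ℝ) (x : E n) (i : ι) :
    app Φ (pr Fr hφ h0 T) t r (prol Fr u) x (none, i) = app Φ T t r u x i := by
  unfold app
  rw [Fintype.sum_prod_type, Fintype.sum_option]
  simp [pr, prT, prol]

theorem app_diff (hφ : ContDiff ℝ ∞ Φ) (T : Mult n ι) (t r : ℝ)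
    (u : E n → ι → ℝ) (hu : ∀ i, Differentiable ℝ (fun y => u y i)) (i : ι) :
    Differentiable ℝ (fun y => app Φ T t r u y i) := by
  unfold app
  refine Differentiable.fun_sum fun k _ => ?_
  exact (diff_slice (T.diff i k) r t).mul
    ((hu k).comp (diff_slice (hφ.differentiable (by simp)) r t))

theorem app_pr_some (Fr : Frame n T1 J) (hφ : ContDiff ℝ ∞ Φ) (h0 : ∀ q, Φ (0, q) = q.2)
    (T : Mult n ι) (t r : ℝ) (u : E n → ι → ℝ) (hu : ∀ i, Differentiable ℝ (fun y => u y i))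
    (x : E n) (j : J) (i : ι) :
    app Φ (pr Fr hφ h0 T) t r (prol Fr u) x (some j, i) =
      fderiv ℝ (fun y => app Φ T t r u y i) x (Fr.V j x) := by
  have hT : ∀ k, Differentiable ℝ (fun y : E n => T.T i k (r, (t, y))) := fun k =>
    diff_slice (T.diff i k) r t
  have hΦd : Differentiable ℝ (fun y : E n => Φ (r, (t, y))) :=
    diff_slice (hφ.differentiable (by simp)) r t
  have hU : ∀ k, Differentiable ℝ (fun y : E n => u (Φ (r, (t, y))) k) := fun k =>
    (hu k).comp hΦd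
  have hcomp : ∀ k, fderiv ℝ (fun y : E n => u (Φ (r, (t, y))) k) x (Fr.V j x) =
      fderiv ℝ (fun y => u y k) (Φ (r, (t, x)))
        (fderiv ℝ (fun y : E n => Φ (r, (t, y))) x (Fr.V j x)) := fun k => by
    have h := fderiv_comp x ((hu k) (Φ (r, (t, x)))) (hΦd x)
    exact congrArg (fun L : E n →L[ℝ] ℝ => L (Fr.V j x)) h
  have hL : fderiv ℝ (fun y => app Φ T t r u y i) x (Fr.V j x) =
      ∑ k, (T.T i k (r, (t, x)) * fderiv ℝ (fun y : E n => u (Φ (r, (t, y))) k) x (Fr.V j x) +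
        u (Φ (r, (t, x))) k * fderiv ℝ (T.T i k) (r, (t, x)) (0, (0, Fr.V j x))) := by
    have h := HasFDerivAt.fun_sum (u := Finset.univ)
      (A := fun k (y : E n) => T.T i k (r, (t, y)) * u (Φ (r, (t, y))) k)
      (A' := fun k => T.T i k (r, (t, x)) • fderiv ℝ (fun y : E n => u (Φ (r, (t, y))) k) x +
        u (Φ (r, (t, x))) k • fderiv ℝ (fun y : E n => T.T i k (r, (t, y))) x) (x := x)
      (fun k _ => (hT k x).hasFDerivAt.mul (hU k x).hasFDerivAt)
    have h' : fderiv ℝ (fun y => app Φ T t r u y i) x = _ := h.fderiv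
    rw [h']
    simp only [sum_apply, add_apply, smul_apply, smul_eq_mul]
    refine Finset.sum_congr rfl fun k _ => ?_
    rw [fderiv_slice (T.diff i k)]
  rw [hL]
  unfold app
  rw [Fintype.sum_prod_type, Fintype.sum_option]
  simp only [pr, prT, prol]
  rw [Finset.sum_comm, ← Finset.sum_add_distrib]
  refine Finset.sum_congr rfl fun k _ => ?_
  rw [hcomp, ← cc_sum Fr hφ j r t x, Finset.mul_sum, add_comm]
  congr 1
  · refine Finset.sum_congr rfl fun l _ => ?_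
    ring
  · ring

theorem prol_PT (Fr : Frame n T1 J) (hφ : ContDiff ℝ ∞ Φ) (h0 : ∀ q, Φ (0, q) = q.2)
    (T : Mult n ι) (t ε : ℝ) (u : E n → ι → ℝ) (hu : ∀ i, Differentiable ℝ (fun y => u y i)) :
    prol Fr (PT Φ T t ε u) = PT Φ (pr Fr hφ h0 T) t ε (prol Fr u) := by
  funext x ⟨o, i⟩
  rcases o with _ | j
  · change PT Φ T t ε u x i = _
    unfold PT
    simp only [app_pr_none]
  · change fderiv ℝ (fun y => PT Φ T t ε u y i) x (Fr.V j x) = _
    unfold PT
    simp only [app_pr_some Fr hφ h0 T _ _ u hu]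
    have h := (((app_diff hφ T t ε u hu i) x).hasFDerivAt.add
          ((app_diff hφ T t (-ε) u hu i) x).hasFDerivAt).mul_const (2 : ℝ)⁻¹
    have h' : fderiv ℝ (fun y => (app Φ T t ε u y i + app Φ T t (-ε) u y i) / 2) x =
        (2 : ℝ)⁻¹ • (fderiv ℝ (fun y => app Φ T t ε u y i) x +
          fderiv ℝ (fun y => app Φ T t (-ε) u y i) x) := by
      simp only [div_eq_mul_inv]
      exact h.fderiv
    rw [h']
    simp only [add_apply, smul_apply, smul_eq_mul]
    ring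

theorem ind (Fr : Frame n T1 J) (hφ : ContDiff ℝ ∞ Φ) (h0 : ∀ q, Φ (0, q) = q.2)
    (K : Set (ℝ × E n)) (hK : IsCompact K) (m : ℕ) :
    ∀ (ι : Type) [Fintype ι] (T : Mult n ι), ∃ C : ℝ, 0 < C ∧ ∀ ε : ℝ, 0 < ε → ε ≤ 1 →
      ∀ u : E n → ι → ℝ, (∀ i, ContDiff ℝ m (fun y => u y i)) → ∀ t x, (t, x) ∈ K →
        NN Fr m ι (PT Φ T t ε u) x ≤ (1 + C * ε ^ 2) * AV Φ t ε (NN Fr m ι u) x := by
  induction m with
  | zero =>
    intro ι _ T
    obtain ⟨C, hC, h⟩ := norm_est Φ T K hK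
    exact ⟨C, hC, fun ε hε hε1 u _ t x hx => h ε hε hε1 u t x hx⟩
  | succ m ih =>
    intro ι _ T
    obtain ⟨C, hC, h⟩ := ih (Option J × ι) (pr Fr hφ h0 T)
    refine ⟨C, hC, fun ε hε hε1 u hu t x hx => ?_⟩
    have hd : ∀ i, Differentiable ℝ (fun y => u y i) := fun i =>
      (hu i).differentiable (by simp)
    have h1 := h ε hε hε1 (prol Fr u) (by
      rintro ⟨_ | j, i⟩
      · exact (hu i).of_le (by exact_mod_cast Nat.le_succ m)
      · exact ((hu i).fderiv_right (m := m) (by norm_cast)).clm_apply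
          (contDiff_infty.1 (Fr.V_smooth j) m)) t x hx
    rw [← prol_PT Fr hφ h0 T t ε u hd] at h1
    exact h1

theorem NN_congr (Fr : Frame n T1 J) (m : ℕ) : ∀ (ι : Type) [Fintype ι] (u v : E n → ι → ℝ)
    (U : Set (E n)), IsOpen U → (∀ y ∈ U, u y = v y) → ∀ y ∈ U, NN Fr m ι u y = NN Fr m ι v y := by
  induction m with
  | zero =>
    intro ι _ u v U _ h y hy
    change ∑ i, u y i ^ 2 = ∑ i, v y i ^ 2
    rw [h y hy]
  | succ m ih =>
    intro ι _ u v U hU h y hy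
    refine ih _ (prol Fr u) (prol Fr v) U hU (fun z hz => funext fun p => ?_) y hy
    obtain ⟨o, i⟩ := p
    cases o with
    | none => exact congrFun (h z hz) i
    | some j =>
      change fderiv ℝ (fun z => u z i) z (Fr.V j z) = fderiv ℝ (fun z => v z i) z (Fr.V j z)
      have e : (fun z => u z i) =ᶠ[𝓝 z] fun z => v z i := by
        filter_upwards [hU.mem_nhds hz] with w hw
        exact congrFun (h w hw) i
      rw [e.fderiv_eq]

theorem NN_nonneg (Fr : Frame n T1 J) (m : ℕ) : ∀ (ι : Type) [Fintype ι] (u : E n → ι → ℝ)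
    (y : E n), 0 ≤ NN Fr m ι u y := by
  induction m with
  | zero => intro ι _ u y; exact Finset.sum_nonneg fun i _ => sq_nonneg _
  | succ m ih => intro ι _ u y; exact ih _ _ y

end prolong

theorem main : SpecQCL := by
  intro n J _ Fr ξ ζ T R hξ hζ hsupp
  set Φ : ℝ × (ℝ × E n) → E n := fun p => p.2.2 + p.1 • ξ p.2.1 p.2.2 + p.1 ^ 2 • ζ p.2.1 p.2.2
    with hΦd
  have hΦ : ContDiff ℝ ∞ Φ := by
    have h1 : ContDiff ℝ ∞ (fun p : ℝ × (ℝ × E n) => ξ p.2.1 p.2.2) := hξ.comp contDiff_snd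
    have h2 : ContDiff ℝ ∞ (fun p : ℝ × (ℝ × E n) => ζ p.2.1 p.2.2) := hζ.comp contDiff_snd
    exact ((contDiff_snd.comp contDiff_snd).add (contDiff_fst.smul h1)).add
      ((contDiff_fst.pow 2).smul h2)
  have h0 : ∀ q, Φ (0, q) = q.2 := fun q => by simp [hΦd]
  let T' : Mult n Unit :=
    { T := fun _ _ _ => 1
      smooth := fun _ _ => contDiff_const
      one := fun _ m i => by simp }
  obtain ⟨C, hC, hb⟩ := ind Fr hΦ h0 (Set.Icc 0 T ×ˢ Metric.closedBall (0 : E n) R)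
    (isCompact_Icc.prod (isCompact_closedBall _ _)) 4 Unit T'
  have hav : ∀ t ε (f : E n → ℝ) z, avg (ξ t) (ζ t) ε f z = AV Φ t ε f z := by
    intro t ε f z
    have h3 : Φ (-ε, (t, z)) = z - ε • ξ t z + ε ^ 2 • ζ t z := by
      simp only [hΦd, neg_smul, even_two, Even.neg_pow, sub_eq_add_neg]
    unfold AV avg
    rw [h3]
  refine ⟨C, hC, fun t ε ht0 htT hε hε1 f hf y => ?_⟩
  rcases le_or_gt ‖y‖ R with hy | hy
  · have h1 := hb ε hε hε1 (fun x _ => f x) (fun _ => hf) t y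
      ⟨⟨ht0, htT⟩, by simpa using hy⟩
    have h2 : PT Φ T' t ε (fun x _ => f x) = fun x _ => avg (ξ t) (ζ t) ε f x := by
      funext x i
      rw [hav]
      simp [PT, app, AV, T']
    rw [h2] at h1
    rw [hav]
    exact h1
  · have hop : IsOpen {z : E n | R < ‖z‖} := isOpen_lt continuous_const continuous_norm
    have hz : ∀ z ∈ {z : E n | R < ‖z‖}, ∀ g : E n → ℝ, avg (ξ t) (ζ t) ε g z = g z := by
      intro z hz g
      obtain ⟨h1, h2⟩ := hsupp t z (le_of_lt hz)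
      unfold avg
      rw [h1, h2]
      simp
    rw [hz y hy]
    have h1 : jet Fr (avg (ξ t) (ζ t) ε f) y = jet Fr f y :=
      NN_congr Fr 4 Unit _ _ _ hop (fun z hz' => funext fun _ => hz z hz' f) y hy
    rw [h1]
    have h2 : 0 ≤ jet Fr f y := NN_nonneg Fr 4 Unit _ y
    have h3 : 0 ≤ C * ε ^ 2 := by positivity
    nlinarith

end Vale.Agent.P223.X.QCL
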