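import Vale.Agent.P223.X.EqX

/-! Phase 3, block X8b: Taylor estimate in the time variable for the energy density. -/

namespace Vale.Agent.P223.X.TTX

open scoped ContDiff Matrix Topology
open Vale.Agent.P223.H Vale.Agent.P223.H.Equiv Vale.Agent.P223.H.TT

theorem main : SpecTTX := by
  intro n M X Γ I _ _ _ _ _ _ C G hG T a η A hT ha hη hA
  choose L hL hb using fun i : I => TT.ball (EqX.famT1 hG i) (a := a) hη T 1 A hA
  refine ⟨1 + ∑ i, L i, by have := Finset.sum_nonneg (fun i (_ : i ∈ Finset.univ) => (hL i).le); positivity, ?_⟩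
  have hLi : ∀ i, L i ≤ 1 + ∑ i, L i := fun i => by
    have := Finset.single_le_sum (f := L) (fun i _ => (hL i).le) (Finset.mem_univ i)
    linarith
  intro t s ht hts hs i y W v v' hW d d' a1 a2 a3 a4 a5 a6
  obtain ⟨γ, j, hy, hy1⟩ := EqX.exists_small C i y
  have hv : 0 < v y := by
    by_contra hneg
    have : A * v y ≤ 0 := mul_nonpos_of_nonneg_of_nonpos hA.le (not_lt.1 hneg)
    linarith
  have hv' : 0 < v' y := by
    by_contra hneg
    have : A * v' y ≤ 0 := mul_nonpos_of_nonneg_of_nonpos hA.le (not_lt.1 hneg)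
    linarith
  set z : E n := C.tr i j γ y with hz
  obtain ⟨hz1, hz2⟩ := tr_tr C hy
  -- transported functions
  have hch : (1 : Γ) • C.ψ i y = γ⁻¹ • C.ψ j z := by
    rw [one_smul, hz, tr_spec C hy, inv_smul_smul]
  have hrep : ∀ u : E n → ℝ, C.rep (fun x => u (C.co i x)) 1 i = u := by
    intro u
    funext w
    show u (C.co i ((1 : Γ) • C.ψ i w)) = u w
    rw [one_smul, co_ψ]
  have hrep' : ∀ u : E n → ℝ, C.rep (fun x => u (C.co i x)) γ⁻¹ j = fun w => u (C.tr j i γ⁻¹ w) :=
    fun u => rfl
  set w : E n → ℝ := fun y => v (C.tr j i γ⁻¹ y) with hw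
  set w' : E n → ℝ := fun y => v' (C.tr j i γ⁻¹ y) with hw'
  have dtr : DifferentiableAt ℝ (C.tr j i γ⁻¹) z := (contDiffAt_tr C hz1).differentiableAt (by simp)
  have dw : DifferentiableAt ℝ w z := by
    refine DifferentiableAt.comp z (g := v) ?_ dtr
    rw [hz2]; exact d
  have dw' : DifferentiableAt ℝ w' z := by
    refine DifferentiableAt.comp z (g := v') ?_ dtr
    rw [hz2]; exact d'
  have ewx : w z = v y := by simp only [hw]; rw [hz2]
  have ewx' : w' z = v' y := by simp only [hw']; rw [hz2]
  have gs0 : ∀ (u : E n → ℝ) τ, gradSq (G τ i) u y = gradSq (G τ j) (fun y => u (C.tr j i γ⁻¹ y)) z :=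
    fun u τ => by
      have := gradSq_chart (hG.met τ) (fun x => u (C.co i x)) hch
      rwa [hrep u, hrep' u] at this
  have gs : ∀ τ, gradSq (G τ i) v y = gradSq (G τ j) w z := fun τ => gs0 v τ
  have gs' : ∀ τ, gradSq (G τ i) v' y = gradSq (G τ j) w' z := fun τ => gs0 v' τ
  have gsub : gradSq (G t i) (fun y => v' y - v y) y = gradSq (G t j) (fun y => w' y - w y) z :=
    gs0 (fun y => v' y - v y) t
  have hdet := det_tr_pos C hy
  set D := (fderiv ℝ (C.tr i j γ) y).det with hD
  have den : ∀ τ, H.dens (G τ i) y = H.dens (G τ j) z * D := fun τ => by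
    rw [EqX.dens_chart' (hG.met τ) hy, mul_comm]
  -- energy densities
  have fe : ∀ τ, F (fun t => G t i) a η τ y (v y) (fun k => H.pd k v y) =
      F (fun t => G t j) a η τ z (w z) (fun k => H.pd k w z) * D := by
    intro τ
    rw [← eD_eq (G := fun t => G t i), ← eD_eq (G := fun t => G t j)]
    unfold eD
    simp only [gs τ, den τ, ewx]; ring
  have fe' : ∀ τ, F (fun t => G t i) a η τ y (v' y) (fun k => H.pd k v' y) =
      F (fun t => G t j) a η τ z (w' z) (fun k => H.pd k w' z) * D := by
    intro τ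
    rw [← eD_eq (G := fun t => G t i), ← eD_eq (G := fun t => G t j)]
    unfold eD
    simp only [gs' τ, den τ, ewx']; ring
  have he : TT.h (fun t => G t i) a η t y (v y) (fun k => H.pd k v y) =
      TT.h (fun t => G t j) a η t z (w z) (fun k => H.pd k w z) * D := by
    have e1 := hasDerivAt_F (EqX.famT1 hG i) (a := a) hη t y hv (fun k => H.pd k v y)
    have e2 := (hasDerivAt_F (EqX.famT1 hG j) (a := a) hη t z (u := w z) (by rw [ewx]; exact hv)
      (fun k => H.pd k w z)).mul_const D
    have e3 : (fun τ => F (fun t => G t i) a η τ y (v y) (fun k => H.pd k v y)) = fun τ =>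
      F (fun t => G t j) a η τ z (w z) (fun k => H.pd k w z) * D := funext fe
    rw [e3] at e1
    exact e1.unique e2
  have key := hb j t s ht hts hs z hy1 W (w z) (w' z) (fun k => H.pd k w z)
    (fun k => H.pd k w' z) hW (by rw [ewx]; exact a1) (by rw [ewx]; exact a3)
    (by rw [ewx']; exact a2) (by rw [ewx']; exact a4)
    (by rw [gs t] at a5; exact a5) (by rw [gs' t] at a6; exact a6)
  have key2 := mul_le_mul_of_nonneg_right key hdet.le
  have eQ : Q (fun t => G t j) t z ((fun k => H.pd k w' z) - fun k => H.pd k w z) =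
      gradSq (G t i) (fun y => v' y - v y) y := by
    rw [gsub]
    unfold gradSq gradIp Q
    refine Finset.sum_congr rfl fun i _ => Finset.sum_congr rfl fun j _ => ?_
    rw [Bridge.pd_sub dw' dw, Bridge.pd_sub dw' dw]; rfl
  rw [eQ, ewx, ewx'] at key2
  have l1 : eD (G s i) a η v' y * H.dens (G s i) y =
      F (fun t => G t j) a η s z (v' y) (fun k => H.pd k w' z) * D := by
    rw [← ewx', ← fe' s]; rfl
  have l2 : eD (G t i) a η v' y * H.dens (G t i) y =
      F (fun t => G t j) a η t z (v' y) (fun k => H.pd k w' z) * D := by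
    rw [← ewx', ← fe' t]; rfl
  have rhs : ((s - t) * tE (fun t => G t i) a η t v y + (1 + ∑ i, L i) * (s - t) *
      ((s - t) * W + |v' y - v y| +
      √(gradSq (G t i) (fun y => v' y - v y) y))) * H.dens (G t i) y =
      (s - t) * (tE (fun t => G t i) a η t v y * H.dens (G t i) y) +
      (1 + ∑ i, L i) * (s - t) * ((s - t) * W + |v' y - v y| +
      √(gradSq (G t i) (fun y => v' y - v y) y)) * H.dens (G t i) y := by ring
  rw [l1, l2, rhs]
  have he2 : tE (fun t => G t i) a η t v y * H.dens (G t i) y =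
      TT.h (fun t => G t j) a η t z (v y) (fun k => H.pd k w z) * D := by
    rw [← ewx, ← he]; rfl
  rw [he2, den t]
  have hst : 0 ≤ s - t := sub_nonneg.2 hts
  have m0 : 0 ≤ H.dens (G t j) z := (Common.dens_pos ((EqX.famT1 hG j).met t) z).le
  have m1 : 0 ≤ (s - t) * ((s - t) * W + |v' y - v y| +
      √(gradSq (G t i) (fun y => v' y - v y) y)) * (H.dens (G t j) z * D) := by positivity
  have m2 := mul_le_mul_of_nonneg_right (hLi j) m1
  have key3 : F (fun t => G t j) a η s z (v' y) (fun k => H.pd k w' z) * D -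
      F (fun t => G t j) a η t z (v' y) (fun k => H.pd k w' z) * D ≤
      (s - t) * (TT.h (fun t => G t j) a η t z (v y) (fun k => H.pd k w z) * D) +
      L j * ((s - t) * ((s - t) * W + |v' y - v y| +
      √(gradSq (G t i) (fun y => v' y - v y) y)) * (H.dens (G t j) z * D)) := by
    refine le_trans (le_of_eq ?_) (key2.trans (le_of_eq ?_))
    · ring
    · ring
  linarith

end Vale.Agent.P223.X.TTX
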