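import Vale.Agent.P223.X.MpX
import Vale.Agent.P223.H.B5c
import Vale.Agent.P223.H.B4b

/-! Block X7, parts (ii) (consistency) and (iii) (pointwise bounds). -/

namespace Vale.Agent.P223.X.UniB

open scoped ContDiff Topology
open Vale.Agent.P223.H

/-- part (iii) of `SpecUniX` -/
def Bdd : Prop := ∀ (n : ℕ) (M X Γ I : Type) [TopologicalSpace M] [TopologicalSpace X]
  [Group Γ] [MulAction Γ X] [Fintype I] [T2Space X] (C : Cov n M X Γ I)
  (G : ℝ → I → E n → Matrix (Fin n) (Fin n) ℝ) (J : Type) [Fintype J] (F : FrX C J) (T : ℝ),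
  FamX C G →
  ∃ c : ℝ, 0 < c ∧ ∀ t : ℝ, 0 ≤ t → t ≤ T → ∀ f : X → ℝ, C.Ck 4 f →
  (∀ x, f x ^ 2 ≤ jetX F f x ∧ gsX C (G t) f x ≤ c * jetX F f x ∧
    gsX C (G t) (gsX C (G t) f) x ≤ c * jetX F f x ^ 2 ∧
    lapX C (G t) f x ^ 2 ≤ c * jetX F f x ∧
    gsX C (G t) (lapX C (G t) f) x ≤ c * jetX F f x)

/-- part (ii) of `SpecUniX` -/
def Cons : Prop := ∀ (n : ℕ) (M X Γ I : Type) [TopologicalSpace M] [TopologicalSpace X]
  [Group Γ] [MulAction Γ X] [Fintype I] [T2Space X] (C : Cov n M X Γ I)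
  (G : ℝ → I → E n → Matrix (Fin n) (Fin n) ℝ) (J : Type) [Fintype J] (F : FrX C J) (N : ℕ)
  (S : MpX C N) (T : ℝ), FamX C G → 0 < N →
  (∀ (t : ℝ) (f : X → ℝ), C.Ck 2 f → ∀ x,
    ∑ a, iteratedDeriv 2 (fun r => f (S.φ a t r x)) 0 = 2 * lapX C (G t) f x) →
  ∃ c : ℝ, 0 < c ∧ ∀ t : ℝ, 0 ≤ t → t ≤ T → ∀ f : X → ℝ, C.Ck 4 f →
  (∀ ε : ℝ, 0 < ε → ε ≤ 1 → ∀ (x : X) (B : ℝ), 0 ≤ B →
    (∀ a (r : ℝ), |r| ≤ ε → jetX F f (S.φ a t r x) ≤ B ^ 2) →
    |S.P t ε f x - f x - ε ^ 2 * (N : ℝ)⁻¹ * lapX C (G t) f x| ≤ c * ε ^ 3 * B ∧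
    gsX C (G t) (fun y => S.P t ε f y - f y - ε ^ 2 * (N : ℝ)⁻¹ * lapX C (G t) f y) x ≤
      (c * ε ^ 3 * B) ^ 2)

theorem bdd (h : SpecBddL) : Bdd := by
  intro n M X Γ I _ _ _ _ _ _ C G J _ F T hG
  have hloc : ∀ i : I, ∃ c : ℝ, 0 < c ∧ ∀ t : ℝ, 0 ≤ t → t ≤ T → ∀ f : E n → ℝ,
      ContDiff ℝ 4 f → ∀ y, ‖y‖ ≤ 1 →
      f y ^ 2 ≤ jet (F.loc i) f y ∧ gradSq (G t i) f y ≤ c * jet (F.loc i) f y ∧
      gradSq (G t i) (fun z => gradSq (G t i) f z) y ≤ c * jet (F.loc i) f y ^ 2 ∧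
      lap (G t i) f y ^ 2 ≤ c * jet (F.loc i) f y ∧
      gradSq (G t i) (fun z => lap (G t i) f z) y ≤ c * jet (F.loc i) f y := fun i =>
    h n J (F.loc i) (fun t => G t i) T 1 (hG.smooth i) fun t y => (hG.met t).pos i y
  choose c hc hb using hloc
  refine ⟨1 + ∑ i, c i, by have := Finset.sum_nonneg fun i (_ : i ∈ Finset.univ) => (hc i).le
                           linarith, fun t ht0 htT f hf x => ?_⟩
  obtain ⟨γ, i, y, hy, rfl⟩ := exists_chart C x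
  have hf2 : C.Ck 2 f := fun γ i => (hf γ i).of_le (by norm_num)
  have hci : c i ≤ 1 + ∑ i, c i := by
    have := Finset.single_le_sum (fun i (_ : i ∈ Finset.univ) => (hc i).le) (Finset.mem_univ i)
    linarith
  obtain ⟨b1, b2, b3, b4, b5⟩ := hb i t ht0 htT (C.rep f γ i) (hf γ i) y hy.le
  have hj : 0 ≤ jet (F.loc i) (C.rep f γ i) y := (sq_nonneg _).trans b1
  rw [jetX_eq F hf, gsX_eq (hG.met t), gsX_eq (hG.met t), gsX_eq (hG.met t),
    rep_gsX (hG.met t), rep_lapX (hG.met t) hf2, lapX_eq (hG.met t) hf2]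
  refine ⟨b1, b2.trans (mul_le_mul_of_nonneg_right hci hj),
    b3.trans (mul_le_mul_of_nonneg_right hci (sq_nonneg _)),
    b4.trans (mul_le_mul_of_nonneg_right hci hj), b5.trans (mul_le_mul_of_nonneg_right hci hj)⟩

/-! ### consistency -/

/-- the square of the gradient of a mean -/
theorem gradSq_mean {n N : ℕ} {G : E n → Matrix (Fin n) (Fin n) ℝ} {x : E n}
    (hG : (G x).PosDef) (hN : 0 < N) (f : Fin N → E n → ℝ) (hf : ∀ a, DifferentiableAt ℝ (f a) x)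
    {K : ℝ} (hK0 : 0 ≤ K) (hK : ∀ a, gradSq G (f a) x ≤ K) :
    gradSq G (fun y => (N : ℝ)⁻¹ * ∑ a, f a y) x ≤ K := by
  have hpd : ∀ i, H.pd i (fun y => (N : ℝ)⁻¹ * ∑ a, f a y) x =
      ∑ a, (N : ℝ)⁻¹ * H.pd i (f a) x := by
    intro i
    have e : (fun y => (N : ℝ)⁻¹ * ∑ a, f a y) = fun y => ∑ a, (N : ℝ)⁻¹ * f a y := by
      funext y; rw [Finset.mul_sum]
    rw [e, Bridge.pd_sum fun a _ => (hf a).const_mul _]
    refine Finset.sum_congr rfl fun a _ => ?_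
    unfold H.pd
    rw [fderiv_const_mul (hf a)]
    rfl
  have hip : ∀ a b, gradIp G (f a) (f b) x ≤ K := by
    intro a b
    have h1 := B5c.gradIp_cs hG (f a) (f b)
    have h2 : gradSq G (f a) x * gradSq G (f b) x ≤ K * K :=
      mul_le_mul (hK a) (hK b) (B4b.gradSq_nonneg hG _) hK0
    exact abs_le_of_sq_le_sq' (by nlinarith) hK0 |>.2
  have hexp : gradSq G (fun y => (N : ℝ)⁻¹ * ∑ a, f a y) x =
      ∑ a : Fin N, ∑ b : Fin N, (N : ℝ)⁻¹ * (N : ℝ)⁻¹ * gradIp G (f a) (f b) x := by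
    have e1 : gradSq G (fun y => (N : ℝ)⁻¹ * ∑ a, f a y) x =
        ∑ i, ∑ j, ∑ a : Fin N, ∑ b : Fin N, (N : ℝ)⁻¹ * (N : ℝ)⁻¹ *
          ((G x)⁻¹ i j * H.pd i (f a) x * H.pd j (f b) x) := by
      unfold gradSq gradIp
      refine Finset.sum_congr rfl fun i _ => Finset.sum_congr rfl fun j _ => ?_
      rw [hpd i, hpd j, mul_assoc, Finset.sum_mul_sum, Finset.mul_sum]
      refine Finset.sum_congr rfl fun a _ => ?_
      rw [Finset.mul_sum]
      refine Finset.sum_congr rfl fun b _ => ?_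
      ring
    rw [e1]
    calc _ = ∑ i, ∑ a : Fin N, ∑ j, ∑ b : Fin N, (N : ℝ)⁻¹ * (N : ℝ)⁻¹ *
          ((G x)⁻¹ i j * H.pd i (f a) x * H.pd j (f b) x) :=
          Finset.sum_congr rfl fun i _ => Finset.sum_comm
      _ = ∑ a : Fin N, ∑ i, ∑ j, ∑ b : Fin N, (N : ℝ)⁻¹ * (N : ℝ)⁻¹ *
          ((G x)⁻¹ i j * H.pd i (f a) x * H.pd j (f b) x) := Finset.sum_comm
      _ = ∑ a : Fin N, ∑ b : Fin N, ∑ i, ∑ j, (N : ℝ)⁻¹ * (N : ℝ)⁻¹ *
          ((G x)⁻¹ i j * H.pd i (f a) x * H.pd j (f b) x) := by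
          refine Finset.sum_congr rfl fun a _ => ?_
          rw [Finset.sum_congr rfl fun i _ => Finset.sum_comm (s := Finset.univ)
            (t := (Finset.univ : Finset (Fin N)))]
          exact Finset.sum_comm
      _ = _ := by
          refine Finset.sum_congr rfl fun a _ => Finset.sum_congr rfl fun b _ => ?_
          unfold gradIp
          rw [Finset.mul_sum]
          refine Finset.sum_congr rfl fun i _ => ?_
          rw [Finset.mul_sum]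
  rw [hexp]
  calc _ ≤ ∑ a : Fin N, ∑ b : Fin N, (N : ℝ)⁻¹ * (N : ℝ)⁻¹ * K :=
        Finset.sum_le_sum fun a _ => Finset.sum_le_sum fun b _ =>
          mul_le_mul_of_nonneg_left (hip a b) (by positivity)
    _ = K := by
        have : (N : ℝ) ≠ 0 := by positivity
        simp only [Finset.sum_const, Finset.card_univ, Fintype.card_fin, nsmul_eq_mul]
        field_simp

/-- differentiability of the local remainder -/
theorem diff_loc {n : ℕ} {ξ ζ : E n → E n} (hξ : ContDiff ℝ ∞ ξ) (hζ : ContDiff ℝ ∞ ζ) (ε : ℝ)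
    {f : E n → ℝ} (hf : ContDiff ℝ 4 f) :
    Differentiable ℝ fun z => avg ξ ζ ε f z - f z - ε ^ 2 / 2 * gen ξ ζ f z := by
  have hfd : Differentiable ℝ f := hf.differentiable (by norm_num)
  have hξd : Differentiable ℝ ξ := hξ.differentiable (by simp)
  have hζd : Differentiable ℝ ζ := hζ.differentiable (by simp)
  have h1 : Differentiable ℝ (avg ξ ζ ε f) := by
    have e1 : Differentiable ℝ fun z => f (z + ε • ξ z + ε ^ 2 • ζ z) :=
      hfd.comp ((differentiable_id.add (hξd.const_smul ε)).add (hζd.const_smul (ε ^ 2)))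
    have e2 : Differentiable ℝ fun z => f (z - ε • ξ z + ε ^ 2 • ζ z) :=
      hfd.comp ((differentiable_id.sub (hξd.const_smul ε)).add (hζd.const_smul (ε ^ 2)))
    have e3 : avg ξ ζ ε f = fun z => (f (z + ε • ξ z + ε ^ 2 • ζ z) +
        f (z - ε • ξ z + ε ^ 2 • ζ z)) * (2 : ℝ)⁻¹ := by
      funext z; unfold avg; ring
    rw [e3]
    exact (e1.fun_add e2).mul_const _
  have h2 : Differentiable ℝ (gen ξ ζ f) := by
    have e : gen ξ ζ f = fun y => (∑ a, ∑ b, ξ y a * ξ y b * H.pd b (fun z => H.pd a f z) y) +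
        2 * ∑ a, ζ y a * H.pd a f y := by
      funext y
      exact B2.second f (hf.of_le (by norm_num)) y (ξ y) (ζ y)
    have hp : ∀ a, ContDiff ℝ 3 fun z => H.pd a f z := fun a =>
      Bridge.contDiff_pd hf (by norm_num) a
    have hpp : ∀ a b, ContDiff ℝ 2 fun z => H.pd b (fun z => H.pd a f z) z := fun a b =>
      Bridge.contDiff_pd (hp a) (by norm_num) b
    have hx : ∀ a, Differentiable ℝ fun y => ξ y a := fun a => differentiable_pi.1 hξd a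
    have hz : ∀ a, Differentiable ℝ fun y => ζ y a := fun a => differentiable_pi.1 hζd a
    rw [e]
    refine Differentiable.fun_add ?_ (Differentiable.const_mul ?_ _)
    · refine Differentiable.fun_sum fun a _ => Differentiable.fun_sum fun b _ => ?_
      exact ((hx a).mul (hx b)).mul ((hpp a b).differentiable (by norm_num))
    · refine Differentiable.fun_sum fun a _ => ?_
      exact (hz a).mul ((hp a).differentiable (by norm_num))
  exact (h1.sub hfd).sub (h2.const_mul _)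

section
variable {n : ℕ} {M X Γ I : Type} [TopologicalSpace M] [TopologicalSpace X] [Group Γ]
    [MulAction Γ X] (C : Cov n M X Γ I)

/-- the remainder for one family of maps -/
noncomputable def rem (i : I) (ξ ζ : E n → E n) (ε : ℝ) (f : X → ℝ) (x : X) : ℝ :=
  (f (C.mv i ξ ζ ε x) + f (C.mv i ξ ζ (-ε) x)) / 2 - f x -
    ε ^ 2 / 2 * iteratedDeriv 2 (fun r => f (C.mv i ξ ζ r x)) 0

theorem rep_rem (i : I) (ξ ζ : E n → E n) (ε : ℝ) (f : X → ℝ) (γ : Γ) :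
    C.rep (rem C i ξ ζ ε f) γ i = fun z => avg ξ ζ ε (C.rep f γ i) z - C.rep f γ i z -
      ε ^ 2 / 2 * gen ξ ζ (C.rep f γ i) z := by
  funext y
  unfold Cov.rep rem avg gen
  have e : (fun r => f (C.mv i ξ ζ r (γ • C.ψ i y))) =
      fun r : ℝ => f (γ • C.ψ i (y + r • ξ y + r ^ 2 • ζ y)) := by
    funext r; rw [MpX.mv_eq]
  rw [e, MpX.mv_eq, MpX.mv_eq]
  simp only [neg_smul, even_two, Even.neg_pow, sub_eq_add_neg]

theorem rem_of_not (i : I) (ξ ζ : E n → E n) (ε : ℝ) (f : X → ℝ) {x : X}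
    (hx : ¬ ∃ (γ : Γ) (y : E n), γ • C.ψ i y = x) : rem C i ξ ζ ε f x = 0 := by
  unfold rem
  have e : (fun r => f (C.mv i ξ ζ r x)) = fun _ => f x := by
    funext r; rw [MpX.mv_of_not i ξ ζ r hx]
  rw [e, MpX.mv_of_not i ξ ζ _ hx, MpX.mv_of_not i ξ ζ _ hx, iteratedDeriv_const]
  simp

theorem rem_zero (i : I) {ξ ζ : E n → E n} {R : ℝ} (hs : ∀ y, R ≤ ‖y‖ → ξ y = 0 ∧ ζ y = 0)
    (ε : ℝ) (f : X → ℝ) {x : X} (hx : ∀ (γ : Γ) (y : E n), ‖y‖ ≤ R → γ • C.ψ i y ≠ x) :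
    rem C i ξ ζ ε f x = 0 := by
  by_cases h : ∃ (γ : Γ) (y : E n), γ • C.ψ i y = x
  · obtain ⟨γ, y, rfl⟩ := h
    have hy : R ≤ ‖y‖ := by
      by_contra hcon
      exact hx γ y (not_le.1 hcon).le rfl
    obtain ⟨h1, h2⟩ := hs y hy
    have := congrFun (rep_rem C i ξ ζ ε f γ) y
    unfold Cov.rep avg gen at this
    rw [this, h1, h2]
    simp [iteratedDeriv_const]
  · exact rem_of_not C i ξ ζ ε f h

/-- near a point outside of the charts of type `i`, one stays away from their compact cores -/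
theorem away [T2Space X] (i j : I) (R : ℝ) (γ₀ : Γ) (y₀ : E n)
    (hx : ¬ ∃ (γ : Γ) (y : E n), γ • C.ψ i y = γ₀ • C.ψ j y₀) :
    ∀ᶠ z in 𝓝 y₀, ∀ (γ : Γ) (y : E n), ‖y‖ ≤ R → γ • C.ψ i y ≠ γ₀ • C.ψ j z := by
  set R' := max (‖y₀‖ + 1) R with hR'
  have hfin := C.proper j i R'
  have h1 : ∀ᶠ z : E n in 𝓝 y₀, ‖z‖ < ‖y₀‖ + 1 :=
    (continuous_norm.tendsto y₀).eventually (gt_mem_nhds (by simp))
  have h2 : ∀ᶠ z : E n in 𝓝 y₀, ∀ g ∈ hfin.toFinset,
      g • C.ψ j z ∉ C.ψ i '' Metric.closedBall 0 R := by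
    rw [Filter.eventually_all_finset]
    intro g _
    have hc : IsClosed (C.ψ i '' Metric.closedBall (0 : E n) R) :=
      ((isCompact_closedBall _ _).image (C.emb i).continuous).isClosed
    have hcont : Continuous fun z => g • C.ψ j z := (C.cont g).comp (C.emb j).continuous
    refine hcont.continuousAt.eventually (hc.isOpen_compl.mem_nhds ?_)
    rintro ⟨y, -, hy⟩
    refine hx ⟨γ₀ * g⁻¹, y, ?_⟩
    rw [mul_smul, hy, inv_smul_smul]
  filter_upwards [h1, h2] with z hz1 hz2 γ y hy he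
  have he' : (γ⁻¹ * γ₀) • C.ψ j z = C.ψ i y := by rw [mul_smul, ← he, inv_smul_smul]
  refine hz2 (γ⁻¹ * γ₀) ?_ ⟨y, by simpa using hy, he'.symm⟩
  rw [Set.Finite.mem_toFinset]
  exact ⟨z, y, hz1.le.trans (le_max_left _ _), hy.trans (le_max_right _ _), he'⟩

theorem rep_eventually (f : X → ℝ) {i j : I} {γ γ' : Γ} {y : E n}
    (h : y ∈ C.dom i j (γ'⁻¹ * γ)) :
    C.rep f γ i =ᶠ[𝓝 y] fun z => C.rep f γ' j (C.tr i j (γ'⁻¹ * γ) z) := by
  have := rep_tr_eventually C f h γ'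
  rwa [mul_inv_cancel_left] at this

theorem diff_chart (f : X → ℝ) {i j : I} {γ γ' : Γ} {y y' : E n}
    (h : γ • C.ψ i y = γ' • C.ψ j y') (hf : DifferentiableAt ℝ (C.rep f γ' j) y') :
    DifferentiableAt ℝ (C.rep f γ i) y := by
  obtain ⟨h1, rfl⟩ := chart_eq C h
  refine DifferentiableAt.congr_of_eventuallyEq ?_ (rep_eventually C f h1)
  exact hf.comp y ((contDiffAt_tr C h1).differentiableAt (by simp))

/-- bounds for the remainder, at any point -/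
theorem rem_bd [T2Space X] {G : I → E n → Matrix (Fin n) (Fin n) ℝ} (hG : MetX C G)
    {J : Type} [Fintype J] (F : FrX C J) (i : I) {ξ ζ : E n → E n} (hξ : ContDiff ℝ ∞ ξ)
    (hζ : ContDiff ℝ ∞ ζ) {R : ℝ} (hs : ∀ y, R ≤ ‖y‖ → ξ y = 0 ∧ ζ y = 0) {c ε B : ℝ}
    (hc : 0 ≤ c) (hε : 0 < ε) {f : X → ℝ} (hf : C.Ck 4 f) (hB : 0 ≤ B)
    (hloc : ∀ f : E n → ℝ, ContDiff ℝ 4 f → ∀ y : E n,
      (∀ r : ℝ, |r| ≤ ε → jet (F.loc i) f (y + r • ξ y + r ^ 2 • ζ y) ≤ B ^ 2) →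
      |avg ξ ζ ε f y - f y - ε ^ 2 / 2 * gen ξ ζ f y| ≤ c * ε ^ 3 * B ∧
      gradSq (G i) (fun z => avg ξ ζ ε f z - f z - ε ^ 2 / 2 * gen ξ ζ f z) y ≤
        (c * ε ^ 3 * B) ^ 2) (γ₀ : Γ) (j : I) (y₀ : E n)
    (hj : ∀ r : ℝ, |r| ≤ ε → jetX F f (C.mv i ξ ζ r (γ₀ • C.ψ j y₀)) ≤ B ^ 2) :
    |rem C i ξ ζ ε f (γ₀ • C.ψ j y₀)| ≤ c * ε ^ 3 * B ∧
    DifferentiableAt ℝ (C.rep (rem C i ξ ζ ε f) γ₀ j) y₀ ∧
    gradSq (G j) (C.rep (rem C i ξ ζ ε f) γ₀ j) y₀ ≤ (c * ε ^ 3 * B) ^ 2 := by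
  by_cases hx : ∃ (γ : Γ) (y : E n), γ • C.ψ i y = γ₀ • C.ψ j y₀
  · obtain ⟨γ, y, h⟩ := hx
    have h1 : ∀ r : ℝ, |r| ≤ ε →
        jet (F.loc i) (C.rep f γ i) (y + r • ξ y + r ^ 2 • ζ y) ≤ B ^ 2 := by
      intro r hr
      have := hj r hr
      rwa [← h, MpX.mv_eq, jetX_eq F hf] at this
    obtain ⟨b1, b2⟩ := hloc (C.rep f γ i) (hf γ i) y h1
    refine ⟨?_, ?_, ?_⟩
    · rw [← h]
      have := congrFun (rep_rem C i ξ ζ ε f γ) y
      unfold Cov.rep at this b1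
      rw [this]
      exact b1
    · refine diff_chart C _ h.symm ?_
      rw [rep_rem]
      exact diff_loc hξ hζ ε (hf γ i) y
    · rw [gradSq_chart hG _ h.symm, rep_rem]
      exact b2
  · have hev : C.rep (rem C i ξ ζ ε f) γ₀ j =ᶠ[𝓝 y₀] fun _ => 0 := by
      filter_upwards [away C i j R γ₀ y₀ hx] with z hz
      exact rem_zero C i hs ε f hz
    refine ⟨?_, (differentiableAt_const (0 : ℝ)).congr_of_eventuallyEq hev, ?_⟩
    · rw [rem_of_not C i ξ ζ ε f hx, abs_zero]; positivity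
    · have hpd : ∀ k, H.pd k (C.rep (rem C i ξ ζ ε f) γ₀ j) y₀ = 0 := by
        intro k
        unfold H.pd
        rw [hev.fderiv_eq]
        simp
      unfold gradSq gradIp
      simp only [hpd, mul_zero, Finset.sum_const_zero]
      positivity

end

theorem cons (h : SpecConsL) : Cons := by
  intro n M X Γ I _ _ _ _ _ _ C G J _ F N S T hG hN hgen
  have hloc := fun a : Fin N => h n J (F.loc (S.ch a)) (fun t => G t (S.ch a)) (S.ξ a) (S.ζ a) T
    S.R (hG.smooth _) (fun t y => (hG.met t).pos _ y) (S.ξ_smooth a) (S.ζ_smooth a) (S.supp a)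
  choose c hc hb using hloc
  have hS : 0 ≤ ∑ a, c a := Finset.sum_nonneg fun a _ => (hc a).le
  refine ⟨1 + ∑ a, c a, by linarith, fun t ht0 htT f hf ε hε hε1 x B hB hj => ?_⟩
  have hca : ∀ a, c a ≤ 1 + ∑ a, c a := fun a => by
    have := Finset.single_le_sum (fun a (_ : a ∈ Finset.univ) => (hc a).le) (Finset.mem_univ a)
    linarith
  set D := 1 + ∑ a, c a with hD
  have hD0 : 0 ≤ D := by linarith
  have hN0 : (N : ℝ) ≠ 0 := by positivity
  have hf2 : C.Ck 2 f := fun γ i => (hf γ i).of_le (by norm_num)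
  let r : Fin N → X → ℝ := fun a => rem C (S.ch a) (S.ξ a t) (S.ζ a t) ε f
  have hdec : ∀ z, S.P t ε f z - f z - ε ^ 2 * (N : ℝ)⁻¹ * lapX C (G t) f z =
      (N : ℝ)⁻¹ * ∑ a, r a z := by
    intro z
    have h1 : ∑ a, r a z = (∑ a, (f (S.φ a t ε z) + f (S.φ a t (-ε) z)) / 2) - N * f z -
        ε ^ 2 / 2 * ∑ a, iteratedDeriv 2 (fun r => f (S.φ a t r z)) 0 := by
      rw [Finset.mul_sum]
      simp only [r, rem, MpX.φ]
      rw [Finset.sum_sub_distrib, Finset.sum_sub_distrib, Finset.sum_const, Finset.card_univ,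
        Fintype.card_fin, nsmul_eq_mul]
    rw [h1, hgen t f hf2 z]
    unfold MpX.P
    field_simp
  simp only [hdec]
  obtain ⟨γ₀, j, y₀, -, rfl⟩ := exists_chart C x
  have key := fun a => rem_bd C (hG.met t) F (S.ch a) (ξ := S.ξ a t) (ζ := S.ζ a t)
    ((S.ξ_smooth a).comp (contDiff_prodMk_right t)) ((S.ζ_smooth a).comp (contDiff_prodMk_right t))
    (S.supp a t) hD0 hε hf hB (fun f hf y hj => by
      obtain ⟨b1, b2⟩ := hb a t ε ht0 htT hε hε1 f hf y B hB hj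
      have h3 : c a * ε ^ 3 * B ≤ D * ε ^ 3 * B := by
        have := hca a
        gcongr
      have h4 : 0 ≤ c a * ε ^ 3 * B := by have := (hc a).le; positivity
      exact ⟨b1.trans h3, b2.trans (pow_le_pow_left₀ h4 h3 2)⟩) γ₀ j y₀ (hj a)
  constructor
  · rw [abs_mul, abs_of_pos (by positivity : (0 : ℝ) < (N : ℝ)⁻¹)]
    have h1 : |∑ a, r a (γ₀ • C.ψ j y₀)| ≤ N * (D * ε ^ 3 * B) := by
      refine (Finset.abs_sum_le_sum_abs _ _).trans ?_
      refine (Finset.sum_le_sum fun a _ => (key a).1).trans (le_of_eq ?_)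
      rw [Finset.sum_const, Finset.card_univ, Fintype.card_fin, nsmul_eq_mul]
    calc (N : ℝ)⁻¹ * |∑ a, r a (γ₀ • C.ψ j y₀)| ≤ (N : ℝ)⁻¹ * (N * (D * ε ^ 3 * B)) := by gcongr
      _ = _ := by field_simp
  · rw [gsX_eq (hG.met t)]
    exact gradSq_mean ((hG.met t).pos j y₀) hN (fun a => C.rep (r a) γ₀ j)
      (fun a => (key a).2.1) (sq_nonneg _) fun a => (key a).2.2

end Vale.Agent.P223.X.UniB
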