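import Vale.Agent.P223.X.UniJ
import Vale.Agent.P223.X.UniB

/-! Phase 3, block X7: uniform estimates for the averaging operators. -/

namespace Vale.Agent.P223.X.UniX

open scoped ContDiff Topology
open Vale.Agent.P223.H

/-- Block X7 -/
theorem main (hQ : SpecQCL) (hC : SpecConsL) (hB : SpecBddL) : SpecUniX := by
  intro n M X Γ I _ _ _ _ _ _ C G J _ F N S T hG hN hgen
  obtain ⟨c₁, hc₁, h₁⟩ := UniJ.jet_P F hQ S hN T
  obtain ⟨c₂, hc₂, h₂⟩ := UniB.cons hC n M X Γ I C G J F N S T hG hN hgen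
  obtain ⟨c₃, hc₃, h₃⟩ := UniB.bdd hB n M X Γ I C G J F T hG
  refine ⟨c₁ + c₂ + c₃, by positivity, fun t ht htT f hf => ⟨?_, ?_, ?_⟩⟩
  · intro ε hε hε1
    refine ⟨UniJ.Ck_P (k := 4) S t ε hf, fun x => ?_⟩
    refine (h₁ t ε ht htT hε hε1 f hf x).trans ?_
    refine mul_le_mul_of_nonneg_right ?_ ?_
    · have : 0 ≤ (c₂ + c₃) * ε ^ 2 := by positivity
      linarith
    · rw [UniJ.P_eq]
      refine mul_nonneg (by positivity) (Finset.sum_nonneg fun a _ => ?_)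
      unfold UniJ.Af
      have := UniJ.jetX_nonneg F f (S.φ a t ε x)
      have := UniJ.jetX_nonneg F f (S.φ a t (-ε) x)
      linarith
  · intro ε hε hε1 x B hB0 hB'
    obtain ⟨a1, a2⟩ := h₂ t ht htT f hf ε hε hε1 x B hB0 hB'
    have h0 : 0 ≤ ε ^ 3 * B := by positivity
    have h1 : c₂ * ε ^ 3 * B ≤ (c₁ + c₂ + c₃) * ε ^ 3 * B := by nlinarith
    refine ⟨a1.trans h1, a2.trans (pow_le_pow_left₀ (by positivity) h1 2)⟩
  · intro x
    obtain ⟨b1, b2, b3, b4, b5⟩ := h₃ t ht htT f hf x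
    have h0 := UniJ.jetX_nonneg F f x
    have h1 : c₃ * jetX F f x ≤ (c₁ + c₂ + c₃) * jetX F f x :=
      mul_le_mul_of_nonneg_right (by linarith) h0
    have h2 : c₃ * jetX F f x ^ 2 ≤ (c₁ + c₂ + c₃) * jetX F f x ^ 2 :=
      mul_le_mul_of_nonneg_right (by linarith) (sq_nonneg _)
    exact ⟨b1, b2.trans h1, b3.trans h2, b4.trans h1, b5.trans h1⟩

end Vale.Agent.P223.X.UniX
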