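import Vale.Agent.P223.X.Int

/-! Phase 3, block X4 : volume measures. -/

namespace Vale.Agent.P223.X.Vol

open scoped ContDiff Topology ENNReal
open MeasureTheory Vale.Agent.P223.H Function

/-! ### abstract measure theory -/

/-- gluing measures -/
theorem glue {Y P : Type} [MeasurableSpace Y] [Countable P] [Nonempty P] (A : P → Set Y)
    (hA : ∀ p, MeasurableSet (A p)) (m : P → Measure Y)
    (hm : ∀ p q (S : Set Y), MeasurableSet S → S ⊆ A p → S ⊆ A q → m p S = m q S) :
    ∃ μ : Measure Y, ∀ p (S : Set Y), MeasurableSet S → S ⊆ A p → μ S = m p S := by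
  obtain ⟨e, he⟩ := exists_surjective_nat P
  have hD : ∀ k, MeasurableSet (disjointed (fun k => A (e k)) k) :=
    MeasurableSet.disjointed fun k => hA (e k)
  refine ⟨Measure.sum fun k => (m (e k)).restrict (disjointed (fun k => A (e k)) k),
    fun p S hS hSp => ?_⟩
  rw [Measure.sum_apply _ hS]
  have h1 : ∀ k, ((m (e k)).restrict (disjointed (fun k => A (e k)) k)) S =
      m p (S ∩ disjointed (fun k => A (e k)) k) := fun k => by
    rw [Measure.restrict_apply hS]
    exact hm _ _ _ (hS.inter (hD k))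
      (Set.inter_subset_right.trans (disjointed_subset _ _)) (Set.inter_subset_left.trans hSp)
  simp_rw [h1]
  rw [← measure_iUnion _ fun k => hS.inter (hD k)]
  · congr 1
    rw [← Set.inter_iUnion, iUnion_disjointed]
    refine Set.inter_eq_left.2 fun x hx => ?_
    obtain ⟨k, hk⟩ := he p
    exact Set.mem_iUnion.2 ⟨k, by rw [hk]; exact hSp hx⟩
  · intro k l hkl
    exact ((disjoint_disjointed _ hkl).mono Set.inter_subset_right Set.inter_subset_right)

/-- change of variables -/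
theorem cv {n : ℕ} {Y : Type} [MeasurableSpace Y] {f : E n → Y} (hf : MeasurableEmbedding f)
    {μ : Measure Y} {w : E n → ℝ≥0∞} (hw : Measurable w) (hw' : ∀ y, w y < ⊤)
    (h : ∀ B, MeasurableSet B → μ (f '' B) = ∫⁻ y in B, w y) {B : Set (E n)}
    (hB : MeasurableSet B) (F : Y → ℝ≥0∞) :
    ∫⁻ x in f '' B, F x ∂μ = ∫⁻ y in B, F (f y) * w y := by
  have h1 : μ.comap f = volume.withDensity w := by
    ext S hS
    rw [hf.comap_apply, withDensity_apply _ hS]
    exact h S hS
  have h2 : μ.restrict (f '' B) = ((volume.withDensity w).restrict B).map f := by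
    have h3 : ((μ.comap f).map f).restrict (f '' B) = ((μ.comap f).restrict B).map f := by
      rw [hf.restrict_map, Set.preimage_image_eq _ hf.injective]
    rw [← h1, ← h3, hf.map_comap, Measure.restrict_restrict_of_subset (Set.image_subset_range _ _)]
  rw [h2, hf.lintegral_map, restrict_withDensity hB,
    lintegral_withDensity_eq_lintegral_mul_non_measurable _ hw
      (Filter.Eventually.of_forall hw')]
  refine lintegral_congr fun y => ?_
  simp only [Pi.mul_apply, mul_comm]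

/-! ### the group is countable -/

theorem countable_closure {G : Type} [Group G] {S : Set G} (hS : S.Countable) :
    Countable (Subgroup.closure S) := by
  have : Countable S := hS.to_subtype
  have : Countable (FreeGroup S) := inferInstanceAs (Countable (Quot _))
  have h1 : (FreeGroup.lift (fun x : S => (x : G))).range = Subgroup.closure S := by
    rw [FreeGroup.range_lift_eq_closure, Subtype.range_coe]
  rw [← h1]
  exact (FreeGroup.lift (fun x : S => (x : G))).rangeRestrict_surjective.countable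

variable {n : ℕ} {M X Γ I : Type} [TopologicalSpace M] [TopologicalSpace X] [Group Γ]
    [MulAction Γ X] (C : Cov n M X Γ I)

/-- the core -/
def core (C : Cov n M X Γ I) : Set X := ⋃ i, C.ψ i '' Metric.ball 0 1

theorem isOpen_core : IsOpen (core C) :=
  isOpen_iUnion fun i => (C.emb i).isOpenMap _ Metric.isOpen_ball

theorem cover_core (x : X) : ∃ γ : Γ, ∃ k ∈ core C, γ • k = x := by
  obtain ⟨γ, i, y, hy, h⟩ := exists_chart C x
  exact ⟨γ, C.ψ i y, Set.mem_iUnion.2 ⟨i, y, by simpa using hy, rfl⟩, h⟩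

include C in
theorem countable_group [Finite I] [ConnectedSpace X] : Countable Γ := by
  set S : Set Γ := {γ | ∃ x ∈ core C, γ • x ∈ core C} with hS
  have hfin : S.Finite := by
    refine (Set.finite_iUnion fun i => Set.finite_iUnion fun j => C.proper i j 1).subset ?_
    rintro γ ⟨x, hx, hx'⟩
    obtain ⟨i, y, hy, rfl⟩ := Set.mem_iUnion.1 hx
    obtain ⟨j, y', hy', h⟩ := Set.mem_iUnion.1 hx'
    simp only [Metric.mem_ball, dist_zero_right] at hy hy'
    exact Set.mem_iUnion.2 ⟨i, Set.mem_iUnion.2 ⟨j, y, y', hy.le, hy'.le, h.symm⟩⟩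
  have hsm : ∀ γ : Γ, IsOpen ((fun x : X => γ • x) '' core C) := fun γ =>
    (Int.homeo C γ).isOpenMap _ (isOpen_core C)
  have key : ∀ γ γ' : Γ, ∀ k ∈ core C, ∀ k' ∈ core C, γ • k = γ' • k' →
      γ' ∈ Subgroup.closure S → γ ∈ Subgroup.closure S := by
    intro γ γ' k hk k' hk' h hγ
    have h1 : γ'⁻¹ * γ ∈ S := ⟨k, hk, by rw [mul_smul, h, inv_smul_smul]; exact hk'⟩
    have h2 := (Subgroup.closure S).mul_mem hγ (Subgroup.subset_closure h1)
    rwa [mul_inv_cancel_left] at h2
  set U : Set X := ⋃ γ ∈ Subgroup.closure S, (fun x : X => γ • x) '' core C with hU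
  have hUo : IsOpen U := isOpen_biUnion fun γ _ => hsm γ
  have hUc : IsOpen Uᶜ := by
    have : Uᶜ = ⋃ γ ∈ {γ | γ ∉ Subgroup.closure S}, (fun x : X => γ • x) '' core C := by
      ext x
      constructor
      · intro hx
        obtain ⟨γ, k, hk, rfl⟩ := cover_core C x
        refine Set.mem_biUnion (x := γ) (fun hγ => hx ?_) ⟨k, hk, rfl⟩
        exact Set.mem_biUnion hγ ⟨k, hk, rfl⟩
      · intro hx hx'
        obtain ⟨γ, hγ, k, hk, h⟩ := Set.mem_iUnion₂.1 hx
        obtain ⟨γ', hγ', k', hk', h'⟩ := Set.mem_iUnion₂.1 hx'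
        exact hγ (key γ γ' k hk k' hk' (h.trans h'.symm) hγ')
    rw [this]
    exact isOpen_biUnion fun γ _ => hsm γ
  obtain ⟨x⟩ := (inferInstance : Nonempty X)
  obtain ⟨γ₀, k, hk, -⟩ := cover_core C x
  have hne : U.Nonempty := ⟨(1 : Γ) • k, Set.mem_biUnion (Subgroup.one_mem _) ⟨k, hk, rfl⟩⟩
  have huniv : U = Set.univ := IsClopen.eq_univ ⟨⟨hUc⟩, hUo⟩ hne
  have htop : Subgroup.closure S = ⊤ := by
    rw [Subgroup.eq_top_iff']
    intro γ
    have h1 : γ • k ∈ U := huniv ▸ Set.mem_univ _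
    obtain ⟨γ', hγ', k', hk', h'⟩ := Set.mem_iUnion₂.1 h1
    exact key γ γ' k hk k' hk' h'.symm hγ'
  have h3 := countable_closure hfin.countable
  rw [htop] at h3
  exact Subgroup.topEquiv.toEquiv.symm.injective.countable

/-! ### charts of `M` -/

/-- the chart of `M` -/
def q (C : Cov n M X Γ I) (i : I) (y : E n) : M := C.π (C.ψ i y)

theorem π_smul (γ : Γ) (x : X) : C.π (γ • x) = C.π x :=
  ((C.orb x (γ • x)).2 ⟨γ, rfl⟩).symm

theorem q_eq {i j : I} {y y' : E n} : q C i y = q C j y' ↔ ∃ γ : Γ, γ • C.ψ i y = C.ψ j y' :=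
  C.orb _ _

theorem q_inj (i : I) : Injective (q C i) := fun y y' h => by
  obtain ⟨γ, hγ⟩ := (q_eq C).1 h
  have h1 := C.inj i γ y y' hγ
  rw [h1, one_smul] at hγ
  exact (C.emb i).injective hγ

theorem q_emb (i : I) : Topology.IsOpenEmbedding (q C i) :=
  .of_continuous_injective_isOpenMap (C.π.continuous.comp (C.emb i).continuous) (q_inj C i)
    (C.cov.isOpenMap.comp (C.emb i).isOpenMap)

theorem q_cover (m : M) : ∃ i, m ∈ Set.range (q C i) := by
  obtain ⟨x, rfl⟩ := C.surj m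
  obtain ⟨γ, i, y, -, rfl⟩ := exists_chart C x
  exact ⟨i, y, (π_smul C γ _).symm⟩

theorem eq_of_dom {i j : I} {γ γ' : Γ} {y : E n} (h : y ∈ C.dom i j γ) (h' : y ∈ C.dom i j γ') :
    γ = γ' := by
  obtain ⟨z, hz⟩ := h
  obtain ⟨z', hz'⟩ := h'
  have h1 : (γ' * γ⁻¹) • C.ψ j z = C.ψ j z' := by
    rw [hz, hz', mul_smul, inv_smul_smul]
  have h2 := C.inj j _ _ _ h1
  exact (mul_inv_eq_one.1 h2).symm

theorem mem_q {i j : I} {y : E n} : q C i y ∈ Set.range (q C j) ↔ ∃ γ : Γ, y ∈ C.dom i j γ := by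
  constructor
  · rintro ⟨y', h⟩
    obtain ⟨γ, hγ⟩ := (q_eq C).1 h.symm
    exact ⟨γ, y', hγ.symm⟩
  · rintro ⟨γ, y', h⟩
    exact ⟨y', ((q_eq C).2 ⟨γ, h.symm⟩).symm⟩

theorem q_tr {i j : I} {γ : Γ} {y : E n} (h : y ∈ C.dom i j γ) :
    q C j (C.tr i j γ y) = q C i y := ((q_eq C).2 ⟨γ, (tr_spec C h).symm⟩).symm

/-! ### the coordinate changes preserve the densities -/

section
variable {C} {G : I → E n → Matrix (Fin n) (Fin n) ℝ} (hG : MetX C G)
include hG

theorem image_tr {i j : I} {γ : Γ} {B : Set (E n)} (hB : MeasurableSet B)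
    (hd : B ⊆ C.dom i j γ) :
    ∫⁻ y in C.tr i j γ '' B, ENNReal.ofReal (H.dens (G j) y) =
      ∫⁻ y in B, ENNReal.ofReal (H.dens (G i) y) := by
  rw [lintegral_image_eq_lintegral_abs_det_fderiv_mul volume hB
    (fun y hy => ((contDiffAt_tr C (hd hy)).differentiableAt (by simp)).hasFDerivAt.hasFDerivWithinAt)
    (fun y hy y' hy' h => by
      rw [← (tr_tr C (hd hy)).2, h, (tr_tr C (hd hy')).2])]
  refine setLIntegral_congr_fun hB fun y hy => ?_
  have h1 := det_tr_pos C (hd hy)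
  have h2 : H.dens (G i) y = (fderiv ℝ (C.tr i j γ) y).det * H.dens (G j) (C.tr i j γ y) :=
    dens_chart hG (hd hy)
  rw [abs_of_pos h1, ← ENNReal.ofReal_mul h1.le, h2]

/-- the weight of the charts -/
noncomputable def w (G : I → E n → Matrix (Fin n) (Fin n) ℝ) (i : I) (y : E n) : ℝ≥0∞ :=
  ENNReal.ofReal (H.dens (G i) y)

theorem w_meas (i : I) : Measurable (w G i) := (Int.cont_dens hG i).measurable.ennreal_ofReal

theorem compX [MeasurableSpace X] [BorelSpace X] {γ γ' : Γ} {i j : I} {S : Set X}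
    (hS : MeasurableSet S) (h1 : S ⊆ Set.range fun y => γ • C.ψ i y)
    (h2 : S ⊆ Set.range fun y => γ' • C.ψ j y) :
    ∫⁻ y in (fun y => γ • C.ψ i y) ⁻¹' S, w G i y =
      ∫⁻ y in (fun y => γ' • C.ψ j y) ⁻¹' S, w G j y := by
  have hd : (fun y => γ • C.ψ i y) ⁻¹' S ⊆ C.dom i j (γ'⁻¹ * γ) := fun y hy => by
    obtain ⟨y', h⟩ := h2 hy
    exact (chart_eq C h.symm).1
  have e : (fun y => γ' • C.ψ j y) ⁻¹' S =
      C.tr i j (γ'⁻¹ * γ) '' ((fun y => γ • C.ψ i y) ⁻¹' S) := by
    ext y'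
    constructor
    · intro hy'
      obtain ⟨y, h⟩ := h1 hy'
      refine ⟨y, ?_, (chart_eq C h).2⟩
      show γ • C.ψ i y ∈ S
      have h' : γ • C.ψ i y = γ' • C.ψ j y' := h
      rw [h']; exact hy'
    · rintro ⟨y, hy, rfl⟩
      obtain ⟨y', h⟩ := h2 hy
      have h' : γ' • C.ψ j y' = γ • C.ψ i y := h
      rw [(chart_eq C h'.symm).2]
      show γ' • C.ψ j y' ∈ S
      rw [h']; exact hy
  rw [e]
  exact (image_tr hG ((Int.measurableEmbedding_chart C γ i).measurable hS) hd).symm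

theorem compM [Countable Γ] [MeasurableSpace M] [BorelSpace M] {i j : I} {S : Set M}
    (hS : MeasurableSet S) (h1 : S ⊆ Set.range (q C i)) (h2 : S ⊆ Set.range (q C j)) :
    ∫⁻ y in q C i ⁻¹' S, w G i y = ∫⁻ y in q C j ⁻¹' S, w G j y := by
  have hm : ∀ i, MeasurableSet (q C i ⁻¹' S) := fun i => (q_emb C i).measurableEmbedding.measurable hS
  have e1 : q C i ⁻¹' S = ⋃ γ : Γ, q C i ⁻¹' S ∩ C.dom i j γ := by
    ext y
    rw [← Set.inter_iUnion]
    refine ⟨fun hy => ⟨hy, Set.mem_iUnion.2 ((mem_q C).1 (h2 hy))⟩, fun hy => hy.1⟩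
  have e2 : q C j ⁻¹' S = ⋃ γ : Γ, q C j ⁻¹' S ∩ C.dom j i γ⁻¹ := by
    ext y
    rw [← Set.inter_iUnion]
    refine ⟨fun hy => ⟨hy, ?_⟩, fun hy => hy.1⟩
    obtain ⟨γ, hγ⟩ := (mem_q C).1 (h1 hy)
    exact Set.mem_iUnion.2 ⟨γ⁻¹, by rwa [inv_inv]⟩
  have e3 : ∀ γ : Γ, q C j ⁻¹' S ∩ C.dom j i γ⁻¹ = C.tr i j γ '' (q C i ⁻¹' S ∩ C.dom i j γ) := by
    intro γ
    ext y'
    constructor
    · rintro ⟨hy', hd⟩
      have h3 := tr_tr C hd
      rw [inv_inv] at h3
      refine ⟨C.tr j i γ⁻¹ y', ⟨?_, h3.1⟩, h3.2⟩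
      show q C i (C.tr j i γ⁻¹ y') ∈ S
      rw [q_tr C hd]; exact hy'
    · rintro ⟨y, ⟨hy, hd⟩, rfl⟩
      refine ⟨?_, (tr_tr C hd).1⟩
      show q C j (C.tr i j γ y) ∈ S
      rw [q_tr C hd]; exact hy
  rw [e1, e2, lintegral_iUnion (fun γ => (hm i).inter (isOpen_dom C i j γ).measurableSet),
    lintegral_iUnion (fun γ => (hm j).inter (isOpen_dom C j i γ⁻¹).measurableSet)]
  · refine tsum_congr fun γ => ?_
    rw [e3 γ]
    exact (image_tr hG ((hm i).inter (isOpen_dom C i j γ).measurableSet)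
      Set.inter_subset_right).symm
  · intro γ γ' hne
    refine Set.disjoint_left.2 fun y hy hy' => hne (inv_injective (eq_of_dom C hy.2 hy'.2))
  · intro γ γ' hne
    exact Set.disjoint_left.2 fun y hy hy' => hne (eq_of_dom C hy.2 hy'.2)

theorem exX [Countable Γ] [Finite I] [Nonempty I] [MeasurableSpace X] [BorelSpace X] :
    ∃ μ : Measure X, VolX C G μ := by
  obtain ⟨μ, hμ⟩ := glue (P := Γ × I) (fun p => Set.range fun y => p.1 • C.ψ p.2 y)
    (fun p => (Int.measurableEmbedding_chart C p.1 p.2).measurableSet_range)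
    (fun p => (volume.withDensity (w G p.2)).map fun y => p.1 • C.ψ p.2 y)
    (fun p p' S hS h1 h2 => by
      rw [(Int.measurableEmbedding_chart C p.1 p.2).map_apply,
        (Int.measurableEmbedding_chart C p'.1 p'.2).map_apply,
        withDensity_apply _ ((Int.measurableEmbedding_chart C p.1 p.2).measurable hS),
        withDensity_apply _ ((Int.measurableEmbedding_chart C p'.1 p'.2).measurable hS)]
      exact compX hG hS h1 h2)
  refine ⟨μ, fun γ i B hB => ?_⟩
  have hm := Int.measurableEmbedding_chart C γ i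
  rw [hμ (γ, i) _ (hm.measurableSet_image.2 hB) (Set.image_subset_range _ _), hm.map_apply,
    Set.preimage_image_eq _ hm.injective, withDensity_apply _ hB]
  rfl

theorem exM [Countable Γ] [Finite I] [Nonempty I] [MeasurableSpace M] [BorelSpace M] :
    ∃ ν : Measure M, VolM C G ν := by
  obtain ⟨ν, hν⟩ := glue (P := I) (fun i => Set.range (q C i))
    (fun i => (q_emb C i).measurableEmbedding.measurableSet_range)
    (fun i => (volume.withDensity (w G i)).map (q C i))
    (fun i j S hS h1 h2 => by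
      rw [(q_emb C i).measurableEmbedding.map_apply, (q_emb C j).measurableEmbedding.map_apply,
        withDensity_apply _ ((q_emb C i).measurableEmbedding.measurable hS),
        withDensity_apply _ ((q_emb C j).measurableEmbedding.measurable hS)]
      exact compM hG hS h1 h2)
  refine ⟨ν, fun i B hB => ?_⟩
  have hm := (q_emb C i).measurableEmbedding
  show ν (q C i '' B) = _
  rw [hν i _ (hm.measurableSet_image.2 hB) (Set.image_subset_range _ _), hm.map_apply,
    Set.preimage_image_eq _ hm.injective, withDensity_apply _ hB]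
  rfl

end

/-! ### change of variables and unfolding -/

section
variable {C} {G : I → E n → Matrix (Fin n) (Fin n) ℝ} (hG : MetX C G)
include hG

theorem cvX [MeasurableSpace X] [BorelSpace X] {μ : Measure X} (hμ : VolX C G μ) (γ : Γ) (i : I)
    {B : Set (E n)} (hB : MeasurableSet B) (F : X → ℝ≥0∞) :
    ∫⁻ x in (fun y => γ • C.ψ i y) '' B, F x ∂μ = ∫⁻ y in B, F (γ • C.ψ i y) * w G i y :=
  cv (Int.measurableEmbedding_chart C γ i) (w_meas hG i) (fun _ => ENNReal.ofReal_lt_top)
    (hμ γ i) hB F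

theorem cvM [MeasurableSpace M] [BorelSpace M] {ν : Measure M} (hν : VolM C G ν) (i : I)
    {B : Set (E n)} (hB : MeasurableSet B) (F : M → ℝ≥0∞) :
    ∫⁻ x in q C i '' B, F x ∂ν = ∫⁻ y in B, F (q C i y) * w G i y :=
  cv (q_emb C i).measurableEmbedding (w_meas hG i) (fun _ => ENNReal.ofReal_lt_top) (hν i) hB F

theorem unfold' [Countable Γ] [Finite I] [Nonempty I] [MeasurableSpace X] [BorelSpace X]
    [MeasurableSpace M] [BorelSpace M] {μ : Measure X} (hμ : VolX C G μ) {ν : Measure M}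
    (hν : VolM C G ν) {F : X → ℝ≥0∞} {h : M → ℝ≥0∞} (hF : Measurable F)
    (hh : ∀ x, h (C.π x) = ∑' γ : Γ, F (γ • x)) : ∫⁻ x, F x ∂μ = ∫⁻ m, h m ∂ν := by
  obtain ⟨e, he⟩ := exists_surjective_nat I
  set D : ℕ → Set M := disjointed fun k => Set.range (q C (e k)) with hDdef
  have hD : ∀ k, MeasurableSet (D k) :=
    MeasurableSet.disjointed fun k => (q_emb C (e k)).measurableEmbedding.measurableSet_range
  have hdisj : Pairwise (Disjoint on D) := disjoint_disjointed _
  have hU : ⋃ k, D k = Set.univ := by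
    rw [hDdef, iUnion_disjointed]
    refine Set.eq_univ_of_forall fun m => ?_
    obtain ⟨i, hi⟩ := q_cover C m
    obtain ⟨k, rfl⟩ := he i
    exact Set.mem_iUnion.2 ⟨k, hi⟩
  have hπ : Measurable C.π := C.π.continuous.measurable
  have hU' : ⋃ k, C.π ⁻¹' D k = Set.univ := by rw [← Set.preimage_iUnion, hU, Set.preimage_univ]
  rw [← setLIntegral_univ (μ := μ), ← setLIntegral_univ (μ := ν), ← hU, ← hU',
    lintegral_iUnion hD hdisj, lintegral_iUnion (fun k => hπ (hD k))
      fun k l hkl => (hdisj hkl).preimage _]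
  refine tsum_congr fun k => ?_
  set i := e k with hi
  have hsub : D k ⊆ Set.range (q C i) := disjointed_subset _ _
  set B : Set (E n) := q C i ⁻¹' D k with hBdef
  have hB : MeasurableSet B := (q_emb C i).measurableEmbedding.measurable (hD k)
  have e1 : D k = q C i '' B := (Set.image_preimage_eq_of_subset hsub).symm
  have e2 : C.π ⁻¹' D k = ⋃ γ : Γ, (fun y => γ • C.ψ i y) '' B := by
    ext x
    constructor
    · intro hx
      obtain ⟨y, hy⟩ := hsub hx
      obtain ⟨γ, hγ⟩ := (C.orb _ _).1 hy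
      refine Set.mem_iUnion.2 ⟨γ, y, ?_, hγ⟩
      show q C i y ∈ D k
      rw [hy]; exact hx
    · intro hx
      obtain ⟨γ, y, hy, rfl⟩ := Set.mem_iUnion.1 hx
      show C.π (γ • C.ψ i y) ∈ D k
      rw [π_smul]; exact hy
  rw [e2, lintegral_iUnion (fun γ =>
    (Int.measurableEmbedding_chart C γ i).measurableSet_image.2 hB)]
  · rw [e1, cvM hG hν i hB]
    simp_rw [cvX hG hμ _ i hB]
    rw [← lintegral_tsum]
    · refine lintegral_congr fun y => ?_
      rw [ENNReal.tsum_mul_right]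
      congr 1
      exact (hh _).symm
    · intro γ
      exact ((hF.comp (Int.measurableEmbedding_chart C γ i).measurable).mul
        (w_meas hG i)).aemeasurable
  · intro γ γ' hne
    refine Set.disjoint_left.2 ?_
    rintro x ⟨y, hy, rfl⟩ ⟨y', hy', h'⟩
    simp only at h'
    have h1 : (γ⁻¹ * γ') • C.ψ i y' = C.ψ i y := by rw [mul_smul, h', inv_smul_smul]
    exact hne (inv_mul_eq_one.1 (C.inj i _ _ _ h1))

end

theorem main : SpecVol := by
  intro n M X Γ I _ _ _ _ _ _ _ _ _ _ _ _ C G hG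
  have hc : Countable Γ := countable_group C
  have hI : Nonempty I := by
    obtain ⟨x⟩ := (inferInstance : Nonempty X)
    obtain ⟨_, i, _⟩ := C.cover x
    exact ⟨i⟩
  refine ⟨hc, exX hG, exM hG, fun μ hμ => ⟨fun γ i B F hB _ => cvX hG hμ γ i hB F,
    fun ν hν F h hF hh => unfold' hG hμ hν hF hh⟩, fun ν hν i B F hB _ => cvM hG hν i hB F⟩

end Vale.Agent.P223.X.Vol
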