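import Vale.Agent.P223.X.Basic
import Vale.Agent.P223.H.B24

/-! Phase 3, block X11 : the main analytic estimate. -/

namespace Vale.Agent.P223.X.X11

open scoped ContDiff Topology Matrix ENNReal
open MeasureTheory Filter Vale.Agent.P223.H Vale.Agent.P223.H.B5a Vale.Agent.P223.H.B5b
  Vale.Agent.P223.H.B5c

/-- a metric in a chart -/
theorem metT1 {n : ℕ} {G : E n → Matrix (Fin n) (Fin n) ℝ}
    (hs : ∀ i j, ContDiff ℝ ∞ fun x => G x i j) (hp : ∀ x, (G x).PosDef) : Met n T1 G where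
  smooth := hs
  pos := hp
  inv γ x v w := by
    have : (fun y : E n => γ • y) = id := rfl
    rw [this, fderiv_id]; rfl

variable {n : ℕ} {M X Γ I : Type} [TopologicalSpace M] [TopologicalSpace X] [Group Γ]
    [MulAction Γ X] {C : Cov n M X Γ I} {g g' : I → E n → Matrix (Fin n) (Fin n) ℝ}

theorem met (hG : MetX C g) (i : I) : Met n T1 (g i) := metT1 (hG.smooth i) (hG.pos i)

theorem dp (hG : MetX C g) (i : I) (y : E n) : 0 < H.dens (g i) y := Common.dens_pos (met hG i) y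

theorem ck_le {k m : WithTop ℕ∞} {f : X → ℝ} (hf : C.Ck k f) (h : m ≤ k) : C.Ck m f :=
  fun γ i => (hf γ i).of_le h

theorem ck_cont {k : WithTop ℕ∞} {f : X → ℝ} (hf : C.Ck k f) : Continuous f :=
  Ck_continuous C (ck_le hf (by simp))

theorem π_smul (C : Cov n M X Γ I) (γ : Γ) (x : X) : C.π (γ • x) = C.π x :=
  ((C.orb x (γ • x)).2 ⟨γ, rfl⟩).symm

/-! ### density ratios -/

/-- the density of `g'` with respect to `g` -/
noncomputable def dr (C : Cov n M X Γ I) (g g' : I → E n → Matrix (Fin n) (Fin n) ℝ) : X → ℝ :=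
  C.gl fun _ i y => H.dens (g' i) y / H.dens (g i) y

theorem dens_chart' {G : I → E n → Matrix (Fin n) (Fin n) ℝ} (hG : MetX C G) {i j : I} {γ : Γ}
    {y : E n} (h : y ∈ C.dom i j γ) :
    H.dens (G i) y = (fderiv ℝ (C.tr i j γ) y).det * H.dens (G j) (C.tr i j γ y) :=
  dens_chart hG h

theorem dr_eq (hG : MetX C g) (hG' : MetX C g') (γ : Γ) (i : I) (y : E n) :
    dr C g g' (γ • C.ψ i y) = H.dens (g' i) y / H.dens (g i) y := by
  refine gl_eq C (fun γ γ' i i' y y' h => ?_) γ i y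
  obtain ⟨h1, h2⟩ := chart_eq C h
  have h3 := det_tr_pos C h1
  rw [dens_chart' hG h1, dens_chart' hG' h1, h2, mul_div_mul_left _ _ h3.ne']

theorem dr_pos (hG : MetX C g) (hG' : MetX C g') (x : X) : 0 < dr C g g' x := by
  obtain ⟨γ, i, y, -, rfl⟩ := exists_chart C x
  rw [dr_eq hG hG']
  exact div_pos (dp hG' i y) (dp hG i y)

theorem dr_cont (hG : MetX C g) (hG' : MetX C g') : Continuous (dr C g g') := by
  refine (Ck_zero_iff C).1 fun γ i => ?_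
  have : C.rep (dr C g g') γ i = fun y => H.dens (g' i) y / H.dens (g i) y := by
    funext y; exact dr_eq hG hG' γ i y
  rw [this, contDiff_zero]
  exact (Norm.continuous_dens (met hG' i)).div (Norm.continuous_dens (met hG i))
    fun y => (dp hG i y).ne'

/-- the charts cover -/
theorem iUnion_range (C : Cov n M X Γ I) :
    ⋃ p : Γ × I, Set.range (fun y => p.1 • C.ψ p.2 y) = Set.univ := by
  refine Set.eq_univ_of_forall fun x => ?_
  obtain ⟨γ, i, y, -, h⟩ := exists_chart C x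
  exact Set.mem_iUnion.2 ⟨(γ, i), y, h⟩

section meas
variable [MeasurableSpace X] [BorelSpace X]

theorem chart_meas (C : Cov n M X Γ I) (γ : Γ) (i : I) : Measurable fun y => γ • C.ψ i y :=
  ((C.cont γ).comp (C.emb i).continuous).measurable

/-- change of variables in the charts -/
def CV (C : Cov n M X Γ I) (g : I → E n → Matrix (Fin n) (Fin n) ℝ) (μ : Measure X) : Prop :=
  ∀ (γ : Γ) i (B : Set (E n)) (F : X → ENNReal), MeasurableSet B → Measurable F →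
      ∫⁻ x in (fun y => γ • C.ψ i y) '' B, F x ∂μ =
        ∫⁻ y in B, F (γ • C.ψ i y) * ENNReal.ofReal (H.dens (g i) y)

omit [MeasurableSpace X] [BorelSpace X] in
theorem open_range (C : Cov n M X Γ I) (γ : Γ) (i : I) :
    IsOpen (Set.range fun y => γ • C.ψ i y) := by
  have : (Set.range fun y => γ • C.ψ i y) = (fun x : X => γ⁻¹ • x) ⁻¹' Set.range (C.ψ i) := by
    ext x
    constructor
    · rintro ⟨y, rfl⟩; exact ⟨y, by simp⟩
    · rintro ⟨y, hy⟩; exact ⟨y, by simp only [hy]; simp⟩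
  rw [this]
  exact (C.emb i).isOpen_range.preimage (C.cont γ⁻¹)

/-- the measure of `g'` in terms of the one of `g` -/
theorem wd [Countable Γ] [Finite I] (hG : MetX C g) (hG' : MetX C g') {μ μ' : Measure X}
    (hμ : CV C g μ) (hμ' : VolX C g' μ') :
    μ' = μ.withDensity fun x => ENNReal.ofReal (dr C g g' x) := by
  refine (Measure.ext_iff_of_iUnion_eq_univ (iUnion_range C)).2 fun p => ?_
  obtain ⟨γ, i⟩ := p
  simp only
  have hr : Measurable fun x => ENNReal.ofReal (dr C g g' x) :=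
    (dr_cont hG hG').measurable.ennreal_ofReal
  refine Measure.ext fun B hB => ?_
  have hO := (open_range C γ i).measurableSet
  rw [Measure.restrict_apply hB, Measure.restrict_apply hB, withDensity_apply _ (hB.inter hO)]
  have hB' : MeasurableSet ((fun y => γ • C.ψ i y) ⁻¹' B) := chart_meas C γ i hB
  have e : B ∩ Set.range (fun y => γ • C.ψ i y) =
      (fun y => γ • C.ψ i y) '' ((fun y => γ • C.ψ i y) ⁻¹' B) :=
    Set.image_preimage_eq_inter_range.symm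
  rw [e, hμ' γ i _ hB', hμ γ i _ _ hB' hr]
  refine lintegral_congr fun y => ?_
  have h1 := dp hG i y
  have h2 := dp hG' i y
  rw [dr_eq hG hG', ← ENNReal.ofReal_mul (by positivity), div_mul_cancel₀ _ h1.ne']

/-- integrals -/
theorem integral_dr [Countable Γ] [Finite I] (hG : MetX C g) (hG' : MetX C g') {μ μ' : Measure X}
    (hμ : CV C g μ) (hμ' : VolX C g' μ') (f : X → ℝ) :
    ∫ x, f x ∂μ' = ∫ x, f x * dr C g g' x ∂μ := by
  have hr : Measurable fun x => ENNReal.ofReal (dr C g g' x) :=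
    (dr_cont hG hG').measurable.ennreal_ofReal
  rw [wd hG hG' hμ hμ', integral_withDensity_eq_integral_toReal_smul hr
    (Eventually.of_forall fun x => ENNReal.ofReal_lt_top)]
  refine integral_congr_ae (Eventually.of_forall fun x => ?_)
  simp only
  rw [ENNReal.toReal_ofReal (dr_pos hG hG' x).le, smul_eq_mul, mul_comm]

theorem integrable_dr [Countable Γ] [Finite I] (hG : MetX C g) (hG' : MetX C g')
    {μ μ' : Measure X} (hμ : CV C g μ) (hμ' : VolX C g' μ') {f : X → ℝ} (hf : Integrable f μ') :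
    Integrable (fun x => f x * dr C g g' x) μ := by
  have hr : Measurable fun x => ENNReal.ofReal (dr C g g' x) :=
    (dr_cont hG hG').measurable.ennreal_ofReal
  rw [wd hG hG' hμ hμ', integrable_withDensity_iff_integrable_smul' hr
    (Eventually.of_forall fun x => ENNReal.ofReal_lt_top)] at hf
  refine hf.congr (Eventually.of_forall fun x => ?_)
  simp only
  rw [ENNReal.toReal_ofReal (dr_pos hG hG' x).le, smul_eq_mul, mul_comm]

end meas

/-! ### transformation of gradients -/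

/-- Jacobian matrix -/
noncomputable def Jm (f : E n → E n) (y : E n) : Matrix (Fin n) (Fin n) ℝ :=
  LinearMap.toMatrix' (fderiv ℝ f y : E n →ₗ[ℝ] E n)

theorem Jm_apply (f : E n → E n) (y : E n) (i j : Fin n) :
    Jm f y i j = fderiv ℝ f y (Pi.single j 1) i := by
  simp [Jm, LinearMap.toMatrix'_apply]

theorem Jm_mulVec (f : E n → E n) (y v : E n) : Jm f y *ᵥ v = fderiv ℝ f y v := by
  simp [Jm, LinearMap.toMatrix'_mulVec]

theorem G_trans (hG : MetX C g) {i j : I} {γ : Γ} {y : E n} (h : y ∈ C.dom i j γ) :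
    (Jm (C.tr i j γ) y)ᵀ * g j (C.tr i j γ y) * Jm (C.tr i j γ) y = g i y := by
  ext a b
  have := hG.inv i j γ y h (Pi.single a 1) (Pi.single b 1)
  simp only [← Jm_apply] at this
  have h2 : ∑ k, ∑ l, (Pi.single a (1 : ℝ) : E n) k * (Pi.single b (1 : ℝ) : E n) l * g i y k l
      = g i y a b := by
    simp [Pi.single_apply]
  rw [h2] at this
  rw [← this]
  simp only [Matrix.mul_apply, Matrix.transpose_apply, Finset.sum_mul]
  rw [Finset.sum_comm]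
  refine Finset.sum_congr rfl fun i _ => Finset.sum_congr rfl fun j _ => by ring

theorem pd_comp {f : E n → ℝ} {τ : E n → E n} {y : E n} (hf : DifferentiableAt ℝ f (τ y))
    (hτ : DifferentiableAt ℝ τ y) :
    (fun j => H.pd j (fun z => f (τ z)) y) = (Jm τ y)ᵀ *ᵥ fun i => H.pd i f (τ y) := by
  funext j
  have h1 : fderiv ℝ (fun z => f (τ z)) y = (fderiv ℝ f (τ y)).comp (fderiv ℝ τ y) :=
    fderiv_comp y hf hτ
  simp only [Matrix.mulVec, dotProduct, Matrix.transpose_apply]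
  unfold H.pd
  rw [h1, ContinuousLinearMap.comp_apply]
  have h2 : fderiv ℝ τ y (Pi.single j 1) = ∑ i, Jm τ y i j • (Pi.single i (1 : ℝ) : E n) := by
    ext k
    simp [Finset.sum_apply, Jm_apply, Pi.single_apply]
  rw [h2, map_sum]
  simp

theorem grd_eq (G : E n → Matrix (Fin n) (Fin n) ℝ) (f : E n → ℝ) (y : E n) :
    grd G f y = (G y)⁻¹ *ᵥ fun i => H.pd i f y := by
  funext i; simp only [grd, Matrix.mulVec, dotProduct]

theorem grd_chart (hG : MetX C g) {f : X → ℝ} (hf : C.Ck 1 f) {i j : I} {γ γ' : Γ} {y y' : E n}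
    (h : γ • C.ψ i y = γ' • C.ψ j y') : grd (g j) (C.rep f γ' j) y' =
      fderiv ℝ (C.tr i j (γ'⁻¹ * γ)) y (grd (g i) (C.rep f γ i) y) := by
  obtain ⟨h1, h2⟩ := chart_eq C h
  have h3 := rep_tr_eventually C f h1 γ'
  rw [mul_inv_cancel_left] at h3
  have hτ : DifferentiableAt ℝ (C.tr i j (γ'⁻¹ * γ)) y :=
    (contDiffAt_tr C h1).differentiableAt (by simp)
  set τ := C.tr i j (γ'⁻¹ * γ) with hτ'
  have h4 := pd_comp (f := C.rep f γ' j) ((hf γ' j).differentiable (by simp) (τ y)) hτ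
  have h5 : (fun k => H.pd k (C.rep f γ i) y) = (Jm τ y)ᵀ *ᵥ fun k => H.pd k (C.rep f γ' j) (τ y) := by
    rw [← h4]
    funext k
    unfold H.pd
    rw [h3.fderiv_eq]
  have hD : IsUnit (Jm τ y).det := by
    have := det_tr_pos C h1
    rw [Jm, LinearMap.det_toMatrix']
    exact this.ne'.isUnit
  have hDt : IsUnit (Jm τ y)ᵀ.det := by rwa [Matrix.det_transpose]
  have h6 := G_trans hG h1
  rw [grd_eq, grd_eq, h5, ← Jm_mulVec, ← h6, ← h2, ← hτ', Matrix.mul_inv_rev, Matrix.mul_inv_rev,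
    Matrix.mulVec_mulVec, Matrix.mulVec_mulVec]
  congr 1
  calc (g j (τ y))⁻¹ = 1 * (g j (τ y))⁻¹ * 1 := by rw [one_mul, mul_one]
    _ = (Jm τ y * (Jm τ y)⁻¹) * (g j (τ y))⁻¹ * (((Jm τ y)ᵀ)⁻¹ * (Jm τ y)ᵀ) := by
      rw [Matrix.mul_nonsing_inv _ hD, Matrix.nonsing_inv_mul _ hDt]
    _ = _ := by simp only [Matrix.mul_assoc]

/-! ### energies -/

/-- the energy density -/
noncomputable def eX (C : Cov n M X Γ I) (g : I → E n → Matrix (Fin n) (Fin n) ℝ) (a η : ℝ)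
    (v : X → ℝ) (x : X) : ℝ := v x * (gsX C g v x / v x ^ 2 + η) ^ a

theorem eX_chart (hG : MetX C g) (a η : ℝ) (v : X → ℝ) (γ : Γ) (i : I) (y : E n) :
    eX C g a η v (γ • C.ψ i y) = eD (g i) a η (C.rep v γ i) y := by
  rw [eX, gsX_eq hG]; rfl

section one
variable {W v : X → ℝ} {A η : ℝ}

section
variable [MeasurableSpace X] {μ : Measure X}

theorem vpos (hA : 0 < A) (hW : WtX C g μ W) (hS : StX C g W A v) (x : X) : 0 < v x :=
  pos_of hA (hW.pos x) (hS.lower x)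

theorem sM (hA : 0 < A) (hη1 : η ≤ 1) (hW : WtX C g μ W) (hS : StX C g W A v) (x : X) :
    gsX C g v x / v x ^ 2 + η ≤ A ^ 4 + 1 := by
  have := quot_le hA (hW.pos x) (hS.lower x) (hS.grad x)
  linarith

omit [MeasurableSpace X] in
theorem s_pos (hG : MetX C g) (hv : ∀ x, 0 < v x) (hη : 0 < η) (x : X) :
    0 < gsX C g v x / v x ^ 2 + η := by
  have h1 := gsX_nonneg hG v x
  have h2 := hv x
  positivity

omit [MeasurableSpace X] in
theorem cont_s (hG : MetX C g) (hv4 : C.Ck 4 v) (hv : ∀ x, 0 < v x) :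
    Continuous fun x => gsX C g v x / v x ^ 2 + η :=
  ((ck_cont (Ck_gsX hG hv4)).div ((ck_cont hv4).pow 2) fun x => (pow_pos (hv x) 2).ne').add
    continuous_const

theorem vsb (hA : 0 < A) (hη : 0 < η) (hη1 : η ≤ 1) (hM : MetX C g) (hW : WtX C g μ W)
    (hS : StX C g W A v) {p : ℝ} (hp : 0 ≤ p) (x : X) :
    v x * (gsX C g v x / v x ^ 2 + η) ^ p ≤ A * (A ^ 4 + 1) ^ p * W x := by
  have h1 := vpos hA hW hS x
  have h2 := s_pos hM (vpos hA hW hS) hη x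
  have h3 := hS.upper x
  have h4 : (gsX C g v x / v x ^ 2 + η) ^ p ≤ (A ^ 4 + 1) ^ p :=
    Real.rpow_le_rpow h2.le (sM hA hη1 hW hS x) hp
  have h5 := hW.pos x
  calc v x * (gsX C g v x / v x ^ 2 + η) ^ p ≤ (A * W x) * (A ^ 4 + 1) ^ p := by gcongr
    _ = _ := by ring

variable [BorelSpace X]

theorem integ_of_le (hW : WtX C g μ W) {f : X → ℝ} (hf : Continuous f) {c : ℝ}
    (h : ∀ x, |f x| ≤ c * W x) : Integrable f μ :=
  (hW.integ.const_mul c).mono' hf.aestronglyMeasurable (Eventually.of_forall fun x => h x)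

theorem vs (hA : 0 < A) (hη : 0 < η) (hη1 : η ≤ 1) (hM : MetX C g) (hW : WtX C g μ W)
    (hS : StX C g W A v) {p : ℝ} (hp : 0 ≤ p) :
    Integrable (fun x => v x * (gsX C g v x / v x ^ 2 + η) ^ p) μ := by
  refine integ_of_le hW (c := A * (A ^ 4 + 1) ^ p) ?_ fun x => ?_
  · exact (ck_cont hS.smooth).mul
      (Continuous.rpow_const (cont_s hM hS.smooth (vpos hA hW hS)) fun x => Or.inr hp)
  · have h1 := vpos hA hW hS x
    have h2 := s_pos hM (vpos hA hW hS) hη x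
    rw [abs_of_nonneg (by positivity)]
    exact vsb hA hη hη1 hM hW hS hp x

theorem vrho (hA : 0 < A) (hW : WtX C g μ W) (hS : StX C g W A v)
    {h : X → ℝ} (hh : Continuous h) {m : ℝ} (hm : ∀ x, |h x| ≤ m) :
    Integrable (fun x => v x * h x) μ := by
  refine integ_of_le hW (c := A * m) ((ck_cont hS.smooth).mul hh) fun x => ?_
  have h1 := vpos hA hW hS x
  have h3 := hS.upper x
  have h5 := hW.pos x
  rw [abs_mul, abs_of_pos h1]
  calc v x * |h x| ≤ (A * W x) * m := by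
        gcongr
        exact hm x
    _ = _ := by ring

end

/-- unfolding -/
def UF [MeasurableSpace X] [MeasurableSpace M] (C : Cov n M X Γ I) (μ : Measure X)
    (ν : Measure M) : Prop :=
  ∀ (F : X → ENNReal) (h : M → ENNReal), Measurable F →
      (∀ x, h (C.π x) = ∑' γ : Γ, F (γ • x)) → ∫⁻ x, F x ∂μ = ∫⁻ m, h m ∂ν

variable [MeasurableSpace X] [MeasurableSpace M] [BorelSpace X] {μ : Measure X} {ν : Measure M}

theorem unf (hU : UF C μ ν) {v : X → ℝ} (hv : Continuous v) (hv0 : ∀ x, 0 ≤ v x)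
    (hs : ∀ x, HasSum (fun γ : Γ => v (γ • x)) 1) {h : M → ℝ} (hh : Continuous h)
    (hh0 : ∀ x, 0 ≤ h x) :
    ∫⁻ x, ENNReal.ofReal (v x * h (C.π x)) ∂μ = ∫⁻ m, ENNReal.ofReal (h m) ∂ν := by
  refine hU _ _ (hv.mul (hh.comp C.π.continuous)).measurable.ennreal_ofReal fun x => ?_
  have h3 := (hs x).mul_right (h (C.π x))
  simp only [π_smul]
  rw [← ENNReal.ofReal_tsum_of_nonneg (fun γ => mul_nonneg (hv0 _) (hh0 _)) h3.summable,
    h3.tsum_eq, one_mul]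

/-- total mass -/
theorem one_le (hU : UF C μ ν) (hA : 0 < A) (hW : WtX C g μ W) (hS : StX C g W A v) :
    ∫ x, v x * 1 ∂μ = ∫ x, W x ∂μ := by
  have h1 := unf hU (ck_cont hS.smooth) (fun x => (vpos hA hW hS x).le) hS.sum
    (h := fun _ => (1 : ℝ)) continuous_const (fun _ => zero_le_one)
  have h2 := unf hU (ck_cont hW.smooth) (fun x => (hW.pos x).le) hW.sum
    (h := fun _ => (1 : ℝ)) continuous_const (fun _ => zero_le_one)
  rw [← h2] at h1
  have i1 : Integrable (fun x => v x * 1) μ :=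
    vrho hA hW hS (continuous_const (y := (1 : ℝ))) (m := 1) (fun _ => by simp)
  have i2 : Integrable (fun x => W x * 1) μ := by simpa using hW.integ
  rw [← ofReal_integral_eq_lintegral_ofReal i1
    (Eventually.of_forall fun x => by simpa using (vpos hA hW hS x).le),
    ← ofReal_integral_eq_lintegral_ofReal i2
    (Eventually.of_forall fun x => by simpa using (hW.pos x).le)] at h1
  have h3 := congrArg ENNReal.toReal h1
  rw [ENNReal.toReal_ofReal (integral_nonneg fun x => by simpa using (vpos hA hW hS x).le),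
    ENNReal.toReal_ofReal (integral_nonneg fun x => by simpa using (hW.pos x).le)] at h3
  rw [h3]
  simp

omit [MeasurableSpace M] in
/-- comparison of the two right-hand sides -/
theorem XP (hA : 0 < A) (hW : WtX C g μ W) (hS : StX C g W A v)
    {q : X → ℝ} {κ Q δ V₀ : ℝ} (hκ : 0 < κ) (hδ : 0 < δ) (hη : 0 < η) (hqc : Continuous q)
    (hq0 : ∀ x, 0 ≤ q x)
    (hqQ : ∀ x, q x ≤ Q) (hV₀0 : 0 ≤ V₀) (hone : ∫ x, v x * 1 ∂μ ≤ V₀)
    (hη' : ∀ t : ℝ, 0 ≤ t → t ≤ Q → (κ ^ 2 * (t + 2 * η / κ ^ 2)) ^ ((n : ℝ) / 2) ≤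
      (κ ^ 2 * t) ^ ((n : ℝ) / 2) + δ / (4 * (V₀ + 1))) :
    (Integrable (fun x => v x * (κ ^ 2 * (q x + 2 * η / κ ^ 2)) ^ ((n : ℝ) / 2)) μ) ∧
    (Integrable (fun x => v x * q x ^ ((n : ℝ) / 2)) μ) ∧
    ∫ x, v x * (κ ^ 2 * (q x + 2 * η / κ ^ 2)) ^ ((n : ℝ) / 2) ∂μ ≤
      κ ^ n * (∫ x, v x * q x ^ ((n : ℝ) / 2) ∂μ) + δ / 4 := by
  have hp0 : (0 : ℝ) ≤ (n : ℝ) / 2 := by positivity
  have hXb : ∀ x, |(κ ^ 2 * (q x + 2 * η / κ ^ 2)) ^ ((n : ℝ) / 2)| ≤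
      (κ ^ 2 * Q) ^ ((n : ℝ) / 2) + δ / (4 * (V₀ + 1)) := by
    intro x
    have h1 := hq0 x
    rw [abs_of_nonneg (by positivity)]
    refine (hη' (q x) h1 (hqQ x)).trans ?_
    have h2 : (κ ^ 2 * q x) ^ ((n : ℝ) / 2) ≤ (κ ^ 2 * Q) ^ ((n : ℝ) / 2) := by
      refine Real.rpow_le_rpow (by positivity) ?_ hp0
      have := hqQ x
      gcongr
    linarith
  have hXc : Continuous fun x => (κ ^ 2 * (q x + 2 * η / κ ^ 2)) ^ ((n : ℝ) / 2) :=
    (continuous_const.mul (hqc.add continuous_const)).rpow_const fun x => Or.inr hp0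
  have hPc : Continuous fun x => q x ^ ((n : ℝ) / 2) := hqc.rpow_const fun x => Or.inr hp0
  have hPb : ∀ x, |q x ^ ((n : ℝ) / 2)| ≤ Q ^ ((n : ℝ) / 2) := fun x => by
    rw [abs_of_nonneg (Real.rpow_nonneg (hq0 _) _)]
    exact Real.rpow_le_rpow (hq0 _) (hqQ x) hp0
  have hκ2 : (κ ^ 2) ^ ((n : ℝ) / 2) = κ ^ n := by
    rw [← Real.rpow_natCast κ 2, ← Real.rpow_mul hκ.le]
    push_cast
    rw [mul_div_cancel₀ _ (two_ne_zero), Real.rpow_natCast]
  have j1 := vrho hA hW hS hXc hXb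
  have j2 := vrho hA hW hS hPc hPb
  have j3 : Integrable (fun x => v x * 1) μ :=
    vrho hA hW hS (continuous_const (y := (1 : ℝ))) (m := 1) (fun _ => by simp)
  refine ⟨j1, j2, ?_⟩
  have h1 : ∫ x, v x * (κ ^ 2 * (q x + 2 * η / κ ^ 2)) ^ ((n : ℝ) / 2) ∂μ ≤
      ∫ x, (κ ^ n * (v x * q x ^ ((n : ℝ) / 2)) +
      δ / (4 * (V₀ + 1)) * (v x * 1)) ∂μ := by
    refine integral_mono j1 ((j2.const_mul _).add (j3.const_mul _)) fun x => ?_
    have h2 := hη' (q x) (hq0 _) (hqQ x)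
    rw [Real.mul_rpow (by positivity) (hq0 _), hκ2] at h2
    have h3 := mul_le_mul_of_nonneg_left h2 (vpos hA hW hS x).le
    exact h3.trans (le_of_eq (by ring))
  rw [integral_add (j2.const_mul _) (j3.const_mul _), integral_const_mul,
    integral_const_mul] at h1
  have h5 : δ / (4 * (V₀ + 1)) * ∫ x, v x * 1 ∂μ ≤ δ / 4 := by
    calc δ / (4 * (V₀ + 1)) * ∫ x, v x * 1 ∂μ
        ≤ δ / (4 * (V₀ + 1)) * (V₀ + 1) := by
          gcongr
          linarith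
      _ = δ / 4 := by field_simp
  linarith

/-- the conclusion, for a good time -/
theorem concl (hU : UF C μ ν) (hA : 0 < A) (hη : 0 < η) (hη1 : η ≤ 1) (hM : MetX C g)
    (hW : WtX C g μ W) (hS : StX C g W A v) {q : M → ℝ} {κ δ a : ℝ} (hκ : 0 < κ)
    (hδ : 0 < δ) (ha : 1 ≤ a) (ha1 : a + 1 = (n : ℝ) / 2) (hqc : Continuous q)
    (hq0 : ∀ x, 0 ≤ q x)
    (hqint : Integrable (fun x => v x * q (C.π x) ^ ((n : ℝ) / 2)) μ)
    (hY : ∫ x, v x * (gsX C g v x / v x ^ 2 + η) ^ (a + 1) ∂μ ≤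
      κ ^ n * (∫ x, v x * q (C.π x) ^ ((n : ℝ) / 2) ∂μ) + δ) {B : ENNReal}
    (hB : ∫⁻ m, ENNReal.ofReal (q m ^ ((n : ℝ) / 2)) ∂ν ≤ B) :
    ∫⁻ x, ENNReal.ofReal (v x * (gsX C g v x / v x ^ 2) ^ ((n : ℝ) / 2)) ∂μ ≤
      ENNReal.ofReal (κ ^ n) * B + ENNReal.ofReal δ := by
  have hvk := vpos hA hW hS
  have hp0 : (0 : ℝ) ≤ (n : ℝ) / 2 := by positivity
  have hPc : Continuous fun x => q x ^ ((n : ℝ) / 2) := hqc.rpow_const fun x => Or.inr hp0
  have f1 : ∫⁻ x, ENNReal.ofReal (v x * (gsX C g v x / v x ^ 2) ^ ((n : ℝ) / 2)) ∂μ ≤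
      ENNReal.ofReal (∫ x, v x * (gsX C g v x / v x ^ 2 + η) ^ (a + 1) ∂μ) := by
    rw [ofReal_integral_eq_lintegral_ofReal (vs hA hη hη1 hM hW hS (by linarith))
      (Eventually.of_forall fun x => by
        have h1 := hvk x
        have h3 := s_pos hM hvk hη x
        simp only [Pi.zero_apply]; positivity)]
    refine lintegral_mono fun x => ENNReal.ofReal_le_ofReal ?_
    have h1 := hvk x
    have h3 := gsX_nonneg hM v x
    rw [ha1]
    gcongr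
    linarith
  have hnn : ∀ x, 0 ≤ v x * q (C.π x) ^ ((n : ℝ) / 2) := fun x => by
    have h1 := hvk x
    have h3 := hq0 (C.π x)
    positivity
  have f2 : ENNReal.ofReal (∫ x, v x * q (C.π x) ^ ((n : ℝ) / 2) ∂μ) ≤ B := by
    refine le_trans ?_ hB
    rw [ofReal_integral_eq_lintegral_ofReal hqint (Eventually.of_forall hnn)]
    exact (unf hU (ck_cont hS.smooth) (fun x => (hvk x).le) hS.sum hPc
      (fun x => Real.rpow_nonneg (hq0 _) _)).le
  have hPk0 : 0 ≤ ∫ x, v x * q (C.π x) ^ ((n : ℝ) / 2) ∂μ := integral_nonneg hnn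
  calc _ ≤ ENNReal.ofReal (∫ x, v x * (gsX C g v x / v x ^ 2 + η) ^ (a + 1) ∂μ) := f1
    _ ≤ ENNReal.ofReal (κ ^ n * (∫ x, v x * q (C.π x) ^ ((n : ℝ) / 2) ∂μ) + δ) :=
        ENNReal.ofReal_le_ofReal hY
    _ = ENNReal.ofReal (κ ^ n) *
          ENNReal.ofReal (∫ x, v x * q (C.π x) ^ ((n : ℝ) / 2) ∂μ) + ENNReal.ofReal δ := by
        rw [ENNReal.ofReal_add (by positivity) hδ.le, ENNReal.ofReal_mul (by positivity)]
    _ ≤ _ := by gcongr

omit [MeasurableSpace M] in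
/-- monotonicity of the energy in `η` -/
theorem energy_mono (hA : 0 < A) (hη : 0 < η) (hη1 : η ≤ 1) (hM : MetX C g) (hW : WtX C g μ W)
    (hS : StX C g W A v) {a : ℝ} (ha : 1 ≤ a) :
    ∫ x, eX C g a η v x ∂μ ≤ ∫ x, eX C g a 1 v x ∂μ := by
  refine integral_mono (vs hA hη hη1 hM hW hS (by linarith))
    (vs hA one_pos le_rfl hM hW hS (by linarith)) fun x => ?_
  have h4 := vpos hA hW hS x
  have h5 := gsX_nonneg hM v x
  simp only [eX]
  gcongr

end one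

/-- The pointwise decrease of the energy density, moving metric. -/
theorem stepT {G : ℝ → E n → Matrix (Fin n) (Fin n) ℝ} {y : E n} {T a η A c₀ C₁ C₂ : ℝ}
    (hM : ∀ t, Met n T1 (G t)) (hA : 0 < A) (hc : 0 < c₀) (hC₂ : 0 < C₂)
    (h1 : ∀ (n : ℕ) (G : E n → Matrix (Fin n) (Fin n) ℝ) (x : E n)
      (W ε : ℝ) (v v' l : E n → ℝ), (G x).PosDef → 0 < W → 0 < ε → ε ≤ 1 →
      DifferentiableAt ℝ v x → DifferentiableAt ℝ v' x → DifferentiableAt ℝ l x →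
      W ≤ A * v x → W ≤ A * v' x → v x ≤ A * W → v' x ≤ A * W →
      gradSq G v x ≤ (A * W) ^ 2 → gradSq G v' x ≤ (A * W) ^ 2 →
      |l x| ≤ A * W → gradSq G l x ≤ (A * W) ^ 2 →
      |v' x - v x - ε ^ 2 * c₀ * l x| ≤ A * ε ^ 3 * W →
      gradSq G (fun y => v' y - v y - ε ^ 2 * c₀ * l y) x ≤ (A * ε ^ 3 * W) ^ 2 →
      eD G a η v' x - eD G a η v x ≤ ε ^ 2 * c₀ * dE G a η v l x + C₁ * ε ^ 3 * W)
    (h2 : ∀ t s : ℝ, 0 ≤ t → t ≤ s → s ≤ T →
      ∀ (W : ℝ) (v v' : E n → ℝ), 0 < W →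
      DifferentiableAt ℝ v y → DifferentiableAt ℝ v' y →
      W ≤ A * v y → W ≤ A * v' y → v y ≤ A * W → v' y ≤ A * W →
      gradSq (G t) v y ≤ (A * W) ^ 2 → gradSq (G t) v' y ≤ (A * W) ^ 2 →
      eD (G s) a η v' y * H.dens (G s) y - eD (G t) a η v' y * H.dens (G t) y ≤
        ((s - t) * tE G a η t v y + C₂ * (s - t) * ((s - t) * W + |v' y - v y| +
          √(gradSq (G t) (fun z => v' z - v z) y))) * H.dens (G t) y)
    (t s ε W : ℝ) (v v' l : E n → ℝ) (ht : 0 ≤ t) (hs : s = t + c₀ * ε ^ 2)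
    (hsT : s ≤ T) (hW : 0 < W) (hε : 0 < ε) (hε1 : ε ≤ 1)
    (dv : DifferentiableAt ℝ v y) (dv' : DifferentiableAt ℝ v' y) (dl : DifferentiableAt ℝ l y)
    (g1 : W ≤ A * v y) (g2 : W ≤ A * v' y) (g3 : v y ≤ A * W) (g4 : v' y ≤ A * W)
    (g5 : gradSq (G t) v y ≤ (A * W) ^ 2) (g6 : gradSq (G t) v' y ≤ (A * W) ^ 2)
    (g7 : |l y| ≤ A * W) (g8 : gradSq (G t) l y ≤ (A * W) ^ 2)
    (g9 : |v' y - v y - ε ^ 2 * c₀ * l y| ≤ A * ε ^ 3 * W)
    (g10 : gradSq (G t) (fun y => v' y - v y - ε ^ 2 * c₀ * l y) y ≤ (A * ε ^ 3 * W) ^ 2) :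
    eD (G s) a η v' y * H.dens (G s) y - eD (G t) a η v y * H.dens (G t) y ≤
      (ε ^ 2 * c₀ * (dE (G t) a η v l y + tE G a η t v y) +
        (C₁ + C₂ * c₀ * (c₀ + 3 * (c₀ + 1) * A)) * ε ^ 3 * W) * H.dens (G t) y := by
  have hPD := (hM t).pos y
  have hd := Common.dens_pos (hM t) y
  have k1 := h1 n (G t) y W ε v v' l hPD hW hε hε1 dv dv' dl g1 g2 g3 g4 g5 g6 g7 g8 g9 g10
  have hts : t ≤ s := by rw [hs]; nlinarith [sq_nonneg ε]
  have k2 := h2 t s ht hts hsT W v v' hW dv dv' g1 g2 g3 g4 g5 g6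
  have hst : s - t = ε ^ 2 * c₀ := by rw [hs]; ring
  rw [hst] at k2
  -- size of the increment
  set r : E n → ℝ := fun y => v' y - v y - ε ^ 2 * c₀ * l y with hr
  have hε3 : ε ^ 3 ≤ ε ^ 2 := pow_le_pow_of_le_one hε.le hε1 (by norm_num)
  have m1 : |v' y - v y| ≤ (c₀ + 1) * A * ε ^ 2 * W := by
    have e : v' y - v y = ε ^ 2 * c₀ * l y + (v' y - v y - ε ^ 2 * c₀ * l y) := by ring
    rw [e]
    calc |ε ^ 2 * c₀ * l y + (v' y - v y - ε ^ 2 * c₀ * l y)|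
        ≤ |ε ^ 2 * c₀ * l y| + |v' y - v y - ε ^ 2 * c₀ * l y| := abs_add_le _ _
      _ ≤ ε ^ 2 * c₀ * (A * W) + A * ε ^ 2 * W := by
          refine add_le_add ?_ (g9.trans ?_)
          · rw [abs_mul, abs_of_pos (by positivity : 0 < ε ^ 2 * c₀)]
            gcongr
          · gcongr
      _ = _ := by ring
  have m2 : √(gradSq (G t) (fun y => v' y - v y) y) ≤ 2 * (c₀ + 1) * A * ε ^ 2 * W := by
    have hpr : ∀ i, H.pd i r y = H.pd i v' y - H.pd i v y - ε ^ 2 * c₀ * H.pd i l y := fun i => by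
      have d1 : DifferentiableAt ℝ (fun y => v' y - v y) y := dv'.sub dv
      have d2 : DifferentiableAt ℝ (fun y => ε ^ 2 * c₀ * l y) y := dl.const_mul _
      unfold H.pd
      rw [hr, fderiv_fun_sub d1 d2, fderiv_fun_sub dv' dv, fderiv_const_mul dl]
      rfl
    have hpw : ∀ i, H.pd i (fun y => v' y - v y) y = H.pd i v' y - H.pd i v y := fun i => by
      unfold H.pd
      rw [fderiv_fun_sub dv' dv]; rfl
    have e := gradSq_lin_le (f := fun y => v' y - v y) (g := l) (h := r) (c := ε ^ 2 * c₀) (d := 1)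
      hPD (fun i => by rw [hpr, hpw]; ring)
    refine Real.sqrt_le_iff.2 ⟨by positivity, e.trans ?_⟩
    have hl0 : 0 ≤ gradSq (G t) l y := bl_nonneg hPD.inv _
    calc 2 * ((ε ^ 2 * c₀) ^ 2 * gradSq (G t) l y) + 2 * (1 ^ 2 * gradSq (G t) r y)
        ≤ 2 * ((ε ^ 2 * c₀) ^ 2 * (A * W) ^ 2) + 2 * (1 ^ 2 * (A * ε ^ 3 * W) ^ 2) := by
          gcongr
      _ ≤ 2 * ((ε ^ 2 * c₀) ^ 2 * (A * W) ^ 2) + 2 * (1 ^ 2 * (A * ε ^ 2 * W) ^ 2) := by
          gcongr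
      _ = (2 * c₀ ^ 2 + 2) * (A * ε ^ 2 * W) ^ 2 := by ring
      _ ≤ (2 * (c₀ + 1)) ^ 2 * (A * ε ^ 2 * W) ^ 2 := by
          gcongr
          nlinarith
      _ = _ := by ring
  have m3 : C₂ * (ε ^ 2 * c₀) * (ε ^ 2 * c₀ * W + |v' y - v y| +
      √(gradSq (G t) (fun y => v' y - v y) y)) ≤ C₂ * c₀ * (c₀ + 3 * (c₀ + 1) * A) * ε ^ 3 * W := by
    have hε4 : ε ^ 4 ≤ ε ^ 3 := pow_le_pow_of_le_one hε.le hε1 (by norm_num)
    calc C₂ * (ε ^ 2 * c₀) * (ε ^ 2 * c₀ * W + |v' y - v y| +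
        √(gradSq (G t) (fun y => v' y - v y) y))
        ≤ C₂ * (ε ^ 2 * c₀) * (ε ^ 2 * c₀ * W + (c₀ + 1) * A * ε ^ 2 * W +
          2 * (c₀ + 1) * A * ε ^ 2 * W) := by gcongr
      _ = C₂ * c₀ * (c₀ + 3 * (c₀ + 1) * A) * ε ^ 4 * W := by ring
      _ ≤ _ := by gcongr
  have k3 := mul_le_mul_of_nonneg_right k1 hd.le
  have k4 := mul_le_mul_of_nonneg_right m3 hd.le
  calc eD (G s) a η v' y * H.dens (G s) y - eD (G t) a η v y * H.dens (G t) y
      = (eD (G s) a η v' y * H.dens (G s) y - eD (G t) a η v' y * H.dens (G t) y) +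
        (eD (G t) a η v' y - eD (G t) a η v y) * H.dens (G t) y := by ring
    _ ≤ (ε ^ 2 * c₀ * tE G a η t v y + C₂ * (ε ^ 2 * c₀) * (ε ^ 2 * c₀ * W + |v' y - v y| +
          √(gradSq (G t) (fun y => v' y - v y) y))) * H.dens (G t) y +
        (ε ^ 2 * c₀ * dE (G t) a η v l y + C₁ * ε ^ 3 * W) * H.dens (G t) y := add_le_add k2 k3
    _ = ε ^ 2 * c₀ * (dE (G t) a η v l y + tE G a η t v y) * H.dens (G t) y +
        C₂ * (ε ^ 2 * c₀) * (ε ^ 2 * c₀ * W + |v' y - v y| +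
          √(gradSq (G t) (fun y => v' y - v y) y)) * H.dens (G t) y +
        C₁ * ε ^ 3 * W * H.dens (G t) y := by ring
    _ ≤ ε ^ 2 * c₀ * (dE (G t) a η v l y + tE G a η t v y) * H.dens (G t) y +
        C₂ * c₀ * (c₀ + 3 * (c₀ + 1) * A) * ε ^ 3 * W * H.dens (G t) y +
        C₁ * ε ^ 3 * W * H.dens (G t) y := by linarith
    _ = _ := by ring

/-- the vector field -/
noncomputable def ZX (C : Cov n M X Γ I) (g : I → E n → Matrix (Fin n) (Fin n) ℝ) (a η κ : ℝ)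
    (v : X → ℝ) (γ : Γ) (i : I) : E n → E n := H.ZZ (g i) a η κ (C.rep v γ i)

theorem rep_eX (hG : MetX C g) (a η : ℝ) (v : X → ℝ) (γ : Γ) (i : I) :
    C.rep (eX C g a η v) γ i = eD (g i) a η (C.rep v γ i) :=
  funext fun y => eX_chart hG a η v γ i y

theorem vf_ZX (hG : MetX C g) {a η κ : ℝ} {v : X → ℝ} (hv : C.Ck 4 v) (hv0 : ∀ x, 0 < v x)
    (hη : 0 < η) : VfX C (ZX C g a η κ v) where
  smooth γ i := contDiff_ZZ (met hG i) (hv γ i) (fun y => hv0 _) hη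
  inv γ γ' i i' y y' h := by
    have hC : C.Ck 1 (eX C g a η v) := fun γ i => by
      rw [rep_eX hG]
      exact (contDiff_eD (met hG i) (hv γ i) (fun y => hv0 _) hη).of_le (by norm_num)
    have e : ∀ (γ : Γ) i (y : E n), ZX C g a η κ v γ i y = grd (g i) (C.rep (eX C g a η v) γ i) y +
        (4 * a / κ ^ 2 * (gsX C g v (γ • C.ψ i y) / v (γ • C.ψ i y) ^ 2 + η) ^ a) •
          grd (g i) (C.rep v γ i) y := by
      intro γ i y
      rw [rep_eX hG, gsX_eq hG]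
      rfl
    rw [e, e, map_add, map_smul, grd_chart hG hC h, grd_chart hG (ck_le hv (by norm_num)) h, ← h]

section ineq
variable [Fintype I] [T2Space X] [ConnectedSpace X] [T2Space M] [MeasurableSpace X] [BorelSpace X]

/-- the integrated differential inequality -/
theorem ineq (hboch : SpecBochnerT) (hibp : SpecIBPX) [Countable Γ]
    {G : ℝ → I → E n → Matrix (Fin n) (Fin n) ℝ} {W v v' : X → ℝ}
    {A a η κ c₀ c₁ ε C₁ R t s V : ℝ} {ρ σ q : M → ℝ} {μ μ' : Measure X}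
    (hM : MetX C (G t)) (hM' : MetX C (G s)) (hμ : VolX C (G t) μ) (hcv : CV C (G t) μ)
    (hμ' : VolX C (G s) μ')
    (hW : WtX C (G t) μ W) (hW' : WtX C (G s) μ' W) (hS : StX C (G t) W A v)
    (hS' : StX C (G s) W A v') (hA : 0 < A) (hc₀ : 0 < c₀) (hε : 0 < ε) (hC₁ : 0 < C₁)
    (ha : 1 ≤ a) (hη : 0 < η) (hη1 : η ≤ 1) (hκ' : κ = √n + 2 * a)
    (hc₁' : c₁ = 2 * a / (κ ^ 2 * (a + 1)))
    (hric : ∀ i (y w : E n), -ρ (C.π (C.ψ i y)) * ∑ a, ∑ b, w a * w b * G t i y a b ≤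
      ∑ a, ∑ b, w a * w b * (ric (G t i) y a b + 1 / 2 * dtG (fun s => G s i) t y a b))
    (htr : ∀ i y, trh (fun s => G s i) t y ≤ σ (C.π (C.ψ i y)))
    (hR : ∀ m, |ρ m| ≤ R) (hq0 : ∀ m, 0 ≤ q m)
    (hq : ∀ m, ρ m + σ m / (2 * a) ≤ q m)
    (hstep : ∀ γ i y, eD (G s i) a η (C.rep v' γ i) y * H.dens (G s i) y -
        eD (G t i) a η (C.rep v γ i) y * H.dens (G t i) y ≤
      (ε ^ 2 * c₀ * (dE (G t i) a η (C.rep v γ i) (lap (G t i) (C.rep v γ i)) y +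
        tE (fun s => G s i) a η t (C.rep v γ i) y) + C₁ * ε ^ 3 * C.rep W γ i y) *
        H.dens (G t i) y)
    (hV : ∫ x, W x ∂μ ≤ V)
    (hX : Integrable (fun x => v x * (κ ^ 2 * (q (C.π x) + 2 * η / κ ^ 2)) ^ (a + 1)) μ) :
    c₁ * (∫ x, v x * (gsX C (G t) v x / v x ^ 2 + η) ^ (a + 1) ∂μ) ≤
      c₁ * (∫ x, v x * (κ ^ 2 * (q (C.π x) + 2 * η / κ ^ 2)) ^ (a + 1) ∂μ) +
      ((∫ x, eX C (G t) a η v x ∂μ) - (∫ x, eX C (G s) a η v' x ∂μ')) /
        (ε ^ 2 * c₀) +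
      (C₁ * ε * V / c₀ + 2 * a * R * η * (A * (A ^ 4 + 1) ^ (a - 1) * V)) := by
  obtain ⟨C₂, hZZ⟩ := ZZ_le a η κ A ha hη hA
  have hne : Nonempty X := inferInstance
  have hR0 : 0 ≤ R := (abs_nonneg _).trans (hR (C.π hne.some))
  have hvp := vpos hA hW hS
  have hs1 := hS.smooth
  have hpt := fun γ i y => B24.pw hboch (G := fun t => G t i) (W := C.rep W γ i)
    (v := C.rep v γ i) (v' := C.rep v' γ i) (met hM i) (fun _ => hvp _) (hs1 γ i) hc₀ hε ha hη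
    hκ' hc₁' y (hric i y) (htr i y) (hR _) (hq0 _) (hq _) (hstep γ i y)
  have j1 := vs hA hη hη1 hM hW hS (p := a + 1) (by linarith)
  have j2 := hX
  have j3 : Integrable (fun x => eX C (G t) a η v x) μ :=
    vs hA hη hη1 hM hW hS (p := a) (by linarith)
  have j4' : Integrable (fun x => eX C (G s) a η v' x) μ' :=
    vs hA hη hη1 hM' hW' hS' (p := a) (by linarith)
  have j4 := integrable_dr hM hM' hcv hμ' j4'
  have j5 := hW.integ
  have j0 := vs hA hη hη1 hM hW hS (p := a - 1) (by linarith)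
  have j34 : Integrable (fun x => eX C (G t) a η v x -
      eX C (G s) a η v' x * dr C (G t) (G s) x) μ := j3.sub j4
  have j6 : Integrable (fun x => (ε ^ 2 * c₀)⁻¹ * (eX C (G t) a η v x -
      eX C (G s) a η v' x * dr C (G t) (G s) x)) μ := j34.const_mul _
  have j7 : Integrable (fun x => (ε ^ 2 * c₀)⁻¹ * (C₁ * ε ^ 3) * W x) μ := j5.const_mul _
  have j8 : Integrable (fun x => c₁ * (v x * (κ ^ 2 * (q (C.π x) + 2 * η / κ ^ 2)) ^ (a + 1))) μ :=
    j2.const_mul _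
  have j9 : Integrable (fun x => 2 * a * R * η *
      (v x * (gsX C (G t) v x / v x ^ 2 + η) ^ (a - 1))) μ := j0.const_mul _
  have i1 : Integrable (fun x =>
      c₁ * (v x * (gsX C (G t) v x / v x ^ 2 + η) ^ (a + 1))) μ := j1.const_mul c₁
  have i3 : Integrable (fun x => (ε ^ 2 * c₀)⁻¹ * (eX C (G t) a η v x -
      eX C (G s) a η v' x * dr C (G t) (G s) x) +
      (ε ^ 2 * c₀)⁻¹ * (C₁ * ε ^ 3) * W x) μ := j6.add j7
  have i4 : Integrable (fun x => c₁ * (v x * (κ ^ 2 * (q (C.π x) + 2 * η / κ ^ 2)) ^ (a + 1)) +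
      2 * a * R * η * (v x * (gsX C (G t) v x / v x ^ 2 + η) ^ (a - 1))) μ := j8.add j9
  have i2 : Integrable (fun x => (c₁ * (v x * (κ ^ 2 * (q (C.π x) + 2 * η / κ ^ 2)) ^ (a + 1)) +
      2 * a * R * η * (v x * (gsX C (G t) v x / v x ^ 2 + η) ^ (a - 1))) +
      ((ε ^ 2 * c₀)⁻¹ * (eX C (G t) a η v x -
      eX C (G s) a η v' x * dr C (G t) (G s) x) +
      (ε ^ 2 * c₀)⁻¹ * (C₁ * ε ^ 3) * W x)) μ := i4.add i3
  have key := hibp n M X Γ I C (G t) μ W hM hμ hW (ZX C (G t) a η κ v) C₂ _ _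
    (vf_ZX hM hs1 hvp hη) (fun γ i y => hZZ n (G t i) y (W (γ • C.ψ i y)) (C.rep v γ i)
      ((hM.pos i) y) (hW.pos _) ((hs1 γ i).differentiable (by norm_num) y)
      ((contDiff_gradSq (met hM i) (m := 3) (hs1 γ i) (by norm_num)).differentiable
        (by norm_num) y)
      ((contDiff_eD (met hM i) (hs1 γ i) (fun _ => hvp _) hη).differentiable (by norm_num) y)
      (hS.lower _) (by
        have := hS.grad (γ • C.ψ i y)
        rwa [gsX_eq hM] at this) (by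
        have := hS.grad2 (γ • C.ψ i y)
        rwa [gsX_eq hM, rep_gsX hM] at this)) i1 i2 (fun γ i y => by
      have h1 := hpt γ i y
      have h2 := dp hM i y
      rw [gsX_eq hM, eX_chart hM, eX_chart hM', dr_eq hM hM', π_smul, div_eq_mul_inv]
      simp only [mul_assoc] at h1 ⊢
      exact h1)
  rw [integral_const_mul, integral_add i4 i3, integral_add j8 j9, integral_add j6 j7,
    integral_const_mul,
    integral_const_mul, integral_const_mul, integral_const_mul, integral_sub j3 j4,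
    ← integral_dr hM hM' hcv hμ'] at key
  refine key.trans ?_
  have e3 : ((∫ x, eX C (G t) a η v x ∂μ) -
      (∫ x, eX C (G s) a η v' x ∂μ')) / (ε ^ 2 * c₀) =
      (ε ^ 2 * c₀)⁻¹ * ((∫ x, eX C (G t) a η v x ∂μ) -
      (∫ x, eX C (G s) a η v' x ∂μ')) := by
    rw [div_eq_inv_mul]
  have e4 : C₁ * ε * V / c₀ = (ε ^ 2 * c₀)⁻¹ * (C₁ * ε ^ 3) * V := by
    field_simp
  have e5 : (ε ^ 2 * c₀)⁻¹ * (C₁ * ε ^ 3) * ∫ x, W x ∂μ ≤
      (ε ^ 2 * c₀)⁻¹ * (C₁ * ε ^ 3) * V := by gcongr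
  have e6 : ∫ x, v x * (gsX C (G t) v x / v x ^ 2 + η) ^ (a - 1) ∂μ ≤
      A * (A ^ 4 + 1) ^ (a - 1) * V := by
    calc ∫ x, v x * (gsX C (G t) v x / v x ^ 2 + η) ^ (a - 1) ∂μ
        ≤ ∫ x, A * (A ^ 4 + 1) ^ (a - 1) * W x ∂μ := by
          refine integral_mono j0 (j5.const_mul _) fun x => ?_
          exact vsb hA hη hη1 hM hW hS (p := a - 1) (by linarith) x
      _ = A * (A ^ 4 + 1) ^ (a - 1) * ∫ x, W x ∂μ := integral_const_mul _ _
      _ ≤ A * (A ^ 4 + 1) ^ (a - 1) * V := by gcongr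
  have e7 : 2 * a * R * η * ∫ x, v x * (gsX C (G t) v x / v x ^ 2 + η) ^ (a - 1) ∂μ ≤
      2 * a * R * η * (A * (A ^ 4 + 1) ^ (a - 1) * V) := by
    have : 0 ≤ a := by linarith
    gcongr
  rw [e3, e4]
  linarith

end ineq

theorem compM [Finite I] (C : Cov n M X Γ I) : CompactSpace M := by
  refine ⟨?_⟩
  have h1 := (isCompact_core C 1).image C.π.continuous
  convert h1
  refine (Set.eq_univ_of_forall fun m => ?_).symm
  obtain ⟨x, rfl⟩ := C.surj m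
  obtain ⟨γ, i, y, hy, rfl⟩ := exists_chart C x
  exact ⟨C.ψ i y, Set.mem_iUnion.2 ⟨i, y, hy.le, rfl⟩, (π_smul C γ _).symm⟩

/-- Uniform bounds for continuous functions of `(t, m)`. -/
theorem boundedT [CompactSpace M] {f : ℝ → M → ℝ} (hf : Continuous fun p : ℝ × M => f p.1 p.2)
    (T : ℝ) : ∃ c : ℝ, 0 < c ∧ ∀ t, 0 ≤ t → t ≤ T → ∀ m, |f t m| ≤ c := by
  obtain ⟨c, hc⟩ := ((isCompact_Icc (a := (0 : ℝ)) (b := T)).prod
    (isCompact_univ (X := M))).exists_bound_of_continuousOn hf.continuousOn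
  exact ⟨max c 1, by positivity, fun t h0 hT m =>
    (hc (t, m) ⟨⟨h0, hT⟩, Set.mem_univ _⟩).trans (le_max_left _ _)⟩

/-- uniform comparison, consequences -/
theorem equivT [Fintype I] [T2Space X] [MeasurableSpace X] [BorelSpace X] (hequiv : SpecEqX)
    [Countable Γ] {G : ℝ → I → E n → Matrix (Fin n) (Fin n) ℝ} {W : X → ℝ} (hG : FamX C G)
    {μ : ℝ → Measure X} (hμ : ∀ t, VolX C (G t) (μ t)) (hcv : ∀ t, CV C (G t) (μ t))
    (hWt : ∀ t, 0 ≤ t → WtX C (G t) (μ t) W) {T : ℝ} (hT : 0 < T) : ∃ L V : ℝ, 1 ≤ L ∧ 0 ≤ V ∧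
      (∀ t s : ℝ, 0 ≤ t → t ≤ T → 0 ≤ s → s ≤ T →
        ∀ (f : X → ℝ) x, gsX C (G t) f x ≤ L * gsX C (G s) f x) ∧
      (∀ t, 0 ≤ t → t ≤ T → ∫ x, W x ∂(μ t) ≤ V) := by
  obtain ⟨L', hL', hequiv⟩ := hequiv n M X Γ I C G hG T hT
  have hWpos : ∀ x, 0 < W x := (hWt 0 le_rfl).pos
  refine ⟨max L' 1, L' * ∫ x, W x ∂(μ 0), le_max_right _ _,
    mul_nonneg hL'.le (integral_nonneg fun x => (hWpos x).le),
    fun t s h1 h2 h3 h4 f x => ?_, fun t h1 h2 => ?_⟩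
  · obtain ⟨γ, i, y, -, rfl⟩ := exists_chart C x
    rw [gsX_eq (hG.met t), gsX_eq (hG.met s)]
    refine ((hequiv t s h1 h2 h3 h4 i y).2.1 fun k => H.pd k (C.rep f γ i) y).trans ?_
    have h5 : 0 ≤ gradSq (G s i) (C.rep f γ i) y :=
      Common.gradSq_nonneg (met (hG.met s) i) _ y
    have h6 : ∑ a, ∑ b, (G s i y)⁻¹ a b * H.pd a (C.rep f γ i) y * H.pd b (C.rep f γ i) y =
      gradSq (G s i) (C.rep f γ i) y := rfl
    rw [h6]
    gcongr
    exact le_max_left _ _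
  · rw [← integral_const_mul, integral_dr (hG.met 0) (hG.met t) (hcv 0) (hμ t)]
    refine integral_mono (integrable_dr (hG.met 0) (hG.met t) (hcv 0) (hμ t) (hWt t h1).integ)
      ((hWt 0 le_rfl).integ.const_mul _) fun x => ?_
    obtain ⟨γ, i, y, -, rfl⟩ := exists_chart C x
    simp only
    rw [dr_eq (hG.met 0) (hG.met t)]
    have h3 := (hequiv t 0 h1 h2 le_rfl hT.le i y).1
    have h4 := (hWpos (γ • C.ψ i y)).le
    have h5 := dp (hG.met 0) i y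
    have h6 : H.dens (G t i) y / H.dens (G 0 i) y ≤ L' := by
      rw [div_le_iff₀ h5]; exact h3
    calc W (γ • C.ψ i y) * (H.dens (G t i) y / H.dens (G 0 i) y)
        ≤ W (γ • C.ψ i y) * L' := by gcongr
      _ = _ := mul_comm _ _

/-- Block X11. -/
theorem main (hflow : SpecFlX) (hequiv : SpecEqX) (hTT : SpecTTX) (hibp : SpecIBPX)
    (hvol : SpecVol) (hboch : SpecBochnerT) : SpecATX := by
  intro n M X Γ I _ _ _ _ _ _ _ _ _ _ _ _ C G hn hG ρ σ hρ hσ hric htr ν hν B hB δ hδ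
  have hcount : Countable Γ := (hvol n M X Γ I C (G 0) (hG.met 0)).1
  have hM0 : ∀ t, ∃ μ : Measure X, VolX C (G t) μ ∧ CV C (G t) μ ∧
      ∀ ν : Measure M, VolM C (G t) ν → UF C μ ν := fun t => by
    obtain ⟨-, ⟨μ, hμ⟩, -, h1, -⟩ := hvol n M X Γ I C (G t) (hG.met t)
    exact ⟨μ, hμ, (h1 μ hμ).1, (h1 μ hμ).2⟩
  choose μ hμ hcv hUF using hM0
  obtain ⟨W, hWt', hflow⟩ := hflow n M X Γ I C G hG
  have hWt : ∀ t, 0 ≤ t → WtX C (G t) (μ t) W := fun t ht => hWt' t _ ht (hμ t)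
  have hcM : CompactSpace M := compM C
  have hn4 : (4 : ℝ) ≤ n := by exact_mod_cast hn
  obtain ⟨a, ha'⟩ : ∃ a : ℝ, a = ((n : ℝ) - 2) / 2 := ⟨_, rfl⟩
  have ha : 1 ≤ a := by rw [ha']; linarith
  have ha1 : a + 1 = (n : ℝ) / 2 := by rw [ha']; ring
  have ha2 : 2 * a = (n : ℝ) - 2 := by rw [ha']; ring
  obtain ⟨κ, hκ'⟩ : ∃ κ : ℝ, κ = √n + 2 * a := ⟨_, rfl⟩
  have hκ : 0 < κ := by rw [hκ']; positivity
  have hκn : (n : ℝ) - 2 + √n = κ := by rw [hκ', ha']; ring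
  obtain ⟨c₁, hc₁'⟩ : ∃ c₁ : ℝ, c₁ = 2 * a / (κ ^ 2 * (a + 1)) := ⟨_, rfl⟩
  have hc₁ : 0 < c₁ := by rw [hc₁']; positivity
  obtain ⟨I1, hI1⟩ : ∃ I1 : ℝ, I1 = ∫ x, eX C (G 0) a 1 W x ∂(μ 0) := ⟨_, rfl⟩
  obtain ⟨T, hT2, hTI⟩ : ∃ T : ℝ, 2 ≤ T ∧ 4 * I1 / (c₁ * δ) < T :=
    ⟨max 2 (4 * I1 / (c₁ * δ) + 1), le_max_left _ _,
      lt_of_lt_of_le (by linarith) (le_max_right _ _)⟩
  have hT0 : 0 < T := by linarith
  obtain ⟨c₀, A, hc₀, hA, hflow⟩ := hflow T hT0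
  obtain ⟨R, hR, hRb⟩ := boundedT hρ T
  obtain ⟨S, hS, hSb⟩ := boundedT hσ T
  obtain ⟨L, V, hL1, hV0, hLg, hVt⟩ := equivT hequiv hG hμ hcv hWt hT0
  obtain ⟨qf, hqf⟩ : ∃ qf : ℝ → M → ℝ, ∀ t x, qf t x = max 0 (ρ t x + σ t x / ((n : ℝ) - 2)) :=
    ⟨_, fun _ _ => rfl⟩
  simp only [← hqf] at hB
  have hq0 : ∀ t x, 0 ≤ qf t x := fun t x => by rw [hqf]; exact le_max_left _ _
  have hn2 : (0 : ℝ) < (n : ℝ) - 2 := by linarith
  obtain ⟨Q, hqQ⟩ : ∃ Q : ℝ, ∀ t, 0 ≤ t → t ≤ T → ∀ x, qf t x ≤ Q := by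
    refine ⟨R + S / ((n : ℝ) - 2), fun t h1 h2 x => ?_⟩
    rw [hqf]
    refine max_le (by positivity) ?_
    have h3 := (abs_le.1 (hRb t h1 h2 x)).2
    have h4 := (abs_le.1 (hSb t h1 h2 x)).2
    gcongr
  have hqc : ∀ t, Continuous (qf t) := by
    intro t
    have h1 : Continuous fun x : M => ρ t x := hρ.comp (Continuous.prodMk_right t)
    have h2 : Continuous fun x : M => σ t x := hσ.comp (Continuous.prodMk_right t)
    have h3 : qf t = fun x => max 0 (ρ t x + σ t x / ((n : ℝ) - 2)) := funext (hqf t)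
    rw [h3]
    exact continuous_const.max (h1.add (h2.div_const _))
  obtain ⟨η, hη, hη1, hη', hηe⟩ := B24.consts (n := n) (Q := Q) ha hR hκ hc₁ hδ hV0 hV0 hA
  have hAL0 : 0 < A * L := by positivity
  obtain ⟨C₁, hC₁, h1⟩ := step_le a η (A * L) c₀ ha hη hAL0 hc₀
  obtain ⟨C₂, hC₂, h2⟩ := hTT n M X Γ I C G hG T a η (A * L) hT0 ha hη hAL0
  have hstep := fun (i : I) (y : E n) => stepT (y := y) (fun t => met (hG.met t) i) hAL0 hc₀ hC₂
    h1 (fun t s ht hts hs => h2 t s ht hts hs i y)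
  have hC₁' : 0 < C₁ + C₂ * c₀ * (c₀ + 3 * (c₀ + 1) * (A * L)) := by positivity
  set C₃ := C₁ + C₂ * c₀ * (c₀ + 3 * (c₀ + 1) * (A * L)) with hC₃
  obtain ⟨ε, hε, hε1, hεc, hεC⟩ := B24.choose_eps hc₀ hc₁ hδ hC₁' hV0
  obtain ⟨v, hv0, hstp, hinc⟩ := hflow ε hε hε1
  obtain ⟨K, hKT, hKge⟩ := B24.steps hT2 (by positivity : 0 < c₀ * ε ^ 2) hεc
  obtain ⟨τ, hτ⟩ : ∃ τ : ℕ → ℝ, ∀ k : ℕ, τ k = (k : ℝ) * (c₀ * ε ^ 2) := ⟨_, fun _ => rfl⟩
  have hτ0 : ∀ k, 0 ≤ τ k := fun k => by rw [hτ]; positivity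
  have hτT : ∀ k ≤ K, τ k ≤ T := fun k hk => by rw [hτ]; exact hKT k hk
  have hτs : ∀ k, τ (k + 1) = τ k + c₀ * ε ^ 2 := fun k => by
    rw [hτ, hτ]; push_cast; ring
  have hτz : τ 0 = 0 := by rw [hτ]; simp
  simp only [← hτ] at hstp hinc
  have hSt : ∀ k ≤ K, StX C (G (τ k)) W A (v k) := fun k hk => hstp k (hτT k hk)
  have hM : ∀ k, MetX C (G (τ k)) := fun k => hG.met _
  have hW : ∀ k, WtX C (G (τ k)) (μ (τ k)) W := fun k => hWt _ (hτ0 k)
  have hU : ∀ k, UF C (μ (τ k)) (ν (τ k)) := fun k => hUF _ _ (hν _ (hτ0 k))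
  have hone : ∀ k ≤ K, ∫ x, v k x * 1 ∂(μ (τ k)) ≤ V := fun k hk => by
    rw [one_le (hU k) hA (hW k) (hSt k hk)]
    exact hVt _ (hτ0 k) (hτT k hk)
  have hXP := fun k (hk : k ≤ K) => XP hA (hW k) (hSt k hk) hκ hδ hη
    (q := fun x => qf (τ k) (C.π x)) ((hqc (τ k)).comp C.π.continuous) (fun x => hq0 _ _)
    (fun x => hqQ _ (hτ0 k) (hτT k hk) _) hV0 (hone k hk) hη'
  have main1 : ∀ k < K, c₁ * (∫ x, v k x * (gsX C (G (τ k)) (v k) x / v k x ^ 2 + η) ^ (a + 1)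
      ∂(μ (τ k))) ≤ c₁ * (∫ x, v k x * (κ ^ 2 * (qf (τ k) (C.π x) + 2 * η / κ ^ 2)) ^ (a + 1)
      ∂(μ (τ k))) + ((∫ x, eX C (G (τ k)) a η (v k) x ∂(μ (τ k))) -
      (∫ x, eX C (G (τ (k + 1))) a η (v (k + 1)) x ∂(μ (τ (k + 1))))) / (ε ^ 2 * c₀) +
      (C₃ * ε * V / c₀ + 2 * a * R * η * (A * (A ^ 4 + 1) ^ (a - 1) * V)) := by
    intro k hk
    have hk1 : k ≤ K := hk.le
    have hk2 : k + 1 ≤ K := hk
    refine ineq hboch hibp (hM k) (hM (k + 1)) (hμ _) (hcv _) (hμ _) (hW k) (hW (k + 1))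
      (hSt k hk1) (hSt (k + 1) hk2) hA
      hc₀ hε hC₁' ha hη hη1 hκ' hc₁' (hric _ (hτ0 k)) (htr _ (hτ0 k)) (hRb _ (hτ0 k) (hτT k hk1))
      (hq0 _) (fun x => ?_) (fun γ i y => ?_) (hVt _ (hτ0 k) (hτT k hk1)) ?_
    · rw [ha2, hqf]; exact le_max_right _ _
    · have hs1 := (hSt k hk1).smooth
      have hs2 := (hSt (k + 1) hk2).smooth
      have hl := contDiff_lap (met (hM k) i) (hs1 γ i)
      obtain ⟨x, hx⟩ : ∃ x, x = γ • C.ψ i y := ⟨_, rfl⟩
      have hWx := (hW k).pos x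
      have hAL : A ≤ A * L := le_mul_of_one_le_right hA.le hL1
      have hALW : A * W x ≤ A * L * W x := by gcongr
      have hg2 : gsX C (G (τ k)) (v (k + 1)) x ≤ (A * L * W x) ^ 2 := by
        calc gsX C (G (τ k)) (v (k + 1)) x ≤ L * gsX C (G (τ (k + 1))) (v (k + 1)) x :=
              hLg _ _ (hτ0 k) (hτT k hk1) (hτ0 _) (hτT _ hk2) _ x
          _ ≤ L * (A * W x) ^ 2 := by
              gcongr
              exact (hSt (k + 1) hk2).grad x
          _ ≤ L ^ 2 * (A * W x) ^ 2 := by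
              gcongr
              nlinarith
          _ = _ := by ring
      have hCl : C.rep (lapX C (G (τ k)) (v k)) γ i = lap (G (τ k) i) (C.rep (v k) γ i) :=
        rep_lapX (hM k) (ck_le hs1 (by norm_num)) γ i
      have g5 : gsX C (G (τ k)) (v k) x ≤ (A * L * W x) ^ 2 :=
        ((hSt k hk1).grad x).trans (by gcongr)
      have g7 : |lapX C (G (τ k)) (v k) x| ≤ A * L * W x := ((hSt k hk1).lap0 x).trans hALW
      have g8 : gsX C (G (τ k)) (lapX C (G (τ k)) (v k)) x ≤ (A * L * W x) ^ 2 :=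
        ((hSt k hk1).lap1 x).trans (by gcongr)
      have g9 : |v (k + 1) x - v k x - ε ^ 2 * c₀ * lapX C (G (τ k)) (v k) x| ≤
          A * L * ε ^ 3 * W x := (hinc k (hτT k hk1) x).1.trans (by gcongr)
      have g10 : gsX C (G (τ k)) (fun y => v (k + 1) y - v k y - ε ^ 2 * c₀ *
          lapX C (G (τ k)) (v k) y) x ≤ (A * L * ε ^ 3 * W x) ^ 2 :=
        (hinc k (hτT k hk1) x).2.trans (by gcongr)
      rw [hx, gsX_eq (hM k)] at hg2 g5 g8 g10
      rw [hx] at g7 g9 hWx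
      have hCx : lapX C (G (τ k)) (v k) (γ • C.ψ i y) = lap (G (τ k) i) (C.rep (v k) γ i) y := by
        rw [← hCl]; rfl
      rw [hCx] at g7 g9
      rw [hCl] at g8
      have hr10 : C.rep (fun y => v (k + 1) y - v k y - ε ^ 2 * c₀ *
          lapX C (G (τ k)) (v k) y) γ i = fun y => C.rep (v (k + 1)) γ i y - C.rep (v k) γ i y -
          ε ^ 2 * c₀ * lap (G (τ k) i) (C.rep (v k) γ i) y := by
        rw [← hCl]; rfl
      rw [hr10] at g10
      rw [hx] at hALW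
      exact hstep i y (τ k) (τ (k + 1)) ε (W (γ • C.ψ i y)) (C.rep (v k) γ i)
        (C.rep (v (k + 1)) γ i) (lap (G (τ k) i) (C.rep (v k) γ i))
        (hτ0 k) (hτs k) (hτT _ hk2) hWx hε hε1
        ((hs1 γ i).differentiable (by norm_num) y) ((hs2 γ i).differentiable (by norm_num) y)
        (hl.differentiable (by norm_num) y)
        (((hSt k hk1).lower _).trans (by
          have := vpos hA (hW k) (hSt k hk1) (γ • C.ψ i y)
          show A * v k (γ • C.ψ i y) ≤ A * L * v k (γ • C.ψ i y)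
          gcongr))
        (((hSt (k + 1) hk2).lower _).trans (by
          have := vpos hA (hW (k + 1)) (hSt (k + 1) hk2) (γ • C.ψ i y)
          show A * v (k + 1) (γ • C.ψ i y) ≤ A * L * v (k + 1) (γ • C.ψ i y)
          gcongr))
        (((hSt k hk1).upper _).trans hALW) (((hSt (k + 1) hk2).upper _).trans hALW)
        g5 hg2 g7 g8 g9 g10
    · rw [ha1]; exact (hXP k hk1).1
  have hI0 : ∫ x, eX C (G (τ 0)) a η (v 0) x ∂(μ (τ 0)) ≤ I1 := by
    have h1 := energy_mono hA hη hη1 (hM 0) (hW 0) (hSt 0 (Nat.zero_le _)) ha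
    rw [hτz, hv0] at h1 ⊢
    rwa [hI1]
  obtain ⟨k, hk, hkY⟩ := B5d.pick (K := K)
    (Y := fun k => ∫ x, v k x * (gsX C (G (τ k)) (v k) x / v k x ^ 2 + η) ^ (a + 1) ∂(μ (τ k)))
    (X := fun k => ∫ x, v k x * (κ ^ 2 * (qf (τ k) (C.π x) + 2 * η / κ ^ 2)) ^ (a + 1) ∂(μ (τ k)))
    (P := fun k => κ ^ n * ∫ x, v k x * qf (τ k) (C.π x) ^ ((n : ℝ) / 2) ∂(μ (τ k)))
    (I := fun k => ∫ x, eX C (G (τ k)) a η (v k) x ∂(μ (τ k)))
    (C := C₃ * ε * V / c₀ + 2 * a * R * η * (A * (A ^ 4 + 1) ^ (a - 1) * V)) hc₀ hc₁ hε main1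
    (fun k hk => by
      have := (hXP k hk.le).2.2
      rwa [← ha1] at this ⊢) (by linarith)
    (integral_nonneg fun x => by
      have h1 := vpos hA (hW K) (hSt K le_rfl) x
      have h3 := s_pos (hM K) (vpos hA (hW K) (hSt K le_rfl)) hη x
      simp only [Pi.zero_apply, eX]; positivity)
    (by
      rw [div_lt_iff₀ (by positivity)] at hTI
      have h1 : T / 2 * (c₁ * δ) ≤ K * (c₀ * ε ^ 2) * (c₁ * δ) := by gcongr
      have h2 : (K : ℝ) * ε ^ 2 * (c₀ * c₁ * δ) = K * (c₀ * ε ^ 2) * (c₁ * δ) := by ring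
      rw [h2]
      linarith)
  refine ⟨τ k, μ (τ k), W, v k, A, hτ0 k, hμ _, hW k, hSt k hk.le, ?_⟩
  rw [hκn]
  exact concl (hU k) hA hη hη1 (hM k) (hW k) (hSt k hk.le) hκ hδ ha ha1 (hqc _) (hq0 _)
    (hXP k hk.le).2.1 hkY (hB _ (hτ0 k))

end Vale.Agent.P223.X.X11
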