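import Vale.Agent.P223.X.X23b

/-! Block X23, third part: the Einstein equation. -/

namespace Vale.Agent.P223.X.X23

open scoped ContDiff Topology Matrix
open MeasureTheory Vale.Agent.P223.H Vale.Agent.P223.H.B25c

variable {n : ℕ} {M X Γ I : Type} [TopologicalSpace M] [TopologicalSpace X] [Group Γ]
    [MulAction Γ X] {C : Cov n M X Γ I} {G : I → E n → Matrix (Fin n) (Fin n) ℝ}

theorem quad_nonneg (hn : 4 ≤ n) (hG : MetX C G) (i : I) (x : E n) :
    0 ≤ ricSq (G i) x - H.scal (G i) x ^ 2 / n := by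
  have hn4 : (4 : ℝ) ≤ n := by exact_mod_cast hn
  obtain ⟨B, m, hB1, hGB, hR, r1, r2⟩ := Min.frame (G i x) (Min.Rm (G i) x) (hG.pos i x)
  have r3 : ricSq (G i) x = ∑ a, ∑ b, m a b ^ 2 := r1
  have r4 : H.scal (G i) x = ∑ a, m a a := r2
  have r5 : (∑ a, m a a) ^ 2 ≤ n * ∑ a, m a a ^ 2 := by
    have := Finset.sum_mul_sq_le_sq_mul_sq (Finset.univ : Finset (Fin n)) (fun _ => (1 : ℝ))
      (fun a => m a a)
    simpa using this
  have r6 : ∑ a, m a a ^ 2 ≤ ∑ a, ∑ b, m a b ^ 2 :=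
    Finset.sum_le_sum fun a _ => Finset.single_le_sum (f := fun b => m a b ^ 2)
      (fun b _ => sq_nonneg _) (Finset.mem_univ a)
  rw [r3, r4, sub_nonneg, div_le_iff₀ (by linarith)]
  nlinarith

theorem nn (hn : 4 ≤ n) (hG : MetX C G) {p : ℝ} (hp1 : 1 < p) (i : I) (x : E n) :
    0 ≤ -(2 * (Min.h1 p (H.scal (G i) x) * (ricSq (G i) x - H.scal (G i) x ^ 2 / n)) *
      H.dens (G i) x) := by
  have a1 := Min.h1_nonpos hp1 (H.scal (G i) x)
  have a2 := quad_nonneg hn hG i x
  have a3 := Int.dens_pos hG i x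
  have a4 : 0 ≤ (-Min.h1 p (H.scal (G i) x)) * (ricSq (G i) x - H.scal (G i) x ^ 2 / n) :=
    mul_nonneg (by linarith) a2
  nlinarith

/-- the bad set in the chart `i` -/
def bad (G : I → E n → Matrix (Fin n) (Fin n) ℝ) (i : I) : Set (E n) :=
  {x | H.scal (G i) x < 0 ∧ Min.Rm (G i) x ≠ (H.scal (G i) x / n) • G i x}

theorem bad_open (hG : MetX C G) (i : I) : IsOpen (bad G i) := by
  have hRc : Continuous (Min.Rm (G i)) := continuous_matrix fun a b =>
    (Min.cont_Rm (hG.smooth i) (hG.pos i) a b).continuous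
  have hGc : Continuous (G i) := continuous_matrix fun a b => (hG.smooth i a b).continuous
  have hcs := (scal_cd hG i).continuous
  refine (isOpen_lt hcs continuous_const).inter ?_
  exact isOpen_ne_fun hRc ((hcs.div_const _).smul hGc)

/-- the bad set is invariant -/
theorem bad_tr (hG : MetX C G) {i j : I} {γ : Γ} {y : E n} (h : y ∈ C.dom i j γ)
    (hy : y ∈ bad G i) : C.tr i j γ y ∈ bad G j := by
  obtain ⟨h1, h2⟩ := hy
  have hs : H.scal (G i) y = H.scal (G j) (C.tr i j γ y) :=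
    scal_chart hG (γ := γ) (γ' := 1) (by rw [one_smul]; exact (tr_spec C h).symm)
  refine ⟨by rw [← hs]; exact h1, fun hc => h2 ?_⟩
  have h3 : ∀ v w : E n, ∑ a, ∑ b, v a * w b * Min.Rm (G i) y a b =
      ∑ a, ∑ b, v a * w b * ((H.scal (G i) y / n) • G i y) a b := by
    intro v w
    have e1 := ric_chart hG h v w
    have e2 := hG.inv i j γ y h v w
    have e3 : ∀ (A : Matrix (Fin n) (Fin n) ℝ) (s : ℝ) (v w : E n),
        ∑ a, ∑ b, v a * w b * (s • A) a b = s * ∑ a, ∑ b, v a * w b * A a b := by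
      intro A s v w
      simp only [Matrix.smul_apply, smul_eq_mul, Finset.mul_sum]
      exact Finset.sum_congr rfl fun a _ => Finset.sum_congr rfl fun b _ => by ring
    have e4 : ∑ a, ∑ b, fderiv ℝ (C.tr i j γ) y v a * fderiv ℝ (C.tr i j γ) y w b *
        H.ric (G j) (C.tr i j γ y) a b = ∑ a, ∑ b, fderiv ℝ (C.tr i j γ) y v a *
        fderiv ℝ (C.tr i j γ) y w b * Min.Rm (G j) (C.tr i j γ y) a b := rfl
    rw [e4, hc, e3, e2, ← hs] at e1
    rw [e3]
    exact e1.symm
  ext a b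
  have h4 := h3 (Pi.single a 1) (Pi.single b 1)
  have e5 : ∀ (A : Matrix (Fin n) (Fin n) ℝ), ∑ c, ∑ d, (Pi.single a (1 : ℝ) : E n) c *
      (Pi.single b (1 : ℝ) : E n) d * A c d = A a b := by
    intro A
    rw [Finset.sum_eq_single a, Finset.sum_eq_single b]
    · simp
    · intro d _ hd; simp [hd]
    · intro hb; exact absurd (Finset.mem_univ _) hb
    · intro c _ hc'; simp [hc']
    · intro hb; exact absurd (Finset.mem_univ _) hb
  rw [e5, e5] at h4
  exact h4

/-- the Einstein equation on `{scal < 0}` -/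
theorem einstein [Fintype I] [T2Space X] [ConnectedSpace X] [T2Space M] [MeasurableSpace M]
    [BorelSpace M] (hE : SpecEvol) (hB : SpecBianchi) (hL : SpecLapX)
    (hex : ∀ G', MetX C G' → ∃ ν : Measure M, VolM C G' ν) (hn : 4 ≤ n) (hG : MetX C G)
    {ν : Measure M} (hV : VolM C G ν)
    (hmin : ∀ G' ν', MetX C G' → VolM C G' ν' →
      IS C G ν ((n : ℝ) / 2) ≤ IS C G' ν' ((n : ℝ) / 2)) (i : I) (x : E n)
    (hx : H.scal (G i) x < 0) : Min.Rm (G i) x = (H.scal (G i) x / n) • G i x := by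
  have hn4 : (4 : ℝ) ≤ n := by exact_mod_cast hn
  obtain ⟨D⟩ := Cell.exists_cells C
  have hcr := crit hE hB hex D hn hG hV hmin
  obtain ⟨p, hp⟩ : ∃ p : ℝ, p = (n : ℝ) / 2 := ⟨_, rfl⟩
  rw [← hp] at hcr
  have hp1 : 1 < p := by rw [hp]; linarith
  have hcs := fun i => scal_cd hG i
  have hcd : ∀ i, Continuous (H.dens (G i)) := fun i => Int.cont_dens hG i
  have hcl : ∀ i, Continuous (fun x => H.lap (G i) (H.scal (G i)) x) := fun i =>
    (Min.cont_lap (hG.smooth i) (hG.pos i) (hcs i)).continuous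
  have hcq : ∀ i, Continuous (fun x => ricSq (G i) x - H.scal (G i) x ^ 2 / n) := fun i =>
    (Min.cont_ricSq (hG.smooth i) (hG.pos i)).continuous.sub
      (((hcs i).continuous.pow 2).div_const _)
  have hch : ∀ i, Continuous (fun x => Min.h1 p (H.scal (G i) x)) := fun i =>
    (Min.h1_cont hp1).comp (hcs i).continuous
  have hle := int_lap_nonpos hL D hG hV hp1
  have i1 : ∀ i, IntegrableOn (fun x => Min.h1 p (H.scal (G i) x) *
      H.lap (G i) (H.scal (G i)) x * H.dens (G i) x) (D.B i) := fun i =>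
    intOn (D.bdd i) (((hch i).mul (hcl i)).mul (hcd i))
  have i2 : ∀ i, IntegrableOn (fun x => 2 * (Min.h1 p (H.scal (G i) x) *
      (ricSq (G i) x - H.scal (G i) x ^ 2 / n)) * H.dens (G i) x) (D.B i) := fun i =>
    intOn (D.bdd i) ((continuous_const.mul ((hch i).mul (hcq i))).mul (hcd i))
  have hsplit : tot D (fun i x => Min.h1 p (H.scal (G i) x) * H.lap (G i) (H.scal (G i)) x *
      H.dens (G i) x +
      2 * (Min.h1 p (H.scal (G i) x) *
        (ricSq (G i) x - H.scal (G i) x ^ 2 / n)) * H.dens (G i) x) =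
      tot D (fun i y => Min.h1 p (H.scal (G i) y) * H.lap (G i) (H.scal (G i)) y *
        H.dens (G i) y) + ∑ i, ∫ x in D.B i, 2 * (Min.h1 p (H.scal (G i) x) *
        (ricSq (G i) x - H.scal (G i) x ^ 2 / n)) * H.dens (G i) x := by
    unfold tot
    rw [← Finset.sum_add_distrib]
    exact Finset.sum_congr rfl fun i _ => integral_add (i1 i) (i2 i)
  rw [hsplit] at hcr
  have hsum : 0 ≤ ∑ i, ∫ x in D.B i, 2 * (Min.h1 p (H.scal (G i) x) *
        (ricSq (G i) x - H.scal (G i) x ^ 2 / n)) * H.dens (G i) x := by linarith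
  have hneg : ∀ i, ∫ x in D.B i, -(2 * (Min.h1 p (H.scal (G i) x) *
        (ricSq (G i) x - H.scal (G i) x ^ 2 / n)) * H.dens (G i) x) = 0 := by
    have h1 : ∑ i, ∫ x in D.B i, -(2 * (Min.h1 p (H.scal (G i) x) *
        (ricSq (G i) x - H.scal (G i) x ^ 2 / n)) * H.dens (G i) x) ≤ 0 := by
      simp only [integral_neg, Finset.sum_neg_distrib]
      linarith
    have h2 : ∀ i ∈ Finset.univ, 0 ≤ ∫ x in D.B i, -(2 * (Min.h1 p (H.scal (G i) x) *
        (ricSq (G i) x - H.scal (G i) x ^ 2 / n)) * H.dens (G i) x) := fun i _ =>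
      integral_nonneg (nn hn hG hp1 i)
    have h3 := (Finset.sum_eq_zero_iff_of_nonneg h2).1 (le_antisymm h1 (Finset.sum_nonneg h2))
    exact fun i => h3 i (Finset.mem_univ i)
  have hnull : ∀ i, volume (bad G i ∩ D.B i) = 0 := by
    intro i
    have hz := hneg i
    rw [integral_eq_zero_iff_of_nonneg (nn hn hG hp1 i) (i2 i).neg] at hz
    have h2 : ∀ᵐ x ∂(volume.restrict (D.B i)), x ∉ bad G i := by
      filter_upwards [hz] with x hx0
      rintro ⟨b1, b2⟩
      apply b2
      have a1 := Min.h1_neg hp1 b1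
      have a3 := Int.dens_pos hG i x
      have hx1 : -(2 * (Min.h1 p (H.scal (G i) x) *
        (ricSq (G i) x - H.scal (G i) x ^ 2 / n)) * H.dens (G i) x) = 0 := hx0
      have hx2 : ricSq (G i) x - H.scal (G i) x ^ 2 / n = 0 := by
        rcases mul_eq_zero.1 (neg_eq_zero.1 hx1) with c | c
        · rcases mul_eq_zero.1 c with c | c
          · norm_num at c
          · rcases mul_eq_zero.1 c with c | c
            · exact absurd c a1.ne
            · exact c
        · exact absurd c a3.ne'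
      refine Min.eq_of_trace (by omega) (G i x) (Min.Rm (G i) x) (hG.pos i x) ?_
      show (n : ℝ) * ricSq (G i) x = H.scal (G i) x ^ 2
      have : (n : ℝ) ≠ 0 := by linarith
      field_simp at hx2
      linarith
    rw [ae_restrict_iff' (D.meas i)] at h2
    refine measure_mono_null ?_ h2
    rintro y ⟨y1, y2⟩ hy
    exact hy y2 y1
  -- the bad set of `M`
  have hA : ν (⋃ j, Cell.pm C j '' (bad G j ∩ D.B j)) = 0 := by
    refine measure_iUnion_null fun j => ?_
    have hm : MeasurableSet (bad G j ∩ D.B j) := (bad_open hG j).measurableSet.inter (D.meas j)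
    rw [show ν (Cell.pm C j '' (bad G j ∩ D.B j)) = _ from hV j _ hm,
      Measure.restrict_zero_set (hnull j), lintegral_zero_measure]
  have hsub : Cell.pm C i '' bad G i ⊆ ⋃ j, Cell.pm C j '' (bad G j ∩ D.B j) := by
    rintro _ ⟨y, hy, rfl⟩
    have h1 : Cell.pm C i y ∈ ⋃ j, Cell.pm C j '' D.B j := by rw [D.cover]; trivial
    obtain ⟨j, y', hy', he⟩ := Set.mem_iUnion.1 h1
    obtain ⟨γ, hγ⟩ := (C.orb _ _).1 he.symm
    obtain ⟨hd, ht⟩ := mem_dom C hγ
    refine Set.mem_iUnion.2 ⟨j, y', ⟨?_, hy'⟩, he⟩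
    rw [← ht]
    exact bad_tr hG hd hy
  have hv : volume (bad G i) = 0 := by
    have h1 := measure_mono_null hsub hA
    rw [show ν (Cell.pm C i '' bad G i) = _ from hV i _ (bad_open hG i).measurableSet] at h1
    rw [lintegral_eq_zero_iff (hcd i).measurable.ennreal_ofReal] at h1
    have h2 : ∀ᵐ y ∂(volume.restrict (bad G i)), False := by
      filter_upwards [h1] with y hy
      have h3 : ENNReal.ofReal (H.dens (G i) y) = 0 := hy
      rw [ENNReal.ofReal_eq_zero] at h3
      exact absurd h3 (not_le.2 (Int.dens_pos hG i y))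
    have h3 := ae_iff.1 h2
    simpa using h3
  have hBe : bad G i = ∅ := ((bad_open hG i).measure_eq_zero_iff volume).1 hv
  by_contra hc
  have : x ∈ bad G i := ⟨hx, hc⟩
  rw [hBe] at this
  exact this

/-- Block X23 -/
theorem main (hE : SpecEvol) (hB : SpecBianchi) (hL : SpecLapX) (hVol : SpecVol) : SpecMinX := by
  intro n M X Γ I _ _ _ _ _ _ _ _ _ _ C G ν hn hG hV hmin hne
  borelize X
  have hex : ∀ G', MetX C G' → ∃ ν : Measure M, VolM C G' ν := fun G' hG' =>
    (hVol n M X Γ I C G' hG').2.2.1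
  have hein := einstein hE hB hL hex hn hG hV hmin
  have hcs := fun i => scal_cd hG i
  have hfd := fun i => Min.fderiv_zero hB hn (hG.smooth i) (hG.pos i) (hein i)
  have hn0 : (n : ℝ) / 2 ≠ 0 := by
    have : (4 : ℝ) ≤ n := by exact_mod_cast hn
    linarith
  obtain ⟨i₀, y₀, hx₀⟩ : ∃ i y, H.scal (G i) y < 0 := by
    by_contra hcon
    push Not at hcon
    apply hne
    unfold IS
    have : ∀ m, ENNReal.ofReal (max 0 (-scM C G m) ^ ((n : ℝ) / 2)) = 0 := by
      intro m
      obtain ⟨x, rfl⟩ := C.surj m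
      obtain ⟨γ, i, y, -, rfl⟩ := exists_chart C x
      have h1 : C.π (γ • C.ψ i y) = C.π (C.ψ i y) := ((C.orb _ _).2 ⟨γ, rfl⟩).symm
      rw [h1, scM_eq hG, max_eq_left (by linarith [hcon i y]), Real.zero_rpow hn0,
        ENNReal.ofReal_zero]
    simp only [this, lintegral_zero]
  obtain ⟨s₀, hs₀⟩ : ∃ s, s = H.scal (G i₀) y₀ := ⟨_, rfl⟩
  rw [← hs₀] at hx₀
  have hcont : Continuous (sX C G) := Ck_continuous C fun γ i => by
    rw [rep_sX hG]; exact (hcs i).of_le (by simp)
  have hcl : IsClopen {x : X | sX C G x = s₀} := by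
    refine ⟨isClosed_eq hcont continuous_const, ?_⟩
    rw [isOpen_iff_mem_nhds]
    intro x hx
    obtain ⟨γ, i, y, -, rfl⟩ := exists_chart C x
    have hx1 : H.scal (G i) y = s₀ := (sX_eq hG γ i y).symm.trans hx
    have hU : IsOpen {y : E n | H.scal (G i) y < 0} :=
      isOpen_lt (hcs i).continuous continuous_const
    obtain ⟨r, hr, hb⟩ := Metric.isOpen_iff.1 hU y (by
      show H.scal (G i) y < 0
      rw [hx1]; exact hx₀)
    have h1 : (fun z => γ • C.ψ i z) '' Metric.ball y r ∈ 𝓝 (γ • C.ψ i y) :=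
      (Int.isOpenEmbedding_chart C γ i).isOpenMap.image_mem_nhds (Metric.ball_mem_nhds y hr)
    refine Filter.mem_of_superset h1 ?_
    rintro _ ⟨z, hz, rfl⟩
    show sX C G (γ • C.ψ i z) = s₀
    rw [sX_eq hG, ← hx1]
    exact Metric.isOpen_ball.is_const_of_fderiv_eq_zero
      (convex_ball y r).isPreconnected ((hcs i).differentiable (by simp)).differentiableOn
      (fun z hz => hfd i z (hb hz)) hz (Metric.mem_ball_self hr)
  have huniv := hcl.eq_univ ⟨(1 : Γ) • C.ψ i₀ y₀, by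
    show sX C G _ = s₀
    rw [sX_eq hG, hs₀]⟩
  have hall : ∀ i y, H.scal (G i) y = s₀ := fun i y => by
    have : (1 : Γ) • C.ψ i y ∈ {x : X | sX C G x = s₀} := by rw [huniv]; trivial
    have h1 : sX C G ((1 : Γ) • C.ψ i y) = s₀ := this
    rwa [sX_eq hG] at h1
  refine ⟨-s₀, by linarith, fun i y => ⟨by rw [hall i y, neg_neg], fun a b => ?_⟩⟩
  have h3 := congrFun (congrFun (hein i y (by rw [hall i y]; exact hx₀)) a) b
  rw [Min.Rm_apply, Matrix.smul_apply, smul_eq_mul, hall i y] at h3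
  rw [h3]
  ring

end Vale.Agent.P223.X.X23
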