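import Vale.Agent.P223.X.Avg

/-! Phase 3, block X3: frames. -/

namespace Vale.Agent.P223.X.X3

open scoped ContDiff Topology Matrix
open MeasureTheory Metric Vale.Agent.P223.H Vale.Agent.P223.X.Avg

variable {n : ℕ} {M X Γ I : Type} [TopologicalSpace M] [TopologicalSpace X] [Group Γ]
    [MulAction Γ X]

/-! ### matrix lemmas -/

theorem contDiff_det {G : E n → Matrix (Fin n) (Fin n) ℝ}
    (hG : ∀ i j, ContDiff ℝ ∞ (fun x => G x i j)) : ContDiff ℝ ∞ fun x => (G x).det := by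
  simp only [Matrix.det_apply']
  exact ContDiff.sum fun s _ => contDiff_const.mul (contDiff_prod fun i _ => hG _ _)

theorem contDiff_inv {G : E n → Matrix (Fin n) (Fin n) ℝ}
    (hG : ∀ i j, ContDiff ℝ ∞ (fun x => G x i j)) (h0 : ∀ x, (G x).det ≠ 0) (i j : Fin n) :
    ContDiff ℝ ∞ (fun x => (G x)⁻¹ i j) := by
  have h : (fun x => (G x)⁻¹ i j) =
      fun x => ((G x).det)⁻¹ * ((G x).updateRow j (Pi.single i 1)).det := by
    funext p
    rw [Matrix.inv_def, Ring.inverse_eq_inv', Matrix.smul_apply, Matrix.adjugate_apply, smul_eq_mul]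
  rw [h]
  refine ((contDiff_det hG).inv h0).mul (contDiff_det fun k l => ?_)
  by_cases hk : k = j
  · subst hk
    simp only [Matrix.updateRow_self]
    exact contDiff_const
  · simp only [Matrix.updateRow_ne hk]
    exact hG k l

/-- global functions which are coordinates near every point -/
structure Crd (C : Cov n M X Γ I) where
  u : I → Fin n → X → ℝ
  smooth : ∀ i k, C.Ck ∞ (u i k)
  inv : ∀ i k (γ : Γ) x, u i k (γ • x) = u i k x
  eq : ∀ i k (γ : Γ) y, ‖y‖ < 1 → u i k (γ • C.ψ i y) = y k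

theorem exists_crd (C : Cov n M X Γ I) [Finite I] [T2Space X] : Nonempty (Crd C) := by
  let b : ContDiffBump (0 : E n) := ⟨1, 2, one_pos, one_lt_two⟩
  have hb : ContDiff ℝ ∞ b := b.contDiff
  have hs : ∀ k : Fin n, ContDiff ℝ ∞ fun y : E n => b y * y k := fun k =>
    hb.mul (contDiff_apply ℝ ℝ k)
  have hc : ∀ k : Fin n, HasCompactSupport fun y : E n => b y * y k := fun k =>
    b.hasCompactSupport.mul_right
  refine ⟨⟨fun i k => gav (fun _ : Γ => (1 : ℝ)) (C.ex i fun y => b y * y k), fun i k => ?_,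
    fun i k γ x => gav_one_inv _ γ x, fun i k γ y hy => ?_⟩⟩
  · exact Ck_gav C _ _ (hcs_ex C (hc k)) (Ck_ex C (hs k) (hc k))
  · have h1 : gav (fun _ : Γ => (1 : ℝ)) (C.ex i fun y => b y * y k) (γ • C.ψ i y) =
        (1 : ℝ) • C.ex i (fun y => b y * y k) (γ⁻¹ • γ • C.ψ i y) := by
      refine finsum_eq_single _ γ fun g hg => ?_
      have : g⁻¹ • γ • C.ψ i y ∉ Set.range (C.ψ i) := by
        rintro ⟨y', hy'⟩
        have := C.inj i (g⁻¹ * γ) y y' (by rw [mul_smul, hy'])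
        exact hg (inv_mul_eq_one.1 this)
      have h2 : C.ex i (fun y => b y * y k) (g⁻¹ • γ • C.ψ i y) = 0 := if_neg this
      rw [h2, smul_zero]
    rw [h1, inv_smul_smul, ex_ψ, one_smul, b.one_of_mem_closedBall, one_mul]
    rw [mem_closedBall, dist_zero_right]
    exact hy.le

section
variable {C : Cov n M X Γ I} (U : Crd C)

/-- the forms -/
noncomputable def th (j : I × Fin n) (i : I) (y : E n) : E n →L[ℝ] ℝ :=
  fderiv ℝ (C.rep (U.u j.1 j.2) 1 i) y

/-- components of the forms -/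
noncomputable def tv (j : I × Fin n) (i : I) (y : E n) : E n := fun a =>
  th U j i y (Pi.single a 1)

theorem th_smooth (j : I × Fin n) (i : I) : ContDiff ℝ ∞ (th U j i) :=
  (U.smooth j.1 j.2 1 i).fderiv_right (m := ∞) (by simp)

theorem tv_smooth (j : I × Fin n) (i : I) (a : Fin n) : ContDiff ℝ ∞ fun y => tv U j i y a :=
  (th_smooth U j i).clm_apply contDiff_const

theorem th_eq (j : I × Fin n) (i : I) (y w : E n) : th U j i y w = tv U j i y ⬝ᵥ w := by
  have e5 : w = ∑ k, w k • (Pi.single k (1 : ℝ) : E n) := by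
    ext j
    simp [Finset.sum_apply, Pi.single_apply]
  conv_lhs => rw [e5, map_sum]
  simp only [map_smul, smul_eq_mul, dotProduct]
  exact Finset.sum_congr rfl fun a _ => mul_comm _ _

theorem rep_inv (j : I × Fin n) (i : I) (γ : Γ) :
    C.rep (U.u j.1 j.2) γ i = C.rep (U.u j.1 j.2) 1 i := by
  funext y
  show U.u j.1 j.2 (γ • C.ψ i y) = U.u j.1 j.2 ((1 : Γ) • C.ψ i y)
  rw [U.inv, U.inv]

theorem th_inv (j : I × Fin n) (i i' : I) (γ : Γ) (y : E n) (hy : y ∈ C.dom i i' γ) (w : E n) :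
    th U j i' (C.tr i i' γ y) (fderiv ℝ (C.tr i i' γ) y w) = th U j i y w := by
  have h1 := rep_tr_eventually C (U.u j.1 j.2) hy 1
  rw [rep_inv] at h1
  unfold th
  rw [h1.fderiv_eq]
  have h2 : DifferentiableAt ℝ (C.rep (U.u j.1 j.2) 1 i') (C.tr i i' γ y) :=
    (U.smooth j.1 j.2 1 i').differentiable (by simp) _
  have h3 : DifferentiableAt ℝ (C.tr i i' γ) y := (contDiffAt_tr C hy).differentiableAt (by simp)
  have h4 : fderiv ℝ (fun z => C.rep (U.u j.1 j.2) 1 i' (C.tr i i' γ z)) y =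
      (fderiv ℝ (C.rep (U.u j.1 j.2) 1 i') (C.tr i i' γ y)).comp (fderiv ℝ (C.tr i i' γ) y) :=
    fderiv_comp y h2 h3
  rw [h4]
  rfl

/-- the differentials span -/
theorem th_span (i : I) (y w : E n) (h : ∀ j, th U j i y w = 0) : w = 0 := by
  obtain ⟨γ, i0, z, hz, hx⟩ := exists_chart C (C.ψ i y)
  have h1 : γ⁻¹ • C.ψ i y = C.ψ i0 z := by rw [← hx, inv_smul_smul]
  obtain ⟨hd, htr⟩ := mem_dom C h1
  have hc : ContinuousAt (C.tr i i0 γ⁻¹) y := (contDiffAt_tr C hd).continuousAt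
  have h2 : ∀ᶠ y' in 𝓝 y, ‖C.tr i i0 γ⁻¹ y'‖ < 1 := by
    have : Filter.Tendsto (fun y' => ‖C.tr i i0 γ⁻¹ y'‖) (𝓝 y) (𝓝 ‖C.tr i i0 γ⁻¹ y‖) := hc.norm
    refine this.eventually (gt_mem_nhds ?_)
    rwa [htr]
  have h3 : ∀ k, C.rep (U.u i0 k) 1 i =ᶠ[𝓝 y] fun y' => C.tr i i0 γ⁻¹ y' k := by
    intro k
    filter_upwards [h2, (isOpen_dom C i i0 γ⁻¹).mem_nhds hd] with y' h4 h5
    show U.u i0 k ((1 : Γ) • C.ψ i y') = _
    have h6 := tr_spec C h5
    rw [U.inv, ← U.inv i0 k γ⁻¹ (C.ψ i y'), ← h6, ← U.inv i0 k γ, U.eq i0 k γ _ h4]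
  have hdiff : DifferentiableAt ℝ (C.tr i i0 γ⁻¹) y :=
    (contDiffAt_tr C hd).differentiableAt (by simp)
  have h4 : fderiv ℝ (C.tr i i0 γ⁻¹) y w = 0 := by
    funext k
    have h5 := h (i0, k)
    unfold th at h5
    rw [(h3 k).fderiv_eq, fderiv_apply hdiff k] at h5
    exact h5
  have h5 := fderiv_tr_inv C hd w
  rw [h4, map_zero] at h5
  exact h5.symm

variable [Fintype I]

/-- the Gram matrix -/
noncomputable def Gm (i : I) (y : E n) : Matrix (Fin n) (Fin n) ℝ :=
  Matrix.of fun a b => ∑ j : I × Fin n, tv U j i y a * tv U j i y b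

theorem Gm_smooth (i : I) (a b : Fin n) : ContDiff ℝ ∞ fun y => Gm U i y a b := by
  show ContDiff ℝ ∞ fun y => ∑ j : I × Fin n, tv U j i y a * tv U j i y b
  exact ContDiff.sum fun j _ => (tv_smooth U j i a).mul (tv_smooth U j i b)

theorem Gm_mulVec (i : I) (y w : E n) : Gm U i y *ᵥ w = ∑ j, th U j i y w • tv U j i y := by
  funext a
  simp only [Matrix.mulVec, dotProduct, Gm, Matrix.of_apply, Finset.sum_apply, Pi.smul_apply,
    smul_eq_mul, th_eq, Finset.sum_mul]
  rw [Finset.sum_comm]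
  exact Finset.sum_congr rfl fun j _ => Finset.sum_congr rfl fun b _ => by ring

theorem Gm_symm (i : I) (y : E n) : (Gm U i y)ᵀ = Gm U i y := by
  ext a b
  simp only [Matrix.transpose_apply, Gm, Matrix.of_apply]
  exact Finset.sum_congr rfl fun j _ => mul_comm _ _

theorem Gm_quad (i : I) (y w : E n) : w ⬝ᵥ (Gm U i y *ᵥ w) = ∑ j, th U j i y w ^ 2 := by
  rw [Gm_mulVec, dotProduct_sum]
  refine Finset.sum_congr rfl fun j _ => ?_
  rw [dotProduct_smul, dotProduct_comm, ← th_eq, smul_eq_mul, sq]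

theorem Gm_det (i : I) (y : E n) : (Gm U i y).det ≠ 0 := by
  intro h0
  obtain ⟨w, hw, hw'⟩ := Matrix.exists_mulVec_eq_zero_iff.2 h0
  apply hw
  have h1 := Gm_quad U i y w
  rw [hw', dotProduct_zero] at h1
  have h2 := (Finset.sum_eq_zero_iff_of_nonneg fun j _ => sq_nonneg (th U j i y w)).1 h1.symm
  exact th_span U i y w fun j => by simpa using h2 j (Finset.mem_univ j)

/-- the vector fields -/
noncomputable def V (j : I × Fin n) (i : I) (y : E n) : E n := (Gm U i y)⁻¹ *ᵥ tv U j i y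

theorem V_smooth (j : I × Fin n) (i : I) : ContDiff ℝ ∞ (V U j i) := by
  refine contDiff_pi.2 fun a => ?_
  show ContDiff ℝ ∞ fun y => ∑ b, (Gm U i y)⁻¹ a b * tv U j i y b
  exact ContDiff.sum fun b _ => (contDiff_inv (Gm_smooth U i) (Gm_det U i) a b).mul
    (tv_smooth U j i b)

theorem dual (i : I) (y w : E n) : ∑ j, th U j i y w • V U j i y = w := by
  have h1 : ∑ j, th U j i y w • V U j i y = (Gm U i y)⁻¹ *ᵥ (Gm U i y *ᵥ w) := by
    rw [Gm_mulVec, Matrix.mulVec_sum]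
    exact Finset.sum_congr rfl fun j _ => (Matrix.mulVec_smul _ _ _).symm
  rw [h1, Matrix.mulVec_mulVec, Matrix.nonsing_inv_mul _ (Gm_det U i y).isUnit, Matrix.one_mulVec]

theorem pairing (j : I × Fin n) (i : I) (y w : E n) :
    ∑ j', th U j' i y (V U j i y) * th U j' i y w = th U j i y w := by
  have h1 : ∑ j', th U j' i y (V U j i y) * th U j' i y w =
      V U j i y ⬝ᵥ (Gm U i y *ᵥ w) := by
    rw [Gm_mulVec, dotProduct_sum]
    refine Finset.sum_congr rfl fun j' _ => ?_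
    rw [dotProduct_smul, dotProduct_comm, ← th_eq, smul_eq_mul, mul_comm]
  have h2 : (Gm U i y)⁻¹ᵀ = (Gm U i y)⁻¹ := by rw [Matrix.transpose_nonsing_inv, Gm_symm]
  rw [h1, V, ← h2, Matrix.mulVec_transpose, ← Matrix.dotProduct_mulVec, Matrix.mulVec_mulVec,
    Matrix.nonsing_inv_mul _ (Gm_det U i y).isUnit, Matrix.one_mulVec, th_eq]

theorem V_inv (j : I × Fin n) (i i' : I) (γ : Γ) (y : E n) (hy : y ∈ C.dom i i' γ) :
    V U j i' (C.tr i i' γ y) = fderiv ℝ (C.tr i i' γ) y (V U j i y) := by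
  set y' := C.tr i i' γ y with hy'
  set D := fderiv ℝ (C.tr i i' γ) y with hD
  set d : E n := D (V U j i y) - V U j i' y' with hd
  -- surjectivity
  obtain ⟨w, hw⟩ : ∃ w, D w = d := by
    have h1 : Function.Injective (D : E n →ₗ[ℝ] E n) := by
      refine (injective_iff_map_eq_zero _).2 fun w hw => ?_
      have := fderiv_tr_inv C hy w
      rw [← this]
      have h2 : fderiv ℝ (C.tr i i' γ) y w = 0 := hw
      rw [h2, map_zero]
    exact LinearMap.injective_iff_surjective.1 h1 d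
  have h1 : ∑ j', th U j' i' y' d * th U j' i' y' (D w) = 0 := by
    have e1 : ∀ j', th U j' i' y' d * th U j' i' y' (D w) =
        th U j' i y (V U j i y) * th U j' i y w -
          th U j' i' y' (V U j i' y') * th U j' i' y' (D w) := by
      intro j'
      rw [hd, map_sub, sub_mul, th_inv U j' i i' γ y hy, th_inv U j' i i' γ y hy]
    simp only [e1]
    rw [Finset.sum_sub_distrib, pairing, pairing, th_inv U j i i' γ y hy, sub_self]
  rw [hw] at h1
  have h2 := (Finset.sum_eq_zero_iff_of_nonneg fun j' _ =>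
    mul_self_nonneg (th U j' i' y' d)).1 h1
  have h3 : d = 0 := th_span U i' y' d fun j' => by simpa using h2 j' (Finset.mem_univ j')
  exact (sub_eq_zero.1 h3).symm

/-- the frame -/
noncomputable def fr : FrX C (I × Fin n) where
  V := V U
  th := th U
  V_smooth := V_smooth U
  th_smooth := th_smooth U
  V_inv := V_inv U
  th_inv j i i' γ y hy w := th_inv U j i i' γ y hy w
  dual := dual U

end

theorem main : SpecFrX := by
  intro n M X Γ I _ _ _ _ _ _ C
  obtain ⟨U⟩ := exists_crd C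
  exact ⟨I × Fin n, inferInstance, ⟨fr U⟩⟩

end Vale.Agent.P223.X.X3
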