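import Vale.Agent.P223.X.Avg

/-! Phase 3, block X5: weights. -/

namespace Vale.Agent.P223.X.X5

open scoped ContDiff Topology ENNReal
open MeasureTheory Metric Vale.Agent.P223.H Vale.Agent.P223.X.Avg
open Vale.Agent.P223.H.Weight1 (Adm)

variable {n : ℕ} {M X Γ I : Type} [TopologicalSpace M] [TopologicalSpace X] [Group Γ]
    [MulAction Γ X]

/-! ### jets -/

section jets
variable {J : Type} [Fintype J] (Fr : Frame n T1 J)

theorem prol_smooth {ι : Type} {u : E n → ι → ℝ} (hu : ∀ i, ContDiff ℝ ∞ fun x => u x i)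
    (p : Option J × ι) : ContDiff ℝ ∞ fun x => prol Fr u x p := by
  obtain ⟨_ | j, i⟩ := p
  · exact hu i
  · exact ((hu i).fderiv_right (m := ∞) (by simp)).clm_apply (Fr.V_smooth j)

theorem NN_smooth (m : ℕ) : ∀ (ι : Type) [Fintype ι] (u : E n → ι → ℝ),
    (∀ i, ContDiff ℝ ∞ fun x => u x i) → ContDiff ℝ ∞ (NN Fr m ι u) := by
  induction m with
  | zero =>
    intro ι _ u hu
    show ContDiff ℝ ∞ fun x => ∑ i, u x i ^ 2
    exact ContDiff.sum fun i _ => (hu i).pow 2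
  | succ m ih =>
    intro ι _ u hu
    exact ih (Option J × ι) (prol Fr u) (prol_smooth Fr hu)

theorem NN_nonneg (m : ℕ) : ∀ (ι : Type) [Fintype ι] (u : E n → ι → ℝ)
    (x : E n), 0 ≤ NN Fr m ι u x := by
  induction m with
  | zero => intro ι _ u x; exact Finset.sum_nonneg fun i _ => sq_nonneg _
  | succ m ih => intro ι _ u x; exact ih (Option J × ι) (prol Fr u) x

theorem NN_congr (m : ℕ) : ∀ (ι : Type) [Fintype ι] (u v : E n → ι → ℝ) (x : E n),
    u =ᶠ[𝓝 x] v → NN Fr m ι u =ᶠ[𝓝 x] NN Fr m ι v := by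
  induction m with
  | zero =>
    intro ι _ u v x h
    filter_upwards [h] with y hy
    show ∑ i, u y i ^ 2 = ∑ i, v y i ^ 2
    rw [hy]
  | succ m ih =>
    intro ι _ u v x h
    refine ih (Option J × ι) (prol Fr u) (prol Fr v) x ?_
    filter_upwards [h.eventuallyEq_nhds] with y hy
    funext p
    obtain ⟨_ | j, i⟩ := p
    · show u y i = v y i
      rw [hy.self_of_nhds]
    · show fderiv ℝ (fun z => u z i) y (Fr.V j y) = fderiv ℝ (fun z => v z i) y (Fr.V j y)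
      have : (fun z => u z i) =ᶠ[𝓝 y] fun z => v z i := by
        filter_upwards [hy] with z hz
        rw [hz]
      rw [this.fderiv_eq]

theorem NN_sum {K : Type} (s : Finset K) (c : K → ℝ) (m : ℕ) : ∀ (ι : Type) [Fintype ι]
    (u : K → E n → ι → ℝ), (∀ k i, ContDiff ℝ ∞ fun x => u k x i) → ∀ x,
    NN Fr m ι (fun y i => ∑ k ∈ s, c k * u k y i) x ≤ (∑ k ∈ s, c k ^ 2) *
      ∑ k ∈ s, NN Fr m ι (u k) x := by
  induction m with
  | zero =>
    intro ι _ u hu x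
    show ∑ i, (∑ k ∈ s, c k * u k x i) ^ 2 ≤ (∑ k ∈ s, c k ^ 2) * ∑ k ∈ s, ∑ i, u k x i ^ 2
    rw [Finset.sum_comm, Finset.mul_sum]
    exact Finset.sum_le_sum fun i _ => Finset.sum_mul_sq_le_sq_mul_sq s c fun k => u k x i
  | succ m ih =>
    intro ι _ u hu x
    have h1 := ih (Option J × ι) (fun k => prol Fr (u k)) (fun k p => prol_smooth Fr (hu k) p) x
    have h2 : prol Fr (fun y i => ∑ k ∈ s, c k * u k y i) =
        fun y p => ∑ k ∈ s, c k * prol Fr (u k) y p := by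
      funext y p
      obtain ⟨_ | j, i⟩ := p
      · rfl
      · show fderiv ℝ (fun z => ∑ k ∈ s, c k * u k z i) y (Fr.V j y) =
          ∑ k ∈ s, c k * fderiv ℝ (fun z => u k z i) y (Fr.V j y)
        have : HasFDerivAt (fun z => ∑ k ∈ s, c k * u k z i)
            (∑ k ∈ s, c k • fderiv ℝ (fun z => u k z i) y) y :=
          HasFDerivAt.fun_sum fun k _ =>
            ((hu k i).differentiable (by simp) y).hasFDerivAt.const_mul (c k)
        rw [this.fderiv]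
        simp
    show NN Fr m (Option J × ι) (prol Fr fun y i => ∑ k ∈ s, c k * u k y i) x ≤ _
    rw [h2]
    exact h1

theorem jet_sum {K : Type} (s : Finset K) (c : K → ℝ) (f : K → E n → ℝ)
    (hf : ∀ k, ContDiff ℝ ∞ (f k)) (x : E n) :
    jet Fr (fun y => ∑ k ∈ s, c k * f k y) x ≤ (∑ k ∈ s, c k ^ 2) *
      ∑ k ∈ s, jet Fr (f k) x :=
  NN_sum Fr s c 4 Unit (fun k y _ => f k y) (fun k _ => hf k) x

theorem jet_congr {f g : E n → ℝ} {x : E n} (h : f =ᶠ[𝓝 x] g) : jet Fr f x = jet Fr g x :=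
  (NN_congr Fr 4 Unit (fun x _ => f x) (fun x _ => g x) x
    (by filter_upwards [h] with y hy; rw [hy])).self_of_nhds

theorem jet_smooth {f : E n → ℝ} (hf : ContDiff ℝ ∞ f) : ContDiff ℝ ∞ (jet Fr f) :=
  NN_smooth Fr 4 Unit _ fun _ => hf

end jets

/-- the core of `X` -/
def core (C : Cov n M X Γ I) (R : ℝ) : Set X := ⋃ i, C.ψ i '' {y : E n | ‖y‖ ≤ R}

theorem mem_core (C : Cov n M X Γ I) {R : ℝ} {i : I} {y : E n} (h : ‖y‖ ≤ R) :
    C.ψ i y ∈ core C R := Set.mem_iUnion.2 ⟨i, y, h, rfl⟩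

section
variable (C : Cov n M X Γ I) [Finite I] [T2Space X] {φ : X → ℝ} (hc : HasCompactSupport φ)
  (h0 : ∀ x, 0 ≤ φ x) (h1 : ∀ x, gav (fun _ : Γ => (1 : ℝ)) φ x = 1) {a : Γ → ℝ} (ha : Adm a)
include C hc h0 h1 ha

/-- An admissible weight is comparable to its average. -/
theorem comparable {K : Set X} (hK : IsCompact K) : ∃ c : ℝ, 0 < c ∧ ∀ (g : Γ), ∀ y ∈ K,
      a g ≤ c * gav a φ (g • y) ∧ gav a φ (g • y) ≤ c * a g := by
  obtain ⟨H, hH⟩ := fold C φ hc (subset_tsupport φ) hK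
  obtain ⟨c, hc', hC'⟩ := ha.fin H
  have hone : ∀ y ∈ K, ∑ s ∈ H, φ (s⁻¹ • y) = 1 := by
    intro y hy
    have h2 := hH (fun _ => 1) 1 y hy
    simp only [one_smul] at h2
    rw [← h2, h1 y]
  refine ⟨c, hc', fun g y hy => ?_⟩
  rw [hH a g y hy]
  constructor
  · calc a g = ∑ s ∈ H, a g * φ (s⁻¹ • y) := by rw [← Finset.mul_sum, hone y hy, mul_one]
      _ ≤ ∑ s ∈ H, (c * a (g * s)) * φ (s⁻¹ • y) :=
        Finset.sum_le_sum fun s hs => mul_le_mul_of_nonneg_right (hC' s hs g).2 (h0 _)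
      _ = c * ∑ s ∈ H, a (g * s) • φ (s⁻¹ • y) := by
        rw [Finset.mul_sum]
        exact Finset.sum_congr rfl fun s _ => by rw [smul_eq_mul]; ring
  · calc ∑ s ∈ H, a (g * s) • φ (s⁻¹ • y) ≤ ∑ s ∈ H, (c * a g) * φ (s⁻¹ • y) :=
        Finset.sum_le_sum fun s hs => mul_le_mul_of_nonneg_right (hC' s hs g).1 (h0 _)
      _ = c * a g := by rw [← Finset.mul_sum, hone y hy, mul_one]

theorem gav_pos (x : X) : 0 < gav a φ x := by
  obtain ⟨c, hc', h⟩ := comparable C hc h0 h1 ha (isCompact_singleton (x := x))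
  have := (h 1 x rfl).1
  rw [one_smul] at this
  exact pos_of_mul_pos_right ((ha.pos 1).trans_le this) hc'.le

/-- the jets of the averages -/
theorem jet_le {J : Type} [Fintype J] (F : FrX C J) (hs : C.Ck ∞ φ) :
    ∃ c : ℝ, 0 < c ∧ ∀ x, jetX F (gav a φ) x ≤ c * (gav a φ x) ^ 2 := by
  have hK : IsCompact (core C 1) := isCompact_core C 1
  obtain ⟨H, hH⟩ := fold C φ hc (subset_tsupport φ) hK
  obtain ⟨c, hc', hC'⟩ := ha.fin H
  obtain ⟨c₂, hc₂, hC₂⟩ := comparable C hc h0 h1 ha hK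
  have hb : ∀ i : I, ∃ B : ℝ, ∀ y ∈ closedBall (0 : E n) 1,
      ‖∑ s ∈ H, jet (F.loc i) (C.rep φ s⁻¹ i) y‖ ≤ B := by
    intro i
    refine (isCompact_closedBall (0 : E n) 1).exists_bound_of_continuousOn
      (Continuous.continuousOn ?_)
    exact continuous_finsetSum _ fun s _ => (jet_smooth (F.loc i) (hs s⁻¹ i)).continuous
  choose B hB using hb
  have hB0 : ∀ i, 0 ≤ B i := fun i => (norm_nonneg _).trans (hB i 0 (by simp))
  have := Fintype.ofFinite I
  refine ⟨(∑ _s ∈ H, c ^ 2) * (∑ i, B i) * c₂ ^ 2 + 1, ?_, fun x => ?_⟩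
  · have h1 : 0 ≤ ∑ _s ∈ H, c ^ 2 := Finset.sum_nonneg fun _ _ => sq_nonneg _
    have h2 : 0 ≤ ∑ i, B i := Finset.sum_nonneg fun i _ => hB0 i
    positivity
  obtain ⟨γ, i, y, hy, rfl⟩ := exists_chart C x
  have hCk : C.Ck ∞ (gav a φ) := Ck_gav C a φ hc hs
  have hCk4 : C.Ck 4 (gav a φ) := fun γ i => (hCk γ i).of_le
    (show ((4 : ℕ∞) : WithTop ℕ∞) ≤ ((⊤ : ℕ∞) : WithTop ℕ∞) from mod_cast le_top)
  rw [jetX_eq F hCk4]
  have he : C.rep (gav a φ) γ i =ᶠ[𝓝 y] fun z => ∑ s ∈ H, a (γ * s) * C.rep φ s⁻¹ i z := by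
    have : {z : E n | ‖z‖ < 1} ∈ 𝓝 y := (isOpen_lt continuous_norm continuous_const).mem_nhds hy
    filter_upwards [this] with z hz
    exact hH a γ (C.ψ i z) (mem_core C (le_of_lt hz))
  rw [jet_congr (F.loc i) he]
  refine (jet_sum (F.loc i) H (fun s => a (γ * s)) (fun s => C.rep φ s⁻¹ i)
    (fun s => hs s⁻¹ i) y).trans ?_
  have ha' := ha.pos γ
  have h2 : ∑ s ∈ H, a (γ * s) ^ 2 ≤ (∑ _s ∈ H, c ^ 2) * a γ ^ 2 := by
    rw [Finset.sum_mul]
    refine Finset.sum_le_sum fun s hs => ?_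
    rw [← mul_pow]
    exact pow_le_pow_left₀ (ha.pos _).le (hC' s hs γ).1 2
  have h3 : ∑ s ∈ H, jet (F.loc i) (C.rep φ s⁻¹ i) y ≤ ∑ i, B i := by
    refine ((le_abs_self _).trans (hB i y ?_)).trans
      (Finset.single_le_sum (f := B) (fun i _ => hB0 i) (Finset.mem_univ i))
    rw [mem_closedBall, dist_zero_right]; exact hy.le
  have h4 : 0 ≤ ∑ i, B i := Finset.sum_nonneg fun i _ => hB0 i
  have h5 : 0 ≤ ∑ _s ∈ H, c ^ 2 := Finset.sum_nonneg fun _ _ => sq_nonneg _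
  have h6 : a γ ^ 2 ≤ c₂ ^ 2 * gav a φ (γ • C.ψ i y) ^ 2 := by
    rw [← mul_pow]
    exact pow_le_pow_left₀ ha'.le (hC₂ γ (C.ψ i y) (mem_core C hy.le)).1 2
  have h7 : 0 ≤ gav a φ (γ • C.ψ i y) ^ 2 := sq_nonneg _
  calc (∑ s ∈ H, a (γ * s) ^ 2) * ∑ s ∈ H, jet (F.loc i) (C.rep φ s⁻¹ i) y
      ≤ ((∑ _s ∈ H, c ^ 2) * a γ ^ 2) * ∑ i, B i := by
        refine mul_le_mul h2 h3 ?_ (by positivity)
        refine Finset.sum_nonneg fun s _ => ?_
        show 0 ≤ NN _ 4 Unit _ y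
        exact NN_nonneg _ 4 Unit _ y
    _ = ((∑ _s ∈ H, c ^ 2) * ∑ i, B i) * a γ ^ 2 := by ring
    _ ≤ ((∑ _s ∈ H, c ^ 2) * ∑ i, B i) * (c₂ ^ 2 * gav a φ (γ • C.ψ i y) ^ 2) :=
      mul_le_mul_of_nonneg_left h6 (by positivity)
    _ ≤ _ := by nlinarith

omit h0 ha in
theorem hasSum_gav (hsum : HasSum a 1) (x : X) : HasSum (fun γ : Γ => gav a φ (γ • x)) 1 := by
  obtain ⟨H, hH⟩ := fold C φ hc (subset_tsupport φ) (isCompact_singleton (x := x))
  have hone : ∑ s ∈ H, φ (s⁻¹ • x) = 1 := by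
    have h2 := hH (fun _ => 1) 1 x rfl
    simp only [one_smul] at h2
    rw [← h2, h1 x]
  have h3 : HasSum (fun γ : Γ => ∑ s ∈ H, a (γ * s) * φ (s⁻¹ • x))
      (∑ s ∈ H, 1 * φ (s⁻¹ • x)) := by
    refine hasSum_sum fun s _ => ?_
    exact HasSum.mul_right _ ((Equiv.mulRight s).hasSum_iff.2 hsum)
  simp only [one_mul, hone] at h3
  convert h3 using 2 with γ
  rw [hH a γ x rfl]
  rfl

/-- integrability -/
theorem integ [Countable Γ] [MeasurableSpace X] [BorelSpace X] (hs : C.Ck ∞ φ)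
    (hsum : Summable a) {G : I → E n → Matrix (Fin n) (Fin n) ℝ} (hG : MetX C G)
    {μ : Measure X} (hμ : VolX C G μ) : Integrable (gav a φ) μ := by
  have hCk : C.Ck ∞ (gav a φ) := Ck_gav C a φ hc hs
  have hcW : Continuous (gav a φ) := Ck_continuous C fun γ i => (hCk γ i).of_le (by simp)
  refine ⟨hcW.measurable.aestronglyMeasurable, ?_⟩
  have hpos := gav_pos C hc h0 h1 ha
  rw [hasFiniteIntegral_iff_ofReal (Filter.Eventually.of_forall fun x => (hpos x).le)]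
  have hK : IsCompact (core C 1) := isCompact_core C 1
  obtain ⟨c, hc', hC⟩ := comparable C hc h0 h1 ha hK
  let S : Γ × I → Set X := fun p => (fun y => p.1 • C.ψ p.2 y) '' closedBall (0 : E n) 1
  have hS : ∀ p, MeasurableSet (S p) := fun p =>
    ((isCompact_closedBall (0 : E n) 1).image
      ((C.cont p.1).comp (C.emb p.2).continuous)).isClosed.measurableSet
  have hcov : (⋃ p, S p) = Set.univ := by
    refine Set.eq_univ_of_forall fun x => ?_
    obtain ⟨γ, i, y, hy, rfl⟩ := exists_chart C x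
    refine Set.mem_iUnion.2 ⟨(γ, i), y, ?_, rfl⟩
    rw [mem_closedBall, dist_zero_right]; exact hy.le
  let D : I → ℝ≥0∞ := fun i => ∫⁻ y in closedBall (0 : E n) 1, ENNReal.ofReal (dens (G i) y)
  have hD : ∀ i, D i < ⊤ := by
    intro i
    have hcd : Continuous fun x => dens (G i) x := by
      have : Continuous fun x => (G i x) :=
        continuous_matrix fun a b => (hG.smooth i a b).continuous
      exact Real.continuous_sqrt.comp (Continuous.matrix_det this)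
    have := (hcd.continuousOn (s := closedBall (0 : E n) 1)).integrableOn_compact (μ := volume)
      (isCompact_closedBall (0 : E n) 1)
    exact (hasFiniteIntegral_iff_ofReal (Filter.Eventually.of_forall fun x =>
      Real.sqrt_nonneg _)).1 this.2
  have hint : ∀ p : Γ × I, ∫⁻ x in S p, ENNReal.ofReal (gav a φ x) ∂μ ≤
      ENNReal.ofReal (c * a p.1) * D p.2 := by
    intro p
    calc ∫⁻ x in S p, ENNReal.ofReal (gav a φ x) ∂μ
        ≤ ∫⁻ x in S p, ENNReal.ofReal (c * a p.1) ∂μ := by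
          refine setLIntegral_mono' (hS p) fun x hx => ?_
          obtain ⟨y, hy, rfl⟩ := hx
          refine ENNReal.ofReal_le_ofReal ?_
          rw [mem_closedBall, dist_zero_right] at hy
          exact (hC p.1 (C.ψ p.2 y) (mem_core C hy)).2
      _ = ENNReal.ofReal (c * a p.1) * μ (S p) := setLIntegral_const _ _
      _ = _ := by
          rw [show μ (S p) = D p.2 from hμ p.1 p.2 _ isClosed_closedBall.measurableSet]
  have := Fintype.ofFinite I
  calc ∫⁻ x, ENNReal.ofReal (gav a φ x) ∂μ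
      = ∫⁻ x in ⋃ p, S p, ENNReal.ofReal (gav a φ x) ∂μ := by
        rw [hcov, Measure.restrict_univ]
    _ ≤ ∑' p : Γ × I, ∫⁻ x in S p, ENNReal.ofReal (gav a φ x) ∂μ := lintegral_iUnion_le _ _
    _ ≤ ∑' p : Γ × I, ENNReal.ofReal (c * a p.1) * D p.2 := ENNReal.tsum_le_tsum hint
    _ = (∑' γ : Γ, ENNReal.ofReal (c * a γ)) * ∑ i, D i := by
        refine (ENNReal.tsum_prod (f := fun γ i => ENNReal.ofReal (c * a γ) * D i)).trans ?_
        simp only [tsum_fintype, ← Finset.mul_sum]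
        exact ENNReal.tsum_mul_right
    _ < ⊤ := by
        refine ENNReal.mul_lt_top ?_ (ENNReal.sum_lt_top.2 fun i _ => hD i)
        rw [← ENNReal.ofReal_tsum_of_nonneg
          (fun γ => mul_nonneg hc'.le (ha.pos γ).le) (hsum.mul_left c)]
        exact ENNReal.ofReal_lt_top

end

/-- the function `φ` of a partition of unity -/
noncomputable def phi (C : Cov n M X Γ I) [Fintype I] (χ : I → E n → ℝ) (x : X) : ℝ :=
  ∑ i, C.ex i (χ i) x

section
variable {C : Cov n M X Γ I} [Fintype I] [T2Space X] {χ : I → E n → ℝ} (hP : Part C χ)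
include hP

omit [T2Space X] in
theorem hcs_chi (i : I) : HasCompactSupport (χ i) := by
  refine HasCompactSupport.of_support_subset_isCompact (isCompact_closedBall (0 : E n) 2)
    fun y hy => ?_
  rw [mem_closedBall, dist_zero_right]
  by_contra h
  exact hy (hP.supp i y (not_le.1 h).le)

theorem phi_hcs : HasCompactSupport (phi C χ) := by
  have h : IsCompact (⋃ i, tsupport (C.ex i (χ i))) :=
    isCompact_iUnion fun i => hcs_ex C (hcs_chi hP i)
  refine HasCompactSupport.of_support_subset_isCompact h fun x hx => ?_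
  by_contra h0
  apply hx
  refine Finset.sum_eq_zero fun i _ => ?_
  by_contra h2
  exact h0 (Set.mem_iUnion.2 ⟨i, subset_tsupport _ h2⟩)

omit [T2Space X] in
theorem phi_nonneg (x : X) : 0 ≤ phi C χ x :=
  Finset.sum_nonneg fun i _ => ex_nonneg C i (hP.nonneg i) x

theorem phi_Ck : C.Ck ∞ (phi C χ) := fun γ i => by
  show ContDiff ℝ ∞ fun y => ∑ j, C.ex j (χ j) (γ • C.ψ i y)
  exact ContDiff.sum fun j _ => Ck_ex C (hP.smooth j) (hcs_chi hP j) γ i

theorem phi_sum (x : X) : gav (fun _ : Γ => (1 : ℝ)) (phi C χ) x = 1 := by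
  have hfin : ∀ i : I, (Function.support fun g : Γ => C.ex i (χ i) (g⁻¹ • x)).Finite := by
    intro i
    have := properX' C (K := tsupport (C.ex i (χ i))) (K' := {x}) (hcs_ex C (hcs_chi hP i))
      isCompact_singleton
    refine this.subset fun g hg => ⟨g⁻¹ • x, subset_tsupport _ hg, ?_⟩
    simp
  have h2 : gav (fun _ : Γ => (1 : ℝ)) (phi C χ) x =
      ∑ i, ∑ᶠ g : Γ, C.ex i (χ i) (g⁻¹ • x) := by
    unfold gav phi
    simp only [one_smul]
    exact finsum_sum_comm Finset.univ (fun (g : Γ) i => C.ex i (χ i) (g⁻¹ • x))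
      fun i _ => hfin i
  rw [h2, ← hP.sum x]
  refine Finset.sum_congr rfl fun i _ => ?_
  exact finsum_eq_of_bijective (fun g => g⁻¹) (Equiv.inv Γ).bijective fun g => rfl

end

theorem main (hPart : SpecPart) (hVol : SpecVol) (hBdd : SpecBddL) : SpecWtX := by
  intro n M X Γ I _ _ _ _ _ _ _ _ _ _ C G J _ F μ hG hμ
  obtain ⟨χ, hP⟩ := hPart n M X Γ I C
  have hcount : Countable Γ := by
    let _ : MeasurableSpace M := borel M
    have : BorelSpace M := ⟨rfl⟩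
    exact (hVol n M X Γ I C G hG).1
  set φ := phi C χ with hφ
  have hc : HasCompactSupport φ := phi_hcs hP
  have hs : C.Ck ∞ φ := phi_Ck hP
  have h0 : ∀ x, 0 ≤ φ x := phi_nonneg hP
  have h1 : ∀ x, gav (fun _ : Γ => (1 : ℝ)) φ x = 1 := phi_sum hP
  obtain ⟨a, hpos, hsum, hq⟩ := Weight1.exists_weight (Γ := Γ)
  have ha : Adm a := ⟨hpos, hq⟩
  have hb : Adm (fun g => a g ^ 2) := ha.sq
  obtain ⟨C₁, hC₁, hC₁'⟩ := jet_le C hc h0 h1 ha F hs
  obtain ⟨C₂, hC₂, hC₂'⟩ := jet_le C hc h0 h1 hb F hs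
  obtain ⟨C₃, hC₃, hC₃'⟩ := comparable C hc h0 h1 ha (isCompact_core C 1)
  obtain ⟨C₄, hC₄, hC₄'⟩ := comparable C hc h0 h1 hb (isCompact_core C 1)
  set W := gav a φ with hWdef
  set U := gav (fun g => a g ^ 2) φ with hUdef
  have hWpos : ∀ x, 0 < W x := gav_pos C hc h0 h1 ha
  have hUpos : ∀ x, 0 < U x := gav_pos C hc h0 h1 hb
  have e1 : ∀ x, U x ≤ C₄ * C₃ ^ 2 * W x ^ 2 := by
    intro x
    obtain ⟨γ, i, y, hy, rfl⟩ := exists_chart C x
    have hm : C.ψ i y ∈ core C 1 := mem_core C hy.le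
    calc U (γ • C.ψ i y) ≤ C₄ * a γ ^ 2 := (hC₄' γ _ hm).2
      _ ≤ C₄ * (C₃ * W (γ • C.ψ i y)) ^ 2 :=
        mul_le_mul_of_nonneg_left (pow_le_pow_left₀ (hpos _).le (hC₃' γ _ hm).1 2) hC₄.le
      _ = _ := by ring
  have e2 : ∀ x, W x ^ 2 ≤ C₃ ^ 2 * C₄ * U x := by
    intro x
    obtain ⟨γ, i, y, hy, rfl⟩ := exists_chart C x
    have hm : C.ψ i y ∈ core C 1 := mem_core C hy.le
    calc W (γ • C.ψ i y) ^ 2 ≤ (C₃ * a γ) ^ 2 :=
        pow_le_pow_left₀ (hWpos _).le (hC₃' γ _ hm).2 2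
      _ = C₃ ^ 2 * a γ ^ 2 := by ring
      _ ≤ C₃ ^ 2 * (C₄ * U (γ • C.ψ i y)) :=
        mul_le_mul_of_nonneg_left (hC₄' γ _ hm).1 (by positivity)
      _ = _ := by ring
  have hWt : WtX C G μ W := by
    refine ⟨Ck_gav C a φ hc hs, hWpos, hasSum_gav C hc h1 hsum,
      integ C hc h0 h1 ha hs hsum.summable hG hμ, ?_, ?_⟩
    · choose B hB hB' using fun i => hBdd n J (F.loc i) (fun _ => G i) 1 1
        (fun a b => (hG.smooth i a b).comp contDiff_snd) (fun _ y => hG.pos i y)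
      have hB0 : 0 ≤ ∑ i, B i := Finset.sum_nonneg fun i _ => (hB i).le
      refine ⟨√((∑ i, B i) * C₁), fun x => ?_⟩
      rw [mul_pow, Real.sq_sqrt (by positivity)]
      have hCk4 : C.Ck 4 W := fun γ i => (Ck_gav C a φ hc hs γ i).of_le
        (show ((4 : ℕ∞) : WithTop ℕ∞) ≤ ((⊤ : ℕ∞) : WithTop ℕ∞) from mod_cast le_top)
      have hj := hC₁' x
      obtain ⟨γ, i, y, hy, rfl⟩ := exists_chart C x
      rw [jetX_eq F hCk4] at hj
      rw [gsX_eq hG]
      have h3 := (hB' i 0 le_rfl zero_le_one (C.rep W γ i) (hCk4 γ i) y hy.le).2.1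
      have h4 : B i ≤ ∑ i, B i := Finset.single_le_sum (fun i _ => (hB i).le) (Finset.mem_univ i)
      calc gradSq (G i) (C.rep W γ i) y ≤ B i * jet (F.loc i) (C.rep W γ i) y := h3
        _ ≤ (∑ i, B i) * jet (F.loc i) (C.rep W γ i) y :=
          mul_le_mul_of_nonneg_right h4 (NN_nonneg _ 4 Unit _ y)
        _ ≤ (∑ i, B i) * (C₁ * W (γ • C.ψ i y) ^ 2) := mul_le_mul_of_nonneg_left hj hB0
        _ = _ := by ring
    · intro R
      obtain ⟨c, hc', hC⟩ := comparable C hc h0 h1 ha (isCompact_core C R)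
      refine ⟨c * c, fun γ i y y' hy hy' => ?_⟩
      calc W (γ • C.ψ i y) ≤ c * a γ := (hC γ _ (mem_core C hy)).2
        _ ≤ c * (c * W (γ • C.ψ i y')) :=
          mul_le_mul_of_nonneg_left (hC γ _ (mem_core C hy')).1 hc'.le
        _ = _ := by ring
  set c := C₁ + C₂ + C₄ * C₃ ^ 2 + C₃ ^ 2 * C₄ with hCdef
  have p1 : 0 < C₄ * C₃ ^ 2 := by positivity
  have p2 : 0 < C₃ ^ 2 * C₄ := by positivity
  refine ⟨W, U, c, hWt, Ck_gav C _ φ hc hs, hUpos,
    fun x => (hC₁' x).trans ?_, fun x => (hC₂' x).trans ?_, fun x => (e1 x).trans ?_,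
    fun x => (e2 x).trans ?_⟩
  · exact mul_le_mul_of_nonneg_right (by rw [hCdef]; linarith) (sq_nonneg _)
  · exact mul_le_mul_of_nonneg_right (by rw [hCdef]; linarith) (sq_nonneg _)
  · exact mul_le_mul_of_nonneg_right (by rw [hCdef]; linarith) (sq_nonneg _)
  · exact mul_le_mul_of_nonneg_right (by rw [hCdef]; linarith) (hUpos x).le

end Vale.Agent.P223.X.X5
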