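import Vale.Agent.P223.X.X11
import Vale.Agent.P223.H.B9

/-! Phase 3, block Y4 : truncation. -/

namespace Vale.Agent.P223.X.Y4

open scoped ContDiff Topology
open MeasureTheory Vale.Agent.P223.H Vale.Agent.P223.H.Grad

variable {n : ℕ} {M X Γ I : Type} [TopologicalSpace M] [TopologicalSpace X] [Group Γ]
    [MulAction Γ X]

/-! ### topology -/

section top
variable (C : Cov n M X Γ I)
include C

/-- the deck transformations are homeomorphisms -/
def hm (γ : Γ) : X ≃ₜ X where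
  toEquiv := MulAction.toPerm γ
  continuous_toFun := C.cont γ
  continuous_invFun := C.cont γ⁻¹

theorem chart_emb (γ : Γ) (i : I) : Topology.IsOpenEmbedding fun y => γ • C.ψ i y :=
  (hm C γ).isOpenEmbedding.comp (C.emb i)

theorem exists_nhd (x : X) : ∃ K, IsCompact K ∧ K ∈ 𝓝 x := by
  obtain ⟨γ, i, y, -, rfl⟩ := exists_chart C x
  refine ⟨_, (isCompact_closedBall y 1).image (chart_emb C γ i).continuous, ?_⟩
  exact (chart_emb C γ i).isOpenMap.image_mem_nhds (Metric.closedBall_mem_nhds y one_pos)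

/-- compact sets are covered by finitely many charts -/
theorem finite_cover {K : Set X} (hK : IsCompact K) : ∃ s : Finset (Γ × I),
    K ⊆ ⋃ p ∈ s, (fun y => p.1 • C.ψ p.2 y) '' Metric.ball (0 : E n) 1 := by
  refine hK.elim_finite_subcover _ (fun p => (chart_emb C p.1 p.2).isOpenMap _ Metric.isOpen_ball)
    fun x _ => ?_
  obtain ⟨γ, i, y, hy, rfl⟩ := exists_chart C x
  exact Set.mem_iUnion.2 ⟨(γ, i), y, by simpa using hy, rfl⟩

theorem proper {K K' : Set X} (hK : IsCompact K) (hK' : IsCompact K') :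
    {γ : Γ | ∃ x ∈ K, γ • x ∈ K'}.Finite := by
  obtain ⟨s, hs⟩ := finite_cover C hK
  obtain ⟨s', hs'⟩ := finite_cover C hK'
  refine (Set.Finite.biUnion (s.finite_toSet) fun p _ => Set.Finite.biUnion (s'.finite_toSet)
    fun p' _ => (C.proper p.2 p'.2 1).image fun g => p'.1 * g * p.1⁻¹).subset ?_
  rintro γ ⟨x, hx, hx'⟩
  obtain ⟨p, hp, y, hy, rfl⟩ := Set.mem_iUnion₂.1 (hs hx)
  obtain ⟨p', hp', y', hy', h⟩ := Set.mem_iUnion₂.1 (hs' hx')
  simp only at h
  refine Set.mem_iUnion₂.2 ⟨p, hp, Set.mem_iUnion₂.2 ⟨p', hp', p'.1⁻¹ * γ * p.1, ⟨y, y', ?_, ?_, ?_⟩,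
    by simp only; group⟩⟩
  · exact (mem_ball_zero_iff.1 hy).le
  · exact (mem_ball_zero_iff.1 hy').le
  · rw [mul_smul, mul_smul, ← h, inv_smul_smul]

theorem locallyFinite {K : Set X} (hK : IsCompact K) :
    LocallyFinite fun γ : Γ => {x : X | γ⁻¹ • x ∈ K} := by
  intro x
  obtain ⟨K', hK', hx⟩ := exists_nhd C x
  refine ⟨K', hx, (proper C hK hK').subset ?_⟩
  rintro γ ⟨y, hy, hy'⟩
  exact ⟨γ⁻¹ • y, hy, by simpa using hy'⟩

theorem locallyFinite_support {F : Type} [Zero F] (f : X → F) (hf : HasCompactSupport f) :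
    LocallyFinite fun γ : Γ => Function.support fun x : X => f (γ⁻¹ • x) :=
  (locallyFinite C hf).subset fun _ _ hx => subset_tsupport f hx

/-- Continuous invariant functions are bounded. -/
theorem bounded [Finite I] (f : X → ℝ) (hf : Continuous f) (hi : ∀ (γ : Γ) x, f (γ • x) = f x) :
    ∃ c : ℝ, 0 < c ∧ ∀ x, |f x| ≤ c := by
  obtain ⟨c, hc⟩ := (isCompact_core C 1).exists_bound_of_continuousOn hf.continuousOn
  refine ⟨max c 1, by positivity, fun x => ?_⟩
  obtain ⟨γ, i, y, hy, rfl⟩ := exists_chart C x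
  rw [hi]
  exact (hc _ (Set.mem_iUnion.2 ⟨i, y, hy.le, rfl⟩)).trans (le_max_left _ _)

end top

variable {C : Cov n M X Γ I}

omit [TopologicalSpace X] in
theorem avg_inv {F : Type} [AddCommMonoid F] (f : X → F) (g : Γ) (x : X) :
    ∑ᶠ γ : Γ, f (γ⁻¹ • g • x) = ∑ᶠ γ : Γ, f (γ⁻¹ • x) := by
  refine finsum_eq_of_bijective (fun γ => g⁻¹ * γ) (Group.mulLeft_bijective g⁻¹) fun γ => ?_
  simp [mul_smul]

section ck
variable {k : WithTop ℕ∞} {f h : X → ℝ}

theorem Ck_mul (hf : C.Ck k f) (hh : C.Ck k h) : C.Ck k fun x => f x * h x :=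
  fun γ i => (hf γ i).mul (hh γ i)

theorem Ck_div (hf : C.Ck k f) (hh : C.Ck k h) (h0 : ∀ x, h x ≠ 0) : C.Ck k fun x => f x / h x :=
  fun γ i => (hf γ i).div (hh γ i) fun _ => h0 _

theorem Ck_sum {ι : Type} {s : Finset ι} {f : ι → X → ℝ} (hf : ∀ a ∈ s, C.Ck k (f a)) :
    C.Ck k fun x => ∑ a ∈ s, f a x :=
  fun γ i => ContDiff.sum fun a ha => hf a ha γ i

theorem Ck_finsum {ι : Type} {f : ι → X → ℝ} (hf : ∀ a, C.Ck k (f a))
    (hl : LocallyFinite fun a => Function.support (f a)) : C.Ck k fun x => ∑ᶠ a, f a x :=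
  fun γ i => Common.contDiff_finsum (fun a => C.rep (f a) γ i) (fun a => hf a γ i)
    (hl.preimage_continuous (chart_emb C γ i).continuous)

theorem Ck_avg (hf : C.Ck k f) (hc : HasCompactSupport f) :
    C.Ck k fun x : X => ∑ᶠ γ : Γ, f (γ⁻¹ • x) :=
  Ck_finsum (fun γ => Ck_smul C hf γ⁻¹) (locallyFinite_support C f hc)

end ck

/-- An equivariant smooth partition of unity with one function. -/
theorem exists_chi [Fintype I] [T2Space X] (hP : SpecPart) (C : Cov n M X Γ I) :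
    ∃ χ : X → ℝ, C.Ck ∞ χ ∧ HasCompactSupport χ ∧ (∀ x, 0 ≤ χ x) ∧
      ∀ x, ∑ᶠ γ : Γ, χ (γ⁻¹ • x) = 1 := by
  obtain ⟨χ, hχ⟩ := hP n M X Γ I C
  have hc : ∀ i, HasCompactSupport (χ i) := fun i =>
    HasCompactSupport.of_support_subset_isCompact (isCompact_closedBall (0 : E n) 2) fun y hy => by
      by_contra h
      exact hy (hχ.supp i y (by
        rw [mem_closedBall_zero_iff] at h
        exact (not_le.1 h).le))
  have hcx : ∀ i, HasCompactSupport (C.ex i (χ i)) := fun i => by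
    refine HasCompactSupport.of_support_subset_isCompact
      ((hc i).isCompact.image (C.emb i).continuous) fun x hx => ?_
    have hr : x ∈ Set.range (C.ψ i) := by
      by_contra h
      exact hx (by simp [Cov.ex, h])
    obtain ⟨y, rfl⟩ := hr
    refine ⟨y, subset_tsupport _ fun h => hx ?_, rfl⟩
    rw [ex_ψ, h]
  have hfin : ∀ i (x : X), (Function.support fun γ : Γ => C.ex i (χ i) (γ⁻¹ • x)).Finite :=
    fun i x => ((locallyFinite_support C _ (hcx i)).point_finite x).subset fun γ hγ => hγ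
  refine ⟨fun x => ∑ i, C.ex i (χ i) x, Ck_sum fun i _ => Ck_ex C (hχ.smooth i) (hc i), ?_, ?_,
    fun x => ?_⟩
  · classical
    have : ∀ s : Finset I, HasCompactSupport fun x => ∑ i ∈ s, C.ex i (χ i) x := by
      intro s
      induction s using Finset.induction_on with
      | empty => simpa using! HasCompactSupport.zero
      | insert a s ha ih => simpa [Finset.sum_insert ha] using! (hcx a).add ih
    exact this _
  · intro x
    refine Finset.sum_nonneg fun i _ => ?_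
    unfold Cov.ex
    split_ifs
    · exact hχ.nonneg i _
    · exact le_rfl
  · rw [← hχ.sum x, finsum_sum_comm _ _ fun i _ => hfin i x]
    refine Finset.sum_congr rfl fun i _ => ?_
    exact finsum_eq_of_bijective (fun γ : Γ => γ⁻¹) inv_involutive.bijective fun γ => rfl

/-! ### gradients -/

section grad
variable {G : I → E n → Matrix (Fin n) (Fin n) ℝ} (hG : MetX C G)
include hG

theorem gsX_congr {f h : X → ℝ} {x : X} (e : f =ᶠ[𝓝 x] h) : gsX C G f x = gsX C G h x := by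
  obtain ⟨γ, i, y, -, rfl⟩ := exists_chart C x
  rw [gsX_eq hG, gsX_eq hG]
  exact gradSq_congr ((chart_emb C γ i).continuous.continuousAt.eventually e)

theorem gsX_const (c : ℝ) (x : X) : gsX C G (fun _ => c) x = 0 := by
  obtain ⟨γ, i, y, -, rfl⟩ := exists_chart C x
  rw [gsX_eq hG]
  exact gradIp_const_right c

theorem gsX_of_notMem {f : X → ℝ} {x : X} (h : x ∉ tsupport f) : gsX C G f x = 0 := by
  rw [gsX_congr hG (notMem_tsupport_iff_eventuallyEq.1 h)]
  exact gsX_const hG 0 x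

theorem cont_gs {f : X → ℝ} (hf : C.Ck 4 f) : Continuous (gsX C G f) :=
  X11.ck_cont (Ck_gsX hG hf)

theorem sqrt_gsX_mul_le {f h : X → ℝ} (hf : C.Ck 1 f) (hh : C.Ck 1 h) (x : X) :
    √(gsX C G (fun y => f y * h y) x) ≤
      |f x| * √(gsX C G h x) + |h x| * √(gsX C G f x) := by
  obtain ⟨γ, i, y, -, rfl⟩ := exists_chart C x
  rw [gsX_eq hG, gsX_eq hG, gsX_eq hG]
  exact sqrt_gradSq_mul_le (hG.pos i y) ((hf γ i).differentiable (by simp) y)
    ((hh γ i).differentiable (by simp) y)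

theorem sqrt_gsX_sum_le {ι : Type} (s : Finset ι) (F : ι → X → ℝ)
    (hF : ∀ a ∈ s, C.Ck 1 (F a)) (x : X) :
    √(gsX C G (fun y => ∑ a ∈ s, F a y) x) ≤ ∑ a ∈ s, √(gsX C G (F a) x) := by
  obtain ⟨γ, i, y, -, rfl⟩ := exists_chart C x
  simp only [gsX_eq hG]
  exact sqrt_gradSq_sum_le (hG.pos i y) s (fun a => C.rep (F a) γ i) fun a ha =>
    (hF a ha γ i).differentiable (by simp) y

theorem gsX_inv {f : X → ℝ} (hf : C.Ck 1 f) {x : X} (h0 : ∀ x, f x ≠ 0) :
    gsX C G (fun y => (f y)⁻¹) x = (-(f x ^ 2)⁻¹) ^ 2 * gsX C G f x := by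
  obtain ⟨γ, i, y, -, rfl⟩ := exists_chart C x
  rw [gsX_eq hG, gsX_eq hG]
  exact gradSq_comp_real (φ := fun r => r⁻¹) (hasDerivAt_inv (h0 _))
    ((hf γ i).differentiable (by simp) y)

end grad

section
variable [MeasurableSpace X] {G : I → E n → Matrix (Fin n) (Fin n) ℝ} {μ : Measure X}
  {W v : X → ℝ} {A : ℝ} (hG : MetX C G) (hW : WtX C G μ W) (hv : StX C G W A v)
include hW hv

theorem A_pos [Nonempty X] : 0 < A := by
  by_contra hA
  push Not at hA
  obtain ⟨x⟩ := ‹Nonempty X›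
  have : ∀ γ : Γ, v (γ • x) ≤ 0 := fun γ =>
    (hv.upper _).trans (mul_nonpos_of_nonpos_of_nonneg hA (hW.pos _).le)
  have h1 := hasSum_le this (hv.sum x) hasSum_zero
  linarith

variable [Nonempty X]

theorem v_pos (x : X) : 0 < v x := by
  have h1 := hv.lower x
  have h3 := hW.pos x
  exact (pos_iff_pos_of_mul_pos (h3.trans_le h1)).1 (A_pos hW hv)

theorem sqrt_le (x : X) : √(gsX C G v x) ≤ A * W x := by
  have := Real.sqrt_le_sqrt (hv.grad x)
  rwa [Real.sqrt_sq (mul_nonneg (A_pos hW hv).le (hW.pos x).le)] at this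

theorem summable_a (x : X) : Summable fun γ : Γ => √(gsX C G v (γ • x)) :=
  Summable.of_nonneg_of_le (fun _ => Real.sqrt_nonneg _) (fun γ => sqrt_le hW hv (γ • x))
    ((hW.sum x).summable.mul_left A)

/-- total gradient norm -/
noncomputable def HH (C : Cov n M X Γ I) (G : I → E n → Matrix (Fin n) (Fin n) ℝ)
    (v : X → ℝ) (x : X) : ℝ := ∑' γ : Γ, √(gsX C G v (γ • x))

theorem HH_le (x : X) : HH C G v x ≤ A := by
  have := (summable_a hW hv x).tsum_le_tsum (fun γ => sqrt_le hW hv (γ • x))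
    ((hW.sum x).summable.mul_left A)
  rwa [tsum_mul_left, (hW.sum x).tsum_eq, mul_one] at this

omit hW hv [MeasurableSpace X] [Nonempty X] in
theorem HH_nonneg (x : X) : 0 ≤ HH C G v x := tsum_nonneg fun _ => Real.sqrt_nonneg _

omit hW hv [MeasurableSpace X] [Nonempty X] in
theorem HH_smul (g : Γ) (x : X) : HH C G v (g • x) = HH C G v x := by
  unfold HH
  simp only [← mul_smul]
  exact (Equiv.mulRight g).tsum_eq fun γ : Γ => √(gsX C G v (γ • x))

include hG

theorem F_eq (x : X) : v x * (gsX C G v x / v x ^ 2) ^ ((n : ℝ) / 2) =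
    v x * (√(gsX C G v x) / v x) ^ n := by
  have hvx := v_pos hW hv x
  have h0 := gsX_nonneg hG v x
  congr 1
  have : gsX C G v x / v x ^ 2 = (√(gsX C G v x) / v x) ^ (2 : ℝ) := by
    rw [Real.rpow_two, div_pow, Real.sq_sqrt h0]
  rw [this, ← Real.rpow_mul (by positivity), mul_div_cancel₀ _ (two_ne_zero), Real.rpow_natCast]

/-- Jensen's inequality -/
theorem jensen (hn : 1 ≤ n) (x : X) : ENNReal.ofReal (HH C G v x ^ n) ≤
    ∑' γ : Γ, ENNReal.ofReal (v (γ • x) * (gsX C G v (γ • x) / v (γ • x) ^ 2) ^ ((n : ℝ) / 2)) := by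
  obtain ⟨m, rfl⟩ : ∃ m, n = m + 1 := ⟨n - 1, by omega⟩
  have hA := A_pos hW hv
  have hvp := fun γ : Γ => v_pos hW hv (γ • x)
  have hWp := fun γ : Γ => hW.pos (γ • x)
  set a : Γ → ℝ := fun γ => √(gsX C G v (γ • x)) with ha
  set V : Γ → ℝ := fun γ => v (γ • x) with hV
  set F : Γ → ℝ := fun γ => V γ * (a γ / V γ) ^ (m + 1) with hF
  have hF0 : ∀ γ, 0 ≤ F γ := fun γ => by
    have := hvp γ
    positivity
  have e : ∀ γ : Γ, v (γ • x) * (gsX C G v (γ • x) / v (γ • x) ^ 2) ^ (((m + 1 : ℕ) : ℝ) / 2) =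
      F γ := fun γ => F_eq hG hW hv (γ • x)
  simp only [e]
  have hle : ∀ γ, F γ ≤ A * (A * A) ^ (m + 1) * W (γ • x) := by
    intro γ
    have h1 : a γ / V γ ≤ A * A := by
      rw [div_le_iff₀ (hvp γ)]
      calc a γ ≤ A * W (γ • x) := sqrt_le hW hv (γ • x)
        _ ≤ A * (A * V γ) := mul_le_mul_of_nonneg_left (hv.lower _) hA.le
        _ = _ := by ring
    calc F γ ≤ (A * W (γ • x)) * (A * A) ^ (m + 1) :=
          mul_le_mul (hv.upper _) (pow_le_pow_left₀ (div_nonneg (Real.sqrt_nonneg _)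
            (hvp γ).le) h1 _) (by have := hvp γ; positivity) (by have := hWp γ; positivity)
      _ = _ := by ring
  have hFs : Summable F := Summable.of_nonneg_of_le hF0 hle ((hW.sum x).summable.mul_left _)
  rw [← ENNReal.ofReal_tsum_of_nonneg hF0 hFs]
  refine ENNReal.ofReal_le_ofReal ?_
  set s := HH C G v x with hs
  have hs0 : 0 ≤ s := HH_nonneg x
  have hterm : ∀ γ, V γ * s ^ (m + 1) + (m + 1) * s ^ m * (a γ - s * V γ) ≤ F γ := by
    intro γ
    have h1 := B9.tangent m (a γ / V γ) s (div_nonneg (Real.sqrt_nonneg _) (hvp γ).le) hs0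
    have h2 := mul_le_mul_of_nonneg_left h1 (hvp γ).le
    have h3 : V γ * (s ^ (m + 1) + (m + 1) * s ^ m * (a γ / V γ - s)) =
        V γ * s ^ (m + 1) + (m + 1) * s ^ m * (a γ - s * V γ) := by
      have : V γ ≠ 0 := (hvp γ).ne'
      field_simp
    rw [← h3]; exact h2
  have hVs : HasSum V 1 := hv.sum x
  have has : HasSum a s := (summable_a hW hv x).hasSum
  have h1 : HasSum (fun γ => V γ * s ^ (m + 1) + (m + 1) * s ^ m * (a γ - s * V γ))
      (1 * s ^ (m + 1) + (m + 1) * s ^ m * (s - s * 1)) :=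
    (hVs.mul_right _).add ((has.sub (hVs.mul_left s)).mul_left _)
  have h2 := hasSum_le hterm h1 hFs.hasSum
  simpa using h2

omit hG hv [Nonempty X] in
/-- uniform tails -/
theorem exists_tail [Fintype I] {R : ℝ} (hR : 0 ≤ R) {τ : ℝ} (hτ : 0 < τ) :
    ∃ (T : Finset Γ) (u : Γ → ℝ), Summable u ∧
      (∀ γ i y, ‖y‖ ≤ R → W (γ • C.ψ i y) ≤ u γ) ∧
      ∑' γ, ((T : Set Γ)ᶜ).indicator u γ ≤ τ := by
  obtain ⟨c, hc⟩ := hW.harnack R
  have hs : Summable fun γ : Γ => ∑ i, |c| * W (γ • C.ψ i 0) :=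
    summable_sum fun i _ => (hW.sum (C.ψ i 0)).summable.mul_left |c|
  have ht := tendsto_tsum_compl_atTop_zero (fun γ : Γ => ∑ i, |c| * W (γ • C.ψ i 0))
  obtain ⟨T, hT⟩ := ((ht.eventually (Iio_mem_nhds hτ)).exists)
  refine ⟨T, _, hs, fun γ i y hy => ?_, ?_⟩
  · calc W (γ • C.ψ i y) ≤ c * W (γ • C.ψ i 0) := hc γ i y 0 hy (by simpa using hR)
      _ ≤ |c| * W (γ • C.ψ i 0) :=
        mul_le_mul_of_nonneg_right (le_abs_self c) (hW.pos _).le
      _ ≤ _ := Finset.single_le_sum (f := fun i => |c| * W (γ • C.ψ i 0))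
        (fun j _ => mul_nonneg (abs_nonneg c) (hW.pos _).le) (Finset.mem_univ i)
  · rw [← tsum_subtype]
    exact (le_of_lt hT)

end

section cut

variable {χ : X → ℝ} (hχ : C.Ck ∞ χ)
  (hχc : HasCompactSupport χ) (hχ0 : ∀ x, 0 ≤ χ x) (hχs : ∀ x : X, ∑ᶠ γ : Γ, χ (γ⁻¹ • x) = 1)

omit [TopologicalSpace X] in
/-- cutoff function -/
noncomputable def cut (χ : X → ℝ) (F : Finset Γ) (x : X) : ℝ := ∑ g ∈ F, χ (g⁻¹ • x)

include hχ in
theorem Ck_cut (F : Finset Γ) : C.Ck ∞ (cut χ F) :=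
  Ck_sum fun g _ => Ck_smul C hχ g⁻¹

include hχc in
theorem fin_supp (C : Cov n M X Γ I) (x : X) :
    (Function.support fun γ : Γ => χ (γ⁻¹ • x)).Finite :=
  ((locallyFinite_support C χ hχc).point_finite x).subset fun _ hγ => hγ

include hχc hχs hχ0 in
theorem cut_le (C : Cov n M X Γ I) (F : Finset Γ) (x : X) : cut χ F x ≤ 1 := by
  classical
  rw [← hχs x, finsum_eq_sum_of_support_subset (s := F ∪ (fin_supp hχc C x).toFinset) _
    (by simp)]
  exact Finset.sum_le_sum_of_subset_of_nonneg Finset.subset_union_left fun _ _ _ => hχ0 _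

omit [TopologicalSpace X] in
include hχ0 in
theorem cut_nonneg (F : Finset Γ) (x : X) : 0 ≤ cut χ F x := Finset.sum_nonneg fun _ _ => hχ0 _

omit [TopologicalSpace X] in
include hχs in
theorem cut_eq_one (F : Finset Γ) (x : X) (hF : ∀ g : Γ, χ (g⁻¹ • x) ≠ 0 → g ∈ F) :
    cut χ F x = 1 := by
  rw [← hχs x, finsum_eq_sum_of_support_subset (s := F) _ (fun g hg => by simpa using hF g hg)]
  rfl

include hχc in
theorem compact_cut (C : Cov n M X Γ I) (F : Finset Γ) : HasCompactSupport (cut χ F) := by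
  classical
  have : ∀ g : Γ, HasCompactSupport fun x : X => χ (g⁻¹ • x) := fun g => by
    have h1 : HasCompactSupport (χ ∘ (hm C g⁻¹)) := hχc.comp_homeomorph _
    exact h1
  have h2 : ∀ s : Finset Γ, HasCompactSupport fun x => ∑ g ∈ s, χ (g⁻¹ • x) := by
    intro s
    induction s using Finset.induction_on with
    | empty => simpa using! HasCompactSupport.zero
    | insert a s ha ih => simpa [Finset.sum_insert ha] using! (this a).add ih
  exact h2 F

include hχ hχc in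
theorem exists_B [Finite I] {G : I → E n → Matrix (Fin n) (Fin n) ℝ} (hG : MetX C G) :
    ∃ B : ℝ, 0 < B ∧ ∀ (F : Finset Γ) (x : X), √(gsX C G (cut χ F) x) ≤ B := by
  classical
  have hc4 : C.Ck 4 χ := X11.ck_le hχ
    (show ((4 : ℕ∞) : WithTop ℕ∞) ≤ ((⊤ : ℕ∞) : WithTop ℕ∞) from WithTop.coe_le_coe.2 le_top)
  have hc1 : C.Ck 1 χ := X11.ck_le hχ (by exact_mod_cast le_top)
  have hcont : Continuous fun x => √(gsX C G χ x) :=
    Real.continuous_sqrt.comp (cont_gs hG hc4)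
  have hcs : HasCompactSupport fun x => √(gsX C G χ x) := by
    refine hχc.mono' fun x hx => ?_
    by_contra hx'
    apply hx
    show √(gsX C G χ x) = 0
    rw [gsX_of_notMem hG hx']
    simp
  have hlf := locallyFinite_support C _ hcs
  have hN : Continuous fun x : X => ∑ᶠ g : Γ, √(gsX C G χ (g⁻¹ • x)) :=
    continuous_finsum (fun g => hcont.comp (C.cont g⁻¹)) hlf
  obtain ⟨B, hB, hB'⟩ := bounded C _ hN fun γ x => by
    rw [avg_inv (fun y => √(gsX C G χ y)) γ x]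
  refine ⟨B, hB, fun F x => ?_⟩
  have hfin : (Function.support fun g : Γ => √(gsX C G χ (g⁻¹ • x))).Finite :=
    (hlf.point_finite x).subset fun γ hγ => hγ
  calc √(gsX C G (cut χ F) x) ≤ ∑ g ∈ F, √(gsX C G (fun y => χ (g⁻¹ • y)) x) :=
        sqrt_gsX_sum_le hG F _ (fun g _ => Ck_smul C hc1 g⁻¹) x
    _ = ∑ g ∈ F, √(gsX C G χ (g⁻¹ • x)) := Finset.sum_congr rfl fun g _ => by
        rw [gsX_smul hG]
    _ ≤ ∑ᶠ g : Γ, √(gsX C G χ (g⁻¹ • x)) := by
        rw [finsum_eq_sum_of_support_subset (s := F ∪ hfin.toFinset) _ (by simp)]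
        exact Finset.sum_le_sum_of_subset_of_nonneg Finset.subset_union_left
          fun _ _ _ => Real.sqrt_nonneg _
    _ ≤ B := (le_abs_self _).trans (hB' x)

end cut

section main

variable [MeasurableSpace X] [Nonempty X] {G : I → E n → Matrix (Fin n) (Fin n) ℝ} {μ : Measure X}
  {W v : X → ℝ} {A : ℝ} (hG : MetX C G) (hW : WtX C G μ W) (hv : StX C G W A v)
include hG hW hv

/-- derivative of the constant `∑ v (γ x) = 1` -/
theorem tsum_fderiv {c R : ℝ} (u : Γ → ℝ) (hu : Summable u)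
    (hc : 0 < c) (i : I) (hcmp : ∀ f : E n → ℝ, ∀ x ∈ Metric.closedBall (0 : E n) R,
      ‖fderiv ℝ f x‖ ≤ c * √(gradSq (G i) f x))
    (hWu : ∀ γ y, ‖y‖ ≤ R → W (γ • C.ψ i y) ≤ u γ) (x : E n)
    (hx : x ∈ Metric.ball (0 : E n) R) :
    HasSum (fun γ : Γ => fderiv ℝ (C.rep v γ i) x) 0 := by
  have hA := A_pos hW hv
  have hd : ∀ (γ : Γ) (y : E n), DifferentiableAt ℝ (C.rep v γ i) y := fun γ y =>
    (hv.smooth γ i).differentiable (by simp) y
  have hbd : ∀ (γ : Γ) (y : E n), y ∈ Metric.ball (0 : E n) R →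
      ‖fderiv ℝ (C.rep v γ i) y‖ ≤ c * A * u γ := by
    intro γ y hy
    have hy' := Metric.ball_subset_closedBall hy
    refine (hcmp _ y hy').trans ?_
    rw [← gsX_eq hG, mul_assoc]
    exact mul_le_mul_of_nonneg_left ((sqrt_le hW hv (γ • C.ψ i y)).trans
      (mul_le_mul_of_nonneg_left (hWu γ y (mem_closedBall_zero_iff.1 hy')) hA.le)) hc.le
  have key := hasFDerivAt_tsum_of_isPreconnected (hu.mul_left (c * A)) Metric.isOpen_ball
    (convex_ball (0 : E n) R).isPreconnected (fun γ y _ => (hd γ y).hasFDerivAt)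
    (fun γ y hy => hbd γ y hy) hx (hv.sum (C.ψ i x)).summable hx
  have e : (fun y : E n => ∑' γ : Γ, C.rep v γ i y) = fun _ => (1 : ℝ) := by
    funext y; exact (hv.sum (C.ψ i y)).tsum_eq
  rw [e] at key
  have h0 := key.unique (hasFDerivAt_const (1 : ℝ) x)
  have hsum : Summable fun γ : Γ => fderiv ℝ (C.rep v γ i) x :=
    Summable.of_norm_bounded (hu.mul_left (c * A)) fun γ => hbd γ x hx
  rw [← h0]
  exact hsum.hasSum

/-- The truncated function. -/
theorem trunc [Fintype I] [T2Space X] (hP : SpecPart) {η : ℝ} (hη : 0 < η) :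
    ∃ P : PUX C Unit, (∀ x, 0 ≤ P.φ () x) ∧ ∀ x,
      ∑ᶠ γ : Γ, √(gsX C G (P.φ ()) (γ • x)) ≤ HH C G v x + η := by
  classical
  obtain ⟨χ, hχ, hχc, hχ0, hχs⟩ := exists_chi hP C
  obtain ⟨B, hB, hB'⟩ := exists_B hχ hχc hG
  choose c' hc' hcmp' using fun i => B9.cmp (X11.met hG i) (isCompact_closedBall (0 : E n) 1)
  obtain ⟨c, hcc⟩ : ∃ c, c = 1 + ∑ i, c' i := ⟨_, rfl⟩
  have hcle : ∀ i, c' i ≤ c := fun i => by
    have := Finset.single_le_sum (f := c') (fun j _ => (hc' j).le) (Finset.mem_univ i)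
    linarith
  have hc : 0 < c := by
    have : 0 ≤ ∑ i, c' i := Finset.sum_nonneg fun i _ => (hc' i).le
    linarith
  have hcmp : ∀ i, ∀ f : E n → ℝ, ∀ x ∈ Metric.closedBall (0 : E n) 1,
      ‖fderiv ℝ f x‖ ≤ c * √(gradSq (G i) f x) ∧ √(gradSq (G i) f x) ≤ c * ‖fderiv ℝ f x‖ :=
    fun i f x hx => ⟨(hcmp' i f x hx).1.trans
      (mul_le_mul_of_nonneg_right (hcle i) (Real.sqrt_nonneg _)), (hcmp' i f x hx).2.trans
      (mul_le_mul_of_nonneg_right (hcle i) (norm_nonneg _))⟩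
  have hA := A_pos hW hv
  have hv1 : C.Ck 1 v := X11.ck_le hv.smooth (by norm_num)
  have dd : ∀ {f : X → ℝ}, C.Ck 1 f → ∀ γ i y, DifferentiableAt ℝ (C.rep f γ i) y :=
    fun hf γ i y => (hf γ i).differentiable (by simp) y
  -- constants
  set E1 : ℝ := c * (c * (2 * A + A * B)) with hE1
  have hE1p : 0 < E1 := by positivity
  set Q : ℝ := A * B + E1 + 2 * A * (A + A * B + E1) with hQ
  have hQp : 0 < Q := by positivity
  set τ : ℝ := min (min 1 (1 / (2 * A))) (η / Q) with hτ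
  have hτp : 0 < τ := by positivity
  have hτ1 : τ ≤ 1 := (min_le_left _ _).trans (min_le_left _ _)
  have hτA : A * τ ≤ 1 / 2 := by
    have : τ ≤ 1 / (2 * A) := (min_le_left _ _).trans (min_le_right _ _)
    calc A * τ ≤ A * (1 / (2 * A)) := mul_le_mul_of_nonneg_left this hA.le
      _ = 1 / 2 := by field_simp
  have hτQ : Q * τ ≤ η := by
    have : τ ≤ η / Q := min_le_right _ _
    calc Q * τ ≤ Q * (η / Q) := mul_le_mul_of_nonneg_left this hQp.le
      _ = η := by field_simp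
  obtain ⟨T, u, hu, hWu, hT⟩ := exists_tail hW (zero_le_one (α := ℝ)) hτp
  -- the finite set of translates
  have hKT : IsCompact (⋃ γ ∈ T, (fun y : X => γ • y) '' (⋃ i, C.ψ i '' {y : E n | ‖y‖ ≤ 1})) :=
    T.isCompact_biUnion fun γ _ => (isCompact_core C 1).image (C.cont γ)
  have hFfin := proper C hχc hKT
  set F : Finset Γ := insert 1 hFfin.toFinset with hF
  have hcut1 : ∀ γ ∈ T, ∀ i (y : E n), ‖y‖ ≤ 1 → cut χ F (γ • C.ψ i y) = 1 := by
    intro γ hγ i y hy
    refine cut_eq_one hχs F _ fun g hg => ?_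
    rw [hF, Finset.mem_insert, Set.Finite.mem_toFinset]
    right
    refine ⟨g⁻¹ • γ • C.ψ i y, subset_tsupport _ hg, ?_⟩
    simp only [smul_inv_smul]
    exact Set.mem_biUnion hγ ⟨_, Set.mem_iUnion.2 ⟨i, y, hy, rfl⟩, rfl⟩
  -- the functions
  set ψ : X → ℝ := cut χ F with hψ
  have hψs : C.Ck ∞ ψ := Ck_cut hχ F
  have hψ1' : C.Ck 1 ψ := X11.ck_le hψs (by exact_mod_cast le_top)
  have hψ1 : ∀ x, ψ x ≤ 1 := cut_le hχc hχ0 hχs C F
  have hψ0 : ∀ x, 0 ≤ ψ x := cut_nonneg hχ0 F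
  have hψc : HasCompactSupport ψ := compact_cut hχc C F
  set φ : X → ℝ := fun x => v x * ψ x with hφ
  have hφ1 : C.Ck 1 φ := Ck_mul hv1 hψ1'
  have hφc : HasCompactSupport φ := hψc.mul_left
  have hφ0 : ∀ x, 0 ≤ φ x := fun x => mul_nonneg (v_pos hW hv x).le (hψ0 x)
  have hφv : ∀ x, φ x ≤ v x := fun x => by
    simpa using mul_le_mul_of_nonneg_left (hψ1 x) (v_pos hW hv x).le
  set s : X → ℝ := fun x => ∑ᶠ γ : Γ, φ (γ⁻¹ • x) with hs
  have hs1 : C.Ck 1 s := Ck_avg hφ1 hφc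
  have hfs : ∀ x : X, (Function.support fun γ : Γ => φ (γ⁻¹ • x)).Finite := fun x =>
    ((locallyFinite_support C φ hφc).point_finite x).subset fun γ hγ => hγ
  have hfs' : ∀ x : X, (Function.support fun γ : Γ => φ (γ • x)).Finite := fun x => by
    have := (hfs x).preimage (inv_injective.injOn (s := Function.support
      (fun γ : Γ => φ (γ⁻¹ • x)) |> fun t => (fun γ : Γ => γ⁻¹) ⁻¹' t))
    refine this.subset fun γ hγ => ?_
    simpa using hγ
  have hsinv : ∀ (γ : Γ) x, s (γ • x) = s x := fun γ x => avg_inv φ γ x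
  have hs' : ∀ x, HasSum (fun γ : Γ => φ (γ • x)) (s x) := by
    intro x
    have h1 : s x = ∑ᶠ γ : Γ, φ (γ • x) := by
      refine finsum_eq_of_bijective (fun γ : Γ => γ⁻¹) inv_involutive.bijective fun γ => rfl
    have hsm : Summable fun γ : Γ => φ (γ • x) := summable_of_hasFiniteSupport (hfs' x)
    have h2 : ∑' γ : Γ, φ (γ • x) = ∑ᶠ γ : Γ, φ (γ • x) := tsum_eq_finsum (hfs' x)
    rw [h1, ← h2]
    exact hsm.hasSum
  have hspos : ∀ x, 0 < s x := by
    intro x
    have : ∃ g : Γ, 0 < χ (g⁻¹ • x) := by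
      by_contra hcon
      push Not at hcon
      have : ∀ g : Γ, χ (g⁻¹ • x) = 0 := fun g => le_antisymm (hcon g) (hχ0 _)
      have h1 := hχs x
      simp [this] at h1
    obtain ⟨g, hg⟩ := this
    have hpos : 0 < φ (g⁻¹ • x) := by
      refine mul_pos (v_pos hW hv _) ?_
      refine lt_of_lt_of_le ?_ (Finset.single_le_sum (fun a _ => hχ0 (a⁻¹ • g⁻¹ • x))
        (Finset.mem_insert_self 1 _))
      simpa using hg
    exact finsum_pos (fun γ => hφ0 _) ⟨g, hpos⟩ (hfs x)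
  -- estimates at `γ x`
  have hev1 : ∀ γ ∈ T, ∀ i (y : E n), y ∈ Metric.ball (0 : E n) 1 →
      C.rep φ γ i =ᶠ[nhds y] C.rep v γ i := by
    intro γ hγ i y hy
    filter_upwards [Metric.isOpen_ball.mem_nhds hy] with z hz
    show v (γ • C.ψ i z) * ψ (γ • C.ψ i z) = _
    rw [hcut1 γ hγ i z (mem_ball_zero_iff.1 hz).le, mul_one]
    rfl
  have hgrad : ∀ (γ : Γ) i, ∀ y ∈ Metric.ball (0 : E n) 1, √(gsX C G φ (γ • C.ψ i y)) ≤
      √(gsX C G v (γ • C.ψ i y)) + ((T : Set Γ)ᶜ).indicator (fun γ => A * B * u γ) γ := by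
    intro γ i y hy
    have hy' := (mem_ball_zero_iff.1 hy).le
    by_cases hγ : γ ∈ T
    · rw [Set.indicator_of_notMem (by simpa using hγ), add_zero]
      rw [gsX_eq hG, gsX_eq hG, gradSq_congr (hev1 γ hγ i y hy)]
    · rw [Set.indicator_of_mem (by simpa using hγ)]
      refine (sqrt_gsX_mul_le hG hv1 hψ1' _).trans ?_
      rw [add_comm, abs_of_nonneg (hψ0 _), abs_of_pos (v_pos hW hv _)]
      refine add_le_add ?_ ?_
      · simpa using mul_le_mul_of_nonneg_right (hψ1 (γ • C.ψ i y))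
          (Real.sqrt_nonneg (gsX C G v (γ • C.ψ i y)))
      · calc v (γ • C.ψ i y) * √(gsX C G ψ (γ • C.ψ i y)) ≤ (A * u γ) * B :=
              mul_le_mul ((hv.upper _).trans (mul_le_mul_of_nonneg_left (hWu γ i y hy') hA.le))
                (hB' F _) (Real.sqrt_nonneg _) (mul_nonneg hA.le
                  ((hW.pos _).le.trans (hWu γ i y hy')))
          _ = A * B * u γ := by ring
  have hIu : Summable ((T : Set Γ)ᶜ.indicator u) := hu.indicator _
  -- (1)
  have h1 : ∀ i, ∀ y ∈ Metric.ball (0 : E n) 1,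
      Summable (fun γ : Γ => √(gsX C G φ (γ • C.ψ i y))) ∧
      ∑' γ : Γ, √(gsX C G φ (γ • C.ψ i y)) ≤ HH C G v (C.ψ i y) + A * B * τ := by
    intro i y hy
    have hs2 : HasSum (fun γ : Γ => √(gsX C G v (γ • C.ψ i y)) +
        A * B * ((T : Set Γ)ᶜ).indicator u γ)
        (HH C G v (C.ψ i y) + A * B * ∑' γ, ((T : Set Γ)ᶜ).indicator u γ) :=
      (summable_a hW hv (C.ψ i y)).hasSum.add (hIu.hasSum.mul_left _)
    have hle : ∀ γ : Γ, √(gsX C G φ (γ • C.ψ i y)) ≤ √(gsX C G v (γ • C.ψ i y)) +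
        A * B * ((T : Set Γ)ᶜ).indicator u γ := by
      intro γ
      refine (hgrad γ i y hy).trans (add_le_add le_rfl (le_of_eq ?_))
      by_cases hγ : γ ∈ T
      · simp [hγ]
      · simp [hγ]
    have hsm : Summable (fun γ : Γ => √(gsX C G φ (γ • C.ψ i y))) :=
      Summable.of_nonneg_of_le (fun _ => Real.sqrt_nonneg _) hle hs2.summable
    refine ⟨hsm, (hasSum_le hle hsm.hasSum hs2).trans ?_⟩
    exact add_le_add le_rfl (mul_le_mul_of_nonneg_left hT (by positivity))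
  -- (2)
  have h2 : ∀ i, ∀ y ∈ Metric.ball (0 : E n) 1, 1 - A * τ ≤ s (C.ψ i y) := by
    intro i y hy
    have hy' := (mem_ball_zero_iff.1 hy).le
    have hd := (hv.sum (C.ψ i y)).sub (hs' (C.ψ i y))
    have hle : ∀ γ : Γ, v (γ • C.ψ i y) - φ (γ • C.ψ i y) ≤
        A * ((T : Set Γ)ᶜ).indicator u γ := by
      intro γ
      by_cases hγ : γ ∈ T
      · have : φ (γ • C.ψ i y) = v (γ • C.ψ i y) := (hev1 γ hγ i y hy).self_of_nhds
        simp [hγ, this]
      · rw [Set.indicator_of_mem (by simpa using hγ)]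
        have := hφ0 (γ • C.ψ i y)
        have h3 := (hv.upper (γ • C.ψ i y)).trans
          (mul_le_mul_of_nonneg_left (hWu γ i y hy') hA.le)
        linarith
    have := hasSum_le hle hd (hIu.hasSum.mul_left A)
    have h4 := mul_le_mul_of_nonneg_left hT hA.le
    linarith
  -- (3)
  have h3 : ∀ i, ∀ y ∈ Metric.ball (0 : E n) 1, √(gsX C G s (C.ψ i y)) ≤ E1 * τ := by
    intro i y hy
    have hy' := Metric.ball_subset_closedBall hy
    have hy'' := (mem_ball_zero_iff.1 hy).le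
    have hs3 : HasSum (fun γ : Γ => fderiv ℝ (C.rep φ γ i) y) (fderiv ℝ (C.rep s 1 i) y) := by
      have hlf : LocallyFinite fun γ : Γ => Function.support (C.rep φ γ⁻¹ i) :=
        (locallyFinite_support C φ hφc).preimage_continuous (C.emb i).continuous
      obtain ⟨t, ht, hft⟩ := hlf y
      have hev : C.rep s 1 i =ᶠ[nhds y] fun z => ∑ γ ∈ hft.toFinset, C.rep φ γ⁻¹ i z := by
        filter_upwards [ht] with z hz
        show s ((1 : Γ) • C.ψ i z) = _
        rw [one_smul]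
        refine finsum_eq_sum_of_support_subset _ fun g hg => ?_
        simp only [Set.Finite.coe_toFinset]
        exact ⟨z, hg, hz⟩
      have e1 : fderiv ℝ (C.rep s 1 i) y = ∑ γ ∈ hft.toFinset, fderiv ℝ (C.rep φ γ⁻¹ i) y := by
        rw [hev.fderiv_eq, fderiv_fun_sum fun γ _ => dd hφ1 γ⁻¹ i y]
      have e2 : HasSum (fun γ : Γ => fderiv ℝ (C.rep φ γ⁻¹ i) y)
          (∑ γ ∈ hft.toFinset, fderiv ℝ (C.rep φ γ⁻¹ i) y) := by
        refine hasSum_sum_of_ne_finset_zero fun γ hγ => ?_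
        have : C.rep φ γ⁻¹ i =ᶠ[nhds y] fun _ => (0 : ℝ) := by
          filter_upwards [ht] with z hz
          by_contra hne
          exact hγ (by simpa using ⟨z, hne, hz⟩)
        rw [this.fderiv_eq]; simp
      rw [e1]
      have e3 := (Equiv.inv Γ).hasSum_iff.2 e2
      have e4 : ((fun γ : Γ => fderiv ℝ (C.rep φ γ⁻¹ i) y) ∘ (Equiv.inv Γ)) =
          fun γ : Γ => fderiv ℝ (C.rep φ γ i) y := by
        funext γ
        simp
      rwa [e4] at e3
    have hs4 := tsum_fderiv hG hW hv u hu hc i (fun f x hx => (hcmp i f x hx).1)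
      (fun γ y => hWu γ i y) y hy
    have hs5 := hs3.sub hs4
    rw [sub_zero] at hs5
    have hle : ∀ γ : Γ, ‖fderiv ℝ (C.rep φ γ i) y - fderiv ℝ (C.rep v γ i) y‖ ≤
        c * (2 * A + A * B) * ((T : Set Γ)ᶜ).indicator u γ := by
      intro γ
      by_cases hγ : γ ∈ T
      · simp [hγ, (hev1 γ hγ i y hy).fderiv_eq]
      · rw [Set.indicator_of_mem (by simpa using hγ)]
        have hg := hgrad γ i y hy
        rw [Set.indicator_of_mem (by simpa using hγ)] at hg
        have ha := (sqrt_le hW hv (γ • C.ψ i y)).trans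
          (mul_le_mul_of_nonneg_left (hWu γ i y hy'') hA.le)
        calc _ ≤ ‖fderiv ℝ (C.rep φ γ i) y‖ + ‖fderiv ℝ (C.rep v γ i) y‖ := norm_sub_le _ _
          _ ≤ c * √(gsX C G φ (γ • C.ψ i y)) + c * √(gsX C G v (γ • C.ψ i y)) := by
              refine add_le_add ?_ ?_
              · rw [gsX_eq hG]; exact (hcmp i _ y hy').1
              · rw [gsX_eq hG]; exact (hcmp i _ y hy').1
          _ ≤ c * (A * u γ + A * B * u γ) + c * (A * u γ) := by
              refine add_le_add (mul_le_mul_of_nonneg_left (by linarith) hc.le)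
                (mul_le_mul_of_nonneg_left ha hc.le)
          _ = c * (2 * A + A * B) * u γ := by ring
    have hn5 : ‖fderiv ℝ (C.rep s 1 i) y‖ ≤ c * (2 * A + A * B) * τ := by
      have hsn : Summable fun γ : Γ => ‖fderiv ℝ (C.rep φ γ i) y - fderiv ℝ (C.rep v γ i) y‖ :=
        Summable.of_nonneg_of_le (fun _ => norm_nonneg _) hle (hIu.mul_left _)
      rw [← hs5.tsum_eq]
      refine (norm_tsum_le_tsum_norm hsn).trans ((hasSum_le hle hsn.hasSum
        (hIu.hasSum.mul_left _)).trans ?_)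
      exact mul_le_mul_of_nonneg_left hT (by positivity)
    have e6 : gsX C G s (C.ψ i y) = gradSq (G i) (C.rep s 1 i) y := by
      rw [← gsX_eq hG, one_smul]
    rw [e6]
    calc √(gradSq (G i) (C.rep s 1 i) y) ≤ c * ‖fderiv ℝ (C.rep s 1 i) y‖ :=
          (hcmp i _ y hy').2
      _ ≤ c * (c * (2 * A + A * B) * τ) := mul_le_mul_of_nonneg_left hn5 hc.le
      _ = E1 * τ := by rw [hE1]; ring
  -- (4)
  have hsum1 : ∀ x : X, ∑ᶠ γ : Γ, φ (γ⁻¹ • x) / s (γ⁻¹ • x) = 1 := by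
    intro x
    have : ∀ γ : Γ, φ (γ⁻¹ • x) / s (γ⁻¹ • x) = φ (γ⁻¹ • x) * (s x)⁻¹ := fun γ => by
      rw [hsinv, div_eq_mul_inv]
    rw [finsum_congr this, ← finsum_mul' _ _ (hfs x)]
    exact mul_inv_cancel₀ (hspos x).ne'
  have hq1 : C.Ck 1 fun x => φ x / s x := Ck_div hφ1 hs1 fun x => (hspos x).ne'
  have hsi1 : C.Ck 1 fun x => (s x)⁻¹ := fun γ i => (hs1 γ i).inv fun _ => (hspos _).ne'
  refine ⟨⟨fun _ x => φ x / s x, fun _ => hq1,
    fun _ => hφc.mono fun x hx h0 => hx (by show φ x / s x = 0; rw [h0, zero_div]),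
    fun x => by simpa using hsum1 x⟩,
    fun x => div_nonneg (hφ0 x) (hspos x).le, fun x => ?_⟩
  show ∑ᶠ γ : Γ, √(gsX C G (fun x => φ x / s x) (γ • x)) ≤ _
  -- it suffices to consider `x = ψ i y`
  suffices key : ∀ i, ∀ y ∈ Metric.ball (0 : E n) 1,
      ∑ᶠ γ : Γ, √(gsX C G (fun x => φ x / s x) (γ • C.ψ i y)) ≤ HH C G v (C.ψ i y) + η by
    obtain ⟨g, i, y, hy, rfl⟩ := exists_chart C x
    rw [HH_smul]
    refine le_trans (le_of_eq ?_) (key i y (by simpa using hy))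
    refine finsum_eq_of_bijective (fun γ => γ * g) (Group.mulRight_bijective g) fun γ => ?_
    rw [mul_smul]
  intro i y hy
  obtain ⟨x, hx⟩ : ∃ x, x = C.ψ i y := ⟨_, rfl⟩
  obtain ⟨h1a, h1b⟩ := h1 i y hy
  have h2x := h2 i y hy
  have h3x := h3 i y hy
  rw [← hx] at h1a h1b h2x h3x ⊢
  have hsx := hspos x
  have hle : ∀ γ : Γ, √(gsX C G (fun x => φ x / s x) (γ • x)) ≤
      φ (γ • x) * ((s x ^ 2)⁻¹ * √(gsX C G s x)) + (s x)⁻¹ * √(gsX C G φ (γ • x)) := by
    intro γ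
    have e1 : (fun x => φ x / s x) = fun x => φ x * (s x)⁻¹ := by
      funext x; rw [div_eq_mul_inv]
    rw [e1]
    refine (sqrt_gsX_mul_le hG hφ1 hsi1 _).trans (le_of_eq ?_)
    have e2 : gsX C G s (γ • x) = gsX C G s x := by
      rw [← gsX_smul hG s γ x]
      congr 1
      funext y; exact hsinv γ y
    rw [gsX_inv hG hs1 fun x => (hspos x).ne',
      Real.sqrt_mul (by positivity), Real.sqrt_sq_eq_abs, e2, hsinv, abs_of_nonneg (hφ0 _),
      abs_neg, abs_of_nonneg (by positivity : (0 : ℝ) ≤ (s x ^ 2)⁻¹),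
      abs_of_nonneg (by positivity : (0 : ℝ) ≤ (s x)⁻¹)]
  have hS : HasSum (fun γ : Γ => φ (γ • x) * ((s x ^ 2)⁻¹ * √(gsX C G s x)) +
      (s x)⁻¹ * √(gsX C G φ (γ • x))) (s x * ((s x ^ 2)⁻¹ * √(gsX C G s x)) +
      (s x)⁻¹ * ∑' γ : Γ, √(gsX C G φ (γ • x))) :=
    ((hs' x).mul_right _).add (h1a.hasSum.mul_left _)
  have hsm : Summable fun γ : Γ => √(gsX C G (fun x => φ x / s x) (γ • x)) :=
    Summable.of_nonneg_of_le (fun _ => Real.sqrt_nonneg _) hle hS.summable
  have hfin : (Function.support fun γ : Γ => √(gsX C G (fun x => φ x / s x) (γ • x))).Finite := by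
    refine (proper C (isCompact_singleton (x := x)) hφc).subset
      fun γ hγ => ?_
    refine ⟨x, rfl, ?_⟩
    by_contra hcon
    apply hγ
    have h7 : (γ • x) ∉ tsupport fun x => φ x / s x := fun h8 => hcon (by
      refine closure_mono (fun z hz => ?_) h8
      intro h9
      exact hz (by show φ z / s z = 0; rw [h9, zero_div]))
    show √(gsX C G (fun x => φ x / s x) (γ • x)) = 0
    rw [gsX_of_notMem hG h7]
    simp
  have e5 : ∑' γ : Γ, √(gsX C G (fun x => φ x / s x) (γ • x)) =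
      ∑ᶠ γ : Γ, √(gsX C G (fun x => φ x / s x) (γ • x)) := tsum_eq_finsum hfin
  rw [← e5]
  refine (hasSum_le hle hsm.hasSum hS).trans ?_
  set H0 := HH C G v x with hH0
  have hH0A : H0 ≤ A := HH_le hW hv x
  have hH00 : 0 ≤ H0 := HH_nonneg x
  set Y := ∑' γ : Γ, √(gsX C G φ (γ • x)) with hY
  have hY0 : 0 ≤ Y := tsum_nonneg fun _ => Real.sqrt_nonneg _
  have e6 : s x * ((s x ^ 2)⁻¹ * √(gsX C G s x)) + (s x)⁻¹ * Y =
      (√(gsX C G s x) + Y) / s x := by field_simp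
  rw [e6, div_le_iff₀ hsx]
  have hX : √(gsX C G s x) + Y ≤ H0 + (E1 + A * B) * τ := by linarith
  refine hX.trans ?_
  have hQτ : H0 + Q * τ ≤ H0 + η := by linarith
  have h6 : H0 + (E1 + A * B) * τ ≤ (H0 + Q * τ) * (1 - A * τ) := by
    rw [hQ]
    have i1 : 0 ≤ A * τ := by positivity
    have i2 : (E1 + A * B) * τ * (A * τ) ≤ (E1 + A * B) * τ * (1 / 2) :=
      mul_le_mul_of_nonneg_left hτA (by positivity)
    have i3 : 0 ≤ (A + A * B + E1) * (A * τ) := by positivity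
    have i4 : 2 * ((A + A * B + E1) * (A * τ)) * (A * τ) ≤
        2 * ((A + A * B + E1) * (A * τ)) * (1 / 2) :=
      mul_le_mul_of_nonneg_left hτA (by positivity)
    have i5 : H0 * (A * τ) ≤ A * (A * τ) := mul_le_mul_of_nonneg_right hH0A i1
    have i6 : (A * B + E1) * τ * (A * τ) ≤ (A * B + E1) * 1 * (A * τ) :=
      mul_le_mul_of_nonneg_right (mul_le_mul_of_nonneg_left hτ1 (by positivity)) i1
    nlinarith
  refine h6.trans ?_
  have h7 : 0 ≤ 1 - A * τ := by linarith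
  calc (H0 + Q * τ) * (1 - A * τ) ≤ (H0 + η) * (1 - A * τ) :=
        mul_le_mul_of_nonneg_right hQτ h7
    _ ≤ (H0 + η) * s x := mul_le_mul_of_nonneg_left h2x (by positivity)

end main

/-- Block Y4. -/
theorem main (hP : SpecPart) (hvol : SpecVol) : SpecTruncX := by
  intro n M X Γ I _ _ _ _ _ _ _ _ _ _ _ _ C G μ ν W v A hn hG hμ hν hW hv δ hδ
  have hA := A_pos hW hv
  obtain ⟨-, -, -, hv1, -⟩ := hvol n M X Γ I C G hG
  have hU : X11.UF C μ ν := (hv1 μ hμ).2 ν hν
  -- volume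
  have hVfin : ν Set.univ < ⊤ := by
    have h1 := hU (fun x => ENNReal.ofReal (W x)) (fun _ => 1)
      (X11.ck_cont hW.smooth).measurable.ennreal_ofReal fun x => by
        rw [← ENNReal.ofReal_tsum_of_nonneg (fun γ => (hW.pos _).le) (hW.sum x).summable,
          (hW.sum x).tsum_eq, ENNReal.ofReal_one]
    rw [lintegral_one] at h1
    rw [← h1]
    exact hW.integ.lintegral_lt_top
  set V := (ν Set.univ).toReal with hV
  have hV0 : 0 ≤ V := ENNReal.toReal_nonneg
  set M' : ℝ := n * (A + 1) ^ (n - 1) with hM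
  have hM0 : 0 ≤ M' := by positivity
  set η : ℝ := min 1 (δ / (M' * V + 1)) with hη
  have hηp : 0 < η := by positivity
  have hη1 : η ≤ 1 := min_le_left _ _
  have hηM : M' * η * V ≤ δ := by
    have : η ≤ δ / (M' * V + 1) := min_le_right _ _
    calc M' * η * V = (M' * V) * η := by ring
      _ ≤ (M' * V) * (δ / (M' * V + 1)) := mul_le_mul_of_nonneg_left this (by positivity)
      _ ≤ (M' * V + 1) * (δ / (M' * V + 1)) :=
          mul_le_mul_of_nonneg_right (by linarith) (by positivity)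
      _ = δ := by field_simp
  obtain ⟨P, hP0, hP⟩ := trunc hG hW hv hP hηp
  refine ⟨P, hP0, ?_⟩
  have hpt : ∀ x : X, (∑ᶠ γ : Γ, √(gsX C G (P.φ ()) (γ • x))) ^ n ≤
      HH C G v x ^ n + M' * η := by
    intro x
    have h1 := hP x
    have h0 : 0 ≤ ∑ᶠ γ : Γ, √(gsX C G (P.φ ()) (γ • x)) :=
      finsum_nonneg fun _ => Real.sqrt_nonneg _
    have hH0 : 0 ≤ HH C G v x := HH_nonneg x
    have hHA : HH C G v x ≤ A := HH_le hW hv x
    have h2 := pow_le_pow_left₀ h0 h1 n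
    have h3 := abs_pow_sub_pow_le (HH C G v x + η) (HH C G v x) n
    rw [add_sub_cancel_left, abs_of_pos hηp, abs_of_nonneg (by positivity : 0 ≤ HH C G v x + η),
      abs_of_nonneg hH0, max_eq_left (by linarith)] at h3
    have h4 : (HH C G v x + η) ^ (n - 1) ≤ (A + 1) ^ (n - 1) :=
      pow_le_pow_left₀ (by positivity) (by linarith) _
    have h5 := (abs_le.1 h3).2
    have h6 : η * n * (HH C G v x + η) ^ (n - 1) ≤ η * n * (A + 1) ^ (n - 1) :=
      mul_le_mul_of_nonneg_left h4 (by positivity)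
    have h7 : η * n * (A + 1) ^ (n - 1) = M' * η := by rw [hM]; ring
    linarith
  obtain ⟨F, hF⟩ : ∃ F : X → ENNReal, ∀ x, F x =
      ENNReal.ofReal (v x * (gsX C G v x / v x ^ 2) ^ ((n : ℝ) / 2)) := ⟨_, fun _ => rfl⟩
  have hFm : Measurable F := by
    have : F = fun x => ENNReal.ofReal (v x * (gsX C G v x / v x ^ 2) ^ ((n : ℝ) / 2)) := funext hF
    rw [this]
    refine ENNReal.measurable_ofReal.comp ?_
    have h1 := (cont_gs hG hv.smooth).measurable
    have h2 := (X11.ck_cont hv.smooth).measurable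
    exact h2.mul ((h1.div (h2.pow_const 2)).pow_const _)
  simp only [← hF]
  have hFh : ∫⁻ x, F x ∂μ = ∫⁻ m, ∑' γ : Γ, F (γ • Function.surjInv C.surj m) ∂ν := by
    refine hU F _ hFm fun x => ?_
    obtain ⟨g, hg⟩ := (C.orb x (Function.surjInv C.surj (C.π x))).1
      (Function.surjInv_eq C.surj (C.π x)).symm
    simp only [← hg, ← mul_smul]
    exact (Equiv.mulRight g).tsum_eq fun γ : Γ => F (γ • x)
  calc ∫⁻ m, ENNReal.ofReal (C.dn (fun x => ∑ᶠ γ : Γ, √(gsX C G (P.φ ()) (γ • x))) m ^ n) ∂ν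
      ≤ ∫⁻ m, (∑' γ : Γ, F (γ • Function.surjInv C.surj m) + ENNReal.ofReal (M' * η)) ∂ν := by
        refine lintegral_mono fun m => ?_
        simp only [Cov.dn]
        set x := Function.surjInv C.surj m
        have hH0 : 0 ≤ HH C G v x := HH_nonneg x
        refine (ENNReal.ofReal_le_ofReal (hpt x)).trans ?_
        rw [ENNReal.ofReal_add (by positivity) (by positivity)]
        simp only [hF]
        exact add_le_add (jensen hG hW hv hn x) le_rfl
    _ = ∫⁻ x, F x ∂μ + ENNReal.ofReal (M' * η) * ν Set.univ := by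
        rw [lintegral_add_right _ measurable_const, lintegral_const, hFh]
    _ ≤ _ := by
        refine add_le_add le_rfl ?_
        rw [← ENNReal.ofReal_toReal hVfin.ne, ← ENNReal.ofReal_mul (by positivity)]
        exact ENNReal.ofReal_le_ofReal hηM

end Vale.Agent.P223.X.Y4
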