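import Vale.Agent.P223.X.X23
import Vale.Agent.P223.H.Zero

/-! Block X22b : continuity at time `0`. -/

namespace Vale.Agent.P223.X.ZeroX

open scoped ContDiff Topology
open MeasureTheory Vale.Agent.P223.H

theorem main : SpecZeroX := by
  intro n M X Γ I _ _ _ _ _ _ _ _ _ _ C G ν hG hV p hp0 δ hδ
  obtain ⟨D⟩ := Cell.exists_cells C
  have hIS : ∀ t, 0 ≤ t → IS C (G t) (ν t) p = ∑ i, ∫⁻ y in D.B i,
      ENNReal.ofReal (max 0 (-H.scal (G t i) y) ^ p * H.dens (G t i) y) := by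
    intro t ht
    unfold IS
    rw [Cell.lintegral_M D (hG.met t ht) (hV t ht)]
    refine Finset.sum_congr rfl fun i _ => lintegral_congr fun y => ?_
    rw [X23.scM_eq (hG.met t ht), ENNReal.ofReal_mul (Real.rpow_nonneg (le_max_left _ _) _)]
  have hδ' : 0 < δ / (Fintype.card I + 1) :=
    ENNReal.div_pos hδ.ne' (by
      exact ENNReal.add_ne_top.2 ⟨ENNReal.natCast_ne_top _, ENNReal.one_ne_top⟩)
  have hi : ∀ i, ∃ t₁ : ℝ, 0 < t₁ ∧ ∀ t, 0 ≤ t → t < t₁ →
      ∫⁻ y in D.B i, ENNReal.ofReal (max 0 (-H.scal (G t i) y) ^ p * H.dens (G t i) y) ≤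
      (∫⁻ y in D.B i, ENNReal.ofReal (max 0 (-H.scal (G 0 i) y) ^ p * H.dens (G 0 i) y)) +
        δ / (Fintype.card I + 1) := by
    intro i
    have hs : ∀ a b, ContDiffOn ℝ ∞ (fun p : ℝ × E n => G p.1 i p.2 a b) (Zero.ST n) :=
      hG.smooth i
    have hp : ∀ t, 0 ≤ t → ∀ x, (G t i x).PosDef := fun t ht x => (hG.met t ht).pos i x
    have h1 := (Zero.cd_scal (G := fun t => G t i) hs hp).continuousOn
    have h2 := (Zero.cd_dens (G := fun t => G t i) hs hp).continuousOn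
    have hK : ContinuousOn (fun q : ℝ × E n =>
        (fun t x => max 0 (-H.scal (G t i) x) ^ p * H.dens (G t i) x) q.1 q.2) (Zero.ST n) := by
      refine ContinuousOn.mul ?_ h2
      have hc : Continuous (fun u : ℝ => max 0 (-u) ^ p) :=
        (continuous_const.max continuous_neg).rpow_const fun x => Or.inr hp0
      exact hc.comp_continuousOn h1
    exact Zero.abs_zero
      (K := fun t x => max 0 (-H.scal (G t i) x) ^ p * H.dens (G t i) x) hK (D.meas i) (D.bdd i)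
      _ hδ'
  choose T hT0 hT using hi
  obtain ⟨t₁, ht₁, hle⟩ : ∃ t₁ : ℝ, 0 < t₁ ∧ ∀ i, t₁ ≤ T i := by
    rcases isEmpty_or_nonempty I with h | h
    · exact ⟨1, one_pos, fun i => isEmptyElim i⟩
    · obtain ⟨i₀, hi₀⟩ := Finite.exists_min T
      exact ⟨T i₀, hT0 i₀, hi₀⟩
  refine ⟨t₁, ht₁, fun t ht0 ht => ?_⟩
  rw [hIS t ht0, hIS 0 le_rfl]
  calc _ ≤ ∑ i, ((∫⁻ y in D.B i,
        ENNReal.ofReal (max 0 (-H.scal (G 0 i) y) ^ p * H.dens (G 0 i) y)) +
        δ / (Fintype.card I + 1)) :=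
        Finset.sum_le_sum fun i _ => hT i t ht0 (lt_of_lt_of_le ht (hle i))
    _ = (∑ i, ∫⁻ y in D.B i,
        ENNReal.ofReal (max 0 (-H.scal (G 0 i) y) ^ p * H.dens (G 0 i) y)) +
        Fintype.card I * (δ / (Fintype.card I + 1)) := by
        rw [Finset.sum_add_distrib, Finset.sum_const, Finset.card_univ, nsmul_eq_mul]
    _ ≤ _ := by
        refine add_le_add le_rfl ?_
        calc (Fintype.card I : ENNReal) * (δ / (Fintype.card I + 1)) ≤
            (Fintype.card I + 1) * (δ / (Fintype.card I + 1)) :=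
              mul_le_mul' le_self_add le_rfl
          _ = δ := ENNReal.mul_div_cancel (by simp) (by
            exact ENNReal.add_ne_top.2 ⟨ENNReal.natCast_ne_top _, ENNReal.one_ne_top⟩)

end Vale.Agent.P223.X.ZeroX
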