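import Vale.Agent.P223.X.AllU
import Vale.Agent.P223.X.MvU
import Vale.Agent.P223.MT.Final
import Vale.Agent.P223.X.X11
import Vale.Agent.P223.X.X23c
import Vale.Agent.P223.X.Y4
import Vale.Agent.P223.X.X5
import Vale.Agent.P223.X.X3
import Vale.Agent.P223.X.FlX
import Vale.Agent.P223.X.MpX
import Vale.Agent.P223.X.Vol
import Vale.Agent.P223.X.LapX
import Vale.Agent.P223.X.UniX
import Vale.Agent.P223.X.QCL
import Vale.Agent.P223.X.FundAlt
import Vale.Agent.P223.X.FundCase
import Vale.Agent.P223.X.FundE
import Vale.Agent.P223.X.FundLoc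
import Vale.Agent.P223.X.FundN
import Vale.Agent.P223.X.FundRep
import Vale.Agent.P223.X.PartX
import Vale.Agent.P223.X.MonoX
import Vale.Agent.P223.X.ExtX
import Vale.Agent.P223.X.ZeroX
import Vale.Agent.P223.X.ConfX
import Vale.Agent.P223.X.Form
import Vale.Agent.P223.X.FinX
import Vale.Agent.P223.X.NormX
import Vale.Agent.P223.X.IBPX
import Vale.Agent.P223.X.EqX
import Vale.Agent.P223.X.TTX
import Vale.Agent.P223.X.ConsL
import Vale.Agent.P223.X.BddL
import Vale.Agent.P223.H.B4
import Vale.Agent.P223.H.Evol
import Vale.Agent.P223.H.B25a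

/-! Phase 3: all blocks. -/

namespace Vale.Agent.P223.X

theorem part : SpecPart := PartX.main
theorem uni : SpecUniX := UniX.main QCL.main ConsL.main BddL.main
theorem fund : SpecFundX :=
  FundE.main Fund.Rep.main (Fund.Loc.main Fund.Rep.wts (Fund.Case.main FundN.main) Fund.Rep.theta
    Fund.Alt.main)
theorem mono : SpecMonoX := MonoX.main part (LapX.main part) (H.Evol.main H.B25a.main)
theorem ext : SpecExtX := ExtX.main
theorem zero : SpecZeroX := ZeroX.main

theorem flow : SpecFlX :=
  FlX.main X3.main (X5.main part Vol.main BddL.main) (MpX.main part) uni EqX.main Vol.main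

theorem atx : SpecATX :=
  X11.main flow EqX.main TTX.main (IBPX.main part Vol.main) Vol.main H.Bochner.mainT

theorem hb : Final.Blk where
  part := part
  form := Form.main
  cyc := Form.mainA
  norm := NormX.main
  tr := Y4.main part Vol.main
  fund := fund
  mt := MT.mt
  dual := MT.dual
  fin := FinX.main
  atx := atx
  vol := Vol.main
  mono := mono
  ext := ext
  zero := zero
  min := X23.main (H.Evol.main H.B25a.main) H.B25a.main (LapX.main part) Vol.main
  conf := ConfX.main part

end Vale.Agent.P223.X
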