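import Vale.Agent.P223.X.SpecU

/-! Block U2a: boxes. -/

namespace Vale.Agent.P223.X.BoxU

open scoped ContDiff
open Vale.Agent.P223.H

variable {n : ℕ}

/-! ### The functions `s / √(1 + s²)` and `s / √(1 - s²)` -/

theorem lt_sqrt (s : ℝ) : |s| < √(1 + s ^ 2) := by
  rw [← Real.sqrt_sq_eq_abs]
  exact Real.sqrt_lt_sqrt (sq_nonneg _) (by linarith)

theorem abs_lt_one (s : ℝ) : |s / √(1 + s ^ 2)| < 1 := by
  have h := lt_sqrt s
  have h0 : 0 < √(1 + s ^ 2) := lt_of_le_of_lt (abs_nonneg _) h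
  rw [abs_div, abs_of_pos h0, div_lt_one h0]
  exact h

theorem left_inv (s : ℝ) : (s / √(1 + s ^ 2)) / √(1 - (s / √(1 + s ^ 2)) ^ 2) = s := by
  have h1 : 0 < 1 + s ^ 2 := by positivity
  have h0 : 0 < √(1 + s ^ 2) := Real.sqrt_pos.2 h1
  have e : 1 - (s / √(1 + s ^ 2)) ^ 2 = (1 + s ^ 2)⁻¹ := by
    rw [div_pow, Real.sq_sqrt h1.le]
    field_simp
    ring
  rw [e, Real.sqrt_inv, div_inv_eq_mul, div_mul_cancel₀ _ h0.ne']

theorem right_inv {s : ℝ} (h : |s| < 1) :
    (s / √(1 - s ^ 2)) / √(1 + (s / √(1 - s ^ 2)) ^ 2) = s := by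
  have h1 : 0 < 1 - s ^ 2 := by
    have := (sq_lt_one_iff_abs_lt_one s).2 h
    linarith
  have h0 : 0 < √(1 - s ^ 2) := Real.sqrt_pos.2 h1
  have e : 1 + (s / √(1 - s ^ 2)) ^ 2 = (1 - s ^ 2)⁻¹ := by
    rw [div_pow, Real.sq_sqrt h1.le]
    field_simp
    ring
  rw [e, Real.sqrt_inv, div_inv_eq_mul, div_mul_cancel₀ _ h0.ne']

/-! ### The parametrisation of a cube -/

/-- the inverse of `th` -/
noncomputable def thi (a : E n) (r : ℝ) (x : E n) : E n :=
  fun k => ((x k - a k) / r) / √(1 - ((x k - a k) / r) ^ 2)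

/-- the open cube -/
def cube (a : E n) (r : ℝ) : Set (E n) := {x | ∀ k, |x k - a k| < r}

theorem isOpen_cube (a : E n) (r : ℝ) : IsOpen (cube a r) := by
  have e : cube a r = ⋂ k, {x : E n | |x k - a k| < r} := by ext x; simp [cube]
  rw [e]
  refine isOpen_iInter_of_finite fun k => ?_
  exact isOpen_lt (by fun_prop) continuous_const

theorem th_mem {a : E n} {r : ℝ} (hr : 0 < r) (y : E n) : th a r y ∈ cube a r := by
  intro k
  show |a k + r * (y k / √(1 + y k ^ 2)) - a k| < r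
  rw [add_sub_cancel_left, abs_mul, abs_of_pos hr]
  exact mul_lt_of_lt_one_right hr (abs_lt_one _)

theorem thi_th {a : E n} {r : ℝ} (hr : 0 < r) (y : E n) : thi a r (th a r y) = y := by
  funext k
  have e : (th a r y k - a k) / r = y k / √(1 + y k ^ 2) := by
    show (a k + r * (y k / √(1 + y k ^ 2)) - a k) / r = _
    rw [add_sub_cancel_left, mul_div_cancel_left₀ _ hr.ne']
  show ((th a r y k - a k) / r) / √(1 - ((th a r y k - a k) / r) ^ 2) = y k
  rw [e, left_inv]

theorem th_thi {a : E n} {r : ℝ} (hr : 0 < r) {x : E n} (hx : x ∈ cube a r) :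
    th a r (thi a r x) = x := by
  funext k
  show a k + r * (thi a r x k / √(1 + thi a r x k ^ 2)) = x k
  have h1 : |(x k - a k) / r| < 1 := by
    rw [abs_div, abs_of_pos hr, div_lt_one hr]
    exact hx k
  have e : thi a r x k / √(1 + thi a r x k ^ 2) = (x k - a k) / r := right_inv h1
  rw [e]
  field_simp
  ring

theorem contDiff_th (a : E n) (r : ℝ) : ContDiff ℝ ∞ (th a r) := by
  refine contDiff_pi.2 fun k => ?_
  have h1 : ContDiff ℝ ∞ fun y : E n => y k := contDiff_apply ℝ ℝ k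
  have h2 : ContDiff ℝ ∞ fun y : E n => √(1 + y k ^ 2) :=
    (contDiff_const.add (h1.pow 2)).sqrt fun y => (by positivity : 0 < 1 + y k ^ 2).ne'
  exact contDiff_const.add (contDiff_const.mul (h1.div h2 fun y =>
    (Real.sqrt_pos.2 (by positivity : 0 < 1 + y k ^ 2)).ne'))

theorem contDiffAt_thi {a : E n} {r : ℝ} (hr : 0 < r) {x : E n} (hx : x ∈ cube a r) :
    ContDiffAt ℝ ∞ (thi a r) x := by
  refine contDiffAt_pi.2 fun k => ?_
  have h1 : ContDiffAt ℝ ∞ (fun x : E n => (x k - a k) / r) x :=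
    (((contDiff_apply ℝ ℝ k).sub contDiff_const).div_const r).contDiffAt
  have h3 : 0 < 1 - ((x k - a k) / r) ^ 2 := by
    have h4 : |(x k - a k) / r| < 1 := by
      rw [abs_div, abs_of_pos hr, div_lt_one hr]
      exact hx k
    have := (sq_lt_one_iff_abs_lt_one _).2 h4
    linarith
  have h2 : ContDiffAt ℝ ∞ (fun x : E n => √(1 - ((x k - a k) / r) ^ 2)) x :=
    (contDiffAt_const.sub (h1.pow 2)).sqrt h3.ne'
  exact h1.div h2 (Real.sqrt_pos.2 h3).ne'

theorem dth_pos {r : ℝ} (hr : 0 < r) (s : ℝ) : 0 < dth r s := by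
  unfold dth
  have : 0 < √(1 + s ^ 2) := Real.sqrt_pos.2 (by positivity)
  positivity

theorem hasDerivAt_sd (s : ℝ) : HasDerivAt (fun s : ℝ => s / √(1 + s ^ 2))
    (1 / √(1 + s ^ 2) ^ 3) s := by
  have h1 : 0 < 1 + s ^ 2 := by positivity
  have h0 : 0 < √(1 + s ^ 2) := Real.sqrt_pos.2 h1
  have h2 : HasDerivAt (fun s : ℝ => 1 + s ^ 2) (2 * s) s := by
    simpa using (hasDerivAt_pow 2 s).const_add 1
  have h3 : HasDerivAt (fun s : ℝ => s / √(1 + s ^ 2))
      ((1 * √(1 + s ^ 2) - s * (2 * s / (2 * √(1 + s ^ 2)))) / √(1 + s ^ 2) ^ 2) s :=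
    (hasDerivAt_id s).div (h2.sqrt h1.ne') h0.ne'
  have e : √(1 + s ^ 2) ^ 2 = 1 + s ^ 2 := Real.sq_sqrt h1.le
  have e2 : 1 / √(1 + s ^ 2) ^ 3 =
      (1 * √(1 + s ^ 2) - s * (2 * s / (2 * √(1 + s ^ 2)))) / √(1 + s ^ 2) ^ 2 := by
    field_simp
    rw [e]
    ring
  rw [e2]
  exact h3

theorem hasFDerivAt_th (a : E n) (r : ℝ) (y : E n) : HasFDerivAt (th a r)
    (ContinuousLinearMap.pi fun k => dth r (y k) •
      (ContinuousLinearMap.proj (R := ℝ) (φ := fun _ : Fin n => ℝ) k)) y := by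
  refine hasFDerivAt_pi.2 fun k => ?_
  have h1 : HasFDerivAt (fun y : E n => y k)
      (ContinuousLinearMap.proj (R := ℝ) (φ := fun _ : Fin n => ℝ) k) y :=
    (ContinuousLinearMap.proj (R := ℝ) (φ := fun _ : Fin n => ℝ) k).hasFDerivAt
  have h2 := ((hasDerivAt_sd (y k)).const_mul r).const_add (a k)
  have h3 := h2.comp_hasFDerivAt y h1
  rw [mul_one_div] at h3
  exact h3

theorem fderiv_th (a : E n) (r : ℝ) (y w : E n) :
    fderiv ℝ (th a r) y w = fun k => dth r (y k) * w k := by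
  rw [(hasFDerivAt_th a r y).fderiv]
  funext k
  rfl

theorem det_th (a : E n) {r : ℝ} (hr : 0 < r) (y : E n) : 0 < (fderiv ℝ (th a r) y).det := by
  have e : ((fderiv ℝ (th a r) y : E n →L[ℝ] E n) : E n →ₗ[ℝ] E n) =
      Matrix.toLin' (Matrix.diagonal fun k => dth r (y k)) := by
    refine LinearMap.ext fun w => ?_
    rw [ContinuousLinearMap.coe_coe, fderiv_th, Matrix.toLin'_apply]
    funext k
    rw [Matrix.mulVec_diagonal]
  show 0 < LinearMap.det ((fderiv ℝ (th a r) y : E n →L[ℝ] E n) : E n →ₗ[ℝ] E n)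
  rw [e, LinearMap.det_toLin', Matrix.det_diagonal]
  exact Finset.prod_pos fun k _ => dth_pos hr _

theorem det_thi {a : E n} {r : ℝ} (hr : 0 < r) (y : E n) :
    0 < (fderiv ℝ (thi a r) (th a r y)).det := by
  have h1 : HasFDerivAt (thi a r) (fderiv ℝ (thi a r) (th a r y)) (th a r y) :=
    ((contDiffAt_thi hr (th_mem hr y)).differentiableAt (by simp)).hasFDerivAt
  have h2 : HasFDerivAt (th a r) (fderiv ℝ (th a r) y) y :=
    ((contDiff_th a r).differentiable (by simp) y).hasFDerivAt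
  have h3 := h1.comp y h2
  have h4 : thi a r ∘ th a r = id := funext fun y => thi_th hr y
  rw [h4] at h3
  have h5 := h3.unique (hasFDerivAt_id y)
  have h6 : (fderiv ℝ (thi a r) (th a r y)).det * (fderiv ℝ (th a r) y).det = 1 := by
    have h8 : LinearMap.det (((fderiv ℝ (thi a r) (th a r y)) : E n →ₗ[ℝ] E n) ∘ₗ
        ((fderiv ℝ (th a r) y) : E n →ₗ[ℝ] E n)) = 1 := by
      have h9 : ((fderiv ℝ (thi a r) (th a r y)) : E n →ₗ[ℝ] E n) ∘ₗ
          ((fderiv ℝ (th a r) y) : E n →ₗ[ℝ] E n) = LinearMap.id := by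
        refine LinearMap.ext fun w => ?_
        exact DFunLike.congr_fun h5 w
      rw [h9, LinearMap.det_id]
    rw [LinearMap.det_comp] at h8
    exact h8
  have h7 := det_th a hr y
  by_contra hc
  push Not at hc
  nlinarith

theorem th_isOpenEmbedding {a : E n} {r : ℝ} (hr : 0 < r) :
    Topology.IsOpenEmbedding (th a r) := by
  have hr1 : Set.range (th a r) = cube a r := by
    ext x
    constructor
    · rintro ⟨y, rfl⟩; exact th_mem hr y
    · exact fun hx => ⟨thi a r x, th_thi hr hx⟩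
  refine Topology.IsOpenEmbedding.of_continuous_injective_isOpenMap
    (contDiff_th a r).continuous (fun y y' h => ?_) fun U hU => ?_
  · rw [← thi_th hr y, h, thi_th hr]
  · have e : th a r '' U = cube a r ∩ thi a r ⁻¹' U := by
      ext x
      constructor
      · rintro ⟨y, hy, rfl⟩
        exact ⟨th_mem hr y, by show thi a r (th a r y) ∈ U; rwa [thi_th hr]⟩
      · rintro ⟨h1, h2⟩
        exact ⟨thi a r x, h2, th_thi hr h1⟩
    rw [e]
    have hc : ContinuousOn (thi a r) (cube a r) := fun x hx =>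
      (contDiffAt_thi hr hx).continuousAt.continuousWithinAt
    exact hc.isOpen_inter_preimage (isOpen_cube a r) hU

/-! ### The boxes -/

section
variable {M I : Type} [TopologicalSpace M] {c : M → J.Ch n M}

/-- `β i` is an open embedding. -/
theorem emb_β (B : Box c I) (i : I) : Topology.IsOpenEmbedding (B.β i) := by
  have h1 := th_isOpenEmbedding (a := c (B.a i) (B.a i)) (B.pos i)
  have hmem : ∀ y, B.x i y ∈ (c (B.a i)).target := B.sub i
  refine Topology.IsOpenEmbedding.of_continuous_injective_isOpenMap ?_ ?_ ?_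
  · exact (c (B.a i)).continuousOn_symm.comp_continuous h1.continuous hmem
  · intro y y' h
    exact h1.injective ((c (B.a i)).symm.injOn (hmem y) (hmem y') h)
  · intro U hU
    have e : B.β i '' U = (c (B.a i)).symm '' (B.x i '' U) := by
      rw [Set.image_image]; rfl
    rw [e]
    refine (c (B.a i)).symm.isOpen_image_of_subset_source (h1.isOpenMap U hU) ?_
    rintro _ ⟨y, -, rfl⟩
    exact hmem y

/-- the coordinates of `β i y` in the chart `c (a i)` -/
theorem chart_β (B : Box c I) (i : I) (y : E n) :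
    B.β i y ∈ (c (B.a i)).source ∧ c (B.a i) (B.β i y) = B.x i y :=
  ⟨(c (B.a i)).map_target (B.sub i y), (c (B.a i)).right_inv (B.sub i y)⟩

end

theorem main : SpecBox := by
  intro n M _ _ _ c hc
  have h1 : ∀ a : M, ∃ r : ℝ, 0 < r ∧ cube (c a a) r ⊆ (c a).target := by
    intro a
    have h2 : c a a ∈ (c a).target := (c a).map_source (hc a).1
    obtain ⟨r, hr, hrs⟩ := Metric.isOpen_iff.1 (c a).open_target _ h2
    refine ⟨r, hr, fun x hx => hrs ?_⟩
    rw [Metric.mem_ball, dist_pi_lt_iff hr]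
    exact fun k => by rw [Real.dist_eq]; exact hx k
  choose r hr hrs using h1
  have hs2 : 0 < √(2 : ℝ) := Real.sqrt_pos.2 two_pos
  have htt := isCompact_univ.elim_nhds_subcover
    (fun a : M => (c a).source ∩ c a ⁻¹' cube (c a a) (r a / √2)) (fun a _ => ?_)
  · obtain ⟨t, ht⟩ := htt
    refine ⟨{a // a ∈ t}, inferInstance, ⟨⟨fun a => a.1, fun a => r a.1, fun a => hr a.1,
      fun a y => hrs _ (th_mem (hr _) y), fun p => ?_⟩⟩⟩
    obtain ⟨a, ha, hp⟩ := Set.mem_iUnion₂.1 (ht.2 (Set.mem_univ p))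
    have hpc := hp.2
    have hlt : r a / √2 < r a := by
      rw [div_lt_iff₀ hs2]
      have : 1 < √(2 : ℝ) := by
        rw [show (1 : ℝ) = √1 by simp]
        exact Real.sqrt_lt_sqrt (by norm_num) (by norm_num)
      nlinarith [hr a]
    have hpc' : c a p ∈ cube (c a a) (r a) := fun k => (hpc k).trans hlt
    refine ⟨⟨a, ha⟩, thi (c a a) (r a) (c a p), fun k => ?_, ?_⟩
    · obtain ⟨s, hs⟩ : ∃ s : ℝ, s = (c a p k - c a a k) / r a := ⟨_, rfl⟩
      have h3 : |s| < 1 / √2 := by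
        rw [hs, abs_div, abs_of_pos (hr a), div_lt_iff₀ (hr a)]
        have := hpc k
        rw [one_div, inv_mul_eq_div]
        exact this
      have h4 : s ^ 2 < 1 / 2 := by
        have h5 := pow_lt_pow_left₀ h3 (abs_nonneg s) (n := 2) (by norm_num)
        rw [sq_abs, div_pow, Real.sq_sqrt (by norm_num : (0 : ℝ) ≤ 2), one_pow] at h5
        exact h5
      show |(c a p k - c a a k) / r a / √(1 - ((c a p k - c a a k) / r a) ^ 2)| < 1
      rw [← hs, abs_div, abs_of_nonneg (Real.sqrt_nonneg _),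
        div_lt_one (Real.sqrt_pos.2 (by linarith)), ← Real.sqrt_sq_eq_abs]
      exact Real.sqrt_lt_sqrt (sq_nonneg _) (by linarith)
    · show (c a).symm (th (c a a) (r a) (thi (c a a) (r a) (c a p))) = p
      rw [th_thi (hr a) hpc']
      exact (c a).left_inv hp.1
  · refine Filter.inter_mem ((c a).open_source.mem_nhds (hc a).1) ?_
    refine ((c a).continuousAt (hc a).1).preimage_mem_nhds ((isOpen_cube _ _).mem_nhds ?_)
    intro k
    rw [sub_self, abs_zero]
    have := hr a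
    positivity

end Vale.Agent.P223.X.BoxU
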