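import Vale.Agent.P223.X.RicU

/-! Block U2h: conformal metrics. -/

namespace Vale.Agent.P223.X.ConfU

open scoped ContDiff Topology Matrix
open Vale.Agent.P223.H

variable {n : ℕ} {M X Γ I : Type} [TopologicalSpace M] [TopologicalSpace X] [Group Γ]
    [MulAction Γ X] {c : M → J.Ch n M}

theorem bil_smul (r : ℝ) (A : Matrix (Fin n) (Fin n) ℝ) (v w : E n) :
    J.bil (r • A) v w = r * J.bil A v w := by
  unfold J.bil
  rw [Finset.mul_sum]
  refine Finset.sum_congr rfl fun k _ => ?_
  rw [Finset.mul_sum]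
  refine Finset.sum_congr rfl fun l _ => ?_
  rw [Matrix.smul_apply, smul_eq_mul]; ring

theorem sm_at {f : M → ℝ} (hf : J.Sm c f) (a : M) {x : E n} (hx : x ∈ (c a).target) :
    ContDiffAt ℝ ∞ (fun x => f ((c a).symm x)) x :=
  (hf a).contDiffAt ((c a).open_target.mem_nhds hx)

theorem met_conf {g : M → J.Mtx n} (hg : J.Met c g) {f : M → ℝ} (hf : J.Sm c f) :
    J.Met c (J.conf c f g) := by
  intro a p hp
  obtain ⟨h1, h2, h3⟩ := hg a p hp
  have hx := (c a).map_source hp
  have e : ∀ b, p ∈ (c b).source → J.conf c f g b (c b p) = Real.exp (2 * f p) • g b (c b p) := by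
    intro b hb
    unfold J.conf
    rw [(c b).left_inv hb]
  refine ⟨fun i j => ?_, ?_, fun b hb v w => ?_⟩
  · have h4 : ContDiffAt ℝ ∞ (fun x => Real.exp (2 * f ((c a).symm x))) (c a p) :=
      (contDiffAt_const.mul (sm_at hf a hx)).exp
    exact h4.mul (h1 i j)
  · rw [e a hp]
    exact h2.smul (Real.exp_pos _)
  · rw [e a hp, e b hb, bil_smul, bil_smul, h3 b hb]

theorem pi_smul (C : Cov n M X Γ I) (γ : Γ) (x : X) : C.π (γ • x) = C.π x :=
  ((C.orb x (γ • x)).2 ⟨γ, rfl⟩).symm

theorem main : SpecConfU := by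
  intro n M X Γ I _ _ _ _ c B C g f hc hB hg hf
  have hrep : ∀ γ i y, C.rep (fun x => f (C.π x)) γ i y = f ((c (B.a i)).symm (B.x i y)) := by
    intro γ i y
    show f (C.π (γ • C.ψ i y)) = _
    rw [pi_smul, hB]
    rfl
  refine ⟨met_conf hg hf, fun γ i => ?_, ?_⟩
  · have : C.rep (fun x => f (C.π x)) γ i = fun y => f ((c (B.a i)).symm (B.x i y)) :=
      funext fun y => hrep γ i y
    rw [this]
    refine contDiff_iff_contDiffAt.2 fun y => ?_
    exact ContDiffAt.comp (g := fun x => f ((c (B.a i)).symm x)) y (sm_at hf (B.a i) (B.sub i y))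
      (RicU.contDiff_x B i).contDiffAt
  · funext i y
    ext k l
    unfold confm
    rw [hrep 1 i y, Matrix.smul_apply, smul_eq_mul]
    unfold Box.G J.conf
    rw [Matrix.smul_apply, smul_eq_mul]
    ring

end Vale.Agent.P223.X.ConfU
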