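import Vale.Agent.P223.X.BoxU
import Mathlib.Topology.Homotopy.Lifting

/-! Block U2b: from boxes and a covering to the structure `Cov`. -/

namespace Vale.Agent.P223.X.CovU

open scoped ContDiff Topology
open Vale.Agent.P223.H
open BoxU

variable {n : ℕ} {M X Γ I : Type} [TopologicalSpace M] [TopologicalSpace X]
  [Group Γ] [MulAction Γ X] {c : M → J.Ch n M}

/-- the coordinate change between two boxes -/
noncomputable def tb (B : Box c I) (i j : I) (y : E n) : E n :=
  thi (c (B.a j) (B.a j)) (B.r j) (J.cm (c (B.a i)) (c (B.a j)) (B.x i y))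

theorem tb_eq (B : Box c I) {i j : I} {y y' : E n} (h : B.β i y = B.β j y') : tb B i j y = y' := by
  have h1 : J.cm (c (B.a i)) (c (B.a j)) (B.x i y) = B.x j y' := by
    show c (B.a j) (B.β i y) = _
    rw [h]
    exact (chart_β B j y').2
  unfold tb
  rw [h1]
  exact thi_th (B.pos j) y'

theorem tb_smooth (hc : J.Atl c) (B : Box c I) {i j : I} {y y' : E n} (h : B.β i y = B.β j y') :
    ContDiffAt ℝ ∞ (tb B i j) y ∧ 0 < (fderiv ℝ (tb B i j) y).det := by
  have h1 : J.cm (c (B.a i)) (c (B.a j)) (B.x i y) = B.x j y' := by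
    show c (B.a j) (B.β i y) = _
    rw [h]
    exact (chart_β B j y').2
  obtain ⟨hs, hd⟩ := (hc (B.a i)).2 (B.a j) (B.β i y) (chart_β B i y).1
    (by rw [h]; exact (chart_β B j y').1)
  rw [(chart_β B i y).2] at hs hd
  have hx : ContDiff ℝ ∞ (B.x i) := contDiff_th _ _
  have ht : ContDiffAt ℝ ∞ (thi (c (B.a j) (B.a j)) (B.r j)) (B.x j y') :=
    contDiffAt_thi (B.pos j) (th_mem (B.pos j) y')
  have ht' := ht
  rw [← h1] at ht'
  have hcm : ContDiffAt ℝ ∞ (fun y => J.cm (c (B.a i)) (c (B.a j)) (B.x i y)) y :=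
    hs.comp y hx.contDiffAt
  refine ⟨ContDiffAt.comp y ht' hcm, ?_⟩
  have f1 : HasFDerivAt (B.x i) (fderiv ℝ (B.x i) y) y :=
    (hx.differentiable (by simp) y).hasFDerivAt
  have f2 : HasFDerivAt (J.cm (c (B.a i)) (c (B.a j)))
      (fderiv ℝ (J.cm (c (B.a i)) (c (B.a j))) (B.x i y)) (B.x i y) :=
    (hs.differentiableAt (by simp)).hasFDerivAt
  have f3 : HasFDerivAt (thi (c (B.a j) (B.a j)) (B.r j))
      (fderiv ℝ (thi (c (B.a j) (B.a j)) (B.r j)) (B.x j y'))
      (J.cm (c (B.a i)) (c (B.a j)) (B.x i y)) := by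
    rw [h1]
    exact (ht.differentiableAt (by simp)).hasFDerivAt
  have f4 : HasFDerivAt (tb B i j) _ y := f3.comp y (f2.comp y f1)
  rw [f4.fderiv]
  have g1 : 0 < LinearMap.det ((fderiv ℝ (B.x i) y : E n →L[ℝ] E n) : E n →ₗ[ℝ] E n) :=
    det_th _ (B.pos i) y
  have g2 : 0 < LinearMap.det ((fderiv ℝ (J.cm (c (B.a i)) (c (B.a j))) (B.x i y) :
    E n →L[ℝ] E n) : E n →ₗ[ℝ] E n) := hd
  have g3 : 0 < LinearMap.det ((fderiv ℝ (thi (c (B.a j) (B.a j)) (B.r j)) (B.x j y') :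
    E n →L[ℝ] E n) : E n →ₗ[ℝ] E n) := det_thi (B.pos j) y'
  have g4 := mul_pos g3 (mul_pos g2 g1)
  rw [← LinearMap.det_comp, ← LinearMap.det_comp] at g4
  exact g4

theorem main : SpecCov := by
  intro n M X Γ I _ _ _ _ _ _ _ _ c B π hc hcont hfree hcov hsurj horb
  classical
  -- the lifts
  have hl : ∀ i, ∃ ψ : E n → X, Continuous ψ ∧ ∀ y, π (ψ y) = B.β i y := by
    intro i
    obtain ⟨x₀, hx₀⟩ := hsurj (B.β i 0)
    obtain ⟨F, ⟨-, hF⟩, -⟩ := hcov.existsUnique_continuousMap_lifts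
      (⟨B.β i, (emb_β B i).continuous⟩ : C(E n, M)) 0 x₀ hx₀
    exact ⟨F, F.continuous, fun y => congrFun hF y⟩
  choose ψ hψc hψ using hl
  have hlh : IsLocalHomeomorph π := hcov.isLocalHomeomorph
  have hemb : ∀ i, Topology.IsOpenEmbedding (ψ i) := by
    intro i
    have h1 : (π : X → M) ∘ ψ i = B.β i := funext (hψ i)
    have h2 : IsLocalHomeomorph ((π : X → M) ∘ ψ i) := by
      rw [h1]; exact (emb_β B i).isLocalHomeomorph
    refine (h2.of_comp hlh (hψc i)).isOpenEmbedding_of_injective fun y y' h => ?_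
    refine (emb_β B i).injective ?_
    rw [← hψ i y, ← hψ i y', h]
  have hinv : ∀ (γ : Γ) x, π (γ • x) = π x := fun γ x => ((horb x (γ • x)).2 ⟨γ, rfl⟩).symm
  have hβ : ∀ i j (γ : Γ) y y', γ • ψ i y = ψ j y' → B.β i y = B.β j y' := by
    intro i j γ y y' h
    rw [← hψ i y, ← hψ j y', ← h, hinv]
  have hopen : ∀ γ : Γ, IsOpenMap fun x : X => γ • x := by
    intro γ U hU
    have e : (fun x : X => γ • x) '' U = (fun x : X => γ⁻¹ • x) ⁻¹' U := by
      ext x
      constructor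
      · rintro ⟨z, hz, rfl⟩
        show γ⁻¹ • γ • z ∈ U
        rwa [inv_smul_smul]
      · exact fun hx => ⟨γ⁻¹ • x, hx, smul_inv_smul γ x⟩
    rw [e]
    exact hU.preimage (hcont γ⁻¹)
  have hdom : ∀ i j (γ : Γ), IsOpen {y | γ • ψ i y ∈ Set.range (ψ j)} := fun i j γ =>
    (hemb j).isOpen_range.preimage ((hcont γ).comp (hψc i))
  have hco : ∀ i j (γ : Γ), ∀ y ∈ {y | γ • ψ i y ∈ Set.range (ψ j)},
      Function.invFun (ψ j) (γ • ψ i y) = tb B i j y := by
    rintro i j γ y ⟨y', hy'⟩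
    rw [← hy', Function.leftInverse_invFun (hemb j).injective y']
    exact (tb_eq B (hβ i j γ y y' hy'.symm)).symm
  refine ⟨⟨π, ψ, hcont, hfree, hcov, hsurj, horb, hemb, ?_, ?_, ?_, ?_, ?_⟩, rfl, hψ⟩
  · -- inj
    intro i γ y y' h
    have h1 : y = y' := (emb_β B i).injective (hβ i i γ y y' h)
    rw [h1] at h
    exact hfree γ _ h
  · -- cover
    intro x
    obtain ⟨i, y, hy, hp⟩ := B.cover (π x)
    have h1 : π (ψ i y) = π x := by rw [hψ i y]; exact hp
    obtain ⟨γ, hγ⟩ := (horb _ _).1 h1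
    exact ⟨γ, i, y, hy, hγ⟩
  · -- proper
    intro i j R
    have hK : IsCompact (Metric.closedBall (0 : E n) R ×ˢ Metric.closedBall (0 : E n) R) :=
      (isCompact_closedBall 0 R).prod (isCompact_closedBall 0 R)
    have h1 : {γ : Γ | ∃ z ∈ Metric.closedBall (0 : E n) R ×ˢ Metric.closedBall (0 : E n) R,
        γ • ψ i z.1 = ψ j z.2}.Finite := by
      refine hK.induction_on (p := fun s : Set (E n × E n) =>
        {γ : Γ | ∃ z ∈ s, γ • ψ i z.1 = ψ j z.2}.Finite) ?_ ?_ ?_ ?_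
      · simp
      · intro s t hst ht
        exact ht.subset fun γ ⟨z, hz, h⟩ => ⟨z, hst hz, h⟩
      · intro s t hs ht
        refine (hs.union ht).subset ?_
        rintro γ ⟨z, hz | hz, h⟩
        · exact Or.inl ⟨z, hz, h⟩
        · exact Or.inr ⟨z, hz, h⟩
      · rintro ⟨y, y'⟩ -
        by_cases he : B.β i y = B.β j y'
        · have h2 : π (ψ i y) = π (ψ j y') := by rw [hψ, hψ]; exact he
          obtain ⟨γ₀, hγ₀⟩ := (horb _ _).1 h2
          obtain ⟨e, hxe, he'⟩ := hlh (ψ i y)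
          have hinj : ∀ u ∈ e.source, ∀ u' ∈ e.source, π u = π u' → u = u' := by
            intro u hu u' hu' h
            refine e.injOn hu hu' ?_
            rw [he'] at h
            exact h
          refine ⟨(ψ i ⁻¹' e.source) ×ˢ (ψ j ⁻¹' ((fun x : X => γ₀ • x) '' e.source)),
            mem_nhdsWithin_of_mem_nhds (IsOpen.mem_nhds ?_ ?_), ?_⟩
          · exact (e.open_source.preimage (hψc i)).prod
              ((hopen γ₀ _ e.open_source).preimage (hψc j))
          · exact ⟨hxe, ψ i y, hxe, hγ₀⟩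
          · refine (Set.finite_singleton γ₀).subset ?_
            rintro γ ⟨⟨z, z'⟩, ⟨hz, u, hu, hu'⟩, h⟩
            have h3 : γ • ψ i z = γ₀ • u := h.trans hu'.symm
            have h4 : π (ψ i z) = π u := by
              rw [← hinv γ (ψ i z), h3, hinv]
            have h5 : ψ i z = u := hinj _ hz _ hu h4
            rw [← h5] at h3
            have h6 : (γ₀⁻¹ * γ) • ψ i z = ψ i z := by rw [mul_smul, h3, inv_smul_smul]
            exact (inv_mul_eq_one.1 (hfree _ _ h6)).symm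
        · obtain ⟨U, V, hU, hV, hyU, hyV, hUV⟩ := t2_separation he
          refine ⟨(B.β i ⁻¹' U) ×ˢ (B.β j ⁻¹' V), mem_nhdsWithin_of_mem_nhds
            (((hU.preimage (emb_β B i).continuous).prod
              (hV.preimage (emb_β B j).continuous)).mem_nhds ⟨hyU, hyV⟩), ?_⟩
          refine Set.finite_empty.subset ?_
          rintro γ ⟨⟨z, z'⟩, ⟨hz, hz'⟩, h⟩
          have h3 := hβ i j γ z z' h
          exact Set.disjoint_left.1 hUV hz (by rw [h3]; exact hz')
    refine h1.subset ?_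
    rintro γ ⟨y, y', hy, hy', h⟩
    exact ⟨(y, y'), ⟨mem_closedBall_zero_iff.2 hy, mem_closedBall_zero_iff.2 hy'⟩, h⟩
  · -- smooth
    intro i j γ
    refine ContDiffOn.congr (f := tb B i j) ?_ (hco i j γ)
    rintro y ⟨y', hy'⟩
    exact (tb_smooth hc B (hβ i j γ y y' hy'.symm)).1.contDiffWithinAt
  · -- orientation
    intro i j γ y hy
    have h1 : (fun y => Function.invFun (ψ j) (γ • ψ i y)) =ᶠ[𝓝 y] tb B i j := by
      filter_upwards [(hdom i j γ).mem_nhds hy] with z hz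
      exact hco i j γ z hz
    obtain ⟨y', hy'⟩ := hy
    rw [h1.fderiv_eq]
    exact (tb_smooth hc B (hβ i j γ y y' hy'.symm)).2

end Vale.Agent.P223.X.CovU
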