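import Vale.Agent.P223.X.BasicA

/-! Phase 3: basic library, Riemannian part. -/

namespace Vale.Agent.P223.X.Bas2

open scoped ContDiff Topology Matrix
open MeasureTheory Vale.Agent.P223.H

variable {n : ℕ} {M X Γ I : Type} [TopologicalSpace M] [TopologicalSpace X] [Group Γ]
    [MulAction Γ X]

/-! ### metrics on `ℝ^n` -/

section loc
variable {G G' : E n → Matrix (Fin n) (Fin n) ℝ}

theorem sm_inv (h1 : ∀ i j, ContDiff ℝ ∞ (fun x => G x i j)) (h2 : ∀ x, (G x).PosDef)
    (i j : Fin n) : ContDiff ℝ ∞ (fun x => (G x)⁻¹ i j) :=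
  contDiff_iff_contDiffAt.2 fun x =>
    (Bridge.metricOn h1 h2).sm_inv isOpen_univ (Set.mem_univ x) i j

theorem sm_chr (h1 : ∀ i j, ContDiff ℝ ∞ (fun x => G x i j)) (h2 : ∀ x, (G x).PosDef)
    (k i j : Fin n) : ContDiff ℝ ∞ (fun x => H.chr G x k i j) :=
  contDiff_iff_contDiffAt.2 fun x =>
    (Bridge.metricOn h1 h2).sm_christoffel isOpen_univ (Set.mem_univ x) k i j

theorem contDiff_gradSq (h1 : ∀ i j, ContDiff ℝ ∞ (fun x => G x i j)) (h2 : ∀ x, (G x).PosDef)
    {m : ℕ∞} {k : WithTop ℕ∞} {v : E n → ℝ} (hv : ContDiff ℝ k v)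
    (h : (m : WithTop ℕ∞) + 1 ≤ k) : ContDiff ℝ m (gradSq G v) := by
  unfold gradSq gradIp
  refine ContDiff.sum fun i _ => ContDiff.sum fun j _ => ?_
  exact (((sm_inv h1 h2 i j).of_le (mod_cast le_top)).mul
    (Bridge.contDiff_pd hv h i)).mul (Bridge.contDiff_pd hv h j)

theorem contDiff_lap (h1 : ∀ i j, ContDiff ℝ ∞ (fun x => G x i j)) (h2 : ∀ x, (G x).PosDef)
    {v : E n → ℝ} (hv : ContDiff ℝ 4 v) : ContDiff ℝ 2 (lap G v) := by
  unfold lap
  refine ContDiff.sum fun i _ => ContDiff.sum fun j _ => ?_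
  refine ((sm_inv h1 h2 i j).of_le (by norm_cast)).mul
    (ContDiff.sub ?_ (ContDiff.sum fun k _ => ?_))
  · exact Bridge.contDiff_pd (Bridge.contDiff_pd hv (k := 3) (by norm_num) j) (by norm_num) i
  · exact ((sm_chr h1 h2 k i j).of_le (by norm_cast)).mul
      ((Bridge.contDiff_pd hv (k := 3) (by norm_num) k).of_le (by norm_num))

theorem gradSq_nonneg {x : E n} (h2 : (G x).PosDef) (f : E n → ℝ) : 0 ≤ gradSq G f x := by
  have := h2.inv.posSemidef.dotProduct_mulVec_nonneg (fun i => H.pd i f x)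
  rw [gradSq, Common.gradIp_eq]
  simpa using this

theorem gradSq_congr {f g : E n → ℝ} {x : E n} (h : f =ᶠ[𝓝 x] g) :
    gradSq G f x = gradSq G g x := by
  unfold gradSq gradIp H.pd
  rw [h.fderiv_eq]

theorem lap_congr {f g : E n → ℝ} {x : E n} (h : f =ᶠ[𝓝 x] g) :
    lap G f x = lap G g x := by
  have h1 : ∀ k, (fun y => H.pd k f y) =ᶠ[𝓝 x] fun y => H.pd k g y := fun k => by
    filter_upwards [h.fderiv (𝕜 := ℝ)] with y hy
    unfold H.pd; rw [hy]
  have h2 : ∀ i k, H.pd i (fun y => H.pd k f y) x = H.pd i (fun y => H.pd k g y) x :=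
    fun i k => by
      have := (h1 k).fderiv_eq (𝕜 := ℝ)
      unfold H.pd at this ⊢
      rw [this]
  unfold lap
  simp only [h2, fun k => (h1 k).self_of_nhds]

/-- transformation of the inverse metric -/
theorem Ginv_trans {A : Matrix (Fin n) (Fin n) ℝ} {g g' : Matrix (Fin n) (Fin n) ℝ}
    (hA : A.det ≠ 0) (h : g = Aᵀ * g' * A) : A * g⁻¹ * Aᵀ = g'⁻¹ := by
  have hD : IsUnit A.det := hA.isUnit
  have hDt : IsUnit Aᵀ.det := by rwa [Matrix.det_transpose]
  rw [h, Matrix.mul_inv_rev, Matrix.mul_inv_rev]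
  calc A * (A⁻¹ * (g'⁻¹ * (Aᵀ)⁻¹)) * Aᵀ
      = (A * A⁻¹) * g'⁻¹ * ((Aᵀ)⁻¹ * Aᵀ) := by simp only [Matrix.mul_assoc]
    _ = _ := by
      rw [Matrix.mul_nonsing_inv _ hD, Matrix.nonsing_inv_mul _ hDt, one_mul, mul_one]

/-! ### local changes of coordinates -/

variable {φ : E n → E n} {U : Set (E n)} {x : E n}

theorem fderiv_eq_mulVec (hφ : ContDiffAt ℝ ∞ φ x) (v : E n) (a : Fin n) :
    fderiv ℝ φ x v a = ∑ b, jac φ x a b * v b := by
  have h2 : v = ∑ b, v b • (Pi.single b (1 : ℝ) : E n) := by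
    ext k
    simp [Finset.sum_apply, Pi.single_apply]
  conv_lhs => rw [h2, map_sum]
  simp only [Finset.sum_apply, map_smul, Pi.smul_apply, smul_eq_mul, fderiv_single hφ]
  exact Finset.sum_congr rfl fun b _ => mul_comm _ _

theorem det_jac (hφ : ContDiffAt ℝ ∞ φ x) : (jac φ x).det = (fderiv ℝ φ x).det := by
  have : jac φ x = LinearMap.toMatrix' (fderiv ℝ φ x : E n →ₗ[ℝ] E n) := by
    ext a b
    rw [LinearMap.toMatrix'_apply, ContinuousLinearMap.coe_coe, fderiv_single hφ]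
  rw [this, LinearMap.det_toMatrix']

theorem gradSq_comp (hφ : ContDiffAt ℝ ∞ φ x) (hA : (jac φ x).det ≠ 0)
    (hc : G x = (jac φ x)ᵀ * G' (φ x) * jac φ x) {f : E n → ℝ}
    (hf : DifferentiableAt ℝ f (φ x)) :
    gradSq G (fun y => f (φ y)) x = gradSq G' f (φ x) := by
  have e : (fun i => H.pd i (fun y => f (φ y)) x) = (jac φ x)ᵀ *ᵥ fun i => H.pd i f (φ x) := by
    ext j
    rw [Bridge.pd_eq, P223.pd_comp hφ hf]
    simp only [Matrix.mulVec, dotProduct, Matrix.transpose_apply]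
    exact Finset.sum_congr rfl fun i _ => mul_comm _ _
  rw [gradSq, gradSq, Common.gradIp_eq, Common.gradIp_eq, e, ← Ginv_trans hA hc,
    Matrix.mulVec_mulVec, ← Matrix.mulVec_mulVec, ← Matrix.mulVec_mulVec, ← Matrix.mulVec_mulVec,
    Matrix.mulVec_transpose, ← Matrix.dotProduct_mulVec]

theorem hess_comp (hG : IsMetricOn Set.univ G) (hG' : IsMetricOn Set.univ G')
    (hc : Chg U Set.univ Set.univ φ G G') (hx : x ∈ U) {f : E n → ℝ} (hf : ContDiff ℝ 2 f) :
    Bridge.hess G (fun y => f (φ y)) x =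
      (jac φ x)ᵀ * Bridge.hess G' f (φ x) * jac φ x := by
  have hfd : Differentiable ℝ f := hf.differentiable (by simp)
  have hpd : ∀ e, Differentiable ℝ (fun y => H.pd e f y) := fun e =>
    (Bridge.contDiff_pd hf (k := 1) (by norm_num) e).differentiable (by simp)
  have hφ := hc.smooth x hx
  have hjd : ∀ e j, DifferentiableAt ℝ (fun y => jac φ y e j) x := fun e j =>
    (sm_jac hφ e j).diff
  have hcd : ∀ e, DifferentiableAt ℝ (fun y => H.pd e f (φ y)) x := fun e =>
    (hpd e _).comp x (hφ.differentiableAt (by simp))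
  ext i j
  have r1 : ((jac φ x)ᵀ * Bridge.hess G' f (φ x) * jac φ x) i j =
      ∑ m, ∑ l, jac φ x l i * Bridge.hess G' f (φ x) l m * jac φ x m j := by
    simp only [Matrix.mul_apply, Matrix.transpose_apply, Finset.sum_mul]
  rw [r1]
  unfold Bridge.hess
  have e1 : (fun y => H.pd j (fun z => f (φ z)) y) =ᶠ[𝓝 x]
      fun y => ∑ e, H.pd e f (φ y) * jac φ y e j := by
    filter_upwards [hc.isOpen.mem_nhds hx] with y hy
    exact P223.pd_comp (hc.smooth y hy) (hfd _) j
  have e2 : H.pd i (fun y => H.pd j (fun z => f (φ z)) y) x =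
      ∑ e, ((∑ l, H.pd l (fun z => H.pd e f z) (φ x) * jac φ x l i) * jac φ x e j +
        H.pd e f (φ x) * hes φ x e i j) := by
    have e1' : H.pd i (fun y => H.pd j (fun z => f (φ z)) y) x =
        H.pd i (fun y => ∑ e, H.pd e f (φ y) * jac φ y e j) x := by
      have := e1.fderiv_eq (𝕜 := ℝ)
      unfold H.pd at this ⊢
      rw [this]
    rw [e1', Bridge.pd_sum fun e _ => (hcd e).fun_mul (hjd e j)]
    refine Finset.sum_congr rfl fun e _ => ?_
    rw [Bridge.pd_mul (hcd e) (hjd e j)]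
    congr 1
    congr 1
    exact P223.pd_comp (h := fun z => H.pd e f z) hφ (hpd e _) i
  have e3 : ∑ k, H.chr G x k i j * H.pd k (fun z => f (φ z)) x =
      ∑ e, H.pd e f (φ x) * ((∑ l, ∑ m, jac φ x l i * jac φ x m j * H.chr G' (φ x) e l m) +
        hes φ x e i j) := by
    have ct := fun e => christoffel_trans hG (Set.mem_univ x) hG' isOpen_univ (Set.mem_univ _) hφ
      (hc.ev hx) e i j
    calc _ = ∑ k, ∑ e, H.chr G x k i j * (H.pd e f (φ x) * jac φ x e k) := by
          refine Finset.sum_congr rfl fun k _ => ?_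
          rw [← Finset.mul_sum]
          congr 1
          exact P223.pd_comp hφ (hfd _) k
      _ = ∑ e, H.pd e f (φ x) * ∑ k, jac φ x e k * H.chr G x k i j := by
          rw [Finset.sum_comm]
          refine Finset.sum_congr rfl fun e _ => ?_
          rw [Finset.mul_sum]
          refine Finset.sum_congr rfl fun k _ => by ring
      _ = _ := by
          refine Finset.sum_congr rfl fun e _ => ?_
          rw [show (∑ k, jac φ x e k * H.chr G x k i j) = _ from ct e]; rfl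
  rw [e2, e3]
  simp only [Finset.sum_add_distrib, mul_add]
  rw [add_sub_add_right_eq_sub]
  have r2 : ∑ e, H.pd e f (φ x) * ∑ l, ∑ m, jac φ x l i * jac φ x m j * H.chr G' (φ x) e l m =
      ∑ m, ∑ l, jac φ x l i * (∑ k, H.chr G' (φ x) k l m * H.pd k f (φ x)) * jac φ x m j := by
    calc _ = ∑ e, ∑ m, ∑ l, H.pd e f (φ x) *
            (jac φ x l i * jac φ x m j * H.chr G' (φ x) e l m) := by
          refine Finset.sum_congr rfl fun e _ => ?_
          rw [Finset.sum_comm, Finset.mul_sum]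
          refine Finset.sum_congr rfl fun m _ => ?_
          rw [Finset.mul_sum]
      _ = ∑ m, ∑ e, ∑ l, H.pd e f (φ x) *
            (jac φ x l i * jac φ x m j * H.chr G' (φ x) e l m) := Finset.sum_comm
      _ = _ := by
          refine Finset.sum_congr rfl fun m _ => ?_
          rw [Finset.sum_comm]
          refine Finset.sum_congr rfl fun l _ => ?_
          rw [Finset.mul_sum, Finset.sum_mul]
          refine Finset.sum_congr rfl fun e _ => by ring
  rw [r2, ← Finset.sum_sub_distrib]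
  refine Finset.sum_congr rfl fun m _ => ?_
  rw [Finset.sum_mul, ← Finset.sum_sub_distrib]
  refine Finset.sum_congr rfl fun l _ => by ring

theorem lap_comp (hG : IsMetricOn Set.univ G) (hG' : IsMetricOn Set.univ G')
    (hc : Chg U Set.univ Set.univ φ G G') (hx : x ∈ U) (hA : (jac φ x).det ≠ 0)
    {f : E n → ℝ} (hf : ContDiff ℝ 2 f) : lap G (fun y => f (φ y)) x = lap G' f (φ x) := by
  have e : ∀ (G : E n → Matrix (Fin n) (Fin n) ℝ) (f : E n → ℝ) (x : E n),
      lap G f x = ((G x)⁻¹ * (Bridge.hess G f x)ᵀ).trace := by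
    intro G f x
    simp only [lap, Matrix.trace, Matrix.diag_apply, Matrix.mul_apply, Matrix.transpose_apply]
    rfl
  rw [e, e, hess_comp hG hG' hc hx hf,
    ← Ginv_trans hA (hc.compat x hx)]
  simp only [Matrix.transpose_mul, Matrix.transpose_transpose]
  have : (G x)⁻¹ * ((jac φ x)ᵀ * ((Bridge.hess G' f (φ x))ᵀ * jac φ x)) =
      ((G x)⁻¹ * (jac φ x)ᵀ * (Bridge.hess G' f (φ x))ᵀ) * jac φ x := by
    simp only [Matrix.mul_assoc]
  rw [this, Matrix.trace_mul_comm]
  simp only [Matrix.mul_assoc]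

end loc

/-! ### the statements -/

section metric
variable {C : Cov n M X Γ I} {G : I → E n → Matrix (Fin n) (Fin n) ℝ} (hG : MetX C G)
include hG

theorem compat {i j : I} {γ : Γ} {y : E n} (h : y ∈ C.dom i j γ) :
    G i y = (jac (C.tr i j γ) y)ᵀ * G j (C.tr i j γ y) * jac (C.tr i j γ) y := by
  ext a b
  have := hG.inv i j γ y h (Pi.single a 1) (Pi.single b 1)
  simp only [fderiv_single (contDiffAt_tr C h)] at this
  have h2 : ∑ k, ∑ l, (Pi.single a (1 : ℝ) : E n) k * (Pi.single b (1 : ℝ) : E n) l * G i y k l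
      = G i y a b := by
    simp [Pi.single_apply]
  rw [h2] at this
  rw [← this]
  simp only [Matrix.mul_apply, Matrix.transpose_apply, Finset.sum_mul]
  rw [Finset.sum_comm]
  refine Finset.sum_congr rfl fun i _ => Finset.sum_congr rfl fun j _ => by ring

theorem metOn (i : I) : IsMetricOn Set.univ (G i) := Bridge.metricOn (hG.smooth i) (hG.pos i)

theorem chg (i j : I) (γ : Γ) :
    Chg (C.dom i j γ) Set.univ Set.univ (C.tr i j γ) (G i) (G j) where
  isOpen := isOpen_dom C i j γ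
  sub := Set.subset_univ _
  maps := fun _ _ => Set.mem_univ _
  smooth := fun _ h => contDiffAt_tr C h
  compat := fun _ h => compat hG h

omit hG in
theorem det_jac_pos {i j : I} {γ : Γ} {y : E n} (h : y ∈ C.dom i j γ) :
    0 < (jac (C.tr i j γ) y).det := by
  rw [det_jac (contDiffAt_tr C h)]
  exact det_tr_pos C h

omit hG in
theorem rep_eventually (f : X → ℝ) {i j : I} {γ γ' : Γ} {y : E n}
    (h : y ∈ C.dom i j (γ'⁻¹ * γ)) :
    C.rep f γ i =ᶠ[𝓝 y] fun z => C.rep f γ' j (C.tr i j (γ'⁻¹ * γ) z) := by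
  have := rep_tr_eventually C f h γ'
  rwa [mul_inv_cancel_left] at this

theorem gradSq_chart' (f : X → ℝ) {i j : I} {γ γ' : Γ} {y y' : E n}
    (h : γ • C.ψ i y = γ' • C.ψ j y') (hf : DifferentiableAt ℝ (C.rep f γ' j) y') :
    gradSq (G i) (C.rep f γ i) y = gradSq (G j) (C.rep f γ' j) y' := by
  obtain ⟨h1, rfl⟩ := chart_eq C h
  rw [gradSq_congr (rep_eventually f h1)]
  exact gradSq_comp (contDiffAt_tr C h1) (det_jac_pos h1).ne' (compat hG h1) hf

omit hG in
theorem diff_chart (f : X → ℝ) {i j : I} {γ γ' : Γ} {y y' : E n}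
    (h : γ • C.ψ i y = γ' • C.ψ j y') (hf : DifferentiableAt ℝ (C.rep f γ' j) y') :
    DifferentiableAt ℝ (C.rep f γ i) y := by
  obtain ⟨h1, rfl⟩ := chart_eq C h
  refine DifferentiableAt.congr_of_eventuallyEq ?_ (rep_eventually f h1)
  exact hf.comp y ((contDiffAt_tr C h1).differentiableAt (by simp))

theorem gradSq_chart (f : X → ℝ) {i j : I} {γ γ' : Γ} {y y' : E n}
    (h : γ • C.ψ i y = γ' • C.ψ j y') :
    gradSq (G i) (C.rep f γ i) y = gradSq (G j) (C.rep f γ' j) y' := by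
  by_cases hf : DifferentiableAt ℝ (C.rep f γ' j) y'
  · exact gradSq_chart' hG f h hf
  · have hf' : ¬ DifferentiableAt ℝ (C.rep f γ i) y := fun h' => hf (diff_chart f h.symm h')
    unfold gradSq gradIp H.pd
    rw [fderiv_zero_of_not_differentiableAt hf, fderiv_zero_of_not_differentiableAt hf']
    simp

theorem lap_chart {f : X → ℝ} (hf : C.Ck 2 f) {i j : I} {γ γ' : Γ} {y y' : E n}
    (h : γ • C.ψ i y = γ' • C.ψ j y') :
    lap (G i) (C.rep f γ i) y = lap (G j) (C.rep f γ' j) y' := by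
  obtain ⟨h1, rfl⟩ := chart_eq C h
  rw [lap_congr (rep_eventually f h1)]
  exact lap_comp (metOn hG i) (metOn hG j) (chg hG i j _) h1 (det_jac_pos h1).ne' (hf γ' j)

theorem gsX_eq (f : X → ℝ) (γ : Γ) (i : I) (y : E n) :
    gsX C G f (γ • C.ψ i y) = gradSq (G i) (C.rep f γ i) y :=
  gl_eq C (fun _ _ _ _ _ _ h => gradSq_chart hG f h) γ i y

theorem lapX_eq {f : X → ℝ} (hf : C.Ck 2 f) (γ : Γ) (i : I) (y : E n) :
    lapX C G f (γ • C.ψ i y) = lap (G i) (C.rep f γ i) y :=
  gl_eq C (fun _ _ _ _ _ _ h => lap_chart hG hf h) γ i y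

theorem rep_gsX (f : X → ℝ) (γ : Γ) (i : I) :
    C.rep (gsX C G f) γ i = fun y => gradSq (G i) (C.rep f γ i) y :=
  funext fun y => gsX_eq hG f γ i y

theorem rep_lapX {f : X → ℝ} (hf : C.Ck 2 f) (γ : Γ) (i : I) :
    C.rep (lapX C G f) γ i = fun y => lap (G i) (C.rep f γ i) y :=
  funext fun y => lapX_eq hG hf γ i y

theorem gsX_nonneg (f : X → ℝ) (x : X) : 0 ≤ gsX C G f x := by
  obtain ⟨γ, i, y, -, rfl⟩ := exists_chart C x
  rw [gsX_eq hG]
  exact gradSq_nonneg (hG.pos i y) _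

omit hG in
theorem rep_smul (f : X → ℝ) (γ γ' : Γ) (i : I) :
    C.rep (fun z => f (γ • z)) γ' i = C.rep f (γ * γ') i := by
  funext y
  unfold Cov.rep
  rw [mul_smul]

theorem gsX_smul (f : X → ℝ) (γ : Γ) (x : X) :
    gsX C G (fun z => f (γ • z)) x = gsX C G f (γ • x) := by
  obtain ⟨γ', i, y, -, rfl⟩ := exists_chart C x
  rw [gsX_eq hG, ← mul_smul, gsX_eq hG, rep_smul]

theorem lapX_smul {f : X → ℝ} (hf : C.Ck 2 f) (γ : Γ) (x : X) :
    lapX C G (fun z => f (γ • z)) x = lapX C G f (γ • x) := by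
  obtain ⟨γ', i, y, -, rfl⟩ := exists_chart C x
  have hf' : C.Ck 2 (fun z => f (γ • z)) := fun γ' i => by
    rw [rep_smul]; exact hf _ _
  rw [lapX_eq hG hf', ← mul_smul, lapX_eq hG hf, rep_smul]

theorem Ck_gsX {f : X → ℝ} (hf : C.Ck 4 f) : C.Ck 3 (gsX C G f) := fun γ i => by
  rw [rep_gsX hG]
  exact contDiff_gradSq (hG.smooth i) (hG.pos i) (m := 3) (hf γ i) (by norm_num)

theorem Ck_lapX {f : X → ℝ} (hf : C.Ck 4 f) : C.Ck 2 (lapX C G f) := fun γ i => by
  have hf2 : C.Ck 2 f := fun γ i => (hf γ i).of_le (by norm_num)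
  rw [rep_lapX hG hf2]
  exact contDiff_lap (hG.smooth i) (hG.pos i) (hf γ i)

theorem scal_chart {i j : I} {γ γ' : Γ} {y y' : E n} (h : γ • C.ψ i y = γ' • C.ψ j y') :
    H.scal (G i) y = H.scal (G j) y' := by
  obtain ⟨h1, rfl⟩ := chart_eq C h
  exact scal_trans (metOn hG i) isOpen_univ (metOn hG j) isOpen_univ (chg hG i j _) h1

theorem ric_chart {i j : I} {γ : Γ} {y : E n} (h : y ∈ C.dom i j γ) (v w : E n) :
    ∑ a, ∑ b, fderiv ℝ (C.tr i j γ) y v a * fderiv ℝ (C.tr i j γ) y w b *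
      ric (G j) (C.tr i j γ y) a b = ∑ a, ∑ b, v a * w b * ric (G i) y a b := by
  have ht : ∀ a b, ric (G i) y a b = ∑ q, ∑ r, jac (C.tr i j γ) y q b * jac (C.tr i j γ) y r a *
      ric (G j) (C.tr i j γ y) r q := fun a b =>
    ricci_trans (metOn hG i) isOpen_univ (metOn hG j) isOpen_univ (chg hG i j γ) h a b
  simp only [fderiv_eq_mulVec (contDiffAt_tr C h), ht]
  simp only [Finset.sum_mul, Finset.mul_sum]
  calc _ = ∑ r, ∑ q, ∑ a, ∑ b, v a * w b * (jac (C.tr i j γ) y q b * jac (C.tr i j γ) y r a *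
        ric (G j) (C.tr i j γ y) r q) := by
        refine Finset.sum_congr rfl fun r _ => Finset.sum_congr rfl fun q _ => ?_
        rw [Finset.sum_comm]
        refine Finset.sum_congr rfl fun a _ => Finset.sum_congr rfl fun b _ => ?_
        ring
    _ = ∑ r, ∑ a, ∑ b, ∑ q, v a * w b * (jac (C.tr i j γ) y q b * jac (C.tr i j γ) y r a *
        ric (G j) (C.tr i j γ y) r q) := by
        refine Finset.sum_congr rfl fun r _ => ?_
        rw [Finset.sum_comm]
        refine Finset.sum_congr rfl fun a _ => ?_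
        rw [Finset.sum_comm]
    _ = ∑ a, ∑ b, ∑ r, ∑ q, v a * w b * (jac (C.tr i j γ) y q b * jac (C.tr i j γ) y r a *
        ric (G j) (C.tr i j γ y) r q) := by
        rw [Finset.sum_comm]
        refine Finset.sum_congr rfl fun a _ => ?_
        rw [Finset.sum_comm]
    _ = _ := by
        refine Finset.sum_congr rfl fun a _ => Finset.sum_congr rfl fun b _ => ?_
        rw [Finset.sum_comm]

theorem dens_chart {i j : I} {γ : Γ} {y : E n} (h : y ∈ C.dom i j γ) :
    H.dens (G i) y = (fderiv ℝ (C.tr i j γ) y).det * H.dens (G j) (C.tr i j γ y) := by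
  unfold H.dens
  rw [← det_jac (contDiffAt_tr C h), compat hG h, Matrix.det_mul, Matrix.det_mul,
    Matrix.det_transpose, show (jac (C.tr i j γ) y).det * (G j (C.tr i j γ y)).det *
      (jac (C.tr i j γ) y).det = (jac (C.tr i j γ) y).det ^ 2 * (G j (C.tr i j γ y)).det by ring,
    Real.sqrt_mul (by positivity), Real.sqrt_sq (det_jac_pos h).le]

end metric

end Vale.Agent.P223.X.Bas2
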