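import Vale.Agent.P223.X.BasicA
import Vale.Agent.P223.H.B3c

/-! Basic library, part 3: jets, regularity, compactness. -/

namespace Vale.Agent.P223.X.Bas3

open scoped ContDiff Topology
open MeasureTheory Vale.Agent.P223.H

variable {n : ℕ} {M X Γ I : Type} [TopologicalSpace M] [TopologicalSpace X] [Group Γ]
    [MulAction Γ X] (C : Cov n M X Γ I)

/-! ### jets -/

section prolong
variable {J : Type} [Fintype J]

theorem prol_comp (F F' : Frame n T1 J) {ι : Type} (u v : E n → ι → ℝ) {U : Set (E n)}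
    (hU : IsOpen U) {τ : E n → E n} (hτ : ∀ y ∈ U, DifferentiableAt ℝ τ y)
    (hV : ∀ j, ∀ y ∈ U, F'.V j (τ y) = fderiv ℝ τ y (F.V j y))
    (hv : ∀ i, Differentiable ℝ fun y => v y i) (huv : ∀ y ∈ U, u y = v (τ y)) :
    ∀ y ∈ U, prol F u y = prol F' v (τ y) := by
  intro y hy
  funext p
  obtain ⟨o, i⟩ := p
  cases o with
  | none => exact congrFun (huv y hy) i
  | some j =>
    change fderiv ℝ (fun z => u z i) y (F.V j y) = fderiv ℝ (fun z => v z i) (τ y) (F'.V j (τ y))
    have e : (fun z => u z i) =ᶠ[𝓝 y] fun z => v (τ z) i := by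
      filter_upwards [hU.mem_nhds hy] with z hz
      exact congrFun (huv z hz) i
    rw [e.fderiv_eq, hV j y hy]
    exact congrArg (fun T : E n →L[ℝ] ℝ => T (F.V j y)) (fderiv_comp y (hv i (τ y)) (hτ y hy))

theorem NN_comp (F F' : Frame n T1 J) {U : Set (E n)} (hU : IsOpen U) {τ : E n → E n}
    (hτ : ∀ y ∈ U, DifferentiableAt ℝ τ y)
    (hV : ∀ j, ∀ y ∈ U, F'.V j (τ y) = fderiv ℝ τ y (F.V j y)) (m : ℕ) : ∀ (ι : Type) [Fintype ι]
    (u v : E n → ι → ℝ), (∀ i, ContDiff ℝ (m : WithTop ℕ∞) fun y => v y i) →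
    (∀ y ∈ U, u y = v (τ y)) → ∀ y ∈ U, NN F m ι u y = NN F' m ι v (τ y) := by
  induction m with
  | zero =>
    intro ι _ u v _ huv y hy
    change ∑ i, u y i ^ 2 = ∑ i, v (τ y) i ^ 2
    rw [huv y hy]
  | succ m ih =>
    intro ι _ u v hv huv y hy
    exact ih _ (prol F u) (prol F' v) (B3c.contDiff_prol F' m v hv)
      (prol_comp F F' u v hU hτ hV (fun i => (hv i).differentiable (by simp)) huv) y hy

end prolong

section jets
variable {C} {J : Type} [Fintype J] (F : FrX C J)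

theorem jet_chart {f : X → ℝ} (hf : C.Ck 4 f) {i j : I} {γ γ' : Γ} {y y' : E n}
    (h : γ • C.ψ i y = γ' • C.ψ j y') :
    jet (F.loc i) (C.rep f γ i) y = jet (F.loc j) (C.rep f γ' j) y' := by
  obtain ⟨h1, h2⟩ := chart_eq C h
  have := NN_comp (F.loc i) (F.loc j) (isOpen_dom C i j (γ'⁻¹ * γ))
    (fun z hz => (contDiffAt_tr C hz).differentiableAt (by simp))
    (fun k z hz => F.V_inv k i j _ z hz) 4 Unit (fun z _ => C.rep f γ i z)
    (fun z _ => C.rep f γ' j z) (fun _ => hf γ' j) (fun z hz => funext fun _ => by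
      have := rep_tr C f hz γ'
      rwa [mul_inv_cancel_left] at this) y h1
  rw [h2] at this
  exact this

theorem jetX_eq {f : X → ℝ} (hf : C.Ck 4 f) (γ : Γ) (i : I) (y : E n) :
    jetX F f (γ • C.ψ i y) = jet (F.loc i) (C.rep f γ i) y :=
  gl_eq C (fun _ _ _ _ _ _ h => jet_chart F hf h) γ i y

end jets

theorem Ck_smul {k : WithTop ℕ∞} {f : X → ℝ} (hf : C.Ck k f) (γ : Γ) :
    C.Ck k (fun x => f (γ • x)) := by
  intro γ' i
  have := hf (γ * γ') i
  unfold Cov.rep at this ⊢
  simpa only [mul_smul] using this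

section jets
variable {C} {J : Type} [Fintype J] (F : FrX C J)

theorem jetX_smul {f : X → ℝ} (hf : C.Ck 4 f) (γ : Γ) (x : X) :
    jetX F (fun z => f (γ • z)) x = jetX F f (γ • x) := by
  obtain ⟨γ', i, y, -, rfl⟩ := exists_chart C x
  rw [jetX_eq F (Ck_smul C hf γ), ← mul_smul, jetX_eq F hf]
  have : C.rep (fun z => f (γ • z)) γ' i = C.rep f (γ * γ') i := by
    funext z
    unfold Cov.rep
    rw [mul_smul]
  rw [this]

end jets

/-! ### continuity -/

/-- the deck transformations are homeomorphisms -/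
def hm (γ : Γ) : X ≃ₜ X where
  toEquiv := MulAction.toPerm γ
  continuous_toFun := C.cont γ
  continuous_invFun := C.cont γ⁻¹

theorem chart_emb (γ : Γ) (i : I) : Topology.IsOpenEmbedding fun y => γ • C.ψ i y :=
  (hm C γ).isOpenEmbedding.comp (C.emb i)

theorem Ck_zero_iff {f : X → ℝ} : C.Ck 0 f ↔ Continuous f := by
  constructor
  · intro hf
    refine continuous_iff_continuousAt.2 fun x => ?_
    obtain ⟨γ, i, y, -, rfl⟩ := exists_chart C x
    rw [← (chart_emb C γ i).continuousAt_iff]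
    exact (contDiff_zero.1 (hf γ i)).continuousAt
  · intro hf γ i
    exact contDiff_zero.2 (hf.comp (chart_emb C γ i).continuous)

theorem Ck_continuous {f : X → ℝ} (hf : C.Ck 0 f) : Continuous f := (Ck_zero_iff C).1 hf

/-! ### extension by zero -/

theorem ex_ψ (i : I) (h : E n → ℝ) (y : E n) : C.ex i h (C.ψ i y) = h y := by
  unfold Cov.ex
  rw [if_pos ⟨y, rfl⟩, co_ψ]

theorem ex_of_not_mem {i : I} {h : E n → ℝ} {x : X} (hx : x ∉ C.ψ i '' tsupport h) :
    C.ex i h x = 0 := by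
  unfold Cov.ex
  split_ifs with h1
  · obtain ⟨y, rfl⟩ := h1
    rw [co_ψ]
    by_contra h2
    exact hx ⟨y, subset_tsupport _ h2, rfl⟩
  · rfl

/-- extension by zero is smooth -/
theorem Ck_ex [T2Space X] {k : WithTop ℕ∞} {i : I} {h : E n → ℝ} (hh : ContDiff ℝ k h)
    (hc : HasCompactSupport h) : C.Ck k (C.ex i h) := by
  intro γ j
  by_cases hk : k ≤ ∞
  swap
  · -- analytic functions with compact support
    have hk' : k = ω := by
      cases k with
      | top => rfl
      | coe a => exact absurd (WithTop.coe_le_coe.2 le_top) hk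
    subst hk'
    rcases Nat.eq_zero_or_pos n with hn | hn
    · subst hn
      have h1 : C.rep (C.ex i h) γ j = fun _ => C.rep (C.ex i h) γ j 0 := by
        funext y
        rw [Subsingleton.elim y 0]
      rw [h1]
      exact contDiff_const
    · have hne : Nonempty (Fin n) := ⟨⟨0, hn⟩⟩
      have ha : AnalyticOnNhd ℝ h Set.univ := contDiff_omega_iff_analyticOnNhd.1 hh
      obtain ⟨z, hz⟩ : ∃ z, z ∉ tsupport h := by
        by_contra hcon
        push Not at hcon
        exact noncompact_univ (E n) ((Set.eq_univ_of_forall hcon) ▸ hc.isCompact)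
      have hz' : h =ᶠ[𝓝 z] 0 := notMem_tsupport_iff_eventuallyEq.1 hz
      have h0 : ∀ y, h y = 0 := fun y =>
        ha.eqOn_zero_of_preconnected_of_eventuallyEq_zero isPreconnected_univ (Set.mem_univ z) hz'
          (Set.mem_univ y)
      have h1 : C.rep (C.ex i h) γ j = fun _ => 0 := by
        funext y
        unfold Cov.rep Cov.ex
        split_ifs
        · exact h0 _
        · rfl
      rw [h1]
      exact contDiff_const
  refine contDiff_iff_contDiffAt.2 fun y => ?_
  by_cases hy : y ∈ C.dom j i γ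
  · have e : C.rep (C.ex i h) γ j =ᶠ[𝓝 y] fun z => h (C.tr j i γ z) := by
      filter_upwards [(isOpen_dom C j i γ).mem_nhds hy] with z hz
      unfold Cov.rep
      rw [← tr_spec C hz, ex_ψ]
    exact (hh.contDiffAt.comp y ((contDiffAt_tr C hy).of_le hk)).congr_of_eventuallyEq e
  · have hK : IsCompact (C.ψ i '' tsupport h) := hc.isCompact.image (C.emb i).continuous
    have hy' : γ • C.ψ j y ∉ C.ψ i '' tsupport h := fun ⟨z, _, hz⟩ => hy ⟨z, hz⟩
    have e : C.rep (C.ex i h) γ j =ᶠ[𝓝 y] fun _ => 0 := by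
      have h1 : ∀ᶠ z in 𝓝 y, γ • C.ψ j z ∈ (C.ψ i '' tsupport h)ᶜ :=
        (chart_emb C γ j).continuous.continuousAt.eventually_mem
          (hK.isClosed.isOpen_compl.mem_nhds hy')
      filter_upwards [h1] with z hz
      exact ex_of_not_mem C hz
    exact contDiffAt_const.congr_of_eventuallyEq e

/-! ### compactness -/

theorem isCompact_core [Finite I] (R : ℝ) :
    IsCompact (⋃ i, C.ψ i '' {y : E n | ‖y‖ ≤ R}) := by
  refine isCompact_iUnion fun i => IsCompact.image ?_ (C.emb i).continuous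
  have : {y : E n | ‖y‖ ≤ R} = Metric.closedBall 0 R := by ext; simp
  rw [this]
  exact isCompact_closedBall _ _

include C in
theorem compactSpace_M [Finite I] : CompactSpace M := by
  refine ⟨?_⟩
  have h : (Set.univ : Set M) ⊆ C.π '' ⋃ i, C.ψ i '' {y : E n | ‖y‖ ≤ 1} := by
    intro m _
    obtain ⟨x, rfl⟩ := C.surj m
    obtain ⟨γ, i, y, hy, rfl⟩ := exists_chart C x
    refine ⟨C.ψ i y, Set.mem_iUnion.2 ⟨i, y, hy.le, rfl⟩, ?_⟩
    exact (C.orb _ _).2 ⟨γ, rfl⟩
  exact ((isCompact_core C 1).image C.π.continuous).of_isClosed_subset isClosed_univ h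

/-- compact sets are covered by finitely many charts -/
theorem finite_cover {K : Set X} (hK : IsCompact K) : ∃ s : Finset (Γ × I),
    K ⊆ ⋃ p ∈ s, (fun y => p.1 • C.ψ p.2 y) '' Metric.ball (0 : E n) 1 := by
  refine hK.elim_finite_subcover _ (fun p => (chart_emb C p.1 p.2).isOpenMap _ Metric.isOpen_ball)
    fun x _ => ?_
  obtain ⟨γ, i, y, hy, rfl⟩ := exists_chart C x
  exact Set.mem_iUnion.2 ⟨(γ, i), y, by simpa using hy, rfl⟩

include C in
theorem properX {K K' : Set X} (hK : IsCompact K) (hK' : IsCompact K') :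
    {γ : Γ | ∃ x ∈ K, γ • x ∈ K'}.Finite := by
  obtain ⟨s, hs⟩ := finite_cover C hK
  obtain ⟨s', hs'⟩ := finite_cover C hK'
  refine (Set.Finite.biUnion (s.finite_toSet) fun p _ => Set.Finite.biUnion (s'.finite_toSet)
    fun p' _ => (C.proper p.2 p'.2 1).image fun g => p'.1 * g * p.1⁻¹).subset ?_
  rintro γ ⟨x, hx, hx'⟩
  obtain ⟨p, hp, y, hy, rfl⟩ := Set.mem_iUnion₂.1 (hs hx)
  obtain ⟨p', hp', y', hy', h⟩ := Set.mem_iUnion₂.1 (hs' hx')
  simp only at h
  refine Set.mem_iUnion₂.2 ⟨p, hp, Set.mem_iUnion₂.2 ⟨p', hp', p'.1⁻¹ * γ * p.1, ⟨y, y', ?_, ?_, ?_⟩,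
    by simp only; group⟩⟩
  · exact (mem_ball_zero_iff.1 hy).le
  · exact (mem_ball_zero_iff.1 hy').le
  · rw [mul_smul, mul_smul, ← h, inv_smul_smul]

end Vale.Agent.P223.X.Bas3
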