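import Vale.Agent.P223.X.BasicA
import Vale.Agent.P223.X.Basic2
import Vale.Agent.P223.X.Basic3

/-! Phase 3: basic library. -/

namespace Vale.Agent.P223.X

open scoped ContDiff Topology
open MeasureTheory Vale.Agent.P223.H

variable {n : ℕ} {M X Γ I : Type} [TopologicalSpace M] [TopologicalSpace X] [Group Γ]
    [MulAction Γ X] (C : Cov n M X Γ I)

section metric
variable {C} {G : I → E n → Matrix (Fin n) (Fin n) ℝ} (hG : MetX C G)
include hG

theorem gradSq_chart (f : X → ℝ) {i j : I} {γ γ' : Γ} {y y' : E n}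
    (h : γ • C.ψ i y = γ' • C.ψ j y') :
    gradSq (G i) (C.rep f γ i) y = gradSq (G j) (C.rep f γ' j) y' := Bas2.gradSq_chart hG f h

theorem lap_chart {f : X → ℝ} (hf : C.Ck 2 f) {i j : I} {γ γ' : Γ} {y y' : E n}
    (h : γ • C.ψ i y = γ' • C.ψ j y') :
    lap (G i) (C.rep f γ i) y = lap (G j) (C.rep f γ' j) y' := Bas2.lap_chart hG hf h

theorem gsX_eq (f : X → ℝ) (γ : Γ) (i : I) (y : E n) :
    gsX C G f (γ • C.ψ i y) = gradSq (G i) (C.rep f γ i) y := Bas2.gsX_eq hG f γ i y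

theorem lapX_eq {f : X → ℝ} (hf : C.Ck 2 f) (γ : Γ) (i : I) (y : E n) :
    lapX C G f (γ • C.ψ i y) = lap (G i) (C.rep f γ i) y := Bas2.lapX_eq hG hf γ i y

theorem rep_gsX (f : X → ℝ) (γ : Γ) (i : I) :
    C.rep (gsX C G f) γ i = fun y => gradSq (G i) (C.rep f γ i) y := Bas2.rep_gsX hG f γ i

theorem rep_lapX {f : X → ℝ} (hf : C.Ck 2 f) (γ : Γ) (i : I) :
    C.rep (lapX C G f) γ i = fun y => lap (G i) (C.rep f γ i) y := Bas2.rep_lapX hG hf γ i

theorem gsX_nonneg (f : X → ℝ) (x : X) : 0 ≤ gsX C G f x := Bas2.gsX_nonneg hG f x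

theorem gsX_smul (f : X → ℝ) (γ : Γ) (x : X) :
    gsX C G (fun z => f (γ • z)) x = gsX C G f (γ • x) := Bas2.gsX_smul hG f γ x

theorem lapX_smul {f : X → ℝ} (hf : C.Ck 2 f) (γ : Γ) (x : X) :
    lapX C G (fun z => f (γ • z)) x = lapX C G f (γ • x) := Bas2.lapX_smul hG hf γ x

theorem Ck_gsX {f : X → ℝ} (hf : C.Ck 4 f) : C.Ck 3 (gsX C G f) := Bas2.Ck_gsX hG hf

theorem Ck_lapX {f : X → ℝ} (hf : C.Ck 4 f) : C.Ck 2 (lapX C G f) := Bas2.Ck_lapX hG hf

theorem scal_chart {i j : I} {γ γ' : Γ} {y y' : E n} (h : γ • C.ψ i y = γ' • C.ψ j y') :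
    H.scal (G i) y = H.scal (G j) y' := Bas2.scal_chart hG h

theorem ric_chart {i j : I} {γ : Γ} {y : E n} (h : y ∈ C.dom i j γ) (v w : E n) :
    ∑ a, ∑ b, fderiv ℝ (C.tr i j γ) y v a * fderiv ℝ (C.tr i j γ) y w b *
      H.ric (G j) (C.tr i j γ y) a b = ∑ a, ∑ b, v a * w b * H.ric (G i) y a b := Bas2.ric_chart hG h v w

theorem dens_chart {i j : I} {γ : Γ} {y : E n} (h : y ∈ C.dom i j γ) :
    H.dens (G i) y = (fderiv ℝ (C.tr i j γ) y).det * H.dens (G j) (C.tr i j γ y) := Bas2.dens_chart hG h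

end metric

section jets
variable {C} {J : Type} [Fintype J] (F : FrX C J)

theorem jetX_eq {f : X → ℝ} (hf : C.Ck 4 f) (γ : Γ) (i : I) (y : E n) :
    jetX F f (γ • C.ψ i y) = jet (F.loc i) (C.rep f γ i) y := Bas3.jetX_eq F hf γ i y

theorem jetX_smul {f : X → ℝ} (hf : C.Ck 4 f) (γ : Γ) (x : X) :
    jetX F (fun z => f (γ • z)) x = jetX F f (γ • x) := Bas3.jetX_smul F hf γ x

end jets

theorem Ck_continuous {f : X → ℝ} (hf : C.Ck 0 f) : Continuous f := Bas3.Ck_continuous C hf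

theorem Ck_zero_iff {f : X → ℝ} : C.Ck 0 f ↔ Continuous f := Bas3.Ck_zero_iff C

theorem Ck_smul {k : WithTop ℕ∞} {f : X → ℝ} (hf : C.Ck k f) (γ : Γ) :
    C.Ck k (fun x => f (γ • x)) := Bas3.Ck_smul C hf γ

/-- extension by zero is smooth -/
theorem Ck_ex [T2Space X] {k : WithTop ℕ∞} {i : I} {h : E n → ℝ} (hh : ContDiff ℝ k h)
    (hc : HasCompactSupport h) : C.Ck k (C.ex i h) := Bas3.Ck_ex C hh hc

theorem ex_ψ (i : I) (h : E n → ℝ) (y : E n) : C.ex i h (C.ψ i y) = h y := Bas3.ex_ψ C i h y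

theorem isCompact_core [Finite I] (R : ℝ) :
    IsCompact (⋃ i, C.ψ i '' {y : E n | ‖y‖ ≤ R}) := Bas3.isCompact_core C R

include C in
theorem compactSpace_M [Finite I] : CompactSpace M := Bas3.compactSpace_M C

include C in
theorem properX [Finite I] [T2Space X] {K K' : Set X} (hK : IsCompact K) (hK' : IsCompact K') :
    {γ : Γ | ∃ x ∈ K, γ • x ∈ K'}.Finite := Bas3.properX C hK hK'

end Vale.Agent.P223.X
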