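import Vale.Agent.P223.X.BoxB
import Vale.Agent.P223.X.Basic

/-! Block U2c: metrics in boxes. -/

namespace Vale.Agent.P223.X.MetU

open scoped ContDiff Topology
open MeasureTheory Vale.Agent.P223.H
open BoxB

section bil
variable {n : ℕ}

theorem bil_single (A : Fin n → Fin n → ℝ) (k l : Fin n) (s t : ℝ) :
    J.bil A (Pi.single k s) (Pi.single l t) = s * t * A k l := by
  unfold J.bil
  rw [Finset.sum_eq_single k, Finset.sum_eq_single l]
  · simp
  · intro b _ hb; simp [hb]
  · intro h; exact absurd (Finset.mem_univ _) h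
  · intro b _ hb
    refine Finset.sum_eq_zero fun j _ => ?_
    simp [hb]
  · intro h; exact absurd (Finset.mem_univ _) h

theorem bil_comm {A : Fin n → Fin n → ℝ} (h : ∀ i j, A i j = A j i) (v w : E n) :
    J.bil A v w = J.bil A w v := by
  unfold J.bil
  rw [Finset.sum_comm]
  refine Finset.sum_congr rfl fun i _ => Finset.sum_congr rfl fun j _ => ?_
  rw [h j i]; ring

theorem quad_eq (A : Matrix (Fin n) (Fin n) ℝ) (v : E n) :
    star v ⬝ᵥ (A.mulVec v) = J.bil A v v := by
  unfold J.bil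
  simp only [dotProduct, Matrix.mulVec, Finset.mul_sum, Pi.star_apply, star_trivial]
  refine Finset.sum_congr rfl fun i _ => Finset.sum_congr rfl fun j _ => by ring

theorem posDef_iff (A : Matrix (Fin n) (Fin n) ℝ) :
    A.PosDef ↔ (∀ i j, A i j = A j i) ∧ ∀ v : E n, v ≠ 0 → 0 < J.bil A v v := by
  constructor
  · intro h
    refine ⟨fun i j => ?_, fun v hv => ?_⟩
    · have := h.isHermitian.apply j i
      simpa using this
    · rw [← quad_eq]
      exact h.dotProduct_mulVec_pos hv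
  · rintro ⟨h1, h2⟩
    refine Matrix.PosDef.of_dotProduct_mulVec_pos ?_ fun v hv => ?_
    · ext i j
      simp [h1 i j]
    · rw [quad_eq]; exact h2 v hv

theorem posDef_pull {A A' : Matrix (Fin n) (Fin n) ℝ} (hA : A.PosDef) (L : E n → E n)
    (h : ∀ v w, J.bil A' v w = J.bil A (L v) (L w)) (hL : ∀ v, v ≠ 0 → L v ≠ 0) : A'.PosDef := by
  rw [posDef_iff] at hA ⊢
  refine ⟨fun i j => ?_, fun v hv => ?_⟩
  · have h1 := bil_single A' i j 1 1
    have h2 := bil_single A' j i 1 1
    rw [h] at h1 h2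
    rw [bil_comm hA.1] at h1
    linarith
  · rw [h]; exact hA.2 _ (hL v hv)

end bil

section
variable {n : ℕ} {M X Γ I : Type} [TopologicalSpace M] [TopologicalSpace X]
  [Group Γ] [MulAction Γ X] {c : M → J.Ch n M} {B : Box c I} {C : Cov n M X Γ I}
  (hc : J.Atl c) (hβ : ∀ i y, C.π (C.ψ i y) = B.β i y)

theorem π_smul (C : Cov n M X Γ I) (γ : Γ) (x : X) : C.π (γ • x) = C.π x :=
  ((C.orb x (γ • x)).2 ⟨γ, rfl⟩).symm

include hβ in
theorem β_tr {i j : I} {γ : Γ} {y : E n} (h : y ∈ C.dom i j γ) :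
    B.β j (C.tr i j γ y) = B.β i y := by
  rw [← hβ, tr_spec C h, π_smul, hβ]

include hβ in
theorem x_tr {i j : I} {γ : Γ} {y : E n} (h : y ∈ C.dom i j γ) :
    B.x j (C.tr i j γ y) = J.cm (c (B.a i)) (c (B.a j)) (B.x i y) := by
  rw [← c_β, β_tr hβ h]; rfl

include hβ in
theorem β_mem_j {i j : I} {γ : Γ} {y : E n} (h : y ∈ C.dom i j γ) :
    B.β i y ∈ (c (B.a j)).source := by
  rw [← β_tr hβ h]; exact β_mem B j _

include hc hβ in
theorem D_tr {i j : I} {γ : Γ} {y : E n} (h : y ∈ C.dom i j γ) (v : E n) :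
    B.D j (C.tr i j γ y) (fderiv ℝ (C.tr i j γ) y v) =
      fderiv ℝ (J.cm (c (B.a i)) (c (B.a j))) (B.x i y) (B.D i y v) := by
  have h1 : DifferentiableAt ℝ (C.tr i j γ) y := (contDiffAt_tr C h).differentiableAt (by simp)
  have h2 : DifferentiableAt ℝ (B.x j) (C.tr i j γ y) :=
    (contDiff_x B j).differentiable (by simp) _
  have h3 : DifferentiableAt ℝ (B.x i) y := (contDiff_x B i).differentiable (by simp) _
  have h4 : DifferentiableAt ℝ (J.cm (c (B.a i)) (c (B.a j))) (B.x i y) := by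
    rw [← c_β]
    exact (contDiffAt_cm hc (β_mem B i y) (β_mem_j hβ h)).differentiableAt (by simp)
  have e : (fun z => B.x j (C.tr i j γ z)) =ᶠ[𝓝 y]
      fun z => J.cm (c (B.a i)) (c (B.a j)) (B.x i z) := by
    filter_upwards [(isOpen_dom C i j γ).mem_nhds h] with z hz
    exact x_tr hβ hz
  have e1 := fderiv_comp y h2 h1
  have e2 := fderiv_comp y h4 h3
  have e3 : fderiv ℝ (fun z => B.x j (C.tr i j γ z)) y v =
      fderiv ℝ (fun z => J.cm (c (B.a i)) (c (B.a j)) (B.x i z)) y v := by rw [e.fderiv_eq]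
  have e4 : fderiv ℝ (fun z => B.x j (C.tr i j γ z)) y v =
      fderiv ℝ (B.x j) (C.tr i j γ y) (fderiv ℝ (C.tr i j γ) y v) :=
    congrArg (fun T : E n →L[ℝ] E n => T v) e1
  have e5 : fderiv ℝ (fun z => J.cm (c (B.a i)) (c (B.a j)) (B.x i z)) y v =
      fderiv ℝ (J.cm (c (B.a i)) (c (B.a j))) (B.x i y) (fderiv ℝ (B.x i) y v) :=
    congrArg (fun T : E n →L[ℝ] E n => T v) e2
  rw [e4, e5, fderiv_x, fderiv_x] at e3
  exact e3

theorem contDiff_dd (B : Box c I) (i : I) (k l : Fin n) :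
    ContDiff ℝ ∞ (fun y : E n => dth (B.r i) (y k) * dth (B.r i) (y l)) :=
  ((contDiff_dth _).comp (contDiff_apply ℝ ℝ k)).mul
    ((contDiff_dth _).comp (contDiff_apply ℝ ℝ l))

include hc hβ in
theorem metX {g : M → J.Mtx n} (hg : J.Met c g) : MetX C (B.G g) where
  smooth i k l := by
    refine contDiff_iff_contDiffAt.2 fun y => ?_
    have h1 := (hg (B.a i) (B.β i y) (β_mem B i y)).1 k l
    rw [c_β] at h1
    exact (contDiff_dd B i k l).contDiffAt.mul (h1.comp y (contDiff_x B i).contDiffAt)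
  pos i y := by
    have h1 := (hg (B.a i) (B.β i y) (β_mem B i y)).2.1
    rw [c_β] at h1
    exact posDef_pull h1 (B.D i y) (bil_G B g i y) fun v hv => D_ne_zero B i y hv
  inv i j γ y hy v w := by
    have h1 := (hg (B.a i) (B.β i y) (β_mem B i y)).2.2 (B.a j) (β_mem_j hβ hy)
      (B.D i y v) (B.D i y w)
    have h2 : c (B.a j) (B.β i y) = B.x j (C.tr i j γ y) := by rw [← β_tr hβ hy, c_β]
    rw [c_β, h2, ← bil_G, ← D_tr hc hβ hy, ← D_tr hc hβ hy, ← bil_G] at h1
    exact h1.symm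

include hc hβ in
theorem famX {g : ℝ → M → J.Mtx n} (hg : J.Fam c g) : FamX C fun t => B.G (g t) where
  met t := metX hc hβ (hg.met t)
  smooth i k l := by
    have h1 : ContDiff ℝ ∞ (fun p : ℝ × E n => (p.1, B.x i p.2)) :=
      contDiff_fst.prodMk ((contDiff_x B i).comp contDiff_snd)
    have h2 := (hg.smooth (B.a i) k l).comp_contDiff h1 fun p => ⟨trivial, x_mem B i p.2⟩
    exact ((contDiff_dd B i k l).comp contDiff_snd).mul h2

theorem D_single (B : Box c I) (i : I) (y : E n) (k : Fin n) :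
    B.D i y (Pi.single k 1) = Pi.single k (dth (B.r i) (y k)) := by
  funext l
  unfold Box.D
  by_cases h : l = k
  · subst h; simp
  · simp [h]

include hc hβ in
theorem rfX (hric : SpecRicU) {g : ℝ → M → J.Mtx n} (hg : J.RF c g) :
    RFX C fun t => B.G (g t) where
  met t ht := metX hc hβ (hg.met t ht)
  smooth i k l := by
    have h1 : ContDiffOn ℝ ∞ (fun p : ℝ × E n => (p.1, B.x i p.2)) (Set.Ici 0 ×ˢ Set.univ) :=
      (contDiff_fst.prodMk ((contDiff_x B i).comp contDiff_snd)).contDiffOn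
    have h2 := (hg.smooth (B.a i) k l).comp h1 fun p hp => ⟨hp.1, x_mem B i p.2⟩
    exact ((contDiff_dd B i k l).comp contDiff_snd).contDiffOn.mul h2
  flow t ht i y k l := by
    have h1 := hg.flow t ht (B.a i) (B.x i y) (x_mem B i y) k l
    have h2 := h1.const_mul (dth (B.r i) (y k) * dth (B.r i) (y l))
    have h3 := (hric n M I c B (g t) hc (hg.met t ht.le)).2.1 i y (Pi.single k 1) (Pi.single l 1)
    rw [D_single, D_single, bil_single, bil_single] at h3
    refine h2.congr_deriv ?_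
    linear_combination (-2) * h3.symm

end

theorem main (hric : SpecRicU) : SpecMetU := by
  intro n M X Γ I _ _ _ _ c B C hc hβ
  exact ⟨fun g hg => metX hc hβ hg, fun g hg => famX hc hβ hg, fun g hg => rfX hc hβ hric hg⟩

end Vale.Agent.P223.X.MetU
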