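import Vale.Agent.P223.X.MetU
import Mathlib.MeasureTheory.Function.Jacobian

/-! Block U2f: every metric on the covering data comes from a metric on `M`. -/

namespace Vale.Agent.P223.X.MiniU

open scoped ContDiff Topology
open MeasureTheory Vale.Agent.P223.H
open BoxB MetU

section bil
variable {n : ℕ}

theorem pull_apply (A : Fin n → Fin n → ℝ) (L : E n →L[ℝ] E n) (v w : E n) :
    J.bil (fun k l => J.bil A (L (Pi.single k 1)) (L (Pi.single l 1))) v w =
      J.bil A (L v) (L w) := by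
  have e : ∀ u : E n, ∀ i, L u i = ∑ k, u k * L (Pi.single k 1) i := by
    intro u i
    have h1 : u = ∑ k, u k • (Pi.single k (1 : ℝ) : E n) := by
      conv_lhs => rw [← Finset.univ_sum_single u]
      refine Finset.sum_congr rfl fun k _ => ?_
      rw [← Pi.single_smul, smul_eq_mul, mul_one]
    conv_lhs => rw [h1, map_sum]
    rw [Finset.sum_apply]
    refine Finset.sum_congr rfl fun k _ => ?_
    rw [map_smul]; rfl
  unfold J.bil
  simp only [e v, e w]
  simp only [Finset.mul_sum, Finset.sum_mul]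
  -- left : ∑ k ∑ l ∑ i ∑ j, right : ∑ i ∑ j ∑ l ∑ k
  have hl : ∀ F : Fin n → Fin n → Fin n → Fin n → ℝ,
      ∑ k, ∑ l, ∑ i, ∑ j, F k l i j = ∑ i, ∑ j, ∑ l, ∑ k, F k l i j := by
    intro F
    calc ∑ k, ∑ l, ∑ i, ∑ j, F k l i j = ∑ k, ∑ i, ∑ l, ∑ j, F k l i j :=
          Finset.sum_congr rfl fun k _ => Finset.sum_comm
      _ = ∑ i, ∑ k, ∑ l, ∑ j, F k l i j := Finset.sum_comm
      _ = ∑ i, ∑ k, ∑ j, ∑ l, F k l i j :=
          Finset.sum_congr rfl fun i _ => Finset.sum_congr rfl fun k _ => Finset.sum_comm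
      _ = ∑ i, ∑ j, ∑ k, ∑ l, F k l i j := Finset.sum_congr rfl fun i _ => Finset.sum_comm
      _ = _ := Finset.sum_congr rfl fun i _ => Finset.sum_congr rfl fun j _ => Finset.sum_comm
  rw [hl]
  refine Finset.sum_congr rfl fun i _ => Finset.sum_congr rfl fun j _ =>
    Finset.sum_congr rfl fun l _ => Finset.sum_congr rfl fun k _ => ?_
  ring

theorem det_pull (A : Matrix (Fin n) (Fin n) ℝ) (L : E n →L[ℝ] E n) :
    Matrix.det (fun k l => J.bil A (L (Pi.single k 1)) (L (Pi.single l 1)) :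
      Matrix (Fin n) (Fin n) ℝ) = L.det ^ 2 * A.det := by
  set T : Matrix (Fin n) (Fin n) ℝ := LinearMap.toMatrix' (L : E n →ₗ[ℝ] E n) with hT
  have h1 : (fun k l => J.bil A (L (Pi.single k 1)) (L (Pi.single l 1)) :
      Matrix (Fin n) (Fin n) ℝ) = T.transpose * A * T := by
    ext k l
    rw [Matrix.mul_apply]
    simp only [Matrix.mul_apply, Matrix.transpose_apply, Finset.sum_mul]
    unfold J.bil
    rw [Finset.sum_comm]
    refine Finset.sum_congr rfl fun i _ => Finset.sum_congr rfl fun j _ => ?_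
    have e : ∀ i k, T i k = L (Pi.single k 1) i := by
      intro i k
      rw [hT, LinearMap.toMatrix'_apply]
      congr 2
    rw [e, e]; ring
  rw [h1, Matrix.det_mul, Matrix.det_mul, Matrix.det_transpose]
  have h2 : T.det = L.det := by
    rw [hT, LinearMap.det_toMatrix']
  rw [h2]; ring

end bil

section
variable {n : ℕ} {M X Γ I : Type} [TopologicalSpace M] [TopologicalSpace X]
  [Group Γ] [MulAction Γ X] {c : M → J.Ch n M} (B : Box c I) {C : Cov n M X Γ I}
  {G : I → E n → Matrix (Fin n) (Fin n) ℝ}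

/-- the coordinate change from the chart `c a` to the box `i` -/
noncomputable def kp (a : M) (i : I) (x : E n) : E n := xi B i (J.cm (c a) (c (B.a i)) x)

theorem kp_apply {a p : M} (i : I) (hp : p ∈ (c a).source) : kp B a i (c a p) = βi B i p := by
  unfold kp βi; rw [cm_apply _ _ hp]

theorem range_sub {i : I} {p : M} (hi : p ∈ Set.range (B.β i)) : p ∈ (c (B.a i)).source := by
  obtain ⟨y, rfl⟩ := hi; exact β_mem B i y

theorem contDiffAt_kp (hc : J.Atl c) {a p : M} {i : I} (hp : p ∈ (c a).source)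
    (hi : p ∈ Set.range (B.β i)) : ContDiffAt ℝ ∞ (kp B a i) (c a p) := by
  have h1 := contDiffAt_cm hc hp (range_sub B hi)
  have h2 : ContDiffAt ℝ ∞ (xi B i) (J.cm (c a) (c (B.a i)) (c a p)) := by
    obtain ⟨y, rfl⟩ := hi
    rw [cm_apply _ _ hp, c_β]
    exact contDiffAt_xi B i y
  exact h2.comp _ h1

theorem exists_ix (p : M) : ∃ i, p ∈ Set.range (B.β i) := by
  obtain ⟨i, y, -, hy⟩ := B.cover p
  exact ⟨i, y, hy⟩

/-- a box around `p` -/
noncomputable def ix (p : M) : I := (exists_ix B p).choose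

theorem ix_spec (p : M) : p ∈ Set.range (B.β (ix B p)) := (exists_ix B p).choose_spec

/-- pullback of the metric `G i` -/
noncomputable def gi (G : I → E n → Matrix (Fin n) (Fin n) ℝ) (a : M) (i : I) (x : E n) :
    Matrix (Fin n) (Fin n) ℝ := fun k l => J.bil (G i (kp B a i x))
      (fderiv ℝ (kp B a i) x (Pi.single k 1)) (fderiv ℝ (kp B a i) x (Pi.single l 1))

/-- the metric -/
noncomputable def gm (G : I → E n → Matrix (Fin n) (Fin n) ℝ) (a : M) (x : E n) :
    Matrix (Fin n) (Fin n) ℝ := gi B G a (ix B ((c a).symm x)) x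

theorem bil_gi (a : M) (i : I) (x v w : E n) : J.bil (gi B G a i x) v w =
    J.bil (G i (kp B a i x)) (fderiv ℝ (kp B a i) x v) (fderiv ℝ (kp B a i) x w) :=
  pull_apply _ _ v w

variable {B}

/-- change of the box -/
theorem kp_tr (hβ : ∀ i y, C.π (C.ψ i y) = B.β i y) (hc : J.Atl c) {a p : M} {i j : I}
    (hp : p ∈ (c a).source) (hi : p ∈ Set.range (B.β i)) (hj : p ∈ Set.range (B.β j)) :
    ∃ γ : Γ, kp B a i (c a p) ∈ C.dom i j γ ∧
      kp B a j (c a p) = C.tr i j γ (kp B a i (c a p)) ∧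
      ∀ v, fderiv ℝ (kp B a j) (c a p) v =
        fderiv ℝ (C.tr i j γ) (kp B a i (c a p)) (fderiv ℝ (kp B a i) (c a p) v) := by
  obtain ⟨y, rfl⟩ := hi
  obtain ⟨y', hy'⟩ := hj
  obtain ⟨γ, hγ⟩ := (C.orb (C.ψ i y) (C.ψ j y')).1 (by rw [hβ, hβ, hy'])
  obtain ⟨h1, h2⟩ := mem_dom C hγ
  have k1 : kp B a i (c a (B.β i y)) = y := by rw [kp_apply B i hp, βi_β]
  have k2 : kp B a j (c a (B.β i y)) = y' := by rw [kp_apply B j hp, ← hy', βi_β]
  refine ⟨γ, by rwa [k1], by rw [k1, k2, h2], fun v => ?_⟩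
  have d1 := contDiffAt_kp B hc hp ⟨y, rfl⟩
  have e : kp B a j =ᶠ[𝓝 (c a (B.β i y))] fun x => C.tr i j γ (kp B a i x) := by
    have h3 : ∀ᶠ x in 𝓝 (c a (B.β i y)), kp B a i x ∈ C.dom i j γ :=
      d1.continuousAt.eventually_mem (by rw [k1]; exact (isOpen_dom C i j γ).mem_nhds h1)
    filter_upwards [eventually_mem hp (isOpen_range_β B i) ⟨y, rfl⟩, h3] with x hx hx'
    obtain ⟨hx1, z, hz⟩ := hx
    have hs : (c a).symm x ∈ (c a).source := (c a).map_target hx1
    have hxe : x = c a (B.β i z) := by rw [hz, (c a).right_inv hx1]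
    have k3 : kp B a i x = z := by rw [hxe, kp_apply B i (by rw [hz]; exact hs), βi_β]
    rw [k3] at hx' ⊢
    have h4 := β_tr hβ hx'
    rw [hxe, kp_apply B j (by rw [hz]; exact hs), ← h4, βi_β]
  rw [e.fderiv_eq]
  have h5 : DifferentiableAt ℝ (C.tr i j γ) (kp B a i (c a (B.β i y))) := by
    rw [k1]; exact (contDiffAt_tr C h1).differentiableAt (by simp)
  exact congrArg (fun T : E n →L[ℝ] E n => T v) (fderiv_comp _ h5 (d1.differentiableAt (by simp)))

theorem gi_indep (hβ : ∀ i y, C.π (C.ψ i y) = B.β i y) (hc : J.Atl c) (hG : MetX C G)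
    {a p : M} {i j : I} (hp : p ∈ (c a).source) (hi : p ∈ Set.range (B.β i))
    (hj : p ∈ Set.range (B.β j)) : gi B G a i (c a p) = gi B G a j (c a p) := by
  obtain ⟨γ, h1, h2, h3⟩ := kp_tr hβ hc hp hi hj
  funext k l
  unfold gi
  rw [h3, h3, h2]
  exact (hG.inv i j γ _ h1 _ _).symm

theorem gm_eq (hβ : ∀ i y, C.π (C.ψ i y) = B.β i y) (hc : J.Atl c) (hG : MetX C G)
    {a p : M} {i : I} (hp : p ∈ (c a).source) (hi : p ∈ Set.range (B.β i)) :
    gm B G a (c a p) = gi B G a i (c a p) := by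
  unfold gm
  rw [(c a).left_inv hp]
  exact gi_indep hβ hc hG hp (ix_spec B p) hi

theorem gm_eq' (hβ : ∀ i y, C.π (C.ψ i y) = B.β i y) (hc : J.Atl c) (hG : MetX C G)
    {a : M} {x : E n} {i : I} (hx : x ∈ (c a).target) (hi : (c a).symm x ∈ Set.range (B.β i)) :
    gm B G a x = gi B G a i x := by
  have := gm_eq hβ hc hG ((c a).map_target hx) hi
  rwa [(c a).right_inv hx] at this

/-- the derivative of `kp` is injective -/
theorem kp_inj (hc : J.Atl c) {a p : M} {i : I} (hp : p ∈ (c a).source)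
    (hi : p ∈ Set.range (B.β i)) {v : E n} (hv : v ≠ 0) :
    fderiv ℝ (kp B a i) (c a p) v ≠ 0 := by
  intro h0
  apply hv
  obtain ⟨y, rfl⟩ := hi
  have k1 : kp B a i (c a (B.β i y)) = y := by rw [kp_apply B i hp, βi_β]
  have d1 := contDiffAt_kp B hc hp ⟨y, rfl⟩
  have d2 : DifferentiableAt ℝ (fun z => J.cm (c (B.a i)) (c a) (B.x i z))
      (kp B a i (c a (B.β i y))) := by
    rw [k1]
    have h1 := contDiffAt_cm hc (β_mem B i y) hp
    rw [c_β] at h1
    exact (h1.comp y (contDiff_x B i).contDiffAt).differentiableAt (by simp)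
  have e : (fun x => J.cm (c (B.a i)) (c a) (B.x i (kp B a i x))) =ᶠ[𝓝 (c a (B.β i y))] id := by
    filter_upwards [eventually_mem hp (isOpen_range_β B i) ⟨y, rfl⟩] with x hx
    obtain ⟨hx1, z, hz⟩ := hx
    have hs : (c a).symm x ∈ (c a).source := (c a).map_target hx1
    have hxe : x = c a (B.β i z) := by rw [hz, (c a).right_inv hx1]
    have k3 : kp B a i x = z := by rw [hxe, kp_apply B i (by rw [hz]; exact hs), βi_β]
    rw [k3, hxe]
    change c a ((c (B.a i)).symm (B.x i z)) = c a (B.β i z)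
    rfl
  have h5 := congrArg (fun T : E n →L[ℝ] E n => T v)
    (fderiv_comp _ d2 (d1.differentiableAt (by simp)))
  have h6 : fderiv ℝ (fun x => J.cm (c (B.a i)) (c a) (B.x i (kp B a i x)))
      (c a (B.β i y)) v = v := by rw [e.fderiv_eq, fderiv_id]; rfl
  have h7 : v = fderiv ℝ (fun z => J.cm (c (B.a i)) (c a) (B.x i z))
      (kp B a i (c a (B.β i y))) (fderiv ℝ (kp B a i) (c a (B.β i y)) v) := by
    conv_lhs => rw [← h6]
    exact h5
  rw [h7, h0, map_zero]

theorem contDiff_gi (hc : J.Atl c) (hG : MetX C G) {a p : M} {i : I} (hp : p ∈ (c a).source)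
    (hi : p ∈ Set.range (B.β i)) (k l : Fin n) :
    ContDiffAt ℝ ∞ (fun x => gi B G a i x k l) (c a p) := by
  have d1 := contDiffAt_kp B hc hp hi
  have d2 : ∀ k, ContDiffAt ℝ ∞ (fun x => fderiv ℝ (kp B a i) x (Pi.single k 1)) (c a p) :=
    fun k => (d1.fderiv_right (m := ∞) (by simp)).clm_apply contDiffAt_const
  have d3 : ∀ k j, ContDiffAt ℝ ∞ (fun x => fderiv ℝ (kp B a i) x (Pi.single k 1) j) (c a p) :=
    fun k j => contDiffAt_pi.1 (d2 k) j
  have d4 : ∀ j m, ContDiffAt ℝ ∞ (fun x => G i (kp B a i x) j m) (c a p) :=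
    fun j m => (hG.smooth i j m).contDiffAt.comp _ d1
  unfold gi J.bil
  exact ContDiffAt.sum fun j _ => ContDiffAt.sum fun m _ => ((d3 k j).mul (d3 l m)).mul (d4 j m)

theorem met (hβ : ∀ i y, C.π (C.ψ i y) = B.β i y) (hc : J.Atl c) (hG : MetX C G) :
    J.Met c (gm B G) := by
  intro a p hp
  set i := ix B p with hi'
  have hi : p ∈ Set.range (B.β i) := ix_spec B p
  refine ⟨fun k l => ?_, ?_, fun b hb v w => ?_⟩
  · refine (contDiff_gi hc hG hp hi k l).congr_of_eventuallyEq ?_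
    filter_upwards [eventually_mem hp (isOpen_range_β B i) hi] with x hx
    rw [gm_eq' hβ hc hG hx.1 hx.2]
  · rw [gm_eq hβ hc hG hp hi]
    exact posDef_pull (hG.pos i _) (fun v => fderiv ℝ (kp B a i) (c a p) v)
      (fun v w => bil_gi B a i _ v w) fun v hv => kp_inj hc hp hi hv
  · rw [gm_eq hβ hc hG hp hi, gm_eq hβ hc hG hb hi, bil_gi, bil_gi, kp_apply B i hp,
      kp_apply B i hb]
    have e : kp B a i =ᶠ[𝓝 (c a p)] fun x => kp B b i (J.cm (c a) (c b) x) := by
      filter_upwards [cm_cm_eventually (c a) (c b) (c (B.a i)) hp hb] with x hx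
      unfold kp
      rw [hx]
    have d1 : DifferentiableAt ℝ (J.cm (c a) (c b)) (c a p) :=
      (contDiffAt_cm hc hp hb).differentiableAt (by simp)
    have d2 : DifferentiableAt ℝ (kp B b i) (J.cm (c a) (c b) (c a p)) := by
      rw [cm_apply _ _ hp]
      exact (contDiffAt_kp B hc hb hi).differentiableAt (by simp)
    have h1 : ∀ u, fderiv ℝ (kp B a i) (c a p) u =
        fderiv ℝ (kp B b i) (c b p) (fderiv ℝ (J.cm (c a) (c b)) (c a p) u) := by
      intro u
      rw [e.fderiv_eq]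
      have h2 := congrArg (fun T : E n →L[ℝ] E n => T u) (fderiv_comp _ d2 d1)
      simp only [ContinuousLinearMap.comp_apply] at h2
      rw [cm_apply _ _ hp] at h2
      exact h2
    rw [h1, h1]

theorem G_eq (hβ : ∀ i y, C.π (C.ψ i y) = B.β i y) (hc : J.Atl c) (hG : MetX C G) :
    B.G (gm B G) = G := by
  funext i y
  have hx : c (B.a i) (B.β i y) = B.x i y := c_β B i y
  have k : ∀ z, kp B (B.a i) i (B.x i z) = z := fun z => by
    rw [← c_β, kp_apply B i (β_mem B i z), βi_β]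
  have d1 : DifferentiableAt ℝ (kp B (B.a i) i) (B.x i y) := by
    rw [← hx]
    exact (contDiffAt_kp B hc (β_mem B i y) ⟨y, rfl⟩).differentiableAt (by simp)
  have d2 : DifferentiableAt ℝ (B.x i) y := (contDiff_x B i).differentiable (by simp) y
  have h1 : ∀ v, fderiv ℝ (kp B (B.a i) i) (B.x i y) (B.D i y v) = v := by
    intro v
    have h2 := congrArg (fun T : E n →L[ℝ] E n => T v) (fderiv_comp y d1 d2)
    have h3 : fderiv ℝ (kp B (B.a i) i ∘ B.x i) y v = v := by
      have : kp B (B.a i) i ∘ B.x i = id := funext k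
      rw [this, fderiv_id]; rfl
    rw [← fderiv_x]
    exact h2.symm.trans h3
  have h4 : ∀ v w, J.bil (B.G (gm B G) i y) v w = J.bil (G i y) v w := by
    intro v w
    rw [bil_G, ← hx, gm_eq hβ hc hG (β_mem B i y) ⟨y, rfl⟩, hx, bil_gi, k, h1, h1]
  ext k l
  have h5 := (bil_single (B.G (gm B G) i y) k l 1 1).symm.trans
    ((h4 _ _).trans (bil_single (G i y) k l 1 1))
  linarith

theorem dens_gi (a : M) (i : I) (x : E n) : √(gi B G a i x).det =
    |(fderiv ℝ (kp B a i) x).det| * H.dens (G i) (kp B a i x) := by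
  unfold gi H.dens
  rw [det_pull, Real.sqrt_mul (sq_nonneg _), Real.sqrt_sq_eq_abs]

theorem vol_aux [MeasurableSpace M] [BorelSpace M] (hβ : ∀ i y, C.π (C.ψ i y) = B.β i y)
    (hc : J.Atl c) (hG : MetX C G) {μ : Measure M} (hμ : VolM C G μ) (a : M) (i : I)
    (S : Set (E n)) (hS : S ⊆ (c a).target) (hSi : ∀ x ∈ S, (c a).symm x ∈ Set.range (B.β i))
    (hm : MeasurableSet S) :
    μ ((c a).symm '' S) = ∫⁻ x in S, ENNReal.ofReal √(gm B G a x).det := by
  have hd : ∀ x ∈ S, HasFDerivWithinAt (kp B a i) (fderiv ℝ (kp B a i) x) S x := by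
    intro x hx
    have := contDiffAt_kp B hc ((c a).map_target (hS hx)) (hSi x hx)
    rw [(c a).right_inv (hS hx)] at this
    exact (this.differentiableAt (by simp)).hasFDerivAt.hasFDerivWithinAt
  have hk : ∀ x ∈ S, B.β i (kp B a i x) = (c a).symm x := by
    intro x hx
    have h1 := kp_apply B i ((c a).map_target (hS hx))
    rw [(c a).right_inv (hS hx)] at h1
    rw [h1, β_βi B (hSi x hx)]
  have hinj : Set.InjOn (kp B a i) S := by
    intro x hx x' hx' h
    have h1 := hk x hx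
    rw [h, hk x' hx'] at h1
    rw [← (c a).right_inv (hS hx), ← (c a).right_inv (hS hx'), h1]
  have hT : MeasurableSet (kp B a i '' S) := measurable_image_of_fderivWithin hm hd hinj
  have h2 : (c a).symm '' S = (fun y => C.π (C.ψ i y)) '' (kp B a i '' S) := by
    rw [Set.image_image]
    refine Set.image_congr fun x hx => ?_
    simp only [hβ]
    exact (hk x hx).symm
  rw [h2, hμ i _ hT, lintegral_image_eq_lintegral_abs_det_fderiv_mul volume hm hd hinj]
  refine setLIntegral_congr_fun hm fun x hx => ?_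
  rw [gm_eq' hβ hc hG (hS hx) (hSi x hx), dens_gi, ← ENNReal.ofReal_mul (abs_nonneg _)]

theorem vol_fin [MeasurableSpace M] [BorelSpace M] (hβ : ∀ i y, C.π (C.ψ i y) = B.β i y)
    (hc : J.Atl c) (hG : MetX C G) {μ : Measure M} (hμ : VolM C G μ) (a : M) (F : Finset I) :
    ∀ (S : Set (E n)), S ⊆ (c a).target →
    (∀ x ∈ S, ∃ i ∈ F, (c a).symm x ∈ Set.range (B.β i)) → MeasurableSet S →
    μ ((c a).symm '' S) = ∫⁻ x in S, ENNReal.ofReal √(gm B G a x).det := by
  classical
  induction F using Finset.induction_on with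
  | empty =>
    intro S hS h1 hm
    have : S = ∅ := by
      refine Set.eq_empty_of_forall_notMem fun x hx => ?_
      obtain ⟨i, hi, -⟩ := h1 x hx
      simp at hi
    simp [this]
  | insert i F _ ih =>
    intro S hS h1 hm
    set W := Set.range (B.β i) with hW
    have hWm : MeasurableSet W := (isOpen_range_β B i).measurableSet
    set U := (c a).target ∩ (c a).symm ⁻¹' W with hU
    have hUm : MeasurableSet U := ((c a).isOpen_inter_preimage_symm
      (isOpen_range_β B i)).measurableSet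
    have e1 : (c a).symm '' S ∩ W = (c a).symm '' (S ∩ U) := by
      ext p
      constructor
      · rintro ⟨⟨x, hx, rfl⟩, hp⟩
        exact ⟨x, ⟨hx, hS hx, hp⟩, rfl⟩
      · rintro ⟨x, ⟨hx, -, hp⟩, rfl⟩
        exact ⟨⟨x, hx, rfl⟩, hp⟩
    have e2 : (c a).symm '' S \ W = (c a).symm '' (S \ U) := by
      ext p
      constructor
      · rintro ⟨⟨x, hx, rfl⟩, hp⟩
        exact ⟨x, ⟨hx, fun h => hp h.2⟩, rfl⟩
      · rintro ⟨x, ⟨hx, hp⟩, rfl⟩
        exact ⟨⟨x, hx, rfl⟩, fun h => hp ⟨hS hx, h⟩⟩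
    rw [← measure_inter_add_sdiff ((c a).symm '' S) hWm, ← lintegral_inter_add_sdiff _ S hUm, e1, e2,
      vol_aux hβ hc hG hμ a i (S ∩ U) (fun x hx => hS hx.1) (fun x hx => hx.2.2) (hm.inter hUm),
      ih (S \ U) (fun x hx => hS hx.1) (fun x hx => ?_) (hm.diff hUm)]
    obtain ⟨j, hj, hj'⟩ := h1 x hx.1
    rcases Finset.mem_insert.1 hj with h | h
    · subst h
      exact absurd ⟨hS hx.1, hj'⟩ hx.2
    · exact ⟨j, h, hj'⟩

end

theorem main : SpecMiniU := by
  intro n M X Γ I _ _ _ _ _ _ _ c B C G μ hc hβ hG hμ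
  refine ⟨gm B G, met hβ hc hG, G_eq hβ hc hG, fun a S hS hm => ?_⟩
  refine vol_fin hβ hc hG hμ a Finset.univ S hS (fun x hx => ?_) hm
  obtain ⟨i, hi⟩ := exists_ix B ((c a).symm x)
  exact ⟨i, Finset.mem_univ _, hi⟩

end Vale.Agent.P223.X.MiniU
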