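import Vale.Agent.P223.X.BoxB

/-! Blocks U2g (simplicial volume) and U2i (infinitely many orbits). -/

namespace Vale.Agent.P223.X.SvU

open scoped ContDiff Topology
open MeasureTheory Vale.Agent.P223.H Vale.Agent.P223.X.BoxB

/-! ### chains -/

section chains
variable {M : Type} [TopologicalSpace M]

/-- the two notions of singular simplices -/
def eqv (k : ℕ) (M : Type) [TopologicalSpace M] : Simp k M ≃ J.Simp k M where
  toFun σ := ⟨σ, σ.continuous⟩
  invFun τ := ⟨τ.f, τ.cont⟩
  left_inv _ := rfl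
  right_inv _ := rfl

/-- the two notions of chains -/
noncomputable def cz {k : ℕ} (z : Chain k M) : J.Simp k M →₀ ℝ := z.equivMapDomain (eqv k M)

theorem cz_apply {k : ℕ} (z : Chain k M) (τ : J.Simp k M) : cz z τ = z ((eqv k M).symm τ) := rfl

theorem sum_cz {k : ℕ} (z : Chain k M) {A : Type} [AddCommMonoid A] (g : J.Simp k M → ℝ → A) :
    (cz z).sum g = z.sum fun σ r => g (eqv k M σ) r :=
  Finsupp.sum_equivMapDomain _ _ _

theorem bd_cz {k : ℕ} (z : Chain (k + 1) M) (τ : J.Simp k M) :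
    J.bd (cz z) τ = bd k z ((eqv k M).symm τ) := by
  classical
  unfold J.bd
  rw [sum_cz]
  unfold bd
  rw [Finsupp.linearCombination_apply, Finsupp.sum, Finsupp.sum, Finsupp.finsetSum_apply]
  refine Finset.sum_congr rfl fun σ _ => ?_
  rw [Finsupp.smul_apply, Finsupp.finsetSum_apply, smul_eq_mul, Finset.mul_sum,
    finsum_eq_sum_of_fintype]
  refine Finset.sum_congr rfl fun i _ => ?_
  rw [finsum_eq_if, Finsupp.single_apply]
  have h : (∀ t, τ.f t = (eqv (k + 1) M σ).f (J.fc i t)) ↔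
      σ.comp (face k i) = (eqv k M).symm τ := by
    constructor
    · intro h
      exact ContinuousMap.ext fun t => (h t).symm
    · intro h t
      exact (DFunLike.congr_fun h t).symm
  by_cases h1 : ∀ t, τ.f t = (eqv (k + 1) M σ).f (J.fc i t)
  · rw [if_pos h1, if_pos (h.1 h1), mul_comm]
  · rw [if_neg h1, if_neg fun h2 => h1 (h.2 h2), mul_zero]

end chains

/-! ### U2g -/

theorem det_D {n : ℕ} {M I : Type} [TopologicalSpace M] {c : M → J.Ch n M} (B : Box c I) (i : I)
    (y : E n) : 0 < (fderiv ℝ (B.x i) y).det := by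
  have h : ((fderiv ℝ (B.x i) y : E n →L[ℝ] E n) : E n →ₗ[ℝ] E n) =
      Matrix.toLin' (Matrix.diagonal fun k => dth (B.r i) (y k)) := by
    refine LinearMap.ext fun w => ?_
    show fderiv ℝ (B.x i) y w = _
    rw [fderiv_x, Matrix.toLin'_apply]
    funext k
    rw [Matrix.mulVec_diagonal]
    rfl
  show 0 < LinearMap.det ((fderiv ℝ (B.x i) y : E n →L[ℝ] E n) : E n →ₗ[ℝ] E n)
  rw [h, LinearMap.det_toLin', Matrix.det_diagonal]
  exact Finset.prod_pos fun k _ => dth_pos (B.pos i) _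

section
variable {n : ℕ} {M X Γ I : Type} [TopologicalSpace M] [TopologicalSpace X]
  [Group Γ] [MulAction Γ X] {c : M → J.Ch n M} (B : Box c I) (C : Cov n M X Γ I)

theorem β_emb (h : ∀ i y, C.π (C.ψ i y) = B.β i y) (i : I) : Topology.IsOpenEmbedding (B.β i) := by
  refine Topology.IsOpenEmbedding.of_continuous_injective_isOpenMap (continuous_β B i)
    (β_injective B i) ?_
  have : B.β i = fun y => C.π (C.ψ i y) := funext fun y => (h i y).symm
  rw [this]
  exact C.cov.isOpenMap.comp (C.emb i).isOpenMap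

/-- the chart of a box -/
noncomputable def ech (h : ∀ i y, C.π (C.ψ i y) = B.β i y) (i : I) : J.Ch n M :=
  ((β_emb B C h i).toOpenPartialHomeomorph (B.β i)).symm

theorem ech_source (h : ∀ i y, C.π (C.ψ i y) = B.β i y) (i : I) :
    (ech B C h i).source = Set.range (B.β i) := by
  unfold ech
  simp

theorem ech_symm (h : ∀ i y, C.π (C.ψ i y) = B.β i y) (i : I) (y : E n) :
    (ech B C h i).symm y = B.β i y := by
  unfold ech
  simp

theorem ech_β (h : ∀ i y, C.π (C.ψ i y) = B.β i y) (i : I) (y : E n) :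
    ech B C h i (B.β i y) = y := by
  rw [← ech_symm B C h i y]
  refine (ech B C h i).right_inv ?_
  unfold ech
  simp

theorem ech_comp (hA : J.Atl c) (h : ∀ i y, C.π (C.ψ i y) = B.β i y) (i : I) (a : M) :
    J.Comp (ech B C h i) (c a) := by
  intro p hp hp'
  rw [ech_source] at hp
  obtain ⟨y, rfl⟩ := hp
  rw [ech_β]
  have e1 : J.cm (ech B C h i) (c a) = fun z => J.cm (c (B.a i)) (c a) (B.x i z) := by
    funext z
    unfold J.cm
    rw [ech_symm]
    rfl
  have h1 := ((hA (B.a i)).2 a) (B.β i y) (β_mem B i y) hp'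
  rw [c_β] at h1
  have h2 : ContDiffAt ℝ ∞ (B.x i) y := (contDiff_x B i).contDiffAt
  rw [e1]
  refine ⟨h1.1.comp y h2, ?_⟩
  have h3 : fderiv ℝ (fun z => J.cm (c (B.a i)) (c a) (B.x i z)) y =
      (fderiv ℝ (J.cm (c (B.a i)) (c a)) (B.x i y)).comp (fderiv ℝ (B.x i) y) :=
    fderiv_comp y (h1.1.differentiableAt (by simp)) (h2.differentiableAt (by simp))
  rw [h3]
  have h4 : ((fderiv ℝ (J.cm (c (B.a i)) (c a)) (B.x i y)).comp (fderiv ℝ (B.x i) y)).det =
      (fderiv ℝ (J.cm (c (B.a i)) (c a)) (B.x i y)).det * (fderiv ℝ (B.x i) y).det :=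
    LinearMap.det_comp _ _
  rw [h4]
  exact mul_pos h1.2 (det_D B i y)

end

/-- Block U2g. -/
theorem main : SpecSvU := by
  classical
  intro n M X Γ I _ _ _ _ c B C hA h
  refine le_iInf₂ fun z hz => ?_
  refine (iInf₂_le (cz z) ?_).trans ?_
  · refine ⟨fun τ => ?_, fun p => ?_⟩
    · rw [bd_cz, hz.1]; rfl
    · obtain ⟨i, w, A, s, s', hdet, hs, hs', hint, b, c', hc', hzb⟩ := hz.2 p
      have hβ : ∀ t, s' t = B.β i (s t) := fun t => by rw [hs', h]
      refine ⟨s', ⟨ech B C h i, w, A, ech_comp B C hA h i, hdet, fun t => ⟨?_, fun j => ?_⟩,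
        hint⟩, cz b, fun τ hτ => ?_⟩
      · rw [ech_source, hβ]; exact ⟨_, rfl⟩
      · rw [hβ, ech_β, hs]
      · obtain ⟨t, ht⟩ := hτ
        rw [bd_cz, cz_apply, hzb, Finsupp.add_apply, Finsupp.add_apply]
        have h1 : c' ((eqv (n + 1) M).symm τ) = 0 := by
          by_contra h0
          exact hc' _ (Finsupp.mem_support_iff.2 h0) t ht
        rw [h1, add_zero, add_comm]
        congr 1
        rw [Finsupp.single_apply]
        have h2 : s' = (eqv (n + 1) M).symm τ ↔ τ.f = s' := by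
          constructor
          · intro h3; rw [h3]; rfl
          · intro h3; exact ContinuousMap.ext fun t => (congrFun h3 t).symm
        by_cases h3 : s' = (eqv (n + 1) M).symm τ
        · rw [if_pos h3, if_pos (h2.1 h3)]
        · rw [if_neg h3, if_neg fun h4 => h3 (h2.2 h4)]
  · rw [sum_cz]
    exact le_rfl

/-- Block U2i. -/
theorem inf : SpecInf := by
  intro n M X Γ I _ _ _ _ _ C hn
  obtain ⟨x⟩ := (inferInstance : Nonempty X)
  obtain ⟨_, i, _, _, _⟩ := C.cover x
  refine ⟨fun k => C.ψ i fun _ => (k : ℝ), fun k l h => ?_⟩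
  obtain ⟨γ, hγ⟩ := h
  have h1 := C.inj i γ _ _ hγ
  rw [h1, one_smul] at hγ
  have h2 := congrFun ((C.emb i).injective hγ) ⟨0, hn⟩
  exact_mod_cast h2

end Vale.Agent.P223.X.SvU
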