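import Vale.Agent.P223.X.BoxU
import Mathlib.MeasureTheory.Function.Jacobian

/-! Blocks U2d (volume) and U2i (infinitely many orbits). -/

namespace Vale.Agent.P223.X.VolU

open scoped ContDiff
open MeasureTheory Vale.Agent.P223.H

/-- Block U2i. -/
theorem inf : SpecInf := by
  intro n M X Γ I _ _ _ _ _ C hn
  obtain ⟨x⟩ := ‹Nonempty X›
  obtain ⟨-, i, -, -, -⟩ := C.cover x
  refine ⟨fun k => C.ψ i fun _ => (k : ℝ), ?_⟩
  rintro k l ⟨γ, h⟩
  have h1 : γ = 1 := C.inj i γ _ _ h
  rw [h1, one_smul] at h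
  have h2 := congrFun ((C.emb i).injective h) ⟨0, hn⟩
  exact_mod_cast h2

variable {n : ℕ}

theorem det_fderiv_th (a : E n) (r : ℝ) (y : E n) :
    (fderiv ℝ (th a r) y).det = ∏ k, dth r (y k) := by
  have e : ((fderiv ℝ (th a r) y : E n →L[ℝ] E n) : E n →ₗ[ℝ] E n) =
      Matrix.toLin' (Matrix.diagonal fun k => dth r (y k)) := by
    refine LinearMap.ext fun w => ?_
    rw [ContinuousLinearMap.coe_coe, BoxU.fderiv_th, Matrix.toLin'_apply]
    funext k
    rw [Matrix.mulVec_diagonal]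
  show LinearMap.det ((fderiv ℝ (th a r) y : E n →L[ℝ] E n) : E n →ₗ[ℝ] E n) = _
  rw [e, LinearMap.det_toLin', Matrix.det_diagonal]

theorem det_G {M I : Type} [TopologicalSpace M] {c : M → J.Ch n M} (B : Box c I)
    (g : M → J.Mtx n) (i : I) (y : E n) : (B.G g i y).det =
      (∏ k, dth (B.r i) (y k)) ^ 2 * (g (B.a i) (B.x i y)).det := by
  have e : B.G g i y = Matrix.diagonal (fun k => dth (B.r i) (y k)) * g (B.a i) (B.x i y) *
      Matrix.diagonal (fun k => dth (B.r i) (y k)) := by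
    ext k l
    rw [Matrix.mul_diagonal, Matrix.diagonal_mul]
    show dth (B.r i) (y k) * dth (B.r i) (y l) * g (B.a i) (B.x i y) k l = _
    ring
  rw [e, Matrix.det_mul, Matrix.det_mul, Matrix.det_diagonal]
  ring

/-- Block U2d. -/
theorem main : SpecVolU := by
  intro n M X Γ I _ _ _ _ _ _ c B C g μ _ hβ _ hv i S hS
  have h1 : (fun y => C.π (C.ψ i y)) '' S = (c (B.a i)).symm '' (B.x i '' S) := by
    rw [Set.image_image]
    exact Set.image_congr fun y _ => hβ i y
  have hemb := BoxU.th_isOpenEmbedding (a := c (B.a i) (B.a i)) (B.pos i)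
  have hsub : B.x i '' S ⊆ (c (B.a i)).target := by
    rintro _ ⟨y, -, rfl⟩
    exact B.sub i y
  have hmeas : MeasurableSet (B.x i '' S) := hemb.measurableEmbedding.measurableSet_image.2 hS
  rw [h1, hv (B.a i) _ hsub hmeas]
  have h2 := lintegral_image_eq_lintegral_abs_det_fderiv_mul (volume : Measure (E n)) hS
    (f := B.x i) (f' := fun y => fderiv ℝ (B.x i) y)
    (fun y _ => ((BoxU.contDiff_th _ _).differentiable (by simp) y).hasFDerivAt.hasFDerivWithinAt)
    hemb.injective.injOn (fun x => ENNReal.ofReal √(g (B.a i) x).det)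
  rw [h2]
  refine lintegral_congr fun y => ?_
  have h3 : (fderiv ℝ (B.x i) y).det = ∏ k, dth (B.r i) (y k) := det_fderiv_th _ _ y
  have h4 : 0 < ∏ k, dth (B.r i) (y k) := Finset.prod_pos fun k _ => BoxU.dth_pos (B.pos i) _
  rw [h3, abs_of_pos h4, ← ENNReal.ofReal_mul h4.le]
  congr 1
  show _ = √(B.G g i y).det
  rw [det_G, Real.sqrt_mul (sq_nonneg _), Real.sqrt_sq h4.le]

end Vale.Agent.P223.X.VolU
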