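import Vale.Agent.P223.X.FinalM
import Vale.Agent.P223.X.U3
import Vale.Agent.P223.X.BoxU
import Vale.Agent.P223.X.CovU
import Vale.Agent.P223.X.MetU
import Vale.Agent.P223.X.RicU
import Vale.Agent.P223.X.VolU
import Vale.Agent.P223.X.MiniU
import Vale.Agent.P223.X.SvU
import Vale.Agent.P223.X.ConfU

/-! Phase 3: all blocks about atlases. -/

namespace Vale.Agent.P223.X

theorem hu : FinalM.BlkU where
  uc := U.main
  emb := fun _ _ _ _ _ B i => BoxU.emb_β B i
  box := BoxU.main
  cov := CovU.main
  met := MetU.main RicU.main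
  vol := VolU.main
  ric := RicU.main
  mini := MiniU.main
  sv := SvU.main
  conf := ConfU.main
  inf := SvU.inf

end Vale.Agent.P223.X
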