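import Vale.Agent.P223.X.Basic
import Vale.Agent.P223.H.Weight1

/-! Phase 3: averages over the deck group. -/

namespace Vale.Agent.P223.X.Avg

open scoped ContDiff Topology
open MeasureTheory Metric Vale.Agent.P223.H
open Vale.Agent.P223.H.Weight1 (Adm)

variable {n : ℕ} {M X Γ I : Type} [TopologicalSpace M] [TopologicalSpace X] [Group Γ]
    [MulAction Γ X]

/-- temporary copy of `properX` with explicit `C` -/
theorem properX' (C : Cov n M X Γ I) [Finite I] [T2Space X] {K K' : Set X} (hK : IsCompact K)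
    (hK' : IsCompact K') : {γ : Γ | ∃ x ∈ K, γ • x ∈ K'}.Finite := properX C hK hK'

/-- weighted average over the group -/
noncomputable def gav {F : Type} [AddCommGroup F] [Module ℝ F] (a : Γ → ℝ) (φ : X → F)
    (x : X) : F := ∑ᶠ g : Γ, a g • φ (g⁻¹ • x)

omit [TopologicalSpace X] in
theorem gav_one_inv {F : Type} [AddCommGroup F] [Module ℝ F] (φ : X → F) (γ : Γ) (x : X) :
    gav (fun _ : Γ => (1 : ℝ)) φ (γ • x) = gav (fun _ : Γ => (1 : ℝ)) φ x := by
  refine finsum_eq_of_bijective (fun g => γ⁻¹ * g) (Group.mulLeft_bijective γ⁻¹) fun g => ?_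
  simp [mul_smul]

section
variable (C : Cov n M X Γ I)
include C

theorem hcs_ex [T2Space X] {i : I} {h : E n → ℝ} (hc : HasCompactSupport h) :
    HasCompactSupport (C.ex i h) := by
  refine HasCompactSupport.of_support_subset_isCompact
    (IsCompact.image (s := tsupport h) hc (C.emb i).continuous) fun x hx => ?_
  by_cases hr : x ∈ Set.range (C.ψ i)
  · obtain ⟨y, rfl⟩ := hr
    refine ⟨y, subset_tsupport _ fun h0 => hx ?_, rfl⟩
    rw [ex_ψ, h0]
  · exact absurd (if_neg hr) hx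

theorem ex_nonneg (i : I) {h : E n → ℝ} (h0 : ∀ y, 0 ≤ h y) (x : X) : 0 ≤ C.ex i h x := by
  unfold Cov.ex
  split_ifs
  · exact h0 _
  · exact le_rfl

/-- On translates of a compact set the averages are sums over a fixed finite set. -/
theorem fold [Finite I] [T2Space X] {F : Type} [AddCommGroup F] [Module ℝ F] (φ : X → F)
    {L : Set X} (hL : IsCompact L) (hφ : Function.support φ ⊆ L)
    {K : Set X} (hK : IsCompact K) : ∃ H : Finset Γ, ∀ (a : Γ → ℝ) (g : Γ), ∀ y ∈ K,
      gav a φ (g • y) = ∑ s ∈ H, a (g * s) • φ (s⁻¹ • y) := by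
  have hfin : {s : Γ | ∃ x ∈ L, s • x ∈ K}.Finite := properX' C hL hK
  refine ⟨hfin.toFinset, fun a g y hy => ?_⟩
  have h1 : gav a φ (g • y) = ∑ᶠ s : Γ, a (g * s) • φ (s⁻¹ • y) := by
    refine finsum_eq_of_bijective (fun γ => g⁻¹ * γ) (Group.mulLeft_bijective g⁻¹) fun γ => ?_
    simp [mul_smul]
  rw [h1]
  refine finsum_eq_sum_of_support_subset _ fun s hs => ?_
  simp only [Set.Finite.coe_toFinset, Set.mem_ofPred_eq]
  refine ⟨s⁻¹ • y, hφ fun h0 => hs ?_, by simpa using hy⟩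
  simp only at h0 ⊢
  rw [h0, smul_zero]

/-- Averages are smooth. -/
theorem Ck_gav [Finite I] [T2Space X] (a : Γ → ℝ) (φ : X → ℝ) (hφ : HasCompactSupport φ)
    {k : WithTop ℕ∞} (hs : C.Ck k φ) : C.Ck k (gav a φ) := by
  intro γ i
  have e : C.rep (gav a φ) γ i = fun y => ∑ᶠ g : Γ, a g • C.rep φ (g⁻¹ * γ) i y := by
    funext y
    show ∑ᶠ g : Γ, a g • φ (g⁻¹ • γ • C.ψ i y) = _
    refine finsum_congr fun g => ?_
    rw [← mul_smul]; rfl
  rw [e]
  refine Common.contDiff_finsum _ (fun g => (contDiff_const (c := a g)).smul (hs (g⁻¹ * γ) i)) ?_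
  intro y
  refine ⟨closedBall y 1, closedBall_mem_nhds y one_pos, ?_⟩
  have hK : IsCompact ((fun z => γ • C.ψ i z) '' closedBall y 1) :=
    (isCompact_closedBall y 1).image ((C.cont γ).comp (C.emb i).continuous)
  refine (properX' C (K := tsupport φ) (K' := (fun z => γ • C.ψ i z) '' closedBall y 1)
    hφ hK).subset ?_
  rintro g ⟨z, hz, hz'⟩
  refine ⟨(g⁻¹ * γ) • C.ψ i z, subset_tsupport φ fun h0 => hz ?_, z, hz', ?_⟩
  · show a g • φ ((g⁻¹ * γ) • C.ψ i z) = 0
    rw [h0, smul_zero]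
  · show γ • C.ψ i z = g • (g⁻¹ * γ) • C.ψ i z
    rw [mul_smul, smul_inv_smul]

end

end Vale.Agent.P223.X.Avg
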