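import Vale.Agent.P223.X.SpecY
import Vale.Agent.P223.H.Bridge

/-! Phase 3: basic library, part 1 (coordinate changes). -/

namespace Vale.Agent.P223.X

open scoped ContDiff Topology
open MeasureTheory Vale.Agent.P223.H

variable {n : ℕ} {M X Γ I : Type} [TopologicalSpace M] [TopologicalSpace X] [Group Γ]
    [MulAction Γ X] (C : Cov n M X Γ I)

theorem co_ψ (i : I) (y : E n) : C.co i (C.ψ i y) = y :=
  Function.leftInverse_invFun (C.emb i).injective y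

theorem ψ_co {i : I} {x : X} (h : x ∈ Set.range (C.ψ i)) : C.ψ i (C.co i x) = x :=
  Function.invFun_eq h

theorem tr_spec {i j : I} {γ : Γ} {y : E n} (h : y ∈ C.dom i j γ) :
    C.ψ j (C.tr i j γ y) = γ • C.ψ i y := ψ_co C h

theorem mem_dom {i j : I} {γ : Γ} {y y' : E n} (h : γ • C.ψ i y = C.ψ j y') :
    y ∈ C.dom i j γ ∧ C.tr i j γ y = y' := by
  refine ⟨⟨y', h.symm⟩, ?_⟩
  unfold Cov.tr
  rw [h, co_ψ]

theorem isOpen_dom (i j : I) (γ : Γ) : IsOpen (C.dom i j γ) :=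
  (C.emb j).isOpen_range.preimage ((C.cont γ).comp (C.emb i).continuous)

include C in
theorem isOpenMap_smul (γ : Γ) : IsOpenMap fun x : X => γ • x :=
  (Homeomorph.mk (MulAction.toPerm γ) (C.cont γ) (C.cont γ⁻¹)).isOpenMap

theorem contDiffAt_tr {i j : I} {γ : Γ} {y : E n} (h : y ∈ C.dom i j γ) :
    ContDiffAt ℝ ∞ (C.tr i j γ) y :=
  (C.smooth i j γ).contDiffAt ((isOpen_dom C i j γ).mem_nhds h)

theorem tr_tr {i j : I} {γ : Γ} {y : E n} (h : y ∈ C.dom i j γ) :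
    C.tr i j γ y ∈ C.dom j i γ⁻¹ ∧ C.tr j i γ⁻¹ (C.tr i j γ y) = y :=
  mem_dom C (by rw [tr_spec C h, inv_smul_smul])

theorem det_tr_pos {i j : I} {γ : Γ} {y : E n} (h : y ∈ C.dom i j γ) :
    0 < (fderiv ℝ (C.tr i j γ) y).det := C.orient i j γ y h

theorem fderiv_tr_inv {i j : I} {γ : Γ} {y : E n} (h : y ∈ C.dom i j γ) (w : E n) :
    fderiv ℝ (C.tr j i γ⁻¹) (C.tr i j γ y) (fderiv ℝ (C.tr i j γ) y w) = w := by
  have h1 : (fun z => C.tr j i γ⁻¹ (C.tr i j γ z)) =ᶠ[𝓝 y] id := by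
    filter_upwards [(isOpen_dom C i j γ).mem_nhds h] with z hz
    exact (tr_tr C hz).2
  have h2 := h1.fderiv_eq (𝕜 := ℝ)
  have h3 : HasFDerivAt (fun z => C.tr j i γ⁻¹ (C.tr i j γ z))
      ((fderiv ℝ (C.tr j i γ⁻¹) (C.tr i j γ y)).comp (fderiv ℝ (C.tr i j γ) y)) y :=
    (((contDiffAt_tr C (tr_tr C h).1).differentiableAt (by simp)).hasFDerivAt).comp y
      ((contDiffAt_tr C h).differentiableAt (by simp)).hasFDerivAt
  rw [h3.fderiv, fderiv_id] at h2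
  exact congrArg (fun L : E n →L[ℝ] E n => L w) h2

theorem rep_tr (f : X → ℝ) {i j : I} {γ : Γ} {y : E n} (h : y ∈ C.dom i j γ) (γ' : Γ) :
    C.rep f (γ' * γ) i y = C.rep f γ' j (C.tr i j γ y) := by
  unfold Cov.rep
  rw [tr_spec C h, mul_smul]

theorem rep_tr_eventually (f : X → ℝ) {i j : I} {γ : Γ} {y : E n} (h : y ∈ C.dom i j γ) (γ' : Γ) :
    C.rep f (γ' * γ) i =ᶠ[𝓝 y] fun z => C.rep f γ' j (C.tr i j γ z) := by
  filter_upwards [(isOpen_dom C i j γ).mem_nhds h] with z hz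
  exact rep_tr C f hz γ'

/-- `γ • ψ i y = γ' • ψ j y'` in terms of coordinate changes. -/
theorem chart_eq {i j : I} {γ γ' : Γ} {y y' : E n} (h : γ • C.ψ i y = γ' • C.ψ j y') :
    y ∈ C.dom i j (γ'⁻¹ * γ) ∧ C.tr i j (γ'⁻¹ * γ) y = y' :=
  mem_dom C (by rw [mul_smul, h, inv_smul_smul])

theorem gl_eq {a : Γ → I → E n → ℝ} (ha : ∀ γ γ' i i' y y', γ • C.ψ i y = γ' • C.ψ i' y' →
    a γ i y = a γ' i' y') (γ : Γ) (i : I) (y : E n) : C.gl a (γ • C.ψ i y) = a γ i y :=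
  ha _ _ _ _ _ _ (C.cover (γ • C.ψ i y)).choose_spec.choose_spec.choose_spec.2

/-- every point is in a chart (with `|y k| < 1`) -/
theorem exists_chart (x : X) : ∃ (γ : Γ) (i : I) (y : E n), ‖y‖ < 1 ∧ γ • C.ψ i y = x := by
  obtain ⟨γ, i, y, hy, h⟩ := C.cover x
  exact ⟨γ, i, y, (pi_norm_lt_iff one_pos).2 hy, h⟩

end Vale.Agent.P223.X
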