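import Vale.Agent.P223.X.SpecU

/-! Basic facts about the boxes `th a r`. -/

namespace Vale.Agent.P223.X.BoxB

open scoped ContDiff Topology
open MeasureTheory Vale.Agent.P223.H

theorem sq_pos (s : ℝ) : 0 < 1 + s ^ 2 := by positivity

theorem sqrt_pos' (s : ℝ) : 0 < √(1 + s ^ 2) := Real.sqrt_pos.2 (sq_pos s)

theorem dth_pos {r : ℝ} (hr : 0 < r) (s : ℝ) : 0 < dth r s := by
  unfold dth
  have := sqrt_pos' s
  positivity

theorem contDiff_sqrt : ContDiff ℝ ∞ (fun s : ℝ => √(1 + s ^ 2)) :=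
  (contDiff_const.add (contDiff_id.pow 2)).sqrt fun s => (sq_pos s).ne'

theorem contDiff_dth (r : ℝ) : ContDiff ℝ ∞ (dth r) :=
  contDiff_const.div (contDiff_sqrt.pow 3) fun s => (pow_pos (sqrt_pos' s) 3).ne'

theorem contDiff_q : ContDiff ℝ ∞ (fun s : ℝ => s / √(1 + s ^ 2)) :=
  contDiff_id.div contDiff_sqrt fun s => (sqrt_pos' s).ne'

theorem hasDerivAt_q (r s : ℝ) : HasDerivAt (fun s : ℝ => r * (s / √(1 + s ^ 2))) (dth r s) s := by
  have h0 := sq_pos s
  have h1 : HasDerivAt (fun s : ℝ => 1 + s ^ 2) (2 * s) s := by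
    simpa using ((hasDerivAt_id s).pow 2).const_add 1
  have h2 := h1.sqrt h0.ne'
  have h3 := ((hasDerivAt_id s).div h2 (sqrt_pos' s).ne').const_mul r
  refine h3.congr_deriv ?_
  have h4 := sqrt_pos' s
  have h5 : √(1 + s ^ 2) ^ 2 = 1 + s ^ 2 := Real.sq_sqrt h0.le
  unfold dth
  simp only [id]
  field_simp
  rw [h5]
  ring

variable {n : ℕ}

theorem contDiff_th (a : E n) (r : ℝ) : ContDiff ℝ ∞ (th a r) := by
  unfold th
  refine contDiff_pi.2 fun k => ?_
  exact contDiff_const.add (contDiff_const.mul (contDiff_q.comp (contDiff_apply ℝ ℝ k)))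

theorem fderiv_th (a : E n) (r : ℝ) (y w : E n) :
    fderiv ℝ (th a r) y w = fun k => dth r (y k) * w k := by
  funext k
  have hd : DifferentiableAt ℝ (th a r) y := (contDiff_th a r).differentiable (by simp) y
  have h1 : fderiv ℝ (fun z => th a r z k) y w = fderiv ℝ (th a r) y w k := by
    have := (hasFDerivAt_pi'.1 hd.hasFDerivAt k).fderiv
    rw [this]; rfl
  rw [← h1]
  have h2 : HasFDerivAt (fun z : E n => z k) (ContinuousLinearMap.proj (R := ℝ) k) y :=
    hasFDerivAt_apply k y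
  have h3 := ((hasDerivAt_q r (y k)).comp_hasFDerivAt y h2).const_add (a k)
  have h4 : fderiv ℝ (fun z => th a r z k) y = _ := h3.fderiv
  rw [h4]
  simp [mul_comm]

/-- the inverse of `th a r` -/
noncomputable def thi (a : E n) (r : ℝ) (z : E n) : E n :=
  fun k => ((z k - a k) / r) / √(1 - ((z k - a k) / r) ^ 2)

/-- the open cube -/
def cube (a : E n) (r : ℝ) : Set (E n) := {z | ∀ k, |z k - a k| < r}

theorem isOpen_cube (a : E n) (r : ℝ) : IsOpen (cube a r) := by
  unfold cube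
  simp only [Set.ofPred_forall]
  exact isOpen_iInter_of_finite fun k => isOpen_lt (by fun_prop) continuous_const

theorem thi_th (a : E n) {r : ℝ} (hr : 0 < r) (y : E n) : thi a r (th a r y) = y := by
  funext k
  unfold thi th
  have h0 := sq_pos (y k)
  have h4 := sqrt_pos' (y k)
  have h5 : √(1 + y k ^ 2) ^ 2 = 1 + y k ^ 2 := Real.sq_sqrt h0.le
  have e1 : (a k + r * (y k / √(1 + y k ^ 2)) - a k) / r = y k / √(1 + y k ^ 2) := by
    field_simp
    ring
  rw [e1]
  have e2 : 1 - (y k / √(1 + y k ^ 2)) ^ 2 = (1 / √(1 + y k ^ 2)) ^ 2 := by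
    rw [div_pow, div_pow, h5]
    field_simp
    ring
  rw [e2, Real.sqrt_sq (by positivity)]
  field_simp

theorem th_mem_cube (a : E n) {r : ℝ} (hr : 0 < r) (y : E n) : th a r y ∈ cube a r := by
  intro k
  unfold th
  have h0 := sq_pos (y k)
  have h4 := sqrt_pos' (y k)
  have h6 : |y k| < √(1 + y k ^ 2) := by
    rw [← Real.sqrt_sq_eq_abs]
    exact Real.sqrt_lt_sqrt (sq_nonneg _) (by linarith)
  rw [add_sub_cancel_left, abs_mul, abs_div, abs_of_pos hr, abs_of_pos h4]
  have : |y k| / √(1 + y k ^ 2) < 1 := (div_lt_one h4).2 h6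
  nlinarith

theorem one_sub_pos {a : E n} {r : ℝ} (hr : 0 < r) {z : E n} (hz : z ∈ cube a r) (k : Fin n) :
    0 < 1 - ((z k - a k) / r) ^ 2 := by
  have h := hz k
  have h1 : |(z k - a k) / r| < 1 := by
    rw [abs_div, abs_of_pos hr, div_lt_one hr]; exact h
  have h2 := (abs_lt.1 h1)
  nlinarith

theorem th_thi {a : E n} {r : ℝ} (hr : 0 < r) {z : E n} (hz : z ∈ cube a r) :
    th a r (thi a r z) = z := by
  funext k
  have h0 := one_sub_pos hr hz k
  have key : ∀ u : ℝ, 0 < 1 - u ^ 2 →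
      u / √(1 - u ^ 2) / √(1 + (u / √(1 - u ^ 2)) ^ 2) = u := by
    intro u h0
    have h4 : 0 < √(1 - u ^ 2) := Real.sqrt_pos.2 h0
    have h5 : √(1 - u ^ 2) ^ 2 = 1 - u ^ 2 := Real.sq_sqrt h0.le
    have e2 : 1 + (u / √(1 - u ^ 2)) ^ 2 = (1 / √(1 - u ^ 2)) ^ 2 := by
      rw [div_pow, div_pow, h5]
      field_simp
      ring
    rw [e2, Real.sqrt_sq (by positivity)]
    field_simp
  unfold th thi
  rw [key _ h0]
  field_simp
  ring

theorem contDiffAt_thi {a : E n} {r : ℝ} (hr : 0 < r) {z : E n} (hz : z ∈ cube a r) :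
    ContDiffAt ℝ ∞ (thi a r) z := by
  unfold thi
  refine contDiffAt_pi.2 fun k => ?_
  have h1 : ContDiffAt ℝ ∞ (fun z : E n => (z k - a k) / r) z :=
    ((contDiff_apply ℝ ℝ k).contDiffAt.sub contDiffAt_const).div_const r
  have h2 : ContDiffAt ℝ ∞ (fun z : E n => √(1 - ((z k - a k) / r) ^ 2)) z :=
    (contDiffAt_const.sub (h1.pow 2)).sqrt (one_sub_pos hr hz k).ne'
  exact h1.div h2 (Real.sqrt_pos.2 (one_sub_pos hr hz k)).ne'

theorem th_injective (a : E n) {r : ℝ} (hr : 0 < r) : Function.Injective (th a r) :=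
  Function.LeftInverse.injective (g := thi a r) (thi_th a hr)

theorem range_th (a : E n) {r : ℝ} (hr : 0 < r) : Set.range (th a r) = cube a r := by
  ext z
  exact ⟨fun ⟨y, hy⟩ => hy ▸ th_mem_cube a hr y, fun hz => ⟨_, th_thi hr hz⟩⟩

/-! ### coordinate changes -/

section cm
variable {M : Type} [TopologicalSpace M] {c : M → J.Ch n M}

theorem cm_apply (e e' : J.Ch n M) {p : M} (hp : p ∈ e.source) : J.cm e e' (e p) = e' p := by
  unfold J.cm; rw [e.left_inv hp]

theorem contDiffAt_cm (h : J.Atl c) {a b p : M} (hp : p ∈ (c a).source)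
    (hp' : p ∈ (c b).source) : ContDiffAt ℝ ∞ (J.cm (c a) (c b)) (c a p) :=
  (((h a).2 b) p hp hp').1

/-- near `c a p`, the point is in the source of `c b` -/
theorem eventually_mem {e : J.Ch n M} {p : M} (hp : p ∈ e.source) {U : Set M}
    (hU : IsOpen U) (hpU : p ∈ U) :
    ∀ᶠ x in 𝓝 (e p), x ∈ e.target ∧ e.symm x ∈ U := by
  have h1 : ∀ᶠ x in 𝓝 (e p), x ∈ e.target := e.open_target.mem_nhds (e.map_source hp)
  have h2 : ContinuousAt e.symm (e p) := e.continuousAt_symm (e.map_source hp)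
  have h3 : ∀ᶠ x in 𝓝 (e p), e.symm x ∈ U :=
    h2.eventually_mem (by rw [e.left_inv hp]; exact hU.mem_nhds hpU)
  filter_upwards [h1, h3] with x h h' using ⟨h, h'⟩

theorem cm_cm_eventually (e e' e'' : J.Ch n M) {p : M} (hp : p ∈ e.source)
    (hp' : p ∈ e'.source) :
    J.cm e e'' =ᶠ[𝓝 (e p)] fun x => J.cm e' e'' (J.cm e e' x) := by
  filter_upwards [eventually_mem hp e'.open_source hp'] with x hx
  unfold J.cm
  rw [e'.left_inv hx.2]

theorem fderiv_cm_cm (h : J.Atl c) {a b d p : M} (hp : p ∈ (c a).source)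
    (hp' : p ∈ (c b).source) (hp'' : p ∈ (c d).source) (v : E n) :
    fderiv ℝ (J.cm (c a) (c d)) (c a p) v =
      fderiv ℝ (J.cm (c b) (c d)) (c b p) (fderiv ℝ (J.cm (c a) (c b)) (c a p) v) := by
  have h1 : DifferentiableAt ℝ (J.cm (c a) (c b)) (c a p) :=
    (contDiffAt_cm h hp hp').differentiableAt (by simp)
  have h2 : DifferentiableAt ℝ (J.cm (c b) (c d)) (J.cm (c a) (c b) (c a p)) := by
    rw [cm_apply _ _ hp]
    exact (contDiffAt_cm h hp' hp'').differentiableAt (by simp)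
  rw [(cm_cm_eventually (c a) (c b) (c d) hp hp').fderiv_eq]
  have h3 := fderiv_comp (c a p) h2 h1
  have h4 := congrArg (fun T : E n →L[ℝ] E n => T v) h3
  simp only [ContinuousLinearMap.comp_apply] at h4
  rw [cm_apply _ _ hp] at h4
  exact h4

end cm

/-! ### boxes -/

section box
variable {M : Type} [TopologicalSpace M] {c : M → J.Ch n M} {I : Type} (B : Box c I)

theorem x_mem (i : I) (y : E n) : B.x i y ∈ (c (B.a i)).target := B.sub i y

theorem β_mem (i : I) (y : E n) : B.β i y ∈ (c (B.a i)).source :=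
  (c (B.a i)).map_target (x_mem B i y)

theorem c_β (i : I) (y : E n) : c (B.a i) (B.β i y) = B.x i y :=
  (c (B.a i)).right_inv (x_mem B i y)

theorem contDiff_x (i : I) : ContDiff ℝ ∞ (B.x i) := contDiff_th _ _

theorem fderiv_x (i : I) (y w : E n) : fderiv ℝ (B.x i) y w = B.D i y w := fderiv_th _ _ _ _

theorem x_injective (i : I) : Function.Injective (B.x i) := th_injective _ (B.pos i)

theorem β_injective (i : I) : Function.Injective (B.β i) := fun y y' h => by
  apply x_injective B i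
  rw [← c_β, ← c_β, h]

theorem D_ne_zero (i : I) (y : E n) {w : E n} (hw : w ≠ 0) : B.D i y w ≠ 0 := fun h => by
  apply hw
  funext k
  have h1 := congrFun h k
  have h2 := dth_pos (B.pos i) (y k)
  unfold Box.D at h1
  exact (mul_eq_zero.1 h1).resolve_left h2.ne'

theorem range_x (i : I) : Set.range (B.x i) = cube (c (B.a i) (B.a i)) (B.r i) :=
  range_th _ (B.pos i)

theorem range_β (i : I) : Set.range (B.β i) = (c (B.a i)).source ∩
    (c (B.a i)) ⁻¹' cube (c (B.a i) (B.a i)) (B.r i) := by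
  ext p
  constructor
  · rintro ⟨y, rfl⟩
    refine ⟨β_mem B i y, ?_⟩
    rw [Set.mem_preimage, c_β, ← range_x B i]
    exact ⟨y, rfl⟩
  · rintro ⟨h1, h2⟩
    rw [Set.mem_preimage, ← range_x B i] at h2
    obtain ⟨y, hy⟩ := h2
    refine ⟨y, ?_⟩
    unfold Box.β
    rw [hy, (c (B.a i)).left_inv h1]

theorem isOpen_range_β (i : I) : IsOpen (Set.range (B.β i)) := by
  rw [range_β]
  exact (c (B.a i)).isOpen_inter_preimage (isOpen_cube _ _)

theorem continuous_β (i : I) : Continuous (B.β i) :=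
  (c (B.a i)).continuousOn_symm.comp_continuous (contDiff_x B i).continuous (x_mem B i)

/-- the inverse of `x i` -/
noncomputable def xi (i : I) : E n → E n := thi (c (B.a i) (B.a i)) (B.r i)

theorem xi_x (i : I) (y : E n) : xi B i (B.x i y) = y := thi_th _ (B.pos i) y

theorem contDiffAt_xi (i : I) (y : E n) : ContDiffAt ℝ ∞ (xi B i) (B.x i y) :=
  contDiffAt_thi (B.pos i) (th_mem_cube _ (B.pos i) y)

/-- the inverse of `β i` -/
noncomputable def βi (i : I) (p : M) : E n := xi B i (c (B.a i) p)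

theorem βi_β (i : I) (y : E n) : βi B i (B.β i y) = y := by
  unfold βi; rw [c_β, xi_x]

theorem β_βi {i : I} {p : M} (hp : p ∈ Set.range (B.β i)) : B.β i (βi B i p) = p := by
  obtain ⟨y, rfl⟩ := hp
  rw [βi_β]

theorem bil_G (g : M → J.Mtx n) (i : I) (y v w : E n) : J.bil (B.G g i y) v w =
    J.bil (g (B.a i) (B.x i y)) (B.D i y v) (B.D i y w) := by
  unfold J.bil Box.G Box.D
  refine Finset.sum_congr rfl fun k _ => Finset.sum_congr rfl fun l _ => ?_
  ring

end box

end Vale.Agent.P223.X.BoxB
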