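import Vale.Agent.P223.X.Int
import Vale.Agent.P223.H.B25c

/-! Phase 3: a decomposition of `M` into cells, integrals over `M`. -/

namespace Vale.Agent.P223.X.Cell

open scoped ContDiff Matrix Topology
open MeasureTheory Vale.Agent.P223.H

variable {n : ℕ} {M X Γ I : Type} [TopologicalSpace M] [TopologicalSpace X] [Group Γ]
    [MulAction Γ X] (C : Cov n M X Γ I)

/-- the parametrisation of an open subset of `M` -/
def pm (i : I) (y : E n) : M := C.π (C.ψ i y)

theorem pm_inj (i : I) : Function.Injective (pm C i) := by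
  intro y y' h
  obtain ⟨γ, hγ⟩ := (C.orb _ _).1 h
  have h1 := C.inj i γ y y' hγ
  rw [h1, one_smul] at hγ
  exact (C.emb i).injective hγ

theorem pm_open (i : I) : Topology.IsOpenEmbedding (pm C i) :=
  Topology.IsOpenEmbedding.of_continuous_injective_isOpenMap
    (C.π.continuous.comp (C.emb i).continuous) (pm_inj C i)
    (C.cov.isLocalHomeomorph.isOpenMap.comp (C.emb i).isOpenMap)

/-- the smaller cube -/
def cube (n : ℕ) : Set (E n) := {y | ∀ k, |y k| < 1}

theorem isOpen_cube : IsOpen (cube n) := by
  have : cube n = ⋂ k, {y : E n | |y k| < 1} := by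
    ext y; simp [cube]
  rw [this]
  exact isOpen_iInter_of_finite fun k =>
    isOpen_lt (continuous_abs.comp (continuous_apply k)) continuous_const

theorem cube_sub : cube n ⊆ Metric.closedBall (0 : E n) 1 := by
  intro y hy
  rw [mem_closedBall_zero_iff, pi_norm_le_iff_of_nonneg zero_le_one]
  exact fun k => (hy k).le

/-- a decomposition of `M` into finitely many cells -/
structure Cells (C : Cov n M X Γ I) where
  B : I → Set (E n)
  meas : ∀ i, MeasurableSet (B i)
  sub : ∀ i, B i ⊆ Metric.closedBall (0 : E n) 1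
  disj : Pairwise fun i j => Disjoint (pm C i '' B i) (pm C j '' B j)
  cover : ⋃ i, pm C i '' B i = Set.univ

theorem Cells.bdd {C : Cov n M X Γ I} (D : Cells C) (i : I) : Bornology.IsBounded (D.B i) :=
  Metric.isBounded_closedBall.subset (D.sub i)

theorem exists_cells [Finite I] : Nonempty (Cells C) := by
  obtain ⟨N, ⟨e⟩⟩ := Finite.exists_equiv_fin I
  refine ⟨⟨fun i => cube n ∩ ⋂ j : {j : I // e j < e i}, {y | pm C i y ∉ pm C j.1 '' cube n},
    fun i => ?_, fun i => Set.inter_subset_left.trans cube_sub, ?_, ?_⟩⟩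
  · refine isOpen_cube.measurableSet.inter (MeasurableSet.iInter fun j => ?_)
    have h1 : IsOpen (pm C i ⁻¹' (pm C j.1 '' cube n)) :=
      ((pm_open C j.1).isOpenMap _ isOpen_cube).preimage (pm_open C i).continuous
    exact h1.measurableSet.compl
  · have key : ∀ i j, e i < e j → Disjoint
        (pm C i '' (cube n ∩ ⋂ k : {k : I // e k < e i}, {y | pm C i y ∉ pm C k.1 '' cube n}))
        (pm C j '' (cube n ∩ ⋂ k : {k : I // e k < e j}, {y | pm C j y ∉ pm C k.1 '' cube n})) := by
      intro i j hij
      rw [Set.disjoint_left]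
      rintro _ ⟨y, hy, rfl⟩ ⟨y', hy', h⟩
      have h1 := Set.mem_iInter.1 hy'.2 ⟨i, hij⟩
      exact h1 ⟨y, hy.1, h.symm⟩
    intro i j hij
    rcases lt_or_gt_of_ne (fun h => hij (e.injective h)) with h | h
    · exact key i j h
    · exact (key j i h).symm
  · rw [Set.eq_univ_iff_forall]
    intro m
    obtain ⟨x, rfl⟩ := C.surj m
    have hex : ∃ i, C.π x ∈ pm C i '' cube n := by
      obtain ⟨γ, i, y, hy, hx⟩ := C.cover x
      refine ⟨i, y, hy, ?_⟩
      exact (C.orb _ _).2 ⟨γ, hx⟩
    classical
    have hne : (Finset.univ.filter fun a : Fin N => C.π x ∈ pm C (e.symm a) '' cube n).Nonempty := by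
      obtain ⟨i, hi⟩ := hex
      exact ⟨e i, by simpa using hi⟩
    obtain ⟨a, ha⟩ : ∃ a, a = (Finset.univ.filter fun a : Fin N =>
      C.π x ∈ pm C (e.symm a) '' cube n).min' hne := ⟨_, rfl⟩
    have ha1 := Finset.min'_mem _ hne
    rw [← ha, Finset.mem_filter] at ha1
    obtain ⟨y, hy, hyx⟩ := ha1.2
    refine Set.mem_iUnion.2 ⟨e.symm a, y, ⟨hy, Set.mem_iInter.2 fun j => ?_⟩, hyx⟩
    intro hj
    have h2 : e j.1 ∈ Finset.univ.filter fun a : Fin N => C.π x ∈ pm C (e.symm a) '' cube n := by
      rw [Finset.mem_filter]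
      refine ⟨Finset.mem_univ _, ?_⟩
      rw [Equiv.symm_apply_apply, ← hyx]; exact hj
    have h3 := Finset.min'_le _ _ h2
    rw [← ha] at h3
    have h4 : e j.1 < a := lt_of_lt_of_eq j.2 (Equiv.apply_symm_apply e a)
    exact absurd h4 (not_lt.2 h3)

section meas
variable [MeasurableSpace M] [BorelSpace M] {C} {G : I → E n → Matrix (Fin n) (Fin n) ℝ}
  {ν : Measure M}

theorem measEmb (C : Cov n M X Γ I) (i : I) : MeasurableEmbedding (pm C i) :=
  (pm_open C i).measurableEmbedding

theorem restrict_eq (hV : VolM C G ν) (i : I) {B : Set (E n)} (hB : MeasurableSet B) :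
    ν.restrict (pm C i '' B) =
      ((volume.withDensity fun y => ENNReal.ofReal (H.dens (G i) y)).restrict B).map (pm C i) := by
  have hm := measEmb C i
  have hc : ν.comap (pm C i) = volume.withDensity fun y => ENNReal.ofReal (H.dens (G i) y) := by
    ext A hA
    rw [hm.comap_apply, withDensity_apply _ hA]
    exact hV i A hA
  have h1 : ν.restrict (pm C i '' B) = (ν.restrict (Set.range (pm C i))).restrict
      (pm C i '' B) := by
    rw [Measure.restrict_restrict (hm.measurableSet_image.2 hB),
      Set.inter_eq_left.2 (Set.image_subset_range _ _)]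
  rw [h1, ← hm.map_comap, hc, hm.restrict_map, Set.preimage_image_eq _ (pm_inj C i)]

/-- integrals over `M` -/
theorem lintegral_M [Fintype I] (D : Cells C) (hG : MetX C G) (hV : VolM C G ν)
    (F : M → ENNReal) :
    ∫⁻ m, F m ∂ν = ∑ i, ∫⁻ y in D.B i, F (C.π (C.ψ i y)) * ENNReal.ofReal (H.dens (G i) y) := by
  rw [← setLIntegral_univ, ← D.cover, lintegral_iUnion
    (fun i => (measEmb C i).measurableSet_image.2 (D.meas i)) D.disj, tsum_fintype]
  refine Finset.sum_congr rfl fun i _ => ?_
  rw [restrict_eq hV i (D.meas i), (measEmb C i).lintegral_map,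
    restrict_withDensity (D.meas i), lintegral_withDensity_eq_lintegral_mul_non_measurable]
  · refine lintegral_congr fun y => ?_
    rw [Pi.mul_apply, mul_comm]; rfl
  · exact (Int.cont_dens hG i).measurable.ennreal_ofReal
  · exact Filter.Eventually.of_forall fun y => ENNReal.ofReal_lt_top

/-- `ν` is finite -/
theorem finite_M [Fintype I] (D : Cells C) (hG : MetX C G) (hV : VolM C G ν) :
    IsFiniteMeasure ν := by
  refine ⟨?_⟩
  have h1 := lintegral_M D hG hV (fun _ => 1)
  rw [lintegral_one] at h1
  rw [h1]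
  refine ENNReal.sum_lt_top.2 fun i _ => ?_
  simp only [one_mul]
  exact (B25c.intOn (D.bdd i) (Int.cont_dens hG i)).lintegral_lt_top

/-- integrals over `M` of functions which are continuous in the charts -/
theorem integral_M [Fintype I] (D : Cells C) (hG : MetX C G) (hV : VolM C G ν)
    (F : M → ℝ) (hF : ∀ i, Continuous fun y => F (C.π (C.ψ i y))) :
    ∫ m, F m ∂ν = ∑ i, ∫ y in D.B i, F (C.π (C.ψ i y)) * H.dens (G i) y := by
  have h2 : ∀ i, IntegrableOn F (pm C i '' D.B i) ν := by
    intro i
    rw [IntegrableOn, restrict_eq hV i (D.meas i), (measEmb C i).integrable_map_iff,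
      restrict_withDensity (D.meas i), integrable_withDensity_iff
        (Int.cont_dens hG i).measurable.ennreal_ofReal
        (Filter.Eventually.of_forall fun y => ENNReal.ofReal_lt_top)]
    refine (B25c.intOn (D.bdd i) ((hF i).mul (Int.cont_dens hG i))).congr
      (Filter.Eventually.of_forall fun y => ?_)
    change F (C.π (C.ψ i y)) * H.dens (G i) y = F (C.π (C.ψ i y)) * _
    rw [ENNReal.toReal_ofReal (Int.dens_pos hG i y).le]
  rw [← setIntegral_univ, ← D.cover, integral_iUnion_fintype
    (fun i => (measEmb C i).measurableSet_image.2 (D.meas i)) D.disj h2]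
  refine Finset.sum_congr rfl fun i _ => ?_
  rw [restrict_eq hV i (D.meas i), (measEmb C i).integral_map,
    restrict_withDensity (D.meas i), integral_withDensity_eq_integral_toReal_smul]
  · refine integral_congr_ae (Filter.Eventually.of_forall fun y => ?_)
    change (ENNReal.ofReal (H.dens (G i) y)).toReal • F (C.π (C.ψ i y)) = _
    rw [smul_eq_mul, ENNReal.toReal_ofReal (Int.dens_pos hG i y).le, mul_comm]
  · exact (Int.cont_dens hG i).measurable.ennreal_ofReal
  · exact Filter.Eventually.of_forall fun y => ENNReal.ofReal_lt_top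

end meas

end Vale.Agent.P223.X.Cell
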