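import Vale.Agent.P223.H.SpecT

/-! Phase 3: general closed manifolds `M` with universal covering `X`. Basic definitions. -/

namespace Vale.Agent.P223.X

open scoped ContDiff
open MeasureTheory Vale.Agent.P223.H

/-- The trivial group. It acts trivially on `ℝ^n`; a `Frame n T1 J` is a frame of `ℝ^n`. -/
def T1 : Type := PUnit

instance : Group T1 := inferInstanceAs (Group PUnit)

instance (n : ℕ) : MulAction T1 (E n) where
  smul _ x := x
  one_smul _ := rfl
  mul_smul _ _ _ := rfl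

/-- `X → M` is a Galois covering with group `Γ` of a closed oriented `n`-manifold; `ψ i`, `i ∈ I`,
are parametrisations of open subsets of `X` (defined on all of `ℝ^n`), such that `π ∘ ψ i` is
injective and the sets `π (ψ i (-1, 1)^n)` cover `M`. -/
structure Cov (n : ℕ) (M X Γ I : Type) [TopologicalSpace M] [TopologicalSpace X] [Group Γ]
    [MulAction Γ X] where
  π : C(X, M)
  ψ : I → E n → X
  cont : ∀ γ : Γ, Continuous fun x : X => γ • x
  free : ∀ (γ : Γ) (x : X), γ • x = x → γ = 1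
  cov : IsCoveringMap π
  surj : Function.Surjective π
  orb : ∀ x y : X, π x = π y ↔ ∃ γ : Γ, γ • x = y
  emb : ∀ i, Topology.IsOpenEmbedding (ψ i)
  inj : ∀ i (γ : Γ) y y', γ • ψ i y = ψ i y' → γ = 1
  cover : ∀ x : X, ∃ (γ : Γ) (i : I) (y : E n), (∀ k, |y k| < 1) ∧ γ • ψ i y = x
  proper : ∀ i j (R : ℝ), {γ : Γ | ∃ y y' : E n, ‖y‖ ≤ R ∧ ‖y'‖ ≤ R ∧ γ • ψ i y = ψ j y'}.Finite
  smooth : ∀ i j (γ : Γ), ContDiffOn ℝ ∞ (fun y => Function.invFun (ψ j) (γ • ψ i y))
    {y | γ • ψ i y ∈ Set.range (ψ j)}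
  orient : ∀ i j (γ : Γ) (y : E n), γ • ψ i y ∈ Set.range (ψ j) →
    0 < (fderiv ℝ (fun y => Function.invFun (ψ j) (γ • ψ i y)) y).det

section
variable {n : ℕ} {M X Γ I : Type} [TopologicalSpace M] [TopologicalSpace X] [Group Γ]
    [MulAction Γ X]

/-- Coordinates. -/
noncomputable def Cov.co (C : Cov n M X Γ I) (i : I) (x : X) : E n := Function.invFun (C.ψ i) x

/-- Coordinate change (`γ • ψ i y = ψ j (tr i j γ y)` for `y ∈ dom i j γ`). -/
noncomputable def Cov.tr (C : Cov n M X Γ I) (i j : I) (γ : Γ) (y : E n) : E n :=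
  C.co j (γ • C.ψ i y)

/-- The domain of the coordinate change. -/
def Cov.dom (C : Cov n M X Γ I) (i j : I) (γ : Γ) : Set (E n) :=
  {y | γ • C.ψ i y ∈ Set.range (C.ψ j)}

/-- The function `f` in the chart `γ • ψ i`. -/
def Cov.rep (C : Cov n M X Γ I) (f : X → ℝ) (γ : Γ) (i : I) (y : E n) : ℝ := f (γ • C.ψ i y)

/-- `f` is of class `C^k`. -/
def Cov.Ck (C : Cov n M X Γ I) (k : WithTop ℕ∞) (f : X → ℝ) : Prop :=
  ∀ γ i, ContDiff ℝ k (C.rep f γ i)

/-- Extension by zero of a function given in the chart `ψ i`. -/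
noncomputable def Cov.ex (C : Cov n M X Γ I) (i : I) (h : E n → ℝ) (x : X) : ℝ :=
  open Classical in if x ∈ Set.range (C.ψ i) then h (C.co i x) else 0

/-- A chosen chart `γ • ψ i` around `x`, `x = γ • ψ i y` with `|y k| < 1`. -/
noncomputable def Cov.pg (C : Cov n M X Γ I) (x : X) : Γ := (C.cover x).choose
noncomputable def Cov.pi (C : Cov n M X Γ I) (x : X) : I := (C.cover x).choose_spec.choose
noncomputable def Cov.py (C : Cov n M X Γ I) (x : X) : E n :=
  (C.cover x).choose_spec.choose_spec.choose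

/-- The function on `X` given by a family of functions in the charts `γ • ψ i`. -/
noncomputable def Cov.gl (C : Cov n M X Γ I) (a : Γ → I → E n → ℝ) (x : X) : ℝ :=
  a (C.pg x) (C.pi x) (C.py x)

/-- A Riemannian metric on `M`; `G i` is the metric in the chart `ψ i`. -/
structure MetX (C : Cov n M X Γ I) (G : I → E n → Matrix (Fin n) (Fin n) ℝ) : Prop where
  smooth : ∀ i a b, ContDiff ℝ ∞ (fun y => G i y a b)
  pos : ∀ i y, (G i y).PosDef
  inv : ∀ i j γ, ∀ y ∈ C.dom i j γ, ∀ v w : E n,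
    ∑ a, ∑ b, fderiv ℝ (C.tr i j γ) y v a * fderiv ℝ (C.tr i j γ) y w b * G j (C.tr i j γ y) a b =
      ∑ a, ∑ b, v a * w b * G i y a b

/-- Families of metrics. -/
structure FamX (C : Cov n M X Γ I) (G : ℝ → I → E n → Matrix (Fin n) (Fin n) ℝ) : Prop where
  smooth : ∀ i a b, ContDiff ℝ ∞ (fun p : ℝ × E n => G p.1 i p.2 a b)
  met : ∀ t, MetX C (G t)

/-- `|df|²` -/
noncomputable def gsX (C : Cov n M X Γ I) (G : I → E n → Matrix (Fin n) (Fin n) ℝ) (f : X → ℝ) :
    X → ℝ := C.gl fun γ i y => gradSq (G i) (C.rep f γ i) y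

/-- the Laplacian -/
noncomputable def lapX (C : Cov n M X Γ I) (G : I → E n → Matrix (Fin n) (Fin n) ℝ) (f : X → ℝ) :
    X → ℝ := C.gl fun γ i y => lap (G i) (C.rep f γ i) y

/-- `μ` is the Riemannian volume measure of `X`. -/
def VolX [MeasurableSpace X] (C : Cov n M X Γ I) (G : I → E n → Matrix (Fin n) (Fin n) ℝ)
    (μ : Measure X) : Prop :=
  ∀ (γ : Γ) i (B : Set (E n)), MeasurableSet B →
    μ ((fun y => γ • C.ψ i y) '' B) = ∫⁻ y in B, ENNReal.ofReal (dens (G i) y)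

/-- `ν` is the Riemannian volume measure of `M`. -/
def VolM [MeasurableSpace M] (C : Cov n M X Γ I) (G : I → E n → Matrix (Fin n) (Fin n) ℝ)
    (ν : Measure M) : Prop :=
  ∀ i (B : Set (E n)), MeasurableSet B →
    ν ((fun y => C.π (C.ψ i y)) '' B) = ∫⁻ y in B, ENNReal.ofReal (dens (G i) y)

/-- Frames: `V j i` is the vector field `V j` in the chart `ψ i`. -/
structure FrX (C : Cov n M X Γ I) (J : Type) [Fintype J] where
  V : J → I → E n → E n
  th : J → I → E n → (E n →L[ℝ] ℝ)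
  V_smooth : ∀ j i, ContDiff ℝ ∞ (V j i)
  th_smooth : ∀ j i, ContDiff ℝ ∞ (th j i)
  V_inv : ∀ j i i' γ, ∀ y ∈ C.dom i i' γ,
    V j i' (C.tr i i' γ y) = fderiv ℝ (C.tr i i' γ) y (V j i y)
  th_inv : ∀ j i i' γ, ∀ y ∈ C.dom i i' γ, ∀ w,
    th j i' (C.tr i i' γ y) (fderiv ℝ (C.tr i i' γ) y w) = th j i y w
  dual : ∀ i y w, ∑ j, th j i y w • V j i y = w

/-- The frame in the chart `ψ i`. -/
def FrX.loc {C : Cov n M X Γ I} {J : Type} [Fintype J] (F : FrX C J) (i : I) : Frame n T1 J where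
  V j := F.V j i
  th j := F.th j i
  V_smooth j := F.V_smooth j i
  th_smooth j := F.th_smooth j i
  V_inv γ j x := by
    have : (fun y : E n => γ • y) = id := rfl
    rw [this, fderiv_id]; rfl
  th_inv γ j x w := by
    have : (fun y : E n => γ • y) = id := rfl
    rw [this, fderiv_id]; rfl
  dual x w := F.dual i x w

/-- jet norm -/
noncomputable def jetX {C : Cov n M X Γ I} {J : Type} [Fintype J] (F : FrX C J) (f : X → ℝ) :
    X → ℝ := C.gl fun γ i y => jet (F.loc i) (C.rep f γ i) y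

end

end Vale.Agent.P223.X
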