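import Vale.Agent.P223.X.Vol

/-! Phase 3: decomposition of `M` into finitely many measurable pieces contained in charts. -/

namespace Vale.Agent.P223.X.Dec

open scoped ContDiff Topology ENNReal
open MeasureTheory Vale.Agent.P223.H Function
open Vale.Agent.P223.X.Vol (q q_emb q_cover q_eq)

variable {n : ℕ} {M X Γ I : Type} [TopologicalSpace M] [TopologicalSpace X] [Group Γ]
    [MulAction Γ X]

/-- A decomposition of `M` into finitely many pieces in the charts. -/
structure DecM [MeasurableSpace M] (C : Cov n M X Γ I) (B : I → Set (E n)) : Prop where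
  meas : ∀ i, MeasurableSet (B i)
  ball : ∀ i, B i ⊆ Metric.ball 0 1
  disj : Pairwise (Disjoint on fun i => q C i '' B i)
  union : ⋃ i, q C i '' B i = Set.univ

theorem q_core (C : Cov n M X Γ I) (m : M) : ∃ i, m ∈ q C i '' Metric.ball 0 1 := by
  obtain ⟨x, rfl⟩ := C.surj m
  obtain ⟨γ, i, y, hy, rfl⟩ := exists_chart C x
  exact ⟨i, y, by simpa using hy, (Vol.π_smul C γ _).symm⟩

theorem exists_dec [MeasurableSpace M] [BorelSpace M] [Finite I] (C : Cov n M X Γ I) :
    ∃ B, DecM C B := by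
  obtain ⟨N, ⟨e⟩⟩ := Finite.exists_equiv_fin I
  set A : I → Set M := fun i => q C i '' Metric.ball 0 1 with hA
  have hAm : ∀ i, MeasurableSet (A i) := fun i =>
    ((q_emb C i).isOpenMap _ Metric.isOpen_ball).measurableSet
  set D : I → Set M := fun i => A i \ ⋃ j, ⋃ (_ : e j < e i), A j with hD
  have hDm : ∀ i, MeasurableSet (D i) := fun i =>
    (hAm i).diff (MeasurableSet.iUnion fun j => MeasurableSet.iUnion fun _ => hAm j)
  have him : ∀ i, q C i '' (q C i ⁻¹' D i) = D i := fun i =>
    Set.image_preimage_eq_of_subset fun m hm => by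
      obtain ⟨y, -, rfl⟩ := hm.1
      exact ⟨y, rfl⟩
  have hlt : ∀ {i j : I}, e i < e j → Disjoint (D i) (D j) := fun {i j} h =>
    Set.disjoint_left.2 fun m hm hm' => hm'.2 (Set.mem_iUnion₂.2 ⟨i, h, hm.1⟩)
  refine ⟨fun i => q C i ⁻¹' D i, fun i => (q_emb C i).measurableEmbedding.measurable (hDm i),
    fun i y hy => ?_, ?_, ?_⟩
  · obtain ⟨y', hy', h⟩ := hy.1
    rwa [← (q_emb C i).injective h]
  · intro i j hij
    simp only [onFun, him]
    rcases lt_or_gt_of_ne (fun h => hij (e.injective h) : e i ≠ e j) with h | h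
    · exact hlt h
    · exact (hlt h).symm
  · simp only [him]
    refine Set.eq_univ_of_forall fun m => ?_
    obtain ⟨i₀, hi₀⟩ := q_core C m
    obtain ⟨i, hi, hmin⟩ := Set.exists_min_image {i | m ∈ A i} e (Set.toFinite _) ⟨i₀, hi₀⟩
    refine Set.mem_iUnion.2 ⟨i, hi, fun h => ?_⟩
    obtain ⟨j, hj, hm⟩ := Set.mem_iUnion₂.1 h
    exact absurd (hmin j hm) (not_le.2 hj)

/-- change of variables -/
theorem cvI {Y : Type} [MeasurableSpace Y] {f : E n → Y} (hf : MeasurableEmbedding f)
    {μ : Measure Y} {w : E n → ℝ} (hw : Measurable w) (hw' : ∀ y, 0 ≤ w y)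
    (h : ∀ B, MeasurableSet B → μ (f '' B) = ∫⁻ y in B, ENNReal.ofReal (w y)) {B : Set (E n)}
    (hB : MeasurableSet B) (g : Y → ℝ) :
    (IntegrableOn g (f '' B) μ ↔ IntegrableOn (fun y => g (f y) * w y) B) ∧
      ∫ x in f '' B, g x ∂μ = ∫ y in B, g (f y) * w y := by
  have hwm : Measurable fun y => ENNReal.ofReal (w y) := hw.ennreal_ofReal
  have h1 : μ.comap f = volume.withDensity fun y => ENNReal.ofReal (w y) := by
    ext S hS
    rw [hf.comap_apply, withDensity_apply _ hS]
    exact h S hS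
  have h2 : μ.restrict (f '' B) =
      ((volume.restrict B).withDensity fun y => ENNReal.ofReal (w y)).map f := by
    have h3 : ((μ.comap f).map f).restrict (f '' B) = ((μ.comap f).restrict B).map f := by
      rw [hf.restrict_map, Set.preimage_image_eq _ hf.injective]
    rw [← restrict_withDensity hB, ← h1, ← h3, hf.map_comap,
      Measure.restrict_restrict_of_subset (Set.image_subset_range _ _)]
  have h4 : ∀ y, (ENNReal.ofReal (w y)).toReal = w y := fun y => ENNReal.toReal_ofReal (hw' y)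
  constructor
  · unfold IntegrableOn
    rw [h2, hf.integrable_map_iff, integrable_withDensity_iff hwm
      (Filter.Eventually.of_forall fun y => ENNReal.ofReal_lt_top)]
    simp only [comp_apply, h4]
  · rw [h2, hf.integral_map, integral_withDensity_eq_integral_toReal_smul hwm
      (Filter.Eventually.of_forall fun y => ENNReal.ofReal_lt_top)]
    simp only [h4, smul_eq_mul, mul_comm]

section
variable [MeasurableSpace M] [BorelSpace M] {C : Cov n M X Γ I}
  {G : I → E n → Matrix (Fin n) (Fin n) ℝ} {ν : Measure M} {B : I → Set (E n)}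

theorem lint [Fintype I] (hG : MetX C G) (hν : VolM C G ν) (hB : DecM C B) (F : M → ℝ≥0∞) :
    ∫⁻ m, F m ∂ν = ∑ i, ∫⁻ y in B i, F (q C i y) * ENNReal.ofReal (H.dens (G i) y) := by
  rw [← setLIntegral_univ, ← hB.union, lintegral_iUnion (fun i =>
    (q_emb C i).measurableEmbedding.measurableSet_image.2 (hB.meas i)) hB.disj, tsum_fintype]
  exact Finset.sum_congr rfl fun i _ => Vol.cvM hG hν i (hB.meas i) F

theorem cvM (hG : MetX C G) (hν : VolM C G ν) (i : I) {B : Set (E n)} (hB : MeasurableSet B)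
    (g : M → ℝ) :
    (IntegrableOn g (q C i '' B) ν ↔ IntegrableOn (fun y => g (q C i y) * H.dens (G i) y) B) ∧
      ∫ x in q C i '' B, g x ∂ν = ∫ y in B, g (q C i y) * H.dens (G i) y :=
  cvI (q_emb C i).measurableEmbedding (Int.cont_dens hG i).measurable
    (fun y => (Int.dens_pos hG i y).le) (hν i) hB g

theorem integ [Fintype I] (hG : MetX C G) (hν : VolM C G ν) (hB : DecM C B) {g : M → ℝ}
    (hg : ∀ i, IntegrableOn (fun y => g (q C i y) * H.dens (G i) y) (B i)) :
    Integrable g ν ∧ ∫ m, g m ∂ν = ∑ i, ∫ y in B i, g (q C i y) * H.dens (G i) y := by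
  have h1 : ∀ i, IntegrableOn g (q C i '' B i) ν := fun i =>
    (cvM hG hν i (hB.meas i) g).1.2 (hg i)
  constructor
  · rw [← integrableOn_univ, ← hB.union]
    exact integrableOn_finite_iUnion.2 h1
  · rw [← setIntegral_univ, ← hB.union, integral_iUnion_fintype (fun i =>
      (q_emb C i).measurableEmbedding.measurableSet_image.2 (hB.meas i)) hB.disj h1]
    exact Finset.sum_congr rfl fun i _ => (cvM hG hν i (hB.meas i) g).2

end

theorem dn_q (C : Cov n M X Γ I) (F : X → ℝ) {i : I} {y : E n} {c : ℝ}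
    (h : ∀ γ : Γ, F (γ • C.ψ i y) = c) : C.dn F (q C i y) = c := by
  unfold Cov.dn
  have h1 : C.π (C.ψ i y) = C.π (surjInv C.surj (q C i y)) := by
    exact (surjInv_eq C.surj _).symm
  obtain ⟨γ, hγ⟩ := (C.orb _ _).1 h1
  rw [← hγ, h]

theorem scM_q {C : Cov n M X Γ I} {G : I → E n → Matrix (Fin n) (Fin n) ℝ} (hG : MetX C G)
    (i : I) (y : E n) : scM C G (q C i y) = H.scal (G i) y :=
  dn_q C _ fun γ => gl_eq C (a := fun _ i y => H.scal (G i) y)
    (fun _ _ _ _ _ _ h => scal_chart hG h) γ i y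

end Vale.Agent.P223.X.Dec
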