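import Vale.Agent.P223.X.Basic
import Vale.Agent.P223.H.B6b

/-! Phase 3: integration of densities (`n`-forms) on `X`. -/

namespace Vale.Agent.P223.X.DensX

open scoped ContDiff Topology
open MeasureTheory Vale.Agent.P223.H Vale.Agent.P223.X Set Filter Function

section
variable {n : ℕ} {M X Γ I : Type} [TopologicalSpace M] [TopologicalSpace X] [Group Γ]
    [MulAction Γ X] {C : Cov n M X Γ I}

theorem openSmul (C : Cov n M X Γ I) (γ : Γ) : IsOpenMap fun x : X => γ • x :=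
  (⟨MulAction.toPerm γ, C.cont γ, C.cont γ⁻¹⟩ : X ≃ₜ X).isOpenMap

theorem chart_cover (C : Cov n M X Γ I) {K : Set X} (hK : IsCompact K) :
    ∃ S : Finset (Γ × I), ∀ x ∈ K, ∃ a ∈ S, ∃ y : E n, ‖y‖ ≤ 1 ∧ a.1 • C.ψ a.2 y = x := by
  classical
  have ho : ∀ a : Γ × I, IsOpen ((fun y => a.1 • C.ψ a.2 y) '' Metric.ball (0 : E n) 1) := by
    intro a
    exact ((openSmul C a.1).comp (C.emb a.2).isOpenMap) _ Metric.isOpen_ball
  obtain ⟨S, hS⟩ := hK.elim_finite_subcover _ ho (by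
    intro x _
    obtain ⟨γ, i, y, hy, hx⟩ := exists_chart C x
    exact mem_iUnion.2 ⟨(γ, i), y, by rwa [Metric.mem_ball, dist_zero_right], hx⟩)
  refine ⟨S, fun x hx => ?_⟩
  obtain ⟨a, ha, y, hy, hy2⟩ := mem_iUnion₂.1 (hS hx)
  rw [Metric.mem_ball, dist_zero_right] at hy
  exact ⟨a, ha, y, hy.le, hy2⟩

theorem proper0 (C : Cov n M X Γ I) {K K' : Set X} (hK : IsCompact K) (hK' : IsCompact K') :
    {γ : Γ | ∃ x ∈ K, γ • x ∈ K'}.Finite := by
  classical
  obtain ⟨S, hS⟩ := chart_cover C hK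
  obtain ⟨S', hS'⟩ := chart_cover C hK'
  have hfin : (⋃ a ∈ S, ⋃ b ∈ S', (fun g : Γ => b.1 * g * a.1⁻¹) ''
      {γ : Γ | ∃ y y' : E n, ‖y‖ ≤ 1 ∧ ‖y'‖ ≤ 1 ∧ γ • C.ψ a.2 y = C.ψ b.2 y'}).Finite :=
    S.finite_toSet.biUnion fun a _ => S'.finite_toSet.biUnion fun b _ =>
      (C.proper a.2 b.2 1).image _
  refine hfin.subset ?_
  rintro g ⟨x, hx, hgx⟩
  obtain ⟨a, ha, y, hy, hyx⟩ := hS x hx
  obtain ⟨b, hb, y', hy', hyx'⟩ := hS' _ hgx
  refine mem_iUnion₂.2 ⟨a, ha, mem_iUnion₂.2 ⟨b, hb, b.1⁻¹ * g * a.1, ⟨y, y', hy, hy', ?_⟩, ?_⟩⟩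
  · rw [mul_smul, mul_smul, hyx, ← hyx', inv_smul_smul]
  · show b.1 * (b.1⁻¹ * g * a.1) * a.1⁻¹ = g
    group

/-- transformation rule of densities -/
def Dn (C : Cov n M X Γ I) (w : Γ → I → E n → ℝ) : Prop :=
  ∀ (γ γ' : Γ) i j y y', γ • C.ψ i y = γ' • C.ψ j y' →
    w γ i y = (fderiv ℝ (C.tr i j (γ'⁻¹ * γ)) y).det * w γ' j y'

/-- `w` vanishes outside `K`. -/
def Van (C : Cov n M X Γ I) (w : Γ → I → E n → ℝ) (K : Set X) : Prop :=
  ∀ γ i y, γ • C.ψ i y ∉ K → w γ i y = 0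

theorem Dn.mul {w : Γ → I → E n → ℝ} (h : Dn C w) (f : X → ℝ) :
    Dn C (fun γ i y => f (γ • C.ψ i y) * w γ i y) := by
  intro γ γ' i j y y' e
  show f (γ • C.ψ i y) * w γ i y = _ * (f (γ' • C.ψ j y') * w γ' j y')
  rw [h γ γ' i j y y' e, e]
  ring

theorem inj_chart (C : Cov n M X Γ I) (γ : Γ) (i : I) : Injective fun y => γ • C.ψ i y := by
  intro y y' h
  exact (C.emb i).injective (MulAction.injective γ h)

/-- Jacobian matrix -/
noncomputable def jm (φ : E n → E n) (y : E n) : Matrix (Fin n) (Fin n) ℝ :=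
  LinearMap.toMatrix' ((fderiv ℝ φ y : E n →L[ℝ] E n) : E n →ₗ[ℝ] E n)

theorem det_jm (φ : E n → E n) (y : E n) : (jm φ y).det = (fderiv ℝ φ y).det := by
  rw [jm, LinearMap.det_toMatrix']

theorem jm_apply (φ : E n → E n) (y : E n) (i j : Fin n) :
    jm φ y i j = fderiv ℝ φ y (Pi.single j 1) i := by
  rw [jm, LinearMap.toMatrix'_apply]
  rfl

/-- Chain rule for `jdet`. -/
theorem jdet_comp (f : Fin n → E n → ℝ) (φ : E n → E n) (y : E n)
    (hf : ∀ k, DifferentiableAt ℝ (f k) (φ y)) (hφ : DifferentiableAt ℝ φ y) :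
    jdet (fun k z => f k (φ z)) y = (fderiv ℝ φ y).det * jdet f (φ y) := by
  rw [← det_jm, mul_comm, jdet, jdet, ← Matrix.det_mul]
  congr 1
  ext i j
  rw [Matrix.of_apply, Matrix.mul_apply]
  have h1 : fderiv ℝ (fun z => f i (φ z)) y = (fderiv ℝ (f i) (φ y)).comp (fderiv ℝ φ y) :=
    fderiv_comp y (hf i) hφ
  unfold H.pd
  rw [h1, ContinuousLinearMap.comp_apply]
  have h2 : fderiv ℝ φ y (Pi.single j 1) = ∑ k, jm φ y k j • (Pi.single k (1 : ℝ) : E n) := by
    ext k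
    simp [Finset.sum_apply, jm_apply, Pi.single_apply]
  rw [h2, map_sum]
  simp [mul_comm]

theorem jdet_congr {f g : Fin n → E n → ℝ} {y : E n} (h : ∀ k, f k =ᶠ[𝓝 y] g k) :
    jdet f y = jdet g y := by
  unfold jdet
  congr 1
  ext i j
  simp only [Matrix.of_apply, H.pd]
  rw [(h i).fderiv_eq]

/-- The Jacobian determinants of functions are densities. -/
theorem dn_jdet {f : Fin n → X → ℝ} (hf : ∀ k, C.Ck 1 (f k)) :
    Dn C (fun γ i y => jdet (fun k => C.rep (f k) γ i) y) := by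
  intro γ γ' i j y y' e
  obtain ⟨h1, h2⟩ := chart_eq C e
  have hg : γ' * (γ'⁻¹ * γ) = γ := by simp
  have h3 : ∀ k, C.rep (f k) γ i =ᶠ[𝓝 y] fun z => C.rep (f k) γ' j (C.tr i j (γ'⁻¹ * γ) z) := by
    intro k
    have := rep_tr_eventually C (f k) h1 γ'
    rwa [hg] at this
  show jdet _ y = _ * jdet _ y'
  rw [jdet_congr h3, jdet_comp (fun k => C.rep (f k) γ' j) (C.tr i j (γ'⁻¹ * γ)) y
    (fun k => (hf k γ' j).differentiable one_ne_zero _)
    ((contDiffAt_tr C h1).differentiableAt (by simp)), h2]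

/-- Change of charts in an integral. -/
theorem int_chart {w : Γ → I → E n → ℝ} (hw : Dn C w) (γ γ' : Γ) (i j : I)
    (h1 : ∀ y, w γ i y ≠ 0 → γ • C.ψ i y ∈ range fun y' => γ' • C.ψ j y')
    (h2 : ∀ y', w γ' j y' ≠ 0 → γ' • C.ψ j y' ∈ range fun y => γ • C.ψ i y) :
    ∫ y, w γ i y = ∫ y, w γ' j y := by
  have hdom : ∀ y, y ∈ C.dom i j (γ'⁻¹ * γ) ↔ γ • C.ψ i y ∈ range fun y' => γ' • C.ψ j y' := by
    intro y
    constructor
    · rintro ⟨y', hy'⟩
      refine ⟨y', ?_⟩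
      show γ' • C.ψ j y' = _
      rw [hy', smul_smul, mul_inv_cancel_left]
    · rintro ⟨y', hy'⟩
      exact (chart_eq C hy'.symm).1
  have hmeas : MeasurableSet (C.dom i j (γ'⁻¹ * γ)) := (isOpen_dom C i j _).measurableSet
  set T := C.tr i j (γ'⁻¹ * γ) with hT
  have hTs : ∀ y ∈ C.dom i j (γ'⁻¹ * γ), γ' • C.ψ j (T y) = γ • C.ψ i y := by
    intro y hy
    rw [hT, tr_spec C hy, smul_smul, mul_inv_cancel_left]
  have hinj : InjOn T (C.dom i j (γ'⁻¹ * γ)) := by
    intro y hy y' hy' e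
    have := hTs y hy
    rw [e, hTs y' hy'] at this
    exact (inj_chart C γ i this).symm
  have key := integral_image_eq_integral_abs_det_fderiv_smul (μ := (volume : Measure (E n)))
    (f := T) (f' := fun y => fderiv ℝ T y) hmeas
    (fun y hy => ((contDiffAt_tr C hy).differentiableAt (by simp)).hasFDerivAt.hasFDerivWithinAt)
    hinj (w γ' j)
  have e1 : ∫ y, w γ i y = ∫ y in C.dom i j (γ'⁻¹ * γ), w γ i y := by
    symm
    apply setIntegral_eq_integral_of_forall_compl_eq_zero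
    intro y hy
    by_contra hne
    exact hy ((hdom y).2 (h1 y hne))
  have e2 : ∫ y, w γ' j y = ∫ y in T '' C.dom i j (γ'⁻¹ * γ), w γ' j y := by
    symm
    apply setIntegral_eq_integral_of_forall_compl_eq_zero
    intro y hy
    by_contra hne
    obtain ⟨y', hy'⟩ := h2 y hne
    have h3 := chart_eq C hy'
    exact hy ⟨y', h3.1, h3.2⟩
  rw [e1, e2, key]
  refine setIntegral_congr_fun hmeas fun y hy => ?_
  show _ = |(fderiv ℝ T y).det| • w γ' j (T y)
  rw [hw γ γ' i j y (T y) (hTs y hy).symm, abs_of_pos (det_tr_pos C hy), smul_eq_mul]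

end

section
variable {n : ℕ} {M X Γ I : Type} [TopologicalSpace M] [TopologicalSpace X] [Group Γ]
    [MulAction Γ X] {C : Cov n M X Γ I} [Fintype I] {χ : I → E n → ℝ}

/-- The integral of a density. -/
noncomputable def Intg (_ : Cov n M X Γ I) (χ : I → E n → ℝ) (w : Γ → I → E n → ℝ) : ℝ :=
  ∑ i, ∑ᶠ γ : Γ, ∫ y, χ i y * w γ i y

/-- Continuous, compactly supported families. -/
structure Nice (C : Cov n M X Γ I) (w : Γ → I → E n → ℝ) : Prop where
  cont : ∀ γ i, Continuous (w γ i)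
  van : ∃ K : Set X, IsCompact K ∧ Van C w K

theorem fin_T [T2Space X] (C : Cov n M X Γ I) {K : Set X} (hK : IsCompact K) :
    ∃ T : Finset Γ, ∀ γ, γ ∉ T → ∀ i (y : E n), ‖y‖ ≤ 2 → γ • C.ψ i y ∉ K := by
  have h := proper0 C (isCompact_core C 2) hK
  refine ⟨h.toFinset, fun γ hγ i y hy hc => hγ ?_⟩
  rw [Set.Finite.mem_toFinset]
  exact ⟨C.ψ i y, mem_iUnion.2 ⟨i, y, hy, rfl⟩, hc⟩

theorem hcs_χ (hχ : Part C χ) (i : I) : HasCompactSupport (χ i) :=
  HasCompactSupport.intro (isCompact_closedBall (0 : E n) 2) fun y hy => hχ.supp i y (by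
    rw [Metric.mem_closedBall, dist_zero_right, not_le] at hy
    exact hy.le)

theorem integrable_nice (hχ : Part C χ) {w : Γ → I → E n → ℝ} (hw : ∀ γ i, Continuous (w γ i))
    (γ : Γ) (i : I) : Integrable fun y => χ i y * w γ i y :=
  (((hχ.smooth i).continuous).mul (hw γ i)).integrable_of_hasCompactSupport
    (hcs_χ hχ i).mul_right

theorem intg_eq (hχ : Part C χ) {w : Γ → I → E n → ℝ} {K : Set X} (hw : Van C w K)
    {T : Finset Γ} (hT : ∀ γ, γ ∉ T → ∀ i (y : E n), ‖y‖ ≤ 2 → γ • C.ψ i y ∉ K) :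
    Intg C χ w = ∑ i, ∑ γ ∈ T, ∫ y, χ i y * w γ i y := by
  refine Finset.sum_congr rfl fun i _ => ?_
  refine finsum_eq_sum_of_support_subset _ fun γ hγ => ?_
  by_contra hc
  refine hγ (integral_eq_zero_of_ae (Eventually.of_forall fun y => ?_))
  show χ i y * w γ i y = 0
  rcases le_or_gt 2 ‖y‖ with h | h
  · rw [hχ.supp i y h, zero_mul]
  · rw [hw γ i y (hT γ hc i y h.le), mul_zero]

omit [Fintype I] in
theorem Van.mono {w : Γ → I → E n → ℝ} {K K' : Set X} (h : Van C w K) (hK : K ⊆ K') :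
    Van C w K' := fun γ i y hy => h γ i y fun hc => hy (hK hc)

theorem intg_add [T2Space X] (hχ : Part C χ) {w w' : Γ → I → E n → ℝ} (hw : Nice C w)
    (hw' : Nice C w') : Intg C χ (fun γ i y => w γ i y + w' γ i y) =
      Intg C χ w + Intg C χ w' := by
  obtain ⟨K, hK, hv⟩ := hw.van
  obtain ⟨K', hK', hv'⟩ := hw'.van
  obtain ⟨T, hT⟩ := fin_T C (hK.union hK')
  have h1 : Van C w (K ∪ K') := hv.mono subset_union_left
  have h2 : Van C w' (K ∪ K') := hv'.mono subset_union_right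
  have h3 : Van C (fun γ i y => w γ i y + w' γ i y) (K ∪ K') := fun γ i y hy => by
    show w γ i y + w' γ i y = 0
    rw [h1 γ i y hy, h2 γ i y hy, add_zero]
  rw [intg_eq hχ h1 hT, intg_eq hχ h2 hT, intg_eq hχ h3 hT, ← Finset.sum_add_distrib]
  refine Finset.sum_congr rfl fun i _ => ?_
  rw [← Finset.sum_add_distrib]
  refine Finset.sum_congr rfl fun γ _ => ?_
  rw [← integral_add (integrable_nice hχ hw.cont γ i) (integrable_nice hχ hw'.cont γ i)]
  simp only [mul_add]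

theorem intg_zero : Intg C χ (fun _ _ _ => 0) = 0 := by
  simp [Intg]

omit [Fintype I] in
theorem Nice.add {w w' : Γ → I → E n → ℝ} (hw : Nice C w) (hw' : Nice C w') :
    Nice C (fun γ i y => w γ i y + w' γ i y) := by
  obtain ⟨K, hK, hv⟩ := hw.van
  obtain ⟨K', hK', hv'⟩ := hw'.van
  refine ⟨fun γ i => (hw.cont γ i).add (hw'.cont γ i), K ∪ K', hK.union hK', ?_⟩
  intro γ i y hy
  show w γ i y + w' γ i y = 0
  rw [hv γ i y fun h => hy (Or.inl h), hv' γ i y fun h => hy (Or.inr h), add_zero]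

omit [Fintype I] in
theorem Nice.zero : Nice C (fun _ _ _ => 0) :=
  ⟨fun _ _ => continuous_const, ∅, isCompact_empty, fun _ _ _ _ => rfl⟩

theorem intg_sum [T2Space X] (hχ : Part C χ) {Λ : Type} (S : Finset Λ)
    (w : Λ → Γ → I → E n → ℝ) (hw : ∀ a ∈ S, Nice C (w a)) :
    Nice C (fun γ i y => ∑ a ∈ S, w a γ i y) ∧
    Intg C χ (fun γ i y => ∑ a ∈ S, w a γ i y) = ∑ a ∈ S, Intg C χ (w a) := by
  classical
  induction S using Finset.induction_on with
  | empty => simpa using ⟨Nice.zero, intg_zero⟩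
  | insert a s ha ih =>
    have h1 := hw a (Finset.mem_insert_self a s)
    obtain ⟨h2, h3⟩ := ih fun b hb => hw b (Finset.mem_insert_of_mem hb)
    simp only [Finset.sum_insert ha]
    exact ⟨h1.add h2, by rw [intg_add hχ h1 h2, h3]⟩

/-- The functions of the partition of unity. -/
noncomputable def uu (C : Cov n M X Γ I) (χ : I → E n → ℝ) (i : I) (γ : Γ) (x : X) : ℝ :=
  C.ex i (χ i) (γ⁻¹ • x)

omit [Fintype I] in
theorem uu_chart (i : I) (γ : Γ) (y : E n) : uu C χ i γ (γ • C.ψ i y) = χ i y := by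
  rw [uu, inv_smul_smul, ex_ψ]

theorem Ck_uu [T2Space X] (hχ : Part C χ) (i : I) (γ : Γ) : C.Ck ∞ (uu C χ i γ) :=
  Ck_smul C (Ck_ex C (hχ.smooth i) (hcs_χ hχ i)) γ⁻¹

theorem cont_uu [T2Space X] (hχ : Part C χ) (i : I) (γ : Γ) : Continuous (uu C χ i γ) :=
  Ck_continuous C fun γ' j => (Ck_uu hχ i γ γ' j).of_le (by simp)

theorem uu_supp (hχ : Part C χ) {i : I} {γ : Γ} {x : X} (h : uu C χ i γ x ≠ 0) :
    x ∈ (fun y => γ • C.ψ i y) '' Metric.closedBall (0 : E n) 2 := by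
  unfold uu Cov.ex at h
  split_ifs at h with h1
  · obtain ⟨z, hz⟩ := h1
    rw [← hz, co_ψ] at h
    refine ⟨z, ?_, ?_⟩
    · rw [Metric.mem_closedBall, dist_zero_right]
      by_contra hlt
      push Not at hlt
      exact h (hχ.supp i z hlt.le)
    · show γ • C.ψ i z = x
      rw [hz, smul_inv_smul]
  · exact absurd rfl h

theorem uu_sum (hχ : Part C χ) {K : Set X} {T : Finset Γ}
    (hT : ∀ γ, γ ∉ T → ∀ i (y : E n), ‖y‖ ≤ 2 → γ • C.ψ i y ∉ K) {x : X} (hx : x ∈ K) :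
    ∑ i, ∑ γ ∈ T, uu C χ i γ x = 1 := by
  rw [← hχ.sum x]
  refine Finset.sum_congr rfl fun i _ => ?_
  rw [← finsum_comp_equiv (Equiv.inv Γ)]
  refine (finsum_eq_sum_of_support_subset _ fun γ hγ => ?_).symm
  by_contra hcon
  obtain ⟨z, hz, hzx⟩ := uu_supp hχ (i := i) (γ := γ) (x := x) hγ
  rw [Metric.mem_closedBall, dist_zero_right] at hz
  refine hT γ hcon i z hz ?_
  have h2 : γ • C.ψ i z = x := hzx
  rw [h2]
  exact hx

omit [Fintype I] in
theorem isOpenEmbedding_chart (C : Cov n M X Γ I) (γ : Γ) (i : I) :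
    Topology.IsOpenEmbedding fun y => γ • C.ψ i y := by
  refine Topology.IsOpenEmbedding.of_continuous_injective_isOpenMap
    ((C.cont γ).comp (C.emb i).continuous) (inj_chart C γ i) ?_
  exact (openSmul C γ).comp (C.emb i).isOpenMap

omit [Fintype I] in
theorem isCompact_ball (C : Cov n M X Γ I) (γ : Γ) (i : I) (R : ℝ) :
    IsCompact ((fun y => γ • C.ψ i y) '' Metric.closedBall (0 : E n) R) :=
  (isCompact_closedBall _ _).image ((C.cont γ).comp (C.emb i).continuous)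

/-- The integral of a density which is supported in a chart. -/
theorem intg_chart [T2Space X] (hχ : Part C χ) {w : Γ → I → E n → ℝ}
    (hc : ∀ γ i, Continuous (w γ i)) (hw : Dn C w) {K : Set X} (hK : IsCompact K)
    (hv : Van C w K) (γ' : Γ) (j : I) (hKr : K ⊆ range fun y => γ' • C.ψ j y) :
    Intg C χ w = ∫ y, w γ' j y := by
  obtain ⟨T, hT⟩ := fin_T C hK
  rw [intg_eq hχ hv hT]
  have h1 : ∀ i γ, ∫ y, χ i y * w γ i y = ∫ y, uu C χ i γ (γ' • C.ψ j y) * w γ' j y := by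
    intro i γ
    have e : (fun y => χ i y * w γ i y) = fun y => uu C χ i γ (γ • C.ψ i y) * w γ i y := by
      funext y
      rw [uu_chart]
    rw [e]
    refine int_chart (hw.mul (uu C χ i γ)) γ γ' i j ?_ ?_
    · intro y hy
      by_contra hcon
      refine hy ?_
      show uu C χ i γ (γ • C.ψ i y) * w γ i y = 0
      rw [hv γ i y fun h => hcon (hKr h), mul_zero]
    · intro y hy
      by_contra hcon
      refine hy ?_
      show uu C χ i γ (γ' • C.ψ j y) * w γ' j y = 0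
      have : uu C χ i γ (γ' • C.ψ j y) = 0 := by
        by_contra hne
        obtain ⟨z, _, hz⟩ := uu_supp hχ hne
        exact hcon ⟨z, hz⟩
      rw [this, zero_mul]
  simp only [h1]
  -- compactness of the support in the chart
  have hcs : HasCompactSupport (w γ' j) := by
    refine HasCompactSupport.intro (K := (fun y => γ' • C.ψ j y) ⁻¹' K) ?_ fun y hy =>
      hv γ' j y hy
    exact ((isOpenEmbedding_chart C γ' j).isInducing.isCompact_preimage_iff hKr).2 hK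
  have hint : ∀ i γ, Integrable fun y => uu C χ i γ (γ' • C.ψ j y) * w γ' j y := by
    intro i γ
    refine Continuous.integrable_of_hasCompactSupport ?_ hcs.mul_left
    exact ((cont_uu hχ i γ).comp ((C.cont γ').comp (C.emb j).continuous)).mul (hc γ' j)
  have h2 : ∀ i, ∑ γ ∈ T, ∫ y, uu C χ i γ (γ' • C.ψ j y) * w γ' j y =
      ∫ y, ∑ γ ∈ T, uu C χ i γ (γ' • C.ψ j y) * w γ' j y := fun i =>
    (integral_finsetSum T fun γ _ => hint i γ).symm
  simp only [h2]
  rw [← integral_finsetSum _ fun i _ => integrable_finsetSum _ fun γ _ => hint i γ]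
  refine integral_congr_ae (Eventually.of_forall fun y => ?_)
  show ∑ i, ∑ γ ∈ T, uu C χ i γ (γ' • C.ψ j y) * w γ' j y = w γ' j y
  by_cases hy : γ' • C.ψ j y ∈ K
  · simp only [← Finset.sum_mul]
    rw [uu_sum hχ hT hy, one_mul]
  · rw [hv γ' j y hy]
    simp

end

end Vale.Agent.P223.X.DensX
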