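import Vale.Agent.P223.X.Main
import Vale.Agent.P223.X.Basic
import Vale.Agent.P223.H.B25c
import Vale.Agent.P223.H.Cor

/-! Phase 3: theorems for coverings `Cov`, from the blocks. -/

namespace Vale.Agent.P223.X.Final

open scoped ContDiff
open MeasureTheory Vale.Agent.P223.H

/-- all blocks -/
structure Blk : Prop where
  part : SpecPart
  form : SpecFormX
  cyc : SpecFormCyc
  norm : SpecNormX
  tr : SpecTruncX
  fund : SpecFundX
  mt : MT.SpecMT
  dual : MT.SpecDual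
  fin : Main.SpecFin
  atx : SpecATX
  vol : SpecVol
  mono : SpecMonoX
  ext : SpecExtX
  zero : SpecZeroX
  min : SpecMinX
  conf : SpecConfX

variable {n : ℕ} {M X Γ I : Type} [TopologicalSpace M] [TopologicalSpace X] [Group Γ]
    [MulAction Γ X]

section basic
variable (C : Cov n M X Γ I)

theorem dn_eq {F : X → ℝ} (hF : ∀ (γ : Γ) x, F (γ • x) = F x) (x : X) : C.dn F (C.π x) = F x := by
  obtain ⟨γ, hγ⟩ := (C.orb (Function.surjInv C.surj (C.π x)) x).1
    (Function.surjInv_eq C.surj (C.π x))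
  have := hF γ (Function.surjInv C.surj (C.π x))
  rw [hγ] at this
  exact this.symm

theorem exists_chartM (m : M) : ∃ (i : I) (y : E n), C.π (C.ψ i y) = m := by
  obtain ⟨x, rfl⟩ := C.surj m
  obtain ⟨γ, i, y, -, rfl⟩ := C.cover x
  exact ⟨i, y, (C.orb _ _).2 ⟨γ, rfl⟩⟩

theorem emb_π (i : I) : Topology.IsOpenEmbedding fun y : E n => C.π (C.ψ i y) := by
  refine Topology.IsOpenEmbedding.of_continuous_injective_isOpenMap
    (C.π.continuous.comp (C.emb i).continuous) (fun y y' h => ?_)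
    (C.cov.isOpenMap.comp (C.emb i).isOpenMap)
  obtain ⟨γ, hγ⟩ := (C.orb _ _).1 h
  have := C.inj i γ y y' hγ
  rw [this, one_smul] at hγ
  exact (C.emb i).injective hγ

theorem continuous_M {A B : Type} [TopologicalSpace A] [TopologicalSpace B] {F : A × M → B}
    (h : ∀ i, Continuous fun p : A × E n => F (p.1, C.π (C.ψ i p.2))) : Continuous F := by
  rw [continuous_iff_continuousAt]
  rintro ⟨t, m⟩
  obtain ⟨i, y, rfl⟩ := exists_chartM C m
  have he : Topology.IsOpenEmbedding (Prod.map (id : A → A) fun y : E n => C.π (C.ψ i y)) :=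
    Topology.IsOpenEmbedding.id.prodMap (emb_π C i)
  exact (he.continuousAt_iff (g := F) (x := (t, y))).1 (h i).continuousAt

variable {C}

theorem scM_eq {G : I → E n → Matrix (Fin n) (Fin n) ℝ} (hG : MetX C G) (i : I) (y : E n) :
    scM C G (C.π (C.ψ i y)) = H.scal (G i) y := by
  have hgl : ∀ (γ : Γ) i y, C.gl (fun _ i y => H.scal (G i) y) (γ • C.ψ i y) = H.scal (G i) y :=
    fun γ i y => gl_eq C (fun γ γ' i i' y y' h => scal_chart hG h) γ i y
  have hinv : ∀ (γ : Γ) x, C.gl (fun _ i y => H.scal (G i) y) (γ • x) =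
      C.gl (fun _ i y => H.scal (G i) y) x := by
    intro γ x
    obtain ⟨γ', i, y, -, rfl⟩ := C.cover x
    rw [← mul_smul, hgl, hgl]
  unfold scM
  rw [dn_eq C hinv, ← hgl 1, one_smul]

theorem continuous_M' {F : M → ℝ} (h : ∀ i, Continuous fun y : E n => F (C.π (C.ψ i y))) :
    Continuous F := by
  rw [continuous_iff_continuousAt]
  intro m
  obtain ⟨i, y, rfl⟩ := exists_chartM C m
  exact ((emb_π C i).continuousAt_iff (g := F) (x := y)).1 (h i).continuousAt

theorem continuous_scM {G : I → E n → Matrix (Fin n) (Fin n) ℝ} (hG : MetX C G) :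
    Continuous (scM C G) := by
  refine continuous_M' (C := C) fun i => ?_
  have h3 : Continuous fun y : E n => H.scal (G i) y :=
    Cor.continuous_scal (hG.smooth i) (hG.pos i)
  exact h3.congr fun y => (scM_eq hG i y).symm

end basic

theorem kap_nonneg {n : ℕ} (hn : 4 ≤ n) : (0 : ℝ) ≤ (n : ℝ) - 2 + √n := by
  have : (4 : ℝ) ≤ n := by exact_mod_cast hn
  have := Real.sqrt_nonneg (n : ℝ)
  linarith

variable [Fintype I] [T2Space X] [SimplyConnectedSpace X] [T2Space M] [MeasurableSpace M]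
  [BorelSpace M]

/-- Moving metrics. -/
theorem moving (hb : Blk) (C : Cov n M X Γ I) (hinf : ∃ s : ℕ → X, MT.Dist Γ s) (hn : 4 ≤ n)
    (G : ℝ → I → E n → Matrix (Fin n) (Fin n) ℝ) (hG : FamX C G) (ρ σ : ℝ → M → ℝ)
    (hρ : Continuous (fun p : ℝ × M => ρ p.1 p.2)) (hσ : Continuous (fun p : ℝ × M => σ p.1 p.2))
    (h1 : ∀ t, 0 ≤ t → ∀ i (y w : E n),
      -ρ t (C.π (C.ψ i y)) * ∑ a, ∑ b, w a * w b * G t i y a b ≤
        ∑ a, ∑ b, w a * w b * (ric (G t i) y a b + 1 / 2 * H.dtG (fun s => G s i) t y a b))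
    (h2 : ∀ t, 0 ≤ t → ∀ i y, H.trh (fun s => G s i) t y ≤ σ t (C.π (C.ψ i y)))
    (ν : ℝ → Measure M) (hν : ∀ t, 0 ≤ t → VolM C (G t) (ν t)) (B : ENNReal)
    (hB : ∀ t, 0 ≤ t → ∫⁻ m, ENNReal.ofReal
      (max 0 (ρ t m + σ t m / ((n : ℝ) - 2)) ^ ((n : ℝ) / 2)) ∂(ν t) ≤ B) :
    svX C ≤ ENNReal.ofReal (((n : ℝ) - 2 + √n) ^ n) * B := by
  letI : MeasurableSpace X := borel X
  haveI : BorelSpace X := ⟨rfl⟩
  refine ENNReal.le_of_forall_pos_le_add fun δ hδ _ => ?_
  obtain ⟨t, μ, W, v, A, ht, hμ, hW, hv, h⟩ := hb.atx n M X Γ I C G hn hG ρ σ hρ hσ h1 h2 ν hν B hB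
    δ (by exact_mod_cast hδ)
  refine (Main.svX_le hb.part hb.form hb.cyc hb.norm hb.tr hb.fund hb.mt hb.dual hb.fin C (G t) μ
    (ν t) W v A (by omega) (hG.met t) hμ (hν t ht) hW hv hinf).trans (h.trans (le_of_eq ?_))
  rw [ENNReal.ofReal_coe_nnreal]

/-- Constant metric. -/
theorem ricci (hb : Blk) (C : Cov n M X Γ I) (hinf : ∃ s : ℕ → X, MT.Dist Γ s) (hn : 4 ≤ n)
    (G : I → E n → Matrix (Fin n) (Fin n) ℝ) (hG : MetX C G) (ρ : M → ℝ) (hρ : Continuous ρ)
    (hρ0 : ∀ m, 0 ≤ ρ m) (h1 : ∀ i (y w : E n),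
      -ρ (C.π (C.ψ i y)) * ∑ a, ∑ b, w a * w b * G i y a b ≤
        ∑ a, ∑ b, w a * w b * H.ric (G i) y a b)
    (ν : Measure M) (hν : VolM C G ν) :
    svX C ≤ ENNReal.ofReal (((n : ℝ) - 2 + √n) ^ n) *
      ∫⁻ m, ENNReal.ofReal (ρ m ^ ((n : ℝ) / 2)) ∂ν := by
  have hdt : ∀ t i y a b, H.dtG (fun _ : ℝ => G i) t y a b = 0 := fun t i y a b => deriv_const _ _
  refine moving hb C hinf hn (fun _ => G) ⟨fun i a b => ?_, fun _ => hG⟩ (fun _ => ρ)
    (fun _ _ => 0) (hρ.comp continuous_snd) continuous_const ?_ ?_ (fun _ => ν) (fun _ _ => hν) _ ?_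
  · exact (hG.smooth i a b).comp contDiff_snd
  · intro t _ i y w
    refine (h1 i y w).trans (le_of_eq ?_)
    refine Finset.sum_congr rfl fun a _ => Finset.sum_congr rfl fun b _ => ?_
    rw [hdt, mul_zero, add_zero]
  · intro t _ i y
    unfold H.trh
    simp only [hdt, mul_zero, Finset.sum_const_zero, le_refl]
  · intro t _
    refine le_of_eq (lintegral_congr fun m => ?_)
    rw [zero_div, add_zero, max_eq_right (hρ0 m)]

/-- Ricci flow. -/
theorem ricciFlow (hb : Blk) (C : Cov n M X Γ I) (hinf : ∃ s : ℕ → X, MT.Dist Γ s) (hn : 4 ≤ n)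
    (G : ℝ → I → E n → Matrix (Fin n) (Fin n) ℝ) (hG : RFX C G) (ν₀ : Measure M)
    (hν₀ : VolM C (G 0) ν₀) :
    svX C ≤ ENNReal.ofReal ((((n : ℝ) - 2 + √n) ^ 2 / ((n : ℝ) - 2)) ^ ((n : ℝ) / 2)) *
      IS C (G 0) ν₀ ((n : ℝ) / 2) := by
  classical
  letI : MeasurableSpace X := borel X
  haveI : BorelSpace X := ⟨rfl⟩
  have hn4 : (4 : ℝ) ≤ n := by exact_mod_cast hn
  have hn2 : (0 : ℝ) < (n : ℝ) - 2 := by linarith
  have hκ := kap_nonneg hn
  set κ : ℝ := (n : ℝ) - 2 + √n with hκd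
  -- volume measures
  have hex : ∀ t, ∃ ν : Measure M, (0 ≤ t → VolM C (G t) ν) ∧ (t = 0 → ν = ν₀) := by
    intro t
    by_cases h0 : t = 0
    · subst h0
      exact ⟨ν₀, fun _ => hν₀, fun _ => rfl⟩
    by_cases ht : 0 ≤ t
    · obtain ⟨ν, hν⟩ := (hb.vol n M X Γ I C (G t) (hG.met t ht)).2.2.1
      exact ⟨ν, fun _ => hν, fun h => absurd h h0⟩
    · exact ⟨0, fun h => absurd h ht, fun h => absurd h h0⟩
  choose ν hν hνz using hex
  -- the constant
  have hc : ENNReal.ofReal ((κ ^ 2 / ((n : ℝ) - 2)) ^ ((n : ℝ) / 2)) =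
      ENNReal.ofReal (κ ^ n) * ENNReal.ofReal ((((n : ℝ) - 2)⁻¹) ^ ((n : ℝ) / 2)) := by
    rw [← ENNReal.ofReal_mul (pow_nonneg hκ n), div_eq_mul_inv, Real.mul_rpow (by positivity)
      (by positivity)]
    congr 2
    rw [← Real.rpow_natCast κ 2, ← Real.rpow_mul hκ]
    push_cast
    rw [mul_div_cancel₀ _ (two_ne_zero), Real.rpow_natCast]
  -- inequality at positive times
  have key : ∀ t₀ : ℝ, 0 < t₀ → svX C ≤
      ENNReal.ofReal ((κ ^ 2 / ((n : ℝ) - 2)) ^ ((n : ℝ) / 2)) *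
        IS C (G t₀) (ν t₀) ((n : ℝ) / 2) := by
    intro t₀ ht₀
    obtain ⟨G', hG', hGG⟩ := hb.ext n M X Γ I C G hG (t₀ / 2) (by linarith)
    set F : ℝ → I → E n → Matrix (Fin n) (Fin n) ℝ := fun t => G' (t + t₀) with hF
    have hFam : FamX C F := by
      refine ⟨fun i a b => ?_, fun t => hG'.met _⟩
      exact (hG'.smooth i a b).comp (f := fun p : ℝ × E n => (p.1 + t₀, p.2))
        ((contDiff_fst.add contDiff_const).prodMk contDiff_snd)
    have hdt : ∀ t, t₀ / 2 < t → ∀ i y a b,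
        H.dtG (fun s => G' s i) t y a b = -2 * H.ric (G' t i) y a b := by
      intro t ht i y a b
      have h1 := hG.flow t (by linarith) i y a b
      have h2 : (fun s => G' s i y a b) =ᶠ[nhds t] fun s => G s i y a b := by
        filter_upwards [lt_mem_nhds ht] with s hs
        rw [hGG s hs.le]
      unfold H.dtG
      rw [(h1.congr_of_eventuallyEq h2).deriv, hGG t ht.le]
    have hdF : ∀ t, 0 ≤ t → ∀ i y a b,
        H.dtG (fun s => F s i) t y a b = -2 * H.ric (F t i) y a b := by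
      intro t ht i y a b
      rw [hF, ← hdt (t + t₀) (by linarith) i y a b]
      unfold H.dtG
      exact deriv_comp_add_const (fun s => G' s i y a b) t₀ t
    have hsc : ∀ i, ContDiff ℝ ∞ (fun p : ℝ × E n => H.scal (F p.1 i) p.2) := fun i =>
      B25c.cd_scal (G := fun t => F t i) (hFam.smooth i) fun t x => (hFam.met t).pos i x
    have hνF : ∀ t, 0 ≤ t → VolM C (F t) (ν (t + t₀)) := fun t ht => by
      have := hν (t + t₀) (by linarith)
      rw [← hGG (t + t₀) (by linarith)] at this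
      exact this
    have hνG' : ∀ t, t₀ ≤ t → VolM C (G' t) (ν t) := fun t ht => by
      rw [hGG t (by linarith)]
      exact hν t (by linarith)
    have hmono : ∀ t, 0 ≤ t → IS C (F t) (ν (t + t₀)) ((n : ℝ) / 2) ≤
        IS C (G t₀) (ν t₀) ((n : ℝ) / 2) := by
      intro t ht
      have := hb.mono n M X Γ I C G' ν t₀ (by omega) hG' hνG'
        (fun t ht => hdt t (by linarith)) t₀ (t + t₀) le_rfl (by linarith)
      rw [hGG t₀ (by linarith)] at this
      exact this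
    have h := moving hb C hinf hn F hFam (fun _ _ => 0) (fun t m => -scM C (F t) m)
      continuous_const ?_ ?_ ?_ (fun t => ν (t + t₀)) hνF
      (ENNReal.ofReal ((((n : ℝ) - 2)⁻¹) ^ ((n : ℝ) / 2)) * IS C (G t₀) (ν t₀) ((n : ℝ) / 2)) ?_
    · rw [hc, mul_assoc]
      exact h
    · refine continuous_M C fun i => ?_
      simp only [scM_eq (hFam.met _)]
      exact (hsc i).continuous.neg
    · intro t ht i y w
      have : ∀ a b, H.ric (F t i) y a b + 1 / 2 * H.dtG (fun s => F s i) t y a b = 0 :=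
        fun a b => by rw [hdF t ht]; ring
      simp only [this, mul_zero, Finset.sum_const_zero, neg_zero, zero_mul, le_refl]
    · intro t ht i y
      rw [scM_eq (hFam.met t)]
      unfold H.trh
      simp only [hdF t ht]
      refine le_of_eq ?_
      unfold H.scal
      rw [Finset.mul_sum, ← Finset.sum_neg_distrib]
      refine Finset.sum_congr rfl fun i _ => ?_
      rw [Finset.mul_sum, ← Finset.sum_neg_distrib]
      exact Finset.sum_congr rfl fun j _ => by ring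
    · intro t ht
      refine le_trans (le_of_eq ?_) (mul_le_mul_right (hmono t ht) _)
      unfold IS
      rw [← lintegral_const_mul' _ _ ENNReal.ofReal_ne_top]
      refine lintegral_congr fun m => ?_
      rw [← ENNReal.ofReal_mul (by positivity), ← Real.mul_rpow (by positivity) (le_max_left _ _),
        mul_max_of_nonneg _ _ (by positivity), mul_zero, zero_add, div_eq_inv_mul]
  -- the limit `t₀ → 0`
  refine ENNReal.le_of_forall_pos_le_add fun δ hδ _ => ?_
  set c : ENNReal := ENNReal.ofReal ((κ ^ 2 / ((n : ℝ) - 2)) ^ ((n : ℝ) / 2)) with hcd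
  have hδ' : 0 < (δ : ENNReal) / (c + 1) :=
    ENNReal.div_pos (by exact_mod_cast hδ.ne') (ENNReal.add_ne_top.2 ⟨ENNReal.ofReal_ne_top,
      ENNReal.one_ne_top⟩)
  obtain ⟨t₁, ht₁, h⟩ := hb.zero n M X Γ I C G ν hG hν ((n : ℝ) / 2) (by positivity) _ hδ'
  refine (key (t₁ / 2) (by linarith)).trans ?_
  have h' := h (t₁ / 2) (by linarith) (by linarith)
  rw [hνz 0 rfl] at h'
  refine (mul_le_mul_right h' c).trans ?_
  rw [mul_add]
  refine add_le_add_right ?_ _
  calc c * (δ / (c + 1)) ≤ (c + 1) * (δ / (c + 1)) := by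
        gcongr
        exact le_self_add
    _ = δ := ENNReal.mul_div_cancel (by simp) (ENNReal.add_ne_top.2 ⟨ENNReal.ofReal_ne_top,
      ENNReal.one_ne_top⟩)

/-- If the minimum of `∫ (Scal⁻)^(n/2)` is attained and positive, then the inequality holds for all
metrics. -/
theorem minimizer (hb : Blk) (C : Cov n M X Γ I) (hinf : ∃ s : ℕ → X, MT.Dist Γ s) (hn : 4 ≤ n)
    (G : I → E n → Matrix (Fin n) (Fin n) ℝ) (hG : MetX C G) (ν : Measure M) (hν : VolM C G ν)
    (hmin : ∀ G' ν', MetX C G' → VolM C G' ν' →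
      IS C G ν ((n : ℝ) / 2) ≤ IS C G' ν' ((n : ℝ) / 2))
    (h0 : IS C G ν ((n : ℝ) / 2) ≠ 0) :
    svX C ≤ ENNReal.ofReal ((((n : ℝ) - 2 + √n) ^ 2 / n) ^ ((n : ℝ) / 2)) *
      IS C G ν ((n : ℝ) / 2) := by
  have hn4 : (4 : ℝ) ≤ n := by exact_mod_cast hn
  have hn0 : (0 : ℝ) < (n : ℝ) := by linarith
  have hκ := kap_nonneg hn
  set κ : ℝ := (n : ℝ) - 2 + √n with hκd
  obtain ⟨s, hs, hs'⟩ := hb.min n M X Γ I C G ν hn hG hν hmin h0
  have h1 := ricci hb C hinf hn G hG (fun _ => s / n) continuous_const (fun _ => by positivity) (by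
    intro i y w
    refine le_of_eq ?_
    rw [Finset.mul_sum]
    refine Finset.sum_congr rfl fun a _ => ?_
    rw [Finset.mul_sum]
    refine Finset.sum_congr rfl fun b _ => ?_
    rw [(hs' i y).2 a b]; ring) ν hν
  refine h1.trans (le_of_eq ?_)
  have e : IS C G ν ((n : ℝ) / 2) = ∫⁻ _ : M, ENNReal.ofReal (s ^ ((n : ℝ) / 2)) ∂ν := by
    unfold IS
    refine lintegral_congr fun m => ?_
    obtain ⟨i, y, rfl⟩ := exists_chartM C m
    rw [scM_eq hG, (hs' i y).1, neg_neg, max_eq_right hs.le]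
  rw [e, lintegral_const, lintegral_const, ← mul_assoc, ← mul_assoc,
    ← ENNReal.ofReal_mul (pow_nonneg hκ n), ← ENNReal.ofReal_mul (by positivity)]
  congr 2
  rw [Real.div_rpow hs.le hn0.le, Real.div_rpow (by positivity) hn0.le]
  have e3 : (κ ^ 2) ^ ((n : ℝ) / 2) = κ ^ n := by
    rw [← Real.rpow_natCast κ 2, ← Real.rpow_mul hκ]
    push_cast
    rw [mul_div_cancel₀ _ (two_ne_zero), Real.rpow_natCast]
  rw [e3]; ring

end Vale.Agent.P223.X.Final
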