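import Vale.Agent.P223.X.Final

/-! Phase 3: theorems for closed manifolds with an atlas, from the blocks. -/

namespace Vale.Agent.P223.X.FinalM

open scoped ContDiff
open MeasureTheory Vale.Agent.P223.H

/-- parametrisations by boxes are open embeddings -/
def SpecEmb : Prop := ∀ (n : ℕ) (M I : Type) [TopologicalSpace M] (c : M → J.Ch n M)
  (B : Box c I) (i : I), Topology.IsOpenEmbedding (B.β i)

/-- all blocks -/
structure BlkU : Prop where
  uc : SpecUC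
  emb : SpecEmb
  box : SpecBox
  cov : SpecCov
  met : SpecMetU
  vol : SpecVolU
  ric : SpecRicU
  mini : SpecMiniU
  sv : SpecSvU
  conf : SpecConfU
  inf : SpecInf

/-- covering data for `M` -/
structure Data {n : ℕ} {M : Type} [TopologicalSpace M] (c : M → J.Ch n M) where
  X : Type
  Γ : Type
  I : Type
  tX : TopologicalSpace X
  gΓ : Group Γ
  aΓ : MulAction Γ X
  fI : Fintype I
  B : Box c I
  C : Cov n M X Γ I
  sc : SimplyConnectedSpace X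
  t2 : T2Space X
  inf : ∃ s : ℕ → X, MT.Dist Γ s
  hCB : ∀ i y, C.π (C.ψ i y) = B.β i y

theorem exists_data (hu : BlkU) {n : ℕ} (hn : 1 ≤ n) {M : Type} [TopologicalSpace M]
    [CompactSpace M] [T2Space M] [ConnectedSpace M] (c : M → J.Ch n M) (hc : J.Atl c) :
    Nonempty (Data c) := by
  obtain ⟨I, fI, ⟨B⟩⟩ := hu.box n M c hc
  obtain ⟨X, Γ, tX, gΓ, aΓ, π, sc, t2, h1, h2, h3, h4, h5⟩ := hu.uc n M fun m => by
    obtain ⟨i, y, -, h⟩ := B.cover m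
    exact ⟨B.β i, hu.emb n M I c B i, y, h⟩
  obtain ⟨C, -, hC⟩ := hu.cov n M X Γ I c B π hc h1 h2 h3 h4 h5
  have : Nonempty X := inferInstance
  exact ⟨⟨X, Γ, I, tX, gΓ, aΓ, fI, B, C, sc, t2, hu.inf n M X Γ I C hn, hC⟩⟩

section
variable {n : ℕ} {M : Type} [TopologicalSpace M] [CompactSpace M] [T2Space M] [ConnectedSpace M]
  [MeasurableSpace M] [BorelSpace M] {c : M → J.Ch n M}

attribute [instance] Data.tX Data.gΓ Data.aΓ Data.fI Data.sc Data.t2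

omit [CompactSpace M] [T2Space M] [ConnectedSpace M] [MeasurableSpace M] [BorelSpace M] in
theorem coord (hc : J.Atl c) {I : Type} (B : Box c I) (i : I) (y : E n) :
    B.β i y ∈ (c (B.a i)).source ∧ c (B.a i) (B.β i y) = B.x i y :=
  ⟨(c (B.a i)).map_target (B.sub i y), (c (B.a i)).right_inv (B.sub i y)⟩

omit [CompactSpace M] [T2Space M] [ConnectedSpace M] [MeasurableSpace M] [BorelSpace M] in
theorem scM_eq (hu : BlkU) (hc : J.Atl c) (d : Data c) {g : M → J.Mtx n} (hg : J.Met c g) (p : M) :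
    scM d.C (d.B.G g) p = J.scal (g p) (c p p) := by
  obtain ⟨i, y, rfl⟩ := Final.exists_chartM d.C p
  rw [Final.scM_eq ((hu.met n M d.X d.Γ d.I c d.B d.C hc d.hCB).1 g hg), d.hCB]
  obtain ⟨h1, h2⟩ := coord hc d.B i y
  obtain ⟨-, -, h3, h4⟩ := hu.ric n M d.I c d.B g hc hg
  rw [h3, ← h2]
  exact h4 _ _ _ h1 (hc _).1

omit [CompactSpace M] [T2Space M] [ConnectedSpace M] [BorelSpace M] in
theorem IS_eq (hu : BlkU) (hc : J.Atl c) (d : Data c) {g : M → J.Mtx n} (hg : J.Met c g)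
    (μ : Measure M) : IS d.C (d.B.G g) μ ((n : ℝ) / 2) = J.L n μ (J.sn c g) := by
  unfold IS J.L J.sn
  simp only [scM_eq hu hc d hg]

/-- `Ric ≥ -ρ` -/
theorem ricci (hb : Final.Blk) (hu : BlkU) (hn : 4 ≤ n) (hc : J.Atl c) (g : M → J.Mtx n)
    (μ : Measure M) (hg : J.Met c g) (hμ : J.Vol c g μ) (ρ : M → ℝ) (hρ : Continuous ρ)
    (hρ0 : ∀ p, 0 ≤ ρ p) (h : J.RicGe c g ρ) :
    J.sv c ≤ ENNReal.ofReal (J.kap n ^ n) * J.L n μ ρ := by
  obtain ⟨d⟩ := exists_data hu (by omega) c hc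
  refine (hu.sv n M d.X d.Γ d.I c d.B d.C hc d.hCB).trans ?_
  refine Final.ricci hb d.C d.inf hn (d.B.G g)
    ((hu.met n M d.X d.Γ d.I c d.B d.C hc d.hCB).1 g hg) ρ hρ hρ0 (fun i y w => ?_) μ
    (hu.vol n M d.X d.Γ d.I c d.B d.C g μ hc d.hCB hg hμ)
  obtain ⟨h1, h2, -, -⟩ := hu.ric n M d.I c d.B g hc hg
  obtain ⟨h3, h4⟩ := coord hc d.B i y
  have h5 := h (d.B.a i) _ h3 (d.B.D i y w)
  rw [h4, ← h1, ← h2, ← d.hCB] at h5
  exact h5

/-- Ricci flow -/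
theorem ricciFlow (hb : Final.Blk) (hu : BlkU) (hn : 4 ≤ n) (hc : J.Atl c)
    (g : ℝ → M → J.Mtx n) (μ : Measure M) (hg : J.RF c g) (hμ : J.Vol c (g 0) μ) :
    J.sv c ≤ ENNReal.ofReal ((J.kap n ^ 2 / (n - 2)) ^ ((n : ℝ) / 2)) *
      J.L n μ (J.sn c (g 0)) := by
  obtain ⟨d⟩ := exists_data hu (by omega) c hc
  refine (hu.sv n M d.X d.Γ d.I c d.B d.C hc d.hCB).trans ?_
  have hM := hu.met n M d.X d.Γ d.I c d.B d.C hc d.hCB
  have h := Final.ricciFlow hb d.C d.inf hn (fun t => d.B.G (g t)) (hM.2.2 g hg) μ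
    (hu.vol n M d.X d.Γ d.I c d.B d.C (g 0) μ hc d.hCB (hg.met 0 le_rfl) hμ)
  rw [IS_eq hu hc d (hg.met 0 le_rfl)] at h
  exact h

/-- minimisers -/
theorem minimizer (hb : Final.Blk) (hu : BlkU) (hn : 4 ≤ n) (hc : J.Atl c) (g : M → J.Mtx n)
    (μ : Measure M) (hg : J.Met c g) (hμ : J.Vol c g μ) (hmin : J.Mini c (J.L n μ (J.sn c g)))
    (h0 : J.L n μ (J.sn c g) ≠ 0) (g' : M → J.Mtx n) (μ' : Measure M) (hg' : J.Met c g')
    (hμ' : J.Vol c g' μ') :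
    J.sv c ≤ ENNReal.ofReal ((J.kap n ^ 2 / n) ^ ((n : ℝ) / 2)) * J.L n μ' (J.sn c g') := by
  obtain ⟨d⟩ := exists_data hu (by omega) c hc
  refine (hu.sv n M d.X d.Γ d.I c d.B d.C hc d.hCB).trans ?_
  have hM := hu.met n M d.X d.Γ d.I c d.B d.C hc d.hCB
  have hV := hu.vol n M d.X d.Γ d.I c d.B d.C
  have h := Final.minimizer hb d.C d.inf hn (d.B.G g) (hM.1 g hg) μ (hV g μ hc d.hCB hg hμ)
    (fun G₁ ν₁ hG₁ hν₁ => by
      obtain ⟨g₁, h1, h2, h3⟩ := hu.mini n M d.X d.Γ d.I c d.B d.C G₁ ν₁ hc d.hCB hG₁ hν₁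
      rw [← h2, IS_eq hu hc d hg, IS_eq hu hc d h1]
      exact hmin g₁ ν₁ h1 h3)
    (by rw [IS_eq hu hc d hg]; exact h0)
  rw [IS_eq hu hc d hg] at h
  exact h.trans (mul_le_mul_right (hmin g' μ' hg' hμ') _)

/-- conformal classes -/
theorem conf_le (hb : Final.Blk) (hu : BlkU) (hn : 4 ≤ n) (hc : J.Atl c) (g : M → J.Mtx n)
    (μ : Measure M) (hg : J.Met c g) (hμ : J.Vol c g μ) (s : ℝ) (hs : 0 < s)
    (h : ∀ p, J.scal (g p) (c p p) = -s) (f : M → ℝ) (μ' : Measure M) (hf : J.Sm c f)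
    (hμ' : J.Vol c (J.conf c f g) μ') :
    J.L n μ (J.sn c g) ≤ J.L n μ' (J.sn c (J.conf c f g)) := by
  obtain ⟨d⟩ := exists_data hu (by omega) c hc
  have hM := hu.met n M d.X d.Γ d.I c d.B d.C hc d.hCB
  have hV := hu.vol n M d.X d.Γ d.I c d.B d.C
  obtain ⟨h1, h2, h3⟩ := hu.conf n M d.X d.Γ d.I c d.B d.C g f hc d.hCB hg hf
  have hν' := hV (J.conf c f g) μ' hc d.hCB h1 hμ'
  rw [h3] at hν'
  have hsc : ∀ i y, H.scal (d.B.G g i) y = -s := by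
    intro i y
    rw [← Final.scM_eq (hM.1 g hg) i y, scM_eq hu hc d hg, h]
  have h4 := hb.conf n M d.X d.Γ d.I d.C (d.B.G g) μ μ' s (fun x => f (d.C.π x)) (by omega)
    (hM.1 g hg) (hV g μ hc d.hCB hg hμ) hs (fun i y => (hsc i y).le) h2
    (fun γ x => congrArg f ((d.C.orb _ _).2 ⟨γ⁻¹, inv_smul_smul γ x⟩)) hν'
  rw [← h3, IS_eq hu hc d h1] at h4
  refine le_trans (le_of_eq ?_) h4
  unfold J.L J.sn
  simp only [h, neg_neg, max_eq_right hs.le, lintegral_const]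

theorem continuous_sn (hu : BlkU) (hc : J.Atl c) (d : Data c) {g : M → J.Mtx n}
    (hg : J.Met c g) : Continuous (J.sn c g) := by
  have hM := (hu.met n M d.X d.Γ d.I c d.B d.C hc d.hCB).1 g hg
  have h2 := Final.continuous_scM hM
  unfold J.sn
  simp only [← scM_eq hu hc d hg]
  exact continuous_const.max h2.neg

/-- `Ric ≥ -C Scal⁻` -/
theorem pinched (hb : Final.Blk) (hu : BlkU) (hn : 4 ≤ n) (hc : J.Atl c) (g : M → J.Mtx n)
    (μ : Measure M) (hg : J.Met c g) (hμ : J.Vol c g μ) (C : ℝ) (hC : 0 ≤ C)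
    (h : J.RicGe c g fun p => C * J.sn c g p) :
    J.sv c ≤ ENNReal.ofReal (J.kap n ^ n * C ^ ((n : ℝ) / 2)) * J.L n μ (J.sn c g) := by
  obtain ⟨d⟩ := exists_data hu (by omega) c hc
  have h1 := ricci hb hu hn hc g μ hg hμ (fun p => C * J.sn c g p)
    (continuous_const.mul (continuous_sn hu hc d hg))
    (fun p => mul_nonneg hC (le_max_left _ _)) h
  refine h1.trans (le_of_eq ?_)
  have hκ : 0 ≤ J.kap n := Final.kap_nonneg hn
  rw [ENNReal.ofReal_mul (pow_nonneg hκ n), mul_assoc]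
  congr 1
  unfold J.L
  rw [← lintegral_const_mul' _ _ ENNReal.ofReal_ne_top]
  refine lintegral_congr fun p => ?_
  have h0 : 0 ≤ J.sn c g p := le_max_left _ _
  rw [← ENNReal.ofReal_mul (by positivity), ← Real.mul_rpow hC h0]

end

end Vale.Agent.P223.X.FinalM
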