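import Vale.Agent.P223.X.SpecY
import Vale.Agent.P223.H.B6a

/-! Block Y5, part A : iterated cones in charts. -/

namespace Vale.Agent.P223.X.Fund

open Set Filter Topology Vale.Agent.P223.H

section
variable {n : ℕ} {M X Γ I : Type} [TopologicalSpace M] [TopologicalSpace X] [Group Γ]
    [MulAction Γ X] (C : Cov n M X Γ I)

theorem coψ (i : I) (y : E n) : C.co i (C.ψ i y) = y :=
  Function.leftInverse_invFun (C.emb i).injective y

theorem ψco {i : I} {x : X} (h : x ∈ range (C.ψ i)) : C.ψ i (C.co i x) = x :=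
  Function.invFun_eq h

theorem contAt_co {i : I} {x : X} (h : x ∈ range (C.ψ i)) : ContinuousAt (C.co i) x := by
  obtain ⟨y, rfl⟩ := h
  rw [← (C.emb i).continuousAt_iff]
  have : C.co i ∘ C.ψ i = id := funext fun y => coψ C i y
  rw [this]
  exact continuousAt_id

/-- Iterated cones. -/
noncomputable def F : (k : ℕ) → (Fin (k + 1) → Γ × (I × E n)) → (Fin (k + 1) → ℝ) → X
  | 0, l, _ => (l 0).1 • C.ψ (l 0).2.1 (l 0).2.2
  | k + 1, l, t => (l 0).1 • C.ψ (l 0).2.1
      (t 0 • (l 0).2.2 + (1 - t 0) • C.co (l 0).2.1 ((l 0).1⁻¹ •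
        F k (fun i => l i.succ) (B6a.tl t)))

theorem F_succ (k : ℕ) (l : Fin (k + 2) → Γ × (I × E n)) (t : Fin (k + 2) → ℝ) :
    F C (k + 1) l t = (l 0).1 • C.ψ (l 0).2.1
      (t 0 • (l 0).2.2 + (1 - t 0) • C.co (l 0).2.1 ((l 0).1⁻¹ •
        F C k (fun i => l i.succ) (B6a.tl t))) := rfl

/-- All cones are in the chart of their apex. -/
def Gd : (k : ℕ) → (Fin (k + 1) → Γ × (I × E n)) → Prop
  | 0, _ => True
  | k + 1, l => Gd k (fun i => l i.succ) ∧ ∀ t ∈ stdSimplex ℝ (Fin (k + 1)),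
      (l 0).1⁻¹ • F C k (fun i => l i.succ) t ∈ range (C.ψ (l 0).2.1)

theorem cont_F : ∀ (k : ℕ) (l : Fin (k + 1) → Γ × (I × E n)), Gd C k l →
    ContinuousOn (F C k l) (stdSimplex ℝ (Fin (k + 1)))
  | 0, l, _ => continuousOn_const
  | k + 1, l, hl => by
    have ih := cont_F k (fun i => l i.succ) hl.1
    have hc : ContinuousOn (fun t => C.co (l 0).2.1 ((l 0).1⁻¹ • F C k (fun i => l i.succ) t))
        (stdSimplex ℝ (Fin (k + 1))) := by
      intro t ht
      refine (contAt_co C (hl.2 t ht)).comp_continuousWithinAt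
        (f := fun t => (l 0).1⁻¹ • F C k (fun i => l i.succ) t) ?_
      exact ((C.cont (l 0).1⁻¹).comp_continuousOn ih) t ht
    obtain ⟨B, hB⟩ := (isCompact_stdSimplex ℝ (Fin (k + 1))).exists_bound_of_continuousOn hc
    have key : ContinuousOn (fun t : Fin (k + 2) → ℝ => (1 - t 0) •
        C.co (l 0).2.1 ((l 0).1⁻¹ • F C k (fun i => l i.succ) (B6a.tl t)))
        (stdSimplex ℝ (Fin (k + 2))) := by
      intro t ht
      by_cases h : t 0 = 1
      · unfold ContinuousWithinAt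
        show Tendsto _ _ (𝓝 ((1 - t 0) •
          C.co (l 0).2.1 ((l 0).1⁻¹ • F C k (fun i => l i.succ) (B6a.tl t))))
        rw [h, sub_self, zero_smul]
        have hb : ∀ s ∈ stdSimplex ℝ (Fin (k + 2)), ‖(1 - s 0) •
            C.co (l 0).2.1 ((l 0).1⁻¹ • F C k (fun i => l i.succ) (B6a.tl s))‖ ≤
              (1 - s 0) * B := by
          intro s hs
          have h0 : 0 ≤ 1 - s 0 := sub_nonneg.2 (mem_Icc_of_mem_stdSimplex hs 0).2
          by_cases h1 : s 0 = 1
          · rw [h1]; simp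
          · rw [norm_smul, Real.norm_of_nonneg h0]
            exact mul_le_mul_of_nonneg_left (hB _ (B6a.tl_mem hs h1)) h0
        refine squeeze_zero_norm' (eventually_mem_nhdsWithin.mono hb) ?_
        have : Continuous fun s : Fin (k + 2) → ℝ => (1 - s 0) * B := by fun_prop
        have h2 := (this.tendsto t)
        rw [h] at h2
        simp only [sub_self, zero_mul] at h2
        exact h2.mono_left nhdsWithin_le_nhds
      · have h1 : ContinuousWithinAt (fun t : Fin (k + 2) → ℝ =>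
            C.co (l 0).2.1 ((l 0).1⁻¹ • F C k (fun i => l i.succ) (B6a.tl t)))
            (stdSimplex ℝ (Fin (k + 2)) ∩ {s | s 0 ≠ 1}) t :=
          ContinuousWithinAt.comp
            (g := fun t => C.co (l 0).2.1 ((l 0).1⁻¹ • F C k (fun i => l i.succ) t))
            (f := B6a.tl) (t := stdSimplex ℝ (Fin (k + 1)))
            (hc _ (B6a.tl_mem ht h)) (B6a.cont_tl h).continuousWithinAt
            fun s hs => B6a.tl_mem hs.1 hs.2
        have h2 : ContinuousWithinAt (fun t : Fin (k + 2) → ℝ =>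
            C.co (l 0).2.1 ((l 0).1⁻¹ • F C k (fun i => l i.succ) (B6a.tl t)))
            (stdSimplex ℝ (Fin (k + 2))) t := by
          refine (continuousWithinAt_inter ?_).1 h1
          exact (isOpen_ne.preimage (continuous_apply 0)).mem_nhds h
        have h3 : Continuous fun t : Fin (k + 2) → ℝ => 1 - t 0 := by fun_prop
        exact ContinuousWithinAt.smul h3.continuousWithinAt h2
    have h2 : ContinuousOn (fun t : Fin (k + 2) → ℝ => t 0 • (l 0).2.2 + (1 - t 0) •
        C.co (l 0).2.1 ((l 0).1⁻¹ • F C k (fun i => l i.succ) (B6a.tl t)))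
        (stdSimplex ℝ (Fin (k + 2))) :=
      ContinuousOn.add (Continuous.continuousOn (by fun_prop)) key
    exact (C.cont (l 0).1).comp_continuousOn ((C.emb (l 0).2.1).continuous.comp_continuousOn h2)

theorem F_equi : ∀ (k : ℕ) (l : Fin (k + 1) → Γ × (I × E n)) (γ : Γ) (t : Fin (k + 1) → ℝ),
    F C k (fun j => (γ * (l j).1, (l j).2)) t = γ • F C k l t
  | 0, l, γ, t => by
    show (γ * (l 0).1) • C.ψ (l 0).2.1 (l 0).2.2 = γ • (l 0).1 • C.ψ (l 0).2.1 (l 0).2.2
    rw [mul_smul]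
  | k + 1, l, γ, t => by
    rw [F_succ, F_succ]
    have ih := F_equi k (fun i => l i.succ) γ (B6a.tl t)
    show (γ * (l 0).1) • C.ψ (l 0).2.1 (t 0 • (l 0).2.2 + (1 - t 0) •
      C.co (l 0).2.1 ((γ * (l 0).1)⁻¹ •
      F C k (fun j => (γ * (l j.succ).1, (l j.succ).2)) (B6a.tl t))) = _
    rw [ih, mul_smul, mul_inv_rev, mul_smul, inv_smul_smul]

theorem Gd_equi : ∀ (k : ℕ) (l : Fin (k + 1) → Γ × (I × E n)) (γ : Γ), Gd C k l →
    Gd C k (fun j => (γ * (l j).1, (l j).2))
  | 0, _, _, _ => trivial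
  | k + 1, l, γ, h => by
    refine ⟨Gd_equi k (fun i => l i.succ) γ h.1, fun t ht => ?_⟩
    have h1 := h.2 t ht
    have h2 := F_equi C k (fun i => l i.succ) γ t
    show (γ * (l 0).1)⁻¹ • F C k (fun j => (γ * (l j.succ).1, (l j.succ).2)) t ∈ _
    rw [h2, mul_inv_rev, mul_smul, inv_smul_smul]
    exact h1

/-- Labels in one chart. -/
theorem F_affine (γ : Γ) (i : I) : ∀ (k : ℕ) (l : Fin (k + 1) → Γ × (I × E n)),
    (∀ j, (l j).1 = γ ∧ (l j).2.1 = i) → Gd C k l ∧
    ∀ t ∈ stdSimplex ℝ (Fin (k + 1)), F C k l t = γ • C.ψ i (∑ j, t j • (l j).2.2)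
  | 0, l, hl => by
    refine ⟨trivial, fun t ht => ?_⟩
    have h1 := ht.2
    rw [Fin.sum_univ_succ, Finset.univ_eq_empty, Finset.sum_empty, add_zero] at h1 ⊢
    rw [h1, one_smul]
    show (l 0).1 • C.ψ (l 0).2.1 (l 0).2.2 = γ • C.ψ i (l 0).2.2
    rw [(hl 0).1, (hl 0).2]
  | k + 1, l, hl => by
    obtain ⟨h1, h2⟩ := F_affine γ i k (fun i => l i.succ) fun j => hl _
    have h3 : ∀ t ∈ stdSimplex ℝ (Fin (k + 1)), (l 0).1⁻¹ • F C k (fun i => l i.succ) t =
        C.ψ i (∑ j, t j • (l j.succ).2.2) := by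
      intro t ht
      rw [h2 t ht, (hl 0).1, inv_smul_smul]
    refine ⟨⟨h1, fun t ht => ?_⟩, fun t ht => ?_⟩
    · rw [h3 t ht, (hl 0).2]
      exact mem_range_self _
    · rw [F_succ, Fin.sum_univ_succ, (hl 0).2]
      by_cases h : t 0 = 1
      · have h5 := ht.2
        rw [Fin.sum_univ_succ, h] at h5
        have h4 : ∑ i : Fin (k + 1), t i.succ = 0 := by linarith
        have h6 := (Finset.sum_eq_zero_iff_of_nonneg fun i _ => ht.1 (Fin.succ i)).1 h4
        have h7 : ∑ j : Fin (k + 1), t j.succ • (l j.succ).2.2 = 0 :=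
          Finset.sum_eq_zero fun i hi => by rw [h6 i hi, zero_smul]
        rw [h, sub_self, zero_smul, h7, (hl 0).1]
      · rw [h3 _ (B6a.tl_mem ht h), coψ, Finset.smul_sum, (hl 0).1]
        have h0 : 1 - t 0 ≠ 0 := sub_ne_zero.2 (Ne.symm h)
        have h8 : ∀ j : Fin (k + 1), (1 - t 0) • B6a.tl t j • (l j.succ).2.2 =
            t j.succ • (l j.succ).2.2 := fun j => by
          rw [smul_smul, B6a.tl, mul_div_cancel₀ _ h0]
        simp only [h8]

theorem F_face : ∀ (k : ℕ) (l : Fin (k + 2) → Γ × (I × E n)) (i : Fin (k + 2)),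
    Gd C (k + 1) l → ∀ s ∈ stdSimplex ℝ (Fin (k + 1)),
    F C (k + 1) l (i.insertNth (α := fun _ => ℝ) 0 s) = F C k (l ∘ i.succAbove) s := by
  intro k
  induction k with
  | zero =>
    intro l i hl s hs
    have h1 := hs.2
    rw [Fin.sum_univ_succ, Finset.univ_eq_empty, Finset.sum_empty, add_zero] at h1
    induction i using Fin.cases with
    | zero =>
      rw [F_succ, Fin.insertNth_apply_same, zero_smul, sub_zero, one_smul,
        zero_add (C.co (l 0).2.1 ((l 0).1⁻¹ • F C 0 (fun i => l i.succ) _))]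
      refine (congrArg (fun x => (l 0).1 • x) (ψco C (hl.2 s hs))).trans ?_
      show (l 0).1 • (l 0).1⁻¹ • F C 0 (fun i => l i.succ) s = _
      rw [smul_inv_smul]
      rfl
    | succ j =>
      have h0 : (j.succ.insertNth (α := fun _ => ℝ) 0 s : Fin 2 → ℝ) 0 = s 0 := by
        have := Fin.insertNth_apply_succAbove (α := fun _ => ℝ) j.succ 0 s 0
        rwa [Fin.succ_succAbove_zero] at this
      rw [F_succ, h0, h1, one_smul, sub_self, zero_smul, add_zero]
      show (l 0).1 • C.ψ (l 0).2.1 (l 0).2.2 = (l (j.succ.succAbove 0)).1 •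
        C.ψ (l (j.succ.succAbove 0)).2.1 (l (j.succ.succAbove 0)).2.2
      rw [Fin.succ_succAbove_zero]
  | succ k ih =>
    intro l i hl s hs
    induction i using Fin.cases with
    | zero =>
      have e : B6a.tl ((0 : Fin (k + 3)).insertNth (α := fun _ => ℝ) 0 s : Fin (k + 3) → ℝ) =
          s := by
        ext m
        rw [B6a.tl, Fin.insertNth_apply_same, sub_zero, div_one]
        have := Fin.insertNth_apply_succAbove (α := fun _ => ℝ) 0 0 s m
        rwa [Fin.succAbove_zero] at this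
      rw [F_succ, e, Fin.insertNth_apply_same, zero_smul, sub_zero, one_smul, zero_add,
        ψco C (hl.2 s hs), smul_inv_smul]
      rfl
    | succ j =>
      have h0 : (j.succ.insertNth (α := fun _ => ℝ) 0 s : Fin (k + 3) → ℝ) 0 = s 0 := by
        have := Fin.insertNth_apply_succAbove (α := fun _ => ℝ) j.succ 0 s 0
        rwa [Fin.succ_succAbove_zero] at this
      have e0 : (l ∘ j.succ.succAbove) 0 = l 0 := by
        simp
      rw [F_succ C (k + 1) l, F_succ C k (l ∘ j.succ.succAbove), h0, e0]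
      by_cases h : s 0 = 1
      · rw [h, sub_self, zero_smul, zero_smul]
      · have ht := ih (fun i => l i.succ) j hl.1 (B6a.tl s) (B6a.tl_mem hs h)
        have e1 : B6a.tl (j.succ.insertNth (α := fun _ => ℝ) 0 s : Fin (k + 3) → ℝ) =
            j.insertNth (α := fun _ => ℝ) 0 (B6a.tl s) := by
          ext m
          rw [B6a.tl, h0, B6a.insertNth_succ]
          induction m using Fin.succAboveCases j with
          | x => rw [Fin.insertNth_apply_same, Fin.insertNth_apply_same, zero_div]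
          | p i => rw [Fin.insertNth_apply_succAbove, Fin.insertNth_apply_succAbove, B6a.tl]
        have e2 : (fun i : Fin (k + 1) => (l ∘ j.succ.succAbove) i.succ) =
            (fun i => l i.succ) ∘ j.succAbove := by
          funext m
          simp [Fin.succ_succAbove_succ]
        rw [e1, e2, ht]

theorem insert_mem {k : ℕ} (i : Fin (k + 2)) {s : Fin (k + 1) → ℝ}
    (hs : s ∈ stdSimplex ℝ (Fin (k + 1))) :
    (i.insertNth (α := fun _ => ℝ) 0 s : Fin (k + 2) → ℝ) ∈ stdSimplex ℝ (Fin (k + 2)) := by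
  have h := (H.face (k + 1) i ⟨s, hs⟩).2
  have e := B6a.face_coe (k + 1) i ⟨s, hs⟩
  have e2 : ((H.face (k + 1) i ⟨s, hs⟩ : stdSimplex ℝ (Fin (k + 2))) : Fin (k + 2) → ℝ) =
      i.insertNth (α := fun _ => ℝ) 0 s := e
  rw [← e2]
  exact h

/-- Faces of good labels are good. -/
theorem Gd_face : ∀ (k : ℕ) (l : Fin (k + 2) → Γ × (I × E n)) (i : Fin (k + 2)),
    Gd C (k + 1) l → Gd C k (l ∘ i.succAbove)
  | 0, _, _, _ => trivial
  | k + 1, l, i, hl => by
    induction i using Fin.cases with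
    | zero =>
      have : (l ∘ (0 : Fin (k + 3)).succAbove) = fun i => l i.succ := by
        funext m; simp
      rw [this]
      exact hl.1
    | succ j =>
      have e2 : (fun i : Fin (k + 1) => (l ∘ j.succ.succAbove) i.succ) =
          (fun i => l i.succ) ∘ j.succAbove := by
        funext m
        simp [Fin.succ_succAbove_succ]
      have e0 : (l ∘ j.succ.succAbove) 0 = l 0 := by simp
      refine ⟨?_, fun t ht => ?_⟩
      · rw [e2]; exact Gd_face k _ j hl.1
      · rw [e2, e0, ← F_face C k (fun i => l i.succ) j hl.1 t ht]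
        exact hl.2 _ (insert_mem j ht)

open Classical in
/-- The singular simplex with given labels. -/
noncomputable def SX (k : ℕ) (l : Fin (k + 1) → Γ × (I × E n)) : Simp (k + 1) X :=
  if h : Gd C k l then ⟨fun t => F C k l ⇑t, (cont_F C k l h).comp_continuous
    continuous_subtype_val fun t => t.2⟩ else ContinuousMap.const _ (F C k l fun _ => 0)

theorem SX_apply {k : ℕ} {l : Fin (k + 1) → Γ × (I × E n)} (h : Gd C k l)
    (t : stdSimplex ℝ (Fin (k + 1))) : SX C k l t = F C k l ⇑t := by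
  unfold SX
  rw [dif_pos h]
  rfl

theorem SX_equi (k : ℕ) (l : Fin (k + 1) → Γ × (I × E n)) (γ : Γ)
    (t : stdSimplex ℝ (Fin (k + 1))) :
    SX C k (fun j => (γ * (l j).1, (l j).2)) t = γ • SX C k l t := by
  by_cases h : Gd C k l
  · rw [SX_apply C h, SX_apply C (Gd_equi C k l γ h)]
    exact F_equi C k l γ _
  · have h' : ¬ Gd C k (fun j => (γ * (l j).1, (l j).2)) := by
      intro h'
      apply h
      have := Gd_equi C k _ γ⁻¹ h'
      simpa using this
    unfold SX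
    rw [dif_neg h, dif_neg h']
    exact F_equi C k l γ _

theorem SX_face {k : ℕ} {l : Fin (k + 2) → Γ × (I × E n)} (h : Gd C (k + 1) l)
    (i : Fin (k + 2)) :
    (SX C (k + 1) l).comp (H.face (k + 1) i) = SX C k (l ∘ i.succAbove) := by
  ext1 s
  show SX C (k + 1) l (H.face (k + 1) i s) = _
  rw [SX_apply C h, SX_apply C (Gd_face C k l i h)]
  rw [B6a.face_coe]
  exact F_face C k l i h _ s.2

theorem SX_affine {k : ℕ} {l : Fin (k + 1) → Γ × (I × E n)} {γ : Γ} {i : I}
    (h : ∀ j, (l j).1 = γ ∧ (l j).2.1 = i) (t : stdSimplex ℝ (Fin (k + 1))) :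
    SX C k l t = γ • C.ψ i (∑ j, t j • (l j).2.2) := by
  obtain ⟨h1, h2⟩ := F_affine C γ i k l h
  rw [SX_apply C h1]
  exact h2 _ t.2

/-! ### Vertices -/

theorem F_vertex : ∀ (k : ℕ) (l : Fin (k + 1) → Γ × (I × E n)), Gd C k l → ∀ j : Fin (k + 1),
    F C k l (Pi.single j 1) = (l j).1 • C.ψ (l j).2.1 (l j).2.2
  | 0, l, _, j => by
    obtain rfl : j = 0 := Fin.fin_one_eq_zero j
    rfl
  | k + 1, l, hl, j => by
    rw [F_succ]
    induction j using Fin.cases with
    | zero =>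
      rw [Pi.single_eq_same, one_smul, sub_self, zero_smul, add_zero]
    | succ j =>
      rw [Pi.single_eq_of_ne (Fin.succ_ne_zero j).symm, zero_smul, zero_add, sub_zero, one_smul]
      have e : B6a.tl (Pi.single j.succ 1 : Fin (k + 2) → ℝ) = Pi.single j 1 := by
        ext m
        rw [B6a.tl, Pi.single_eq_of_ne (Fin.succ_ne_zero j).symm, sub_zero, div_one]
        by_cases hm : m = j
        · rw [hm, Pi.single_eq_same, Pi.single_eq_same]
        · rw [Pi.single_eq_of_ne hm, Pi.single_eq_of_ne fun h => hm (Fin.succ_injective _ h)]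
      have hmem : (Pi.single j 1 : Fin (k + 1) → ℝ) ∈ stdSimplex ℝ (Fin (k + 1)) := by
        have h1 := (stdSimplex.vertex (S := ℝ) j).2
        have e2 : ((stdSimplex.vertex j : stdSimplex ℝ (Fin (k + 1))) : Fin (k + 1) → ℝ) =
            Pi.single j 1 := stdSimplex.vertex_coe j
        rw [← e2]
        exact h1
      rw [e, ψco C (hl.2 _ hmem), smul_inv_smul, F_vertex k _ hl.1 j]

theorem SX_vertex {k : ℕ} {l : Fin (k + 1) → Γ × (I × E n)} (h : Gd C k l) (j : Fin (k + 1)) :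
    SX C k l (stdSimplex.vertex j) = (l j).1 • C.ψ (l j).2.1 (l j).2.2 := by
  rw [SX_apply C h, ← F_vertex C k l h j, stdSimplex.vertex_coe]

/-! ### Small labels -/

/-- Labels with a common point close to the base points. -/
def Sm (ε : ℝ) {k : ℕ} (l : Fin (k + 1) → Γ × (I × E n)) : Prop :=
  (∀ j, ‖(l j).2.2‖ ≤ 3) ∧ ∃ x : X, ∀ j, ∃ y : E n, ‖y - (l j).2.2‖ ≤ ε ∧
    (l j).1 • C.ψ (l j).2.1 y = x

variable {C}

theorem Sm.mono {ε ε' : ℝ} (h : ε ≤ ε') {k : ℕ} {l : Fin (k + 1) → Γ × (I × E n)}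
    (hl : Sm C ε l) : Sm C ε' l := by
  obtain ⟨h1, x, h2⟩ := hl
  refine ⟨h1, x, fun j => ?_⟩
  obtain ⟨y, h3, h4⟩ := h2 j
  exact ⟨y, h3.trans h, h4⟩

theorem Sm.comp {ε : ℝ} {k k' : ℕ} {l : Fin (k + 1) → Γ × (I × E n)}
    (hl : Sm C ε l) (f : Fin (k' + 1) → Fin (k + 1)) : Sm C ε (l ∘ f) := by
  obtain ⟨h1, x, h2⟩ := hl
  exact ⟨fun j => h1 _, x, fun j => h2 _⟩

theorem Sm.tr {ε : ℝ} {k : ℕ} {l : Fin (k + 1) → Γ × (I × E n)}
    (hl : Sm C ε l) (γ : Γ) : Sm C ε (fun j => (γ * (l j).1, (l j).2)) := by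
  obtain ⟨h1, x, h2⟩ := hl
  refine ⟨h1, γ • x, fun j => ?_⟩
  obtain ⟨y, h3, h4⟩ := h2 j
  exact ⟨y, h3, by rw [mul_smul, h4]⟩

variable (C)

/-- Uniform continuity of the coordinate changes. -/
theorem unif [Finite I] [T2Space X] (R : ℝ) {δ : ℝ} (hδ : 0 < δ) : ∃ η : ℝ, 0 < η ∧
    ∀ i j (γ : Γ) (y z : E n), ‖y‖ ≤ R → ‖z‖ ≤ R → γ • C.ψ i y = C.ψ j z →
      ∀ u, ‖u - y‖ < η → ∃ v, ‖v - z‖ < δ ∧ γ • C.ψ i u = C.ψ j v := by
  have h1 : ∀ i j (γ : Γ), ∀ᶠ η in 𝓝[>] (0 : ℝ), ∀ (y z : E n), ‖y‖ ≤ R → ‖z‖ ≤ R →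
      γ • C.ψ i y = C.ψ j z → ∀ u, ‖u - y‖ < η → ∃ v, ‖v - z‖ < δ ∧ γ • C.ψ i u = C.ψ j v := by
    intro i j γ
    set T : E n → E n := fun y => C.co j (γ • C.ψ i y) with hT
    set D : Set (E n) := {y | γ • C.ψ i y ∈ range (C.ψ j)} with hD
    have hDo : IsOpen D := (C.emb j).isOpen_range.preimage
      ((C.cont γ).comp (C.emb i).continuous)
    set K : Set (E n) := {y | ‖y‖ ≤ R ∧ γ • C.ψ i y ∈ C.ψ j '' Metric.closedBall 0 R} with hK
    have hKc : IsCompact K := by
      have h2 : IsClosed {y : E n | γ • C.ψ i y ∈ C.ψ j '' Metric.closedBall 0 R} :=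
        ((isCompact_closedBall _ _).image (C.emb j).continuous).isClosed.preimage
          ((C.cont γ).comp (C.emb i).continuous)
      have h3 : K = Metric.closedBall 0 R ∩
          {y : E n | γ • C.ψ i y ∈ C.ψ j '' Metric.closedBall 0 R} := by
        ext y; simp [hK]
      rw [h3]
      exact (isCompact_closedBall _ _).inter_right h2
    have hKD : K ⊆ D := by
      rintro y ⟨-, z, -, hz⟩
      exact ⟨z, hz⟩
    obtain ⟨r, hr, hrD⟩ := hKc.exists_cthickening_subset_open hDo hKD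
    have hTc : ContinuousOn T (Metric.cthickening r K) := by
      intro y hy
      refine ContinuousAt.continuousWithinAt ?_
      exact (contAt_co C (hrD hy)).comp (f := fun y => γ • C.ψ i y)
        ((C.cont γ).comp (C.emb i).continuous).continuousAt
    have hu := (hKc.cthickening (r := r)).uniformContinuousOn_of_continuous hTc
    rw [Metric.uniformContinuousOn_iff] at hu
    obtain ⟨δ', hδ', hu⟩ := hu δ hδ
    have h2 : ∀ᶠ η in 𝓝[>] (0 : ℝ), η < min r δ' :=
      nhdsWithin_le_nhds (Iio_mem_nhds (lt_min hr hδ'))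
    filter_upwards [h2] with η hη y z hy hz hyz u hu'
    have hyK : y ∈ K := ⟨hy, z, by simpa using hz, hyz.symm⟩
    have huK : u ∈ Metric.cthickening r K := by
      refine Metric.mem_cthickening_of_dist_le u y r K hyK ?_
      rw [dist_eq_norm]
      exact (hu'.trans (hη.trans_le (min_le_left _ _))).le
    have hd := hu u huK y (Metric.self_subset_cthickening K hyK) (by
      rw [dist_eq_norm]; exact hu'.trans (hη.trans_le (min_le_right _ _)))
    refine ⟨T u, ?_, ?_⟩
    · have h3 : T y = z := by rw [hT]; simp only; rw [hyz, coψ]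
      rw [h3, dist_eq_norm] at hd
      exact hd
    · exact (ψco C (hrD huK)).symm
  have h2 : ∀ᶠ η in 𝓝[>] (0 : ℝ), ∀ i j (γ : Γ) (y z : E n), ‖y‖ ≤ R → ‖z‖ ≤ R →
      γ • C.ψ i y = C.ψ j z → ∀ u, ‖u - y‖ < η → ∃ v, ‖v - z‖ < δ ∧ γ • C.ψ i u = C.ψ j v := by
    rw [eventually_all]
    intro i
    rw [eventually_all]
    intro j
    have h3 := (Filter.eventually_all_finite (C.proper i j R)).2 fun γ _ => h1 i j γ
    filter_upwards [h3] with η hη γ y z hy hz hyz u hu
    exact hη γ ⟨y, z, hy, hz, hyz⟩ y z hy hz hyz u hu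
  obtain ⟨η, h3, h4⟩ := (h2.and self_mem_nhdsWithin).exists
  exact ⟨η, h4, h3⟩

/-- Simplices with small labels are small. -/
theorem small [Finite I] [T2Space X] : ∀ (k : ℕ) (δ : ℝ), 0 < δ → ∃ ε : ℝ, 0 < ε ∧
    ∀ l : Fin (k + 1) → Γ × (I × E n), Sm C ε l → Gd C k l ∧
      ∀ t ∈ stdSimplex ℝ (Fin (k + 1)), ∃ u : E n, ‖u - (l 0).2.2‖ < δ ∧
        F C k l t = (l 0).1 • C.ψ (l 0).2.1 u := by
  intro k
  induction k with
  | zero =>
    intro δ hδ
    refine ⟨1, one_pos, fun l _ => ⟨trivial, fun t _ => ⟨(l 0).2.2, by simpa using hδ, rfl⟩⟩⟩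
  | succ k ih =>
    intro δ hδ
    obtain ⟨η, hη, hun⟩ := unif C 4 (half_pos hδ)
    obtain ⟨ε₁, hε₁, ih1⟩ := ih (η / 2) (half_pos hη)
    refine ⟨min (min ε₁ (η / 2)) (min (δ / 2) 1), by positivity, fun l hl => ?_⟩
    set ε := min (min ε₁ (η / 2)) (min (δ / 2) 1) with hε
    have hε1 : ε ≤ ε₁ := (min_le_left _ _).trans (min_le_left _ _)
    have hε2 : ε ≤ η / 2 := (min_le_left _ _).trans (min_le_right _ _)
    have hε3 : ε ≤ δ / 2 := (min_le_right _ _).trans (min_le_left _ _)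
    have hε4 : ε ≤ 1 := (min_le_right _ _).trans (min_le_right _ _)
    obtain ⟨hg, ht⟩ := ih1 (fun i => l i.succ) ((hl.comp Fin.succ).mono hε1)
    obtain ⟨hn, x, hx⟩ := hl
    obtain ⟨y0, hy0, hy0x⟩ := hx 0
    obtain ⟨y1, hy1, hy1x⟩ := hx 1
    have hy0n : ‖y0‖ ≤ 4 := by
      have h1 := norm_sub_norm_le y0 (l 0).2.2
      have h2 := hn 0
      linarith
    have hy1n : ‖y1‖ ≤ 4 := by
      have h1 := norm_sub_norm_le y1 (l 1).2.2
      have h2 := hn 1
      linarith
    have key : ∀ t ∈ stdSimplex ℝ (Fin (k + 1)), ∃ v : E n, ‖v - (l 0).2.2‖ < δ ∧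
        (l 0).1⁻¹ • F C k (fun i => l i.succ) t = C.ψ (l 0).2.1 v := by
      intro t htt
      obtain ⟨u, hu, huF⟩ := ht t htt
      have hu' : ‖u - (l 1).2.2‖ < η / 2 := hu
      have huF' : F C k (fun i => l i.succ) t = (l 1).1 • C.ψ (l 1).2.1 u := huF
      have h1 : ((l 0).1⁻¹ * (l 1).1) • C.ψ (l 1).2.1 y1 = C.ψ (l 0).2.1 y0 := by
        rw [mul_smul, hy1x, ← hy0x, inv_smul_smul]
      have h2 : ‖u - y1‖ < η := by
        have h3 : u - y1 = (u - (l 1).2.2) - (y1 - (l 1).2.2) := by abel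
        rw [h3]
        refine (norm_sub_le _ _).trans_lt ?_
        linarith
      obtain ⟨v, hv, hv'⟩ := hun _ _ _ y1 y0 hy1n hy0n h1 u h2
      refine ⟨v, ?_, ?_⟩
      · have h3 : v - (l 0).2.2 = (v - y0) + (y0 - (l 0).2.2) := by abel
        rw [h3]
        refine (norm_add_le _ _).trans_lt ?_
        linarith
      · rw [huF', ← mul_smul, hv']
    refine ⟨⟨hg, fun t htt => ?_⟩, fun t htt => ?_⟩
    · obtain ⟨v, -, hv⟩ := key t htt
      exact ⟨v, hv.symm⟩
    · rw [F_succ]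
      by_cases h : t 0 = 1
      · refine ⟨(l 0).2.2, by simpa using hδ, ?_⟩
        rw [h, sub_self, zero_smul, one_smul, add_zero]
      · obtain ⟨v, hv, hv'⟩ := key _ (B6a.tl_mem htt h)
        rw [hv', coψ]
        refine ⟨_, ?_, rfl⟩
        have h0 : 0 ≤ 1 - t 0 := sub_nonneg.2 (mem_Icc_of_mem_stdSimplex htt 0).2
        have h01 : 0 ≤ t 0 := htt.1 0
        have e : t 0 • (l 0).2.2 + (1 - t 0) • v - (l 0).2.2 = (1 - t 0) • (v - (l 0).2.2) := by
          rw [smul_sub, sub_smul 1 (t 0) (l 0).2.2, one_smul]; abel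
        rw [e, norm_smul, Real.norm_of_nonneg h0]
        calc (1 - t 0) * ‖v - (l 0).2.2‖ ≤ 1 * ‖v - (l 0).2.2‖ :=
              mul_le_mul_of_nonneg_right (by linarith) (norm_nonneg _)
          _ < δ := by rwa [one_mul]

end

end Vale.Agent.P223.X.Fund
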