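import Vale.Agent.P223.X.FundA
import Vale.Agent.P223.H.B6c

/-! Block Y5, part B : homology invariance. -/

namespace Vale.Agent.P223.X.Fund

open Set Filter Topology Vale.Agent.P223.H

/-- The prism identity for the weights of two partitions of unity. -/
def SpecFormHom : Prop := ∀ (n : ℕ) (M X Γ I : Type) [TopologicalSpace M] [TopologicalSpace X]
  [Group Γ] [MulAction Γ X] [Fintype I] [T2Space X] (C : Cov n M X Γ I) (χ : I → E n → ℝ),
  1 ≤ n → Part C χ → ∀ (ι ι' : Type) [Fintype ι] [Fintype ι'] (P : PUX C ι) (P' : PUX C ι'),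
  ∃ W : (Fin (n + 2) → Γ × (ι ⊕ ι')) → ℝ,
    (∀ (γ : Γ) l, W (fun k => (γ * (l k).1, (l k).2)) = W l) ∧
    {l : Fin (n + 2) → Γ × (ι ⊕ ι') | (l 0).1 = 1 ∧ W l ≠ 0}.Finite ∧
    (∀ l, W l ≠ 0 → ∃ x : X, ∀ k, (∀ i, (l k).2 = Sum.inl i → x ∈ tsupport (P.fn ((l k).1, i))) ∧
      (∀ i, (l k).2 = Sum.inr i → x ∈ tsupport (P'.fn ((l k).1, i)))) ∧
    ∀ H : (Fin (n + 1) → Γ × (ι ⊕ ι')) → ℝ,
      (∀ (γ : Γ) l, H (fun k => (γ * (l k).1, (l k).2)) = H l) →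
      (∑ᶠ l ∈ {l : Fin (n + 1) → Γ × ι | (l 0).1 = 1},
          P.wt χ l * H (fun k => ((l k).1, Sum.inl (l k).2))) -
        (∑ᶠ l ∈ {l : Fin (n + 1) → Γ × ι' | (l 0).1 = 1},
          P'.wt χ l * H (fun k => ((l k).1, Sum.inr (l k).2))) =
      ∑ᶠ l ∈ {l : Fin (n + 2) → Γ × (ι ⊕ ι') | (l 0).1 = 1},
        W l * ∑ k : Fin (n + 2), (-1 : ℝ) ^ (k : ℕ) * H (l ∘ k.succAbove)

/-- Basic facts on the weights. -/
def SpecWts : Prop := ∀ (n : ℕ) (M X Γ I : Type) [TopologicalSpace M] [TopologicalSpace X]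
  [Group Γ] [MulAction Γ X] [Fintype I] [T2Space X] (C : Cov n M X Γ I) (χ : I → E n → ℝ),
  1 ≤ n → Part C χ → ∀ (ι : Type) [Fintype ι] (P : PUX C ι),
    (∀ (γ : Γ) l, P.wt χ (fun k => (γ * (l k).1, (l k).2)) = P.wt χ l) ∧
    {l : Fin (n + 1) → Γ × ι | (l 0).1 = 1 ∧ P.wt χ l ≠ 0}.Finite ∧
    (∀ l, P.wt χ l ≠ 0 → ∃ x : X, ∀ k, x ∈ tsupport (P.fn (l k)))

/-! ### Chains with finitely many nonzero weights -/

section chains
variable {Λ : Type} {M : Type} [TopologicalSpace M]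

theorem fm {V : Type*} [AddCommMonoid V] {A : Set Λ} {w : Λ → ℝ}
    (hT : {l | l ∈ A ∧ w l ≠ 0}.Finite) (g : Λ → V) (hg : ∀ l, w l = 0 → g l = 0) :
    ∑ᶠ l ∈ A, g l = ∑ l ∈ hT.toFinset, g l := by
  refine finsum_mem_eq_sum_of_inter_support_eq g ?_
  ext l
  simp only [mem_inter_iff, Function.mem_support, Set.Finite.coe_toFinset, mem_ofPred_eq]
  constructor
  · rintro ⟨h1, h2⟩
    exact ⟨⟨h1, fun h => h2 (hg l h)⟩, h2⟩
  · rintro ⟨h1, h2⟩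
    exact ⟨h1.1, h2⟩

open Classical in
theorem eval {k : ℕ} {A : Set Λ} {w : Λ → ℝ} (hT : {l | l ∈ A ∧ w l ≠ 0}.Finite)
    (σ : Λ → Simp k M) (τ : Simp k M) :
    (∑ᶠ l ∈ A, Finsupp.single (σ l) (w l)) τ = ∑ᶠ l ∈ A, w l * (if σ l = τ then 1 else 0) := by
  rw [fm hT (fun l => Finsupp.single (σ l) (w l)) fun l hl => by simp [hl],
    fm hT (fun l => w l * (if σ l = τ then 1 else 0)) fun l hl => by simp [hl],
    Finsupp.finsetSum_apply]
  refine Finset.sum_congr rfl fun l _ => ?_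
  rw [Finsupp.single_apply]
  split_ifs <;> simp

open Classical in
theorem eval_bd {k : ℕ} {A : Set Λ} {w : Λ → ℝ} (hT : {l | l ∈ A ∧ w l ≠ 0}.Finite)
    (σ : Λ → Simp (k + 1) M) (τ : Simp k M) :
    (bd k (∑ᶠ l ∈ A, Finsupp.single (σ l) (w l))) τ =
      ∑ᶠ l ∈ A, w l * ∑ i : Fin (k + 1), (-1 : ℝ) ^ (i : ℕ) *
        (if (σ l).comp (H.face k i) = τ then 1 else 0) := by
  rw [fm hT (fun l => Finsupp.single (σ l) (w l)) fun l hl => by simp [hl],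
    fm hT (fun l => w l * ∑ i : Fin (k + 1), (-1 : ℝ) ^ (i : ℕ) *
        (if (σ l).comp (H.face k i) = τ then 1 else 0)) fun l hl => by simp [hl],
    map_sum, Finsupp.finsetSum_apply]
  refine Finset.sum_congr rfl fun l _ => ?_
  rw [B6c.bd_single, Finsupp.finsetSum_apply, Finset.mul_sum]
  refine Finset.sum_congr rfl fun i _ => ?_
  rw [Finsupp.smul_apply, Finsupp.single_apply, smul_eq_mul]
  split_ifs <;> ring

end chains

section
variable {n : ℕ} {M X Γ I : Type} [TopologicalSpace M] [TopologicalSpace X] [Group Γ]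
    [MulAction Γ X] (C : Cov n M X Γ I)

/-- The labels. -/
def lab {κ : Type} (D : κ → I × E n) {k : ℕ} (l : Fin k → Γ × κ) : Fin k → Γ × (I × E n) :=
  fun j => ((l j).1, D (l j).2)

/-- The simplex in `M`. -/
noncomputable def sg {κ : Type} (D : κ → I × E n) (k : ℕ) (l : Fin (k + 1) → Γ × κ) :
    Simp (k + 1) M := C.π.comp (SX C k (lab D l))

theorem π_smul (γ : Γ) (x : X) : C.π (γ • x) = C.π x :=
  ((C.orb x (γ • x)).2 ⟨γ, rfl⟩).symm

theorem sg_tr {κ : Type} (D : κ → I × E n) (k : ℕ) (γ : Γ) (l : Fin (k + 1) → Γ × κ) :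
    sg C D k (fun j => (γ * (l j).1, (l j).2)) = sg C D k l := by
  ext1 t
  have h := SX_equi C k (lab D l) γ t
  show C.π (SX C k (fun j => (γ * (l j).1, D (l j).2)) t) = C.π (SX C k (lab D l) t)
  have h' : SX C k (fun j => (γ * (l j).1, D (l j).2)) t = γ • SX C k (lab D l) t := h
  rw [h', π_smul]

theorem sg_face {κ : Type} (D : κ → I × E n) {k : ℕ} {l : Fin (k + 2) → Γ × κ}
    (h : Gd C (k + 1) (lab D l)) (i : Fin (k + 2)) :
    (sg C D (k + 1) l).comp (H.face (k + 1) i) = sg C D k (l ∘ i.succAbove) := by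
  rw [sg, sg, ContinuousMap.comp_assoc, SX_face C h]
  rfl

/-- The base points are close to the supports. -/
def Adp {κ : Type} [Fintype κ] (D : κ → I × E n) (P : PUX C κ) (ε : ℝ) : Prop :=
  ∀ i, ‖(D i).2‖ ≤ 3 ∧ ∀ x ∈ tsupport (P.φ i), ∃ y, ‖y - (D i).2‖ ≤ ε ∧ C.ψ (D i).1 y = x

variable {C}

theorem mem_fn {κ : Type} [Fintype κ] {P : PUX C κ} {a : Γ × κ} {x : X}
    (hx : x ∈ tsupport (P.fn a)) : a.1⁻¹ • x ∈ tsupport (P.φ a.2) := by
  have h1 : tsupport (P.fn a) ⊆ (fun y : X => a.1⁻¹ • y) ⁻¹' tsupport (P.φ a.2) :=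
    closure_minimal (fun y hy => subset_tsupport _ hy)
      ((isClosed_tsupport _).preimage (C.cont a.1⁻¹))
  exact h1 hx

theorem Adp.near {κ : Type} [Fintype κ] {D : κ → I × E n} {P : PUX C κ} {ε : ℝ}
    (h : Adp C D P ε) {a : Γ × κ} {x : X} (hx : x ∈ tsupport (P.fn a)) :
    ∃ y, ‖y - (D a.2).2‖ ≤ ε ∧ a.1 • C.ψ (D a.2).1 y = x := by
  obtain ⟨y, hy, hy'⟩ := (h a.2).2 _ (mem_fn hx)
  exact ⟨y, hy, by rw [hy', smul_inv_smul]⟩

theorem Adp.sm {κ : Type} [Fintype κ] {D : κ → I × E n} {P : PUX C κ} {ε : ℝ}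
    (h : Adp C D P ε) {k : ℕ} {l : Fin (k + 1) → Γ × κ} {x : X}
    (hx : ∀ j, x ∈ tsupport (P.fn (l j))) : Sm C ε (lab D l) :=
  ⟨fun j => (h (l j).2).1, x, fun j => h.near (hx j)⟩

variable (C)

/-- The chain of a partition of unity. -/
noncomputable def cy [Fintype I] (χ : I → E n → ℝ) {κ : Type} [Fintype κ] (D : κ → I × E n)
    (P : PUX C κ) : Chain (n + 1) M :=
  ∑ᶠ l ∈ {l : Fin (n + 1) → Γ × κ | (l 0).1 = 1}, Finsupp.single (sg C D n l) (P.wt χ l)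

theorem bd_cy (hF : SpecFormCyc) (hW : SpecWts) [Fintype I] [T2Space X] {χ : I → E n → ℝ}
    (hn : 1 ≤ n) (hχ : Part C χ) {κ : Type} [Fintype κ] {D : κ → I × E n}
    {P : PUX C κ} {ε : ℝ} (hP : Adp C D P ε)
    (hε : ∀ l : Fin (n + 1) → Γ × (I × E n), Sm C ε l → Gd C n l) :
    bd n (cy C χ D P) = 0 := by
  classical
  obtain ⟨h1, h2, h3⟩ := hW n M X Γ I C χ hn hχ κ P
  ext τ
  obtain ⟨m, rfl⟩ : ∃ m, n = m + 1 := ⟨n - 1, by omega⟩
  rw [cy, eval_bd (A := {l : Fin (m + 1 + 1) → Γ × κ | (l 0).1 = 1}) h2]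
  have h4 := hF (m + 1) M X Γ I C χ hn hχ κ P
    (fun l => if sg C D m l = τ then 1 else 0) fun γ l => by
      rw [sg_tr]
  refine Eq.trans ?_ h4
  refine finsum_mem_congr rfl fun l _ => ?_
  by_cases hl : P.wt χ l = 0
  · rw [hl, zero_mul, zero_mul]
  · obtain ⟨x, hx⟩ := h3 l hl
    congr 1
    refine Finset.sum_congr rfl fun i _ => ?_
    rw [sg_face C D (hε _ (hP.sm hx))]

theorem hom_cy (hF : SpecFormHom) (hW : SpecWts) [Fintype I] [T2Space X] {χ : I → E n → ℝ}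
    (hn : 1 ≤ n) (hχ : Part C χ) {ι κ : Type} [Fintype ι] [Fintype κ] {D : ι → I × E n}
    {D' : κ → I × E n} {P : PUX C ι} {P' : PUX C κ} {ε : ℝ} (hP : Adp C D P ε)
    (hP' : Adp C D' P' ε)
    (hε : ∀ l : Fin (n + 2) → Γ × (I × E n), Sm C ε l → Gd C (n + 1) l) :
    ∃ b : Chain (n + 2) M, cy C χ D P - cy C χ D' P' = bd (n + 1) b := by
  classical
  obtain ⟨-, h2, -⟩ := hW n M X Γ I C χ hn hχ ι P
  obtain ⟨-, h2', -⟩ := hW n M X Γ I C χ hn hχ κ P'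
  obtain ⟨W, hW1, hW2, hW3, hW4⟩ := hF n M X Γ I C χ hn hχ ι κ P P'
  set DD : ι ⊕ κ → I × E n := Sum.elim D D' with hDD
  refine ⟨∑ᶠ l ∈ {l : Fin (n + 2) → Γ × (ι ⊕ κ) | (l 0).1 = 1},
    Finsupp.single (sg C DD (n + 1) l) (W l), ?_⟩
  ext τ
  rw [eval_bd (A := {l : Fin (n + 2) → Γ × (ι ⊕ κ) | (l 0).1 = 1}) hW2]
  have h4 := hW4 (fun l => if sg C DD n l = τ then 1 else 0) fun γ l => by
      rw [sg_tr]
  have h5 : ∑ᶠ l ∈ {l : Fin (n + 2) → Γ × (ι ⊕ κ) | (l 0).1 = 1},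
      W l * ∑ i : Fin (n + 2), (-1 : ℝ) ^ (i : ℕ) *
        (if (sg C DD (n + 1) l).comp (H.face (n + 1) i) = τ then 1 else 0) =
      ∑ᶠ l ∈ {l : Fin (n + 2) → Γ × (ι ⊕ κ) | (l 0).1 = 1},
        W l * ∑ k : Fin (n + 2), (-1 : ℝ) ^ (k : ℕ) *
          (if sg C DD n (l ∘ k.succAbove) = τ then 1 else 0) := by
    refine finsum_mem_congr rfl fun l _ => ?_
    by_cases hl : W l = 0
    · rw [hl, zero_mul, zero_mul]
    · obtain ⟨x, hx⟩ := hW3 l hl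
      have hsm : Sm C ε (lab DD l) := by
        refine ⟨fun j => ?_, x, fun j => ?_⟩
        · show ‖(DD (l j).2).2‖ ≤ 3
          rcases (l j).2 with i | i
          · exact (hP i).1
          · exact (hP' i).1
        · show ∃ y : E n, ‖y - (DD (l j).2).2‖ ≤ ε ∧ (l j).1 • C.ψ (DD (l j).2).1 y = x
          rcases hj : (l j).2 with i | i
          · exact hP.near (a := ((l j).1, i)) ((hx j).1 i hj)
          · exact hP'.near (a := ((l j).1, i)) ((hx j).2 i hj)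
      congr 1
      refine Finset.sum_congr rfl fun i _ => ?_
      rw [sg_face C DD (hε _ hsm)]
  rw [h5, ← h4, Finsupp.sub_apply, cy, cy,
    eval (A := {l : Fin (n + 1) → Γ × ι | (l 0).1 = 1}) h2,
    eval (A := {l : Fin (n + 1) → Γ × κ | (l 0).1 = 1}) h2']
  rfl

end

end Vale.Agent.P223.X.Fund
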