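import Vale.Agent.P223.X.SpecF
import Vale.Agent.P223.X.FundG

/-! Block F5 (`SpecBase`) : partitions of unity with small supports, base points in different
orbits. -/

namespace Vale.Agent.P223.X.FundC

open scoped ContDiff Topology
open Set Metric Vale.Agent.P223.H Vale.Agent.P223.X.Fund

variable {n : ℕ} {M X Γ I : Type} [TopologicalSpace M] [TopologicalSpace X] [Group Γ]
    [MulAction Γ X] (C : Cov n M X Γ I)

theorem pψ_inj (i : I) : Function.Injective fun y => C.π (C.ψ i y) := by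
  intro y y' h
  obtain ⟨γ, hγ⟩ := (C.orb _ _).1 h
  have h1 := C.inj i γ y y' hγ
  rw [h1, one_smul] at hγ
  exact (C.emb i).injective hγ

theorem ball_inf (hn : 1 ≤ n) (q : E n) {η : ℝ} (hη : 0 < η) : (closedBall q η).Infinite := by
  have : Nonempty (Fin n) := ⟨⟨0, hn⟩⟩
  have : Nontrivial (E n) := Function.nontrivial
  have := Module.punctured_nhds_neBot ℝ (E n) q
  exact infinite_of_mem_nhds q (closedBall_mem_nhds q hη)

theorem perturb (hn : 1 ≤ n) {κ : Type} [DecidableEq κ] (D : κ → I × E n) {η : ℝ} (hη : 0 < η)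
    (S : Finset κ) : ∃ q : κ → E n, (∀ k, ‖q k - (D k).2‖ ≤ η) ∧
      ∀ j ∈ S, ∀ k ∈ S, C.π (C.ψ (D j).1 (q j)) = C.π (C.ψ (D k).1 (q k)) → j = k := by
  induction S using Finset.induction_on with
  | empty => exact ⟨fun k => (D k).2, fun k => by simpa using hη.le, by simp⟩
  | insert a S ha ih =>
    obtain ⟨q, h1, h2⟩ := ih
    have h3 : ((fun y => C.π (C.ψ (D a).1 y)) '' closedBall (D a).2 η).Infinite :=
      (ball_inf hn _ hη).image (pψ_inj C (D a).1).injOn
    obtain ⟨_, ⟨z, hz, rfl⟩, hz2⟩ := (h3.sdiff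
      ((S.finite_toSet.image fun j => C.π (C.ψ (D j).1 (q j))))).nonempty
    have hz3 : ∀ j ∈ S, C.π (C.ψ (D j).1 (q j)) ≠ C.π (C.ψ (D a).1 z) := fun j hj h =>
      hz2 ⟨j, hj, h⟩
    refine ⟨Function.update q a z, fun k => ?_, ?_⟩
    · by_cases hk : k = a
      · subst hk
        rw [Function.update_self, ← dist_eq_norm]
        exact hz
      · rw [Function.update_of_ne hk]; exact h1 k
    · intro j hj k hk h
      have hne : ∀ {j}, j ∈ S → j ≠ a := fun hj h => ha (h ▸ hj)
      rcases Finset.mem_insert.1 hj with hj' | hj' <;>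
        rcases Finset.mem_insert.1 hk with hk' | hk'
      · rw [hj', hk']
      · subst hj'
        rw [Function.update_self, Function.update_of_ne (hne hk')] at h
        exact absurd h.symm (hz3 k hk')
      · subst hk'
        rw [Function.update_self, Function.update_of_ne (hne hj')] at h
        exact absurd h (hz3 j hj')
      · rw [Function.update_of_ne (hne hj'), Function.update_of_ne (hne hk')] at h
        exact h2 j hj' k hk' h

theorem main : SpecBase := by
  classical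
  intro n M X Γ I _ _ _ _ _ _ _ C χ hn hχ ε hε
  rcases isEmpty_or_nonempty I with hI | ⟨⟨i₀⟩⟩
  · have hX : IsEmpty X := ⟨fun x => by
      obtain ⟨_, i, _⟩ := C.cover x
      exact hI.elim i⟩
    exact ⟨Empty, inferInstance, ⟨fun i => i.elim, fun i => i.elim, fun i => i.elim,
      fun x => hX.elim x⟩, fun i => i.elim, fun i => i.elim, fun i => i.elim⟩
  obtain ⟨κ, hκ, φ, D, hφ, hφ0, hφc, hφ1, hφq, -⟩ :=
    FundG.gen C i₀ 0 (by simp) 1 one_pos (by norm_num) (min (ε / 2) 1) (by positivity)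
  set η : ℝ := min (ε / 2) 1 with hη
  have hη0 : 0 < η := by positivity
  have hηε : η ≤ ε / 2 := min_le_left _ _
  have hη1 : η ≤ 1 := min_le_right _ _
  let D' : κ → I × E n := fun k => ((D k).1, (1 - η / 6) • (D k).2)
  obtain ⟨q, hq1, hq2⟩ := perturb C hn D' (half_pos hη0) Finset.univ
  have h6 : 0 ≤ 1 - η / 6 := by linarith
  have hn1 : ∀ k, ‖(D' k).2‖ ≤ 3 - η / 2 := fun k => by
    show ‖(1 - η / 6) • (D k).2‖ ≤ _
    rw [norm_smul, Real.norm_of_nonneg h6]
    have := mul_le_mul_of_nonneg_left (hφq k).1 h6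
    linarith
  have hn2 : ∀ k, ‖(D k).2 - (D' k).2‖ ≤ η / 2 := fun k => by
    show ‖(D k).2 - (1 - η / 6) • (D k).2‖ ≤ _
    have e : (D k).2 - (1 - η / 6) • (D k).2 = (η / 6) • (D k).2 := by
      rw [sub_smul, one_smul, sub_sub_cancel]
    rw [e, norm_smul, Real.norm_of_nonneg (by positivity)]
    have := mul_le_mul_of_nonneg_left (hφq k).1 (show 0 ≤ η / 6 by positivity)
    linarith
  let P : PUX C κ := ⟨φ, fun j γ i' => contDiff_infty.1 (hφ j γ i') 1, hφc, hφ1⟩
  refine ⟨κ, hκ, P, fun k => ((D k).1, q k), fun k => ⟨?_, fun x hx => ?_⟩, fun i j γ h => ?_⟩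
  · show ‖q k‖ ≤ 3
    have h1 := hq1 k
    have h2 := hn1 k
    have h3 := norm_sub_norm_le (q k) (D' k).2
    linarith
  · obtain ⟨y, hy, hyx⟩ := (hφq k).2 x hx
    refine ⟨y, ?_, hyx⟩
    show ‖y - q k‖ ≤ ε
    have e : y - q k = (y - (D k).2) + ((D k).2 - (D' k).2) - (q k - (D' k).2) := by abel
    rw [e]
    have h1 := hq1 k
    have h2 := hn2 k
    have h3 := norm_sub_le ((y - (D k).2) + ((D k).2 - (D' k).2)) (q k - (D' k).2)
    have h4 := norm_add_le (y - (D k).2) ((D k).2 - (D' k).2)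
    linarith
  · have h1 : C.π (C.ψ (D i).1 (q i)) = C.π (C.ψ (D j).1 (q j)) := (C.orb _ _).2 ⟨γ, h⟩
    have h2 := hq2 i (Finset.mem_univ _) j (Finset.mem_univ _) h1
    subst h2
    exact ⟨rfl, C.free γ _ h⟩

end Vale.Agent.P223.X.FundC
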