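import Vale.Agent.P223.X.SpecF
import Vale.Agent.P223.H.B8e

/-! Block Y5, F8 : the local structure of the cycle near a point. -/

namespace Vale.Agent.P223.X.Fund.Loc

open scoped ContDiff Topology
open Vale.Agent.P223.H B8b Vale.Agent.P223.X.Fund

section
variable {n : ℕ} {M X Γ I : Type} [TopologicalSpace M] [TopologicalSpace X] [Group Γ]
    [MulAction Γ X] (C : Cov n M X Γ I)

/-- Near `p` only the special simplices contribute. -/
theorem local_part (hW : SpecWts) [Fintype I] [T2Space X] {χ : I → E n → ℝ} (hn : 1 ≤ n)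
    (hχ : Part C χ) (i : I) (p : E n) {κ : Type} [Fintype κ] (P : PUX C (Fin (n + 1) ⊕ κ))
    (D : Fin (n + 1) ⊕ κ → I × E n)
    (hcase : ∀ (l : Fin (n + 1) → Γ × (Fin (n + 1) ⊕ κ)) (x : X),
      (∀ m, x ∈ tsupport (P.fn (l m))) → ∀ t, SX C n (lab D l) t = C.ψ i p →
      ∀ m, (l m).1 = 1 ∧ ∃ k, (l m).2 = Sum.inl k) :
    ∃ c' : Chain (n + 1) M, (∀ σ ∈ c'.support, ∀ t, σ t ≠ C.π (C.ψ i p)) ∧
      cy C χ D P = ∑ k : Fin (n + 1) → Fin (n + 1),
        Finsupp.single (sg C D n fun m => (1, Sum.inl (k m)))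
          (P.wt χ fun m => (1, Sum.inl (k m))) + c' := by
  classical
  obtain ⟨-, hfin, hmem⟩ := hW n M X Γ I C χ hn hχ _ P
  have hcy : cy C χ D P = ∑ l ∈ hfin.toFinset, Finsupp.single (sg C D n l) (P.wt χ l) :=
    fm hfin (fun l => Finsupp.single (sg C D n l) (P.wt χ l)) fun l hl => by simp [hl]
  set F : (Fin (n + 1) → Γ × (Fin (n + 1) ⊕ κ)) → Chain (n + 1) M := fun l =>
    Finsupp.single (sg C D n l) (P.wt χ l) with hF
  -- the special labels
  set e : (Fin (n + 1) → Fin (n + 1)) → (Fin (n + 1) → Γ × (Fin (n + 1) ⊕ κ)) :=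
    fun k m => (1, Sum.inl (k m)) with he
  have he_inj : Function.Injective e := by
    intro k k' h
    funext m
    have h1 := congrFun h m
    simpa [he] using h1
  set B : Finset (Fin (n + 1) → Γ × (Fin (n + 1) ⊕ κ)) := Finset.univ.image e with hB
  set A := hfin.toFinset with hA
  have hBA : ∑ l ∈ A, F l = ∑ l ∈ A ∪ B, F l := by
    refine Finset.sum_subset Finset.subset_union_left fun l hl hlA => ?_
    have hlB : l ∈ B := by
      rcases Finset.mem_union.1 hl with h | h
      · exact absurd h hlA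
      · exact h
    obtain ⟨k, _, rfl⟩ := Finset.mem_image.1 hlB
    have h0 : P.wt χ (e k) = 0 := by
      by_contra hne
      exact hlA (hfin.mem_toFinset.2 ⟨rfl, hne⟩)
    simp only [hF, h0, Finsupp.single_zero]
  have h2 : ∑ l ∈ A ∪ B, F l = ∑ l ∈ B, F l + ∑ l ∈ A \ B, F l := by
    have := Finset.sum_sdiff (f := F) (Finset.subset_union_right (s₁ := A) (s₂ := B))
    have e1 : (A ∪ B) \ B = A \ B := Finset.union_sdiff_right A B
    rw [e1] at this
    rw [← this]; abel
  have h3 : ∑ l ∈ B, F l = ∑ k, F (e k) := by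
    rw [hB, Finset.sum_image fun a _ b _ h => he_inj h]
  refine ⟨∑ l ∈ A \ B, F l, ?_, ?_⟩
  · intro σ hσ t ht
    obtain ⟨l, hl, hl2⟩ := Finsupp.mem_support_finsetSum σ hσ
    rw [Finset.mem_sdiff] at hl
    rw [Finsupp.mem_support_iff] at hl2
    have hσl : σ = sg C D n l := by
      by_contra hne
      apply hl2
      simp only [hF]
      exact Finsupp.single_eq_of_ne hne
    have hl0 := hfin.mem_toFinset.1 hl.1
    rw [hσl] at ht
    obtain ⟨γ, hγ⟩ := (C.orb _ _).1 ht
    obtain ⟨y, hy⟩ := hmem l hl0.2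
    have hS : SX C n (lab D fun j => (γ * (l j).1, (l j).2)) t = C.ψ i p := by
      have := SX_equi C n (lab D l) γ t
      rw [← hγ, ← this]
      rfl
    have hsup : ∀ m, γ • y ∈ tsupport (P.fn (γ * (l m).1, (l m).2)) := by
      intro m
      have e1 : P.fn (l m) = fun x => P.fn (γ * (l m).1, (l m).2) (γ • x) := by
        funext x
        simp only [PUX.fn, mul_inv_rev, mul_smul, inv_smul_smul]
      have h5 : tsupport (P.fn (l m)) ⊆
          (fun x : X => γ • x) ⁻¹' tsupport (P.fn (γ * (l m).1, (l m).2)) := by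
        refine closure_minimal ?_ ((isClosed_tsupport _).preimage (C.cont γ))
        intro z hz
        refine subset_tsupport _ ?_
        rw [e1] at hz
        exact hz
      exact h5 (hy m)
    have hc := hcase _ _ hsup t hS
    have h0 : γ = 1 := by
      have h7 := (hc 0).1
      have h8 : γ * (l 0).1 = 1 := h7
      rw [hl0.1, mul_one] at h8
      exact h8
    apply hl.2
    simp only [h0, one_mul] at hc
    choose k hk using fun m => (hc m).2
    rw [hB, Finset.mem_image]
    refine ⟨k, Finset.mem_univ _, ?_⟩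
    funext m
    exact Prod.ext (hc m).1.symm (hk m).symm
  · rw [hcy, hBA, h2, h3]

/-- degenerate simplices do not meet `p` -/
theorem degen (i : I) (p : E n) {c : ℝ} (hc : c ≠ 0)
    (k : Fin (n + 1) → Fin (n + 1)) (hk : ¬ Function.Surjective k) (t) :
    (C.π.comp (SX C n fun m => (1, i, B8e.Q n p c (k m)))) t ≠ C.π (C.ψ i p) := by
  intro h
  obtain ⟨γ, hγ⟩ := (C.orb _ _).1 h
  have hS : SX C n (fun m => ((1 : Γ), i, B8e.Q n p c (k m))) t =
      (1 : Γ) • C.ψ i (∑ m, t m • B8e.Q n p c (k m)) :=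
    SX_affine C (l := fun m => ((1 : Γ), i, B8e.Q n p c (k m))) (fun j => ⟨rfl, rfl⟩) t
  rw [hS, one_smul] at hγ
  have h1 : γ = 1 := C.inj i γ _ _ hγ
  rw [h1, one_smul] at hγ
  have hγ' : p = ∑ m, t m • B8e.Q n p c (k m) := ((C.emb i).injective hγ).symm
  apply hk
  by_contra hns
  simp only [Function.Surjective] at hns
  push Not at hns
  obtain ⟨a, ha⟩ := hns
  have h2 : bary a (crd p c p) = 1 / ((n : ℝ) + 1) := by rw [crd_self, bary_xc]
  have h3 : bary a (crd p c (∑ m, t m • B8e.Q n p c (k m))) = 0 := by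
    rw [bary_sum (fun m => t m) (stdSimplex.sum_eq_one t)]
    refine Finset.sum_eq_zero fun m _ => ?_
    rw [B8e.bary_Q p hc, if_neg (fun h => ha m h.symm), mul_zero]
  rw [← hγ', h2] at h3
  have : (0 : ℝ) < 1 / ((n : ℝ) + 1) := by positivity
  linarith

end

theorem main (hW : SpecWts) (hCase : SpecCaseX) (hTheta : SpecThetaX) (hAlt : SpecAltX) :
    SpecLocX := by
  classical
  intro n M X Γ I _ _ _ _ _ _ _ C χ hn hχ p₀ ε hε
  obtain ⟨x₀, hx₀⟩ := C.surj p₀
  obtain ⟨γ₀, i, p, hp, hp₀⟩ := C.cover x₀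
  have hpn : ‖p‖ < 1 := (pi_norm_lt_iff one_pos).2 fun k => by
    rw [Real.norm_eq_abs]; exact hp k
  have hpp : C.π (C.ψ i p) = p₀ := by
    rw [← hx₀, ← hp₀, π_smul]
  obtain ⟨c, b₀, κ, _, P, D, hc, hAdp, hb, hbc, hb1, hφ, hD, hcase⟩ :=
    hCase n M X Γ I C χ hn hχ i p hpn ε hε
  obtain ⟨hth1, hth2⟩ := hTheta n M X Γ I C χ hn hχ i p c hc b₀ hb hbc hb1 κ P hφ
  obtain ⟨c', hc', hcyc⟩ := local_part C hW hn hχ i p P D hcase
  have hcn : c ≠ 0 := hc.ne'
  -- notation
  set S : (Fin (n + 1) → Fin (n + 1)) → Simp (n + 1) M := fun k =>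
    C.π.comp (SX C n fun m => ((1 : Γ), i, B8e.Q n p c (k m))) with hS
  have hS' : ∀ k : Fin (n + 1) → Fin (n + 1),
      sg C D n (fun m => (1, Sum.inl (k m))) = S k := fun k => by
    simp only [hS, sg]
    congr 2
    funext m
    simp only [lab, hD, B8e.Q]
  simp only [hS'] at hcyc
  -- only permutations contribute
  have hperm : ∑ k : Fin (n + 1) → Fin (n + 1), Finsupp.single (S k)
      (P.wt χ fun m => (1, Sum.inl (k m))) =
      ∑ π : Equiv.Perm (Fin (n + 1)), Finsupp.single (S π)
        ((Equiv.Perm.sign π : ℤ) * ((n + 1).factorial : ℝ)⁻¹) := by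
    have h1 : ∑ π : Equiv.Perm (Fin (n + 1)), Finsupp.single (S π)
        ((Equiv.Perm.sign π : ℤ) * ((n + 1).factorial : ℝ)⁻¹) =
        ∑ π : Equiv.Perm (Fin (n + 1)), Finsupp.single (S π)
          (P.wt χ fun m => (1, Sum.inl (π m))) :=
      Finset.sum_congr rfl fun π _ => by rw [hth1 π]
    rw [h1]
    have hinjc : Function.Injective (fun π : Equiv.Perm (Fin (n + 1)) => (π : Fin (n + 1) → _)) :=
      fun a b h => DFunLike.coe_injective h
    rw [← Finset.sum_image (s := Finset.univ)
      (g := fun π : Equiv.Perm (Fin (n + 1)) => (π : Fin (n + 1) → Fin (n + 1)))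
      (f := fun k => Finsupp.single (S k) (P.wt χ fun m => (1, Sum.inl (k m))))
      (fun a _ b _ h => hinjc h)]
    symm
    refine Finset.sum_subset (Finset.subset_univ _) fun k _ hk => ?_
    have hni : ¬ Function.Injective k := by
      intro hi
      apply hk
      rw [Finset.mem_image]
      refine ⟨Equiv.ofBijective k (Finite.injective_iff_bijective.1 hi), Finset.mem_univ _, ?_⟩
      rfl
    rw [hth2 k hni, Finsupp.single_zero]
  -- alternation
  choose b d hbd hd using fun π : Equiv.Perm (Fin (n + 1)) =>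
    hAlt n M X Γ I C i (B8e.Q n p c) π
  have hsgn : ∀ π : Equiv.Perm (Fin (n + 1)), ((Equiv.Perm.sign π : ℤ) : ℝ) *
      ((Equiv.Perm.sign π : ℤ) : ℝ) = 1 := fun π => by
    rcases Int.units_eq_one_or (Equiv.Perm.sign π) with h | h <;> rw [h] <;> simp
  set a : ℝ := ((n + 1).factorial : ℝ)⁻¹ with ha
  set sgn : Equiv.Perm (Fin (n + 1)) → ℝ := fun π => ((Equiv.Perm.sign π : ℤ) : ℝ) with hsg
  have hone : ∀ π : Equiv.Perm (Fin (n + 1)), Finsupp.single (S π) (sgn π * a) =
      a • Finsupp.single (S (fun m => m)) (1 : ℝ) + (sgn π * a) • bd (n + 1) (b π) +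
        (sgn π * a) • d π := by
    intro π
    have h1 : Finsupp.single (S π) (sgn π * a) = (sgn π * a) • Finsupp.single (S π) (1 : ℝ) := by
      rw [Finsupp.smul_single, smul_eq_mul, mul_one]
    have h2 : Finsupp.single (S π) (1 : ℝ) = sgn π • Finsupp.single (S (fun m => m)) 1 +
        bd (n + 1) (b π) + d π := hbd π
    rw [h1]
    conv_lhs => rw [h2]
    rw [smul_add, smul_add, smul_smul]
    have h3 : sgn π * a * sgn π = a := by
      have := hsgn π
      calc sgn π * a * sgn π = (sgn π * sgn π) * a := by ring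
        _ = a := by rw [this, one_mul]
    rw [h3]
  have hsum : ∑ π : Equiv.Perm (Fin (n + 1)), Finsupp.single (S π) (sgn π * a) =
      Finsupp.single (S (fun m => m)) (1 : ℝ) + bd (n + 1) (∑ π, (sgn π * a) • b π) +
        ∑ π, (sgn π * a) • d π := by
    rw [Finset.sum_congr rfl fun π _ => hone π, Finset.sum_add_distrib, Finset.sum_add_distrib,
      Finset.sum_const, Finset.card_univ, Fintype.card_perm, Fintype.card_fin, map_sum]
    simp only [map_smul]
    have : (n + 1).factorial • a • Finsupp.single (S (fun m => m)) (1 : ℝ) =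
        Finsupp.single (S (fun m => m)) (1 : ℝ) := by
      rw [← Nat.cast_smul_eq_nsmul ℝ, smul_smul, ha, mul_inv_cancel₀, one_smul]
      exact_mod_cast (n + 1).factorial_ne_zero
    rw [this]
  -- the affine simplex
  set s : Simp (n + 1) (E n) := ⟨fun t => ∑ m, t m • B8e.Q n p c m,
    continuous_finsetSum _ fun m _ =>
      ((continuous_apply m).comp continuous_subtype_val).smul continuous_const⟩ with hs
  have hsa : ∀ t, s t = ∑ m, t m • B8e.Q n p c m := fun t => rfl
  have hs' : ∀ t, S (fun m => m) t = C.π (C.ψ i (s t)) := by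
    intro t
    have h1 : SX C n (fun m => ((1 : Γ), i, B8e.Q n p c m)) t =
        (1 : Γ) • C.ψ i (∑ m, t m • B8e.Q n p c m) :=
      SX_affine C (l := fun m => ((1 : Γ), i, B8e.Q n p c m)) (fun j => ⟨rfl, rfl⟩) t
    show C.π (SX C n (fun m => ((1 : Γ), i, B8e.Q n p c m)) t) = _
    rw [h1, one_smul, hsa]
  set A : Matrix (Fin n) (Fin n) ℝ :=
    Matrix.of fun i j => B8e.Q n p c i.succ j - B8e.Q n p c 0 j with hA
  refine ⟨Fin (n + 1) ⊕ κ, inferInstance, P, D, hAdp, i, B8e.Q n p c 0, A, s, S fun m => m,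
    ?_, ?_, hs', ?_, ∑ π, (sgn π * a) • b π, ∑ π, (sgn π * a) • d π + c', ?_, ?_⟩
  · -- determinant
    have hA' : ∀ i j : Fin n, A i j = if j ≤ i then c else 0 := by
      intro i j
      simp only [hA, Matrix.of_apply, B8e.Q, crdInv, vtx, Fin.val_succ, Fin.val_zero, Fin.le_def]
      have e1 : ((j : ℕ) < i + 1) ↔ ((j : ℕ) ≤ i) := Nat.lt_succ_iff
      simp only [e1, Nat.not_lt_zero, if_false]
      split_ifs <;> ring
    have htri : A.BlockTriangular OrderDual.toDual := by
      intro i j hij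
      rw [hA', if_neg]
      exact not_le.2 (OrderDual.toDual_lt_toDual.1 hij)
    rw [Matrix.det_of_isLowerTriangular A htri]
    refine Finset.prod_pos fun i _ => ?_
    rw [hA', if_pos le_rfl]; exact hc
  · intro t
    rw [hsa]
    funext j
    have h1 := stdSimplex.sum_eq_one t
    rw [Fin.sum_univ_succ] at h1
    rw [Fin.sum_univ_succ]
    simp only [Pi.add_apply, Pi.smul_apply, smul_eq_mul, Finset.sum_apply, hA, Matrix.of_apply,
      mul_sub, Finset.sum_sub_distrib, ← Finset.sum_mul]
    have h2 : t 0 = 1 - ∑ i : Fin n, t i.succ := by linarith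
    rw [h2]; ring
  · -- the barycentre
    have hmem : (fun _ => 1 / ((n : ℝ) + 1) : Fin (n + 1) → ℝ) ∈ stdSimplex ℝ (Fin (n + 1)) := by
      refine ⟨fun _ => by positivity, ?_⟩
      rw [Finset.sum_const, Finset.card_univ, Fintype.card_fin, nsmul_eq_mul]
      push_cast
      field_simp
    set t : stdSimplex ℝ (Fin (n + 1)) := ⟨fun _ => 1 / ((n : ℝ) + 1), hmem⟩ with ht
    refine ⟨t, fun i => ?_, ?_⟩
    · show 0 < 1 / ((n : ℝ) + 1)
      positivity
    · rw [hs', ← hpp]
      congr 2
      rw [hsa]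
      have hcr : crd p c (∑ m, t m • B8e.Q n p c m) = crd p c p := by
        funext i
        have := B8e.crd_comb p hcn t (fun m => m) i
        rw [this, crd_self]
        have e1 : ∀ m, t m = 1 / ((n : ℝ) + 1) := fun m => rfl
        simp only [e1, vtx, ← Finset.mul_sum, xc]
        rw [Finset.sum_boole]
        have e2 : (Finset.univ.filter fun m : Fin (n + 1) => (i : ℕ) < m).card = n - i := by
          have : (Finset.univ.filter fun m : Fin (n + 1) => (i : ℕ) < m) =
              Finset.Ioi i.castSucc := by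
            ext m; simp [Fin.lt_def]
          rw [this, Fin.card_Ioi]
          simp
        rw [e2, Nat.cast_sub i.2.le]
        ring
      have hinv : ∀ x : E n, crdInv p c (crd p c x) = x := by
        intro x; funext i
        simp only [crdInv, crd]
        field_simp
        ring
      have := congrArg (crdInv p c) hcr
      rwa [hinv, hinv] at this
  · intro σ hσ t
    rw [← hpp]
    rcases Finset.mem_union.1 (Finsupp.support_add hσ) with h | h
    · obtain ⟨π, _, hπ⟩ := Finsupp.mem_support_finsetSum σ h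
      have hπ2 : σ ∈ (d π).support := Finsupp.support_smul hπ
      obtain ⟨k, hk, rfl⟩ := hd π σ hπ2
      exact degen C i p hcn k hk t
    · exact hc' σ h t
  · rw [hcyc, hperm, hsum]
    abel

end Vale.Agent.P223.X.Fund.Loc
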