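import Vale.Agent.P223.X.FundE
import Vale.Agent.P223.X.FundN
import Vale.Agent.P223.X.FundRep
import Vale.Agent.P223.X.FundLoc
import Vale.Agent.P223.X.FundCase
import Vale.Agent.P223.X.FundAlt

/-! Block Y5. -/

namespace Vale.Agent.P223.X.FundX

open Fund

theorem main : SpecFundX :=
  FundE.main Rep.main (Loc.main FundE.wts (Case.main FundN.main) Rep.theta Alt.main)

end Vale.Agent.P223.X.FundX
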