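import Vale.Agent.P223.X.Basic
import Vale.Agent.P223.X.EqX

/-! Phase 3: integrals over `X` of functions supported in a chart. -/

namespace Vale.Agent.P223.X.Int

open scoped ContDiff Matrix Topology
open MeasureTheory Vale.Agent.P223.H

variable {n : ℕ} {M X Γ I : Type} [TopologicalSpace M] [TopologicalSpace X] [Group Γ]
    [MulAction Γ X] (C : Cov n M X Γ I)

/-- the action by homeomorphisms -/
def homeo (γ : Γ) : X ≃ₜ X where
  toEquiv := MulAction.toPerm γ
  continuous_toFun := C.cont γ
  continuous_invFun := C.cont γ⁻¹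

theorem isOpenEmbedding_chart (γ : Γ) (i : I) :
    Topology.IsOpenEmbedding (fun y : E n => γ • C.ψ i y) :=
  (homeo C γ).isOpenEmbedding.comp (C.emb i)

section meas
variable [MeasurableSpace X] [BorelSpace X] {C} {G : I → E n → Matrix (Fin n) (Fin n) ℝ}
  {μ : Measure X}

theorem measurableEmbedding_chart (C : Cov n M X Γ I) (γ : Γ) (i : I) :
    MeasurableEmbedding (fun y : E n => γ • C.ψ i y) :=
  (isOpenEmbedding_chart C γ i).measurableEmbedding

theorem comap_eq (hV : VolX C G μ) (γ : Γ) (i : I) :
    μ.comap (fun y => γ • C.ψ i y) =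
      volume.withDensity (fun y => ENNReal.ofReal (H.dens (G i) y)) := by
  ext B hB
  rw [(measurableEmbedding_chart C γ i).comap_apply, withDensity_apply _ hB]
  exact hV γ i B hB

omit [MeasurableSpace X] [BorelSpace X] in
theorem cont_dens (hG : MetX C G) (i : I) : Continuous (H.dens (G i)) :=
  (IBP.contDiff_dens (EqX.metT1 (hG.smooth i) (hG.pos i))).continuous

omit [MeasurableSpace X] [BorelSpace X] in
theorem dens_pos (hG : MetX C G) (i : I) (y : E n) : 0 < H.dens (G i) y :=
  Common.dens_pos (EqX.metT1 (hG.smooth i) (hG.pos i)) y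

/-- integral of a function supported in a chart -/
theorem integral_chart (hG : MetX C G) (hV : VolX C G μ) (γ : Γ) (i : I) (g : X → ℝ)
    (hg : ∀ x, x ∉ Set.range (fun y => γ • C.ψ i y) → g x = 0) :
    ∫ x, g x ∂μ = ∫ y, g (γ • C.ψ i y) * H.dens (G i) y := by
  have hm := measurableEmbedding_chart C γ i
  rw [← setIntegral_eq_integral_of_forall_compl_eq_zero hg, ← hm.map_comap, hm.integral_map,
    comap_eq hV γ i, integral_withDensity_eq_integral_toReal_smul]
  · refine integral_congr_ae (Filter.Eventually.of_forall fun y => ?_)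
    simp only [smul_eq_mul]
    rw [ENNReal.toReal_ofReal (dens_pos hG i y).le, mul_comm]
  · exact (cont_dens hG i).measurable.ennreal_ofReal
  · exact Filter.Eventually.of_forall fun y => ENNReal.ofReal_lt_top

/-- integrability in a chart -/
theorem integrable_chart (hG : MetX C G) (hV : VolX C G μ) (γ : Γ) (i : I) (g : X → ℝ)
    (hg : Integrable g μ) : Integrable (fun y => g (γ • C.ψ i y) * H.dens (G i) y) := by
  have hm := measurableEmbedding_chart C γ i
  have h1 : Integrable g (μ.restrict (Set.range (fun y => γ • C.ψ i y))) := hg.restrict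
  rw [← hm.map_comap, hm.integrable_map_iff, comap_eq hV γ i,
    integrable_withDensity_iff (cont_dens hG i).measurable.ennreal_ofReal
      (Filter.Eventually.of_forall fun y => ENNReal.ofReal_lt_top)] at h1
  refine h1.congr (Filter.Eventually.of_forall fun y => ?_)
  simp only [Function.comp_apply]
  rw [ENNReal.toReal_ofReal (dens_pos hG i y).le]

end meas

end Vale.Agent.P223.X.Int
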