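import Vale.Agent.P223.X.Int
import Vale.Agent.P223.X.IBPX

/-! Phase 3: integrals over `M`. -/

namespace Vale.Agent.P223.X.IntM

open scoped ContDiff Matrix Topology
open MeasureTheory Vale.Agent.P223.H

section top
variable {n : ℕ} {M X Γ I : Type} [TopologicalSpace M] [TopologicalSpace X] [Group Γ]
    [MulAction Γ X] (C : Cov n M X Γ I)

/-- the parametrisations of `M` -/
def β (i : I) (y : E n) : M := C.π (C.ψ i y)

theorem β_inj (i : I) : Function.Injective (β C i) := by
  intro y y' h
  obtain ⟨γ, hγ⟩ := (C.orb _ _).1 h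
  have h1 := C.inj i γ y y' hγ
  rw [h1, one_smul] at hγ
  exact (C.emb i).injective hγ

theorem β_emb (i : I) : Topology.IsOpenEmbedding (β C i) :=
  Topology.IsOpenEmbedding.of_continuous_injective_isOpenMap
    (C.π.continuous.comp (C.emb i).continuous) (β_inj C i)
    (C.cov.isLocalHomeomorph.isOpenMap.comp (C.emb i).isOpenMap)

theorem dn_eq {F : X → ℝ} (hF : ∀ (γ : Γ) x, F (γ • x) = F x) (x : X) :
    C.dn F (C.π x) = F x := by
  unfold Cov.dn
  obtain ⟨γ, hγ⟩ := (C.orb x (Function.surjInv C.surj (C.π x))).1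
    (Function.surjInv_eq C.surj (C.π x)).symm
  rw [← hγ, hF]

theorem dn_β {F : X → ℝ} (hF : ∀ (γ : Γ) x, F (γ • x) = F x) (i : I) (y : E n) :
    C.dn F (β C i y) = F (C.ψ i y) := dn_eq C hF _

theorem isQuotientMap_π : Topology.IsQuotientMap C.π :=
  C.cov.isLocalHomeomorph.isOpenMap.isQuotientMap C.π.continuous C.surj

theorem continuous_dn {F : X → ℝ} (hF : ∀ (γ : Γ) x, F (γ • x) = F x) (hc : Continuous F) :
    Continuous (C.dn F) := by
  rw [(isQuotientMap_π C).continuous_iff]
  have : C.dn F ∘ C.π = F := funext fun x => dn_eq C hF x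
  rw [this]; exact hc

theorem cover_M [Finite I] : (⋃ i, β C i '' Metric.closedBall (0 : E n) 1) = Set.univ := by
  refine Set.eq_univ_of_forall fun m => ?_
  obtain ⟨x, rfl⟩ := C.surj m
  obtain ⟨γ, i, y, hy, hx⟩ := exists_chart C x
  refine Set.mem_iUnion.2 ⟨i, y, by simpa using hy.le, ?_⟩
  rw [← hx]
  exact (C.orb _ _).2 ⟨γ, rfl⟩

include C in
theorem compactSpace [Finite I] : CompactSpace M := by
  refine ⟨?_⟩
  rw [← cover_M C]
  exact isCompact_iUnion fun i => (isCompact_closedBall _ _).image (β_emb C i).continuous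

/-- the function on `M` with compact support in a chart -/
noncomputable def up (i : I) (h : E n → ℝ) (m : M) : ℝ :=
  ∑ᶠ γ : Γ, C.ex i h (γ • Function.surjInv C.surj m)

theorem up_β (i : I) (h : E n → ℝ) (y : E n) : up C i h (β C i y) = h y := by
  classical
  unfold up
  obtain ⟨γ, hγ⟩ := (C.orb (Function.surjInv C.surj (β C i y)) (C.ψ i y)).1
    (Function.surjInv_eq C.surj (β C i y))
  rw [finsum_eq_single _ γ]
  · rw [hγ, ex_ψ]
  · intro γ' hne
    refine IBPX.ex_of_notMem ?_
    rintro ⟨y', hy'⟩
    apply hne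
    have h1 : (γ' * γ⁻¹) • C.ψ i y = C.ψ i y' := by
      rw [mul_smul, ← hγ, inv_smul_smul, hy']
    have h2 := C.inj i _ _ _ h1
    exact mul_inv_eq_one.1 h2

theorem up_notMem {i : I} {h : E n → ℝ} {m : M} (hm : m ∉ Set.range (β C i)) :
    up C i h m = 0 := by
  unfold up
  rw [finsum_eq_zero_of_forall_eq_zero]
  intro γ
  refine IBPX.ex_of_notMem ?_
  rintro ⟨y, hy⟩
  apply hm
  refine ⟨y, ?_⟩
  show C.π (C.ψ i y) = m
  rw [hy, ← Function.surjInv_eq C.surj m]
  exact ((C.orb _ _).2 ⟨γ, by rw [Function.surjInv_eq C.surj m]⟩).symm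

theorem sum_up [Fintype I] {χ : I → E n → ℝ} (hχ : Part C χ) (m : M) :
    ∑ i, up C i (χ i) m = 1 := hχ.sum _

end top

section meas
variable {n : ℕ} {M X Γ I : Type} [TopologicalSpace M] [TopologicalSpace X] [Group Γ]
    [MulAction Γ X] {C : Cov n M X Γ I} [MeasurableSpace M] [BorelSpace M]
    {G : I → E n → Matrix (Fin n) (Fin n) ℝ} {ν : Measure M} {χ : I → E n → ℝ}

theorem measurableEmbedding_β (C : Cov n M X Γ I) (i : I) : MeasurableEmbedding (β C i) :=
  (β_emb C i).measurableEmbedding

theorem comap_eq (hV : VolM C G ν) (i : I) :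
    ν.comap (β C i) = volume.withDensity (fun y => ENNReal.ofReal (H.dens (G i) y)) := by
  ext B hB
  rw [(measurableEmbedding_β C i).comap_apply, withDensity_apply _ hB]
  exact hV i B hB

/-- integral of a function supported in a chart -/
theorem integral_chart (hG : MetX C G) (hV : VolM C G ν) (i : I) (g : M → ℝ)
    (hg : ∀ m, m ∉ Set.range (β C i) → g m = 0) :
    ∫ m, g m ∂ν = ∫ y, g (β C i y) * H.dens (G i) y := by
  have hm := measurableEmbedding_β C i
  rw [← setIntegral_eq_integral_of_forall_compl_eq_zero hg, ← hm.map_comap, hm.integral_map,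
    comap_eq hV i, integral_withDensity_eq_integral_toReal_smul]
  · refine integral_congr_ae (Filter.Eventually.of_forall fun y => ?_)
    simp only [smul_eq_mul]
    rw [ENNReal.toReal_ofReal (Int.dens_pos hG i y).le, mul_comm]
  · exact (Int.cont_dens hG i).measurable.ennreal_ofReal
  · exact Filter.Eventually.of_forall fun y => ENNReal.ofReal_lt_top

/-- lower integral of a function supported in a chart -/
theorem lintegral_chart (hG : MetX C G) (hV : VolM C G ν) (i : I) (g : M → ENNReal)
    (hgm : Measurable g) (hg : ∀ m, m ∉ Set.range (β C i) → g m = 0) :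
    ∫⁻ m, g m ∂ν = ∫⁻ y, g (β C i y) * ENNReal.ofReal (H.dens (G i) y) := by
  have hm := measurableEmbedding_β C i
  have h0 : ∫⁻ m, g m ∂ν = ∫⁻ m in Set.range (β C i), g m ∂ν := by
    rw [setLIntegral_eq_of_support_subset]
    intro m hm'
    by_contra hcon
    exact hm' (hg m hcon)
  rw [h0, ← hm.map_comap, hm.lintegral_map, comap_eq hV i]
  refine (lintegral_withDensity_eq_lintegral_mul volume
    (Int.cont_dens hG i).measurable.ennreal_ofReal (hgm.comp hm.measurable)).trans ?_
  exact lintegral_congr fun y => by simp only [Pi.mul_apply, Function.comp_apply]; rw [mul_comm]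

/-- integrability of a function supported in a chart -/
theorem integrable_chart (hG : MetX C G) (hV : VolM C G ν) (i : I) (g : M → ℝ)
    (hg : ∀ m, m ∉ Set.range (β C i) → g m = 0)
    (hi : Integrable (fun y => g (β C i y) * H.dens (G i) y)) : Integrable g ν := by
  have hm := measurableEmbedding_β C i
  have h1 : Integrable g (ν.restrict (Set.range (β C i))) := by
    rw [← hm.map_comap, hm.integrable_map_iff, comap_eq hV i,
      integrable_withDensity_iff (Int.cont_dens hG i).measurable.ennreal_ofReal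
        (Filter.Eventually.of_forall fun y => ENNReal.ofReal_lt_top)]
    refine hi.congr (Filter.Eventually.of_forall fun y => ?_)
    simp only [Function.comp_apply]
    rw [ENNReal.toReal_ofReal (Int.dens_pos hG i y).le]
  refine (integrableOn_iff_integrable_of_support_subset fun m hm' => ?_).1 h1
  by_contra hcon
  exact hm' (hg m hcon)

omit [MeasurableSpace M] [BorelSpace M] in
theorem up_eq_extend (C : Cov n M X Γ I) (i : I) (h : E n → ℝ) :
    up C i h = Function.extend (β C i) h 0 := by
  funext m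
  by_cases hm : m ∈ Set.range (β C i)
  · obtain ⟨y, rfl⟩ := hm
    rw [up_β, (β_inj C i).extend_apply]
  · rw [up_notMem C hm, Function.extend_apply' _ _ _ (fun h => hm h)]
    rfl

theorem measurable_up (C : Cov n M X Γ I) (i : I) {h : E n → ℝ} (hh : Measurable h) :
    Measurable (up C i h) := by
  rw [up_eq_extend]
  exact (measurableEmbedding_β C i).measurable_extend hh measurable_zero

omit [BorelSpace M] in
theorem isFiniteMeasure [Finite I] (hG : MetX C G) (hV : VolM C G ν) : IsFiniteMeasure ν := by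
  have := Fintype.ofFinite I
  refine ⟨?_⟩
  rw [← cover_M C]
  refine (measure_iUnion_le _).trans_lt ?_
  rw [tsum_fintype]
  refine ENNReal.sum_lt_top.2 fun i _ => ?_
  have h1 := hV i (Metric.closedBall (0 : E n) 1) Metric.isClosed_closedBall.measurableSet
  have h2 : ν (β C i '' Metric.closedBall (0 : E n) 1) =
      ∫⁻ y in Metric.closedBall (0 : E n) 1, ENNReal.ofReal (H.dens (G i) y) := h1
  rw [h2]
  have h3 : IntegrableOn (H.dens (G i)) (Metric.closedBall (0 : E n) 1) :=
    (Int.cont_dens hG i).continuousOn.integrableOn_compact (isCompact_closedBall _ _)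
  exact h3.lintegral_lt_top

variable [Fintype I]

omit [MeasurableSpace M] [BorelSpace M] in
theorem ofReal_sum_up (hχ : Part C χ) (m : M) : ∑ i, ENNReal.ofReal (up C i (χ i) m) = 1 := by
  rw [← ENNReal.ofReal_sum_of_nonneg, sum_up C hχ, ENNReal.ofReal_one]
  intro i _
  exact finsum_nonneg fun γ => IBPX.th_nonneg hχ γ i _

/-- lower integrals over `M` with the help of a partition of unity -/
theorem lintegral_eq (hG : MetX C G) (hV : VolM C G ν) (hχ : Part C χ) {F : M → ENNReal}
    (hF : Measurable F) : ∫⁻ m, F m ∂ν =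
      ∑ i, ∫⁻ y, ENNReal.ofReal (χ i y) * F (β C i y) * ENNReal.ofReal (H.dens (G i) y) := by
  have e1 : ∀ m, F m = ∑ i, ENNReal.ofReal (up C i (χ i) m) * F m := fun m => by
    rw [← Finset.sum_mul, ofReal_sum_up hχ, one_mul]
  have hm : ∀ i, Measurable fun m => ENNReal.ofReal (up C i (χ i) m) * F m := fun i =>
    (measurable_up C i (hχ.smooth i).continuous.measurable).ennreal_ofReal.mul hF
  calc ∫⁻ m, F m ∂ν = ∫⁻ m, ∑ i, ENNReal.ofReal (up C i (χ i) m) * F m ∂ν :=
        lintegral_congr e1
    _ = ∑ i, ∫⁻ m, ENNReal.ofReal (up C i (χ i) m) * F m ∂ν :=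
        lintegral_finsetSum _ fun i _ => hm i
    _ = _ := by
        refine Finset.sum_congr rfl fun i _ => ?_
        rw [lintegral_chart hG hV i _ (hm i)]
        · simp only [up_β]
        · intro m hm'
          rw [up_notMem C hm', ENNReal.ofReal_zero, zero_mul]

omit [Fintype I] in
theorem integrable_up (hG : MetX C G) (hV : VolM C G ν) (i : I) {h : E n → ℝ}
    (hh : Continuous h) (hc : HasCompactSupport h) {g : M → ℝ}
    (hg : Continuous fun y => g (β C i y)) : Integrable (fun m => up C i h m * g m) ν := by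
  refine integrable_chart hG hV i _ (fun m hm => by rw [up_notMem C hm, zero_mul]) ?_
  simp only [up_β]
  exact ((hh.mul hg).mul (Int.cont_dens hG i)).integrable_of_hasCompactSupport
    (hc.mul_right).mul_right

omit [Fintype I] in
theorem integral_up (hG : MetX C G) (hV : VolM C G ν) (i : I) (h : E n → ℝ) (g : M → ℝ) :
    ∫ m, up C i h m * g m ∂ν = ∫ y, h y * g (β C i y) * H.dens (G i) y := by
  rw [integral_chart hG hV i _ (fun m hm => by rw [up_notMem C hm, zero_mul])]
  simp only [up_β]

/-- integrals over `M` with the help of a partition of unity -/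
theorem integral_eq (hG : MetX C G) (hV : VolM C G ν) (hχ : Part C χ) {g : M → ℝ}
    (hg : ∀ i, Continuous fun y => g (β C i y)) : ∫ m, g m ∂ν =
      ∑ i, ∫ y, χ i y * g (β C i y) * H.dens (G i) y := by
  have e1 : ∀ m, g m = ∑ i, up C i (χ i) m * g m := fun m => by
    rw [← Finset.sum_mul, sum_up C hχ, one_mul]
  calc ∫ m, g m ∂ν = ∫ m, ∑ i, up C i (χ i) m * g m ∂ν := integral_congr_ae (ae_of_all _ e1)
    _ = ∑ i, ∫ m, up C i (χ i) m * g m ∂ν := integral_finsetSum _ fun i _ =>
        integrable_up hG hV i (hχ.smooth i).continuous (IBPX.hasCompactSupport_χ hχ i) (hg i)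
    _ = _ := Finset.sum_congr rfl fun i _ => integral_up hG hV i _ _

end meas

end Vale.Agent.P223.X.IntM
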