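import Vale.Agent.P223.X.SpecU
import Vale.Agent.P223.MT.A
import Vale.Agent.P223.MT.MT
import Vale.Agent.P223.MT.D

/-! Phase 3: the simplicial volume is bounded by the Fisher type integral. -/

namespace Vale.Agent.P223.X.Main

open scoped ContDiff
open MeasureTheory Vale.Agent.P223.H

theorem bd_bd {M : Type} [TopologicalSpace M] {n : ℕ} (w : Chain (n + 2) M) :
    bd n (bd (n + 1) w) = 0 := by
  classical
  have key : ∀ b : Simp n M → ℝ, Finsupp.linearCombination ℝ b (bd n (bd (n + 1) w)) = 0 := by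
    intro b
    rw [MT.cob_of_bd]
    have h1 : ∀ z : Chain (n + 1) M, (z.sum fun σ r => r * MT.Cob b σ) =
        Finsupp.linearCombination ℝ (MT.Cob b) z := by
      intro z; rw [Finsupp.linearCombination_apply]; rfl
    rw [h1, MT.cob_of_bd]
    refine Finset.sum_eq_zero fun τ _ => ?_
    have : MT.Cob (MT.Cob b) τ = 0 := MT.coc_cob b τ
    simp only [this, mul_zero]
  ext σ
  have := key (fun τ => if τ = σ then 1 else 0)
  rw [Finsupp.linearCombination_apply] at this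
  rw [Finsupp.coe_zero, Pi.zero_apply, ← this, Finsupp.sum]
  simp only [smul_eq_mul, mul_ite, mul_one, mul_zero, Finset.sum_ite_eq']
  by_cases h : σ ∈ (bd n (bd (n + 1) w)).support
  · rw [if_pos h]
  · rw [if_neg h]; exact Finsupp.notMem_support_iff.1 h

section
variable {n : ℕ} {M X Γ I : Type} [TopologicalSpace M] [TopologicalSpace X] [Group Γ]
    [MulAction Γ X]

/-- finiteness of the weights -/
def SpecFin : Prop := ∀ (n : ℕ) (M X Γ I : Type) [TopologicalSpace M] [TopologicalSpace X]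
  [Group Γ] [MulAction Γ X] [Fintype I] [T2Space X] (C : Cov n M X Γ I) (χ : I → E n → ℝ),
  ∀ (ι : Type) [Fintype ι] (P : PUX C ι),
  {l : Fin (n + 1) → Γ × ι | (l 0).1 = 1 ∧ P.wt χ l ≠ 0}.Finite

theorem isFund_add {C : Cov n M X Γ I} {z : Chain (n + 1) M} (hz : IsFundX C z)
    (w : Chain (n + 2) M) : IsFundX C (z + bd (n + 1) w) := by
  refine ⟨by rw [map_add, hz.1, bd_bd, add_zero], fun p => ?_⟩
  obtain ⟨i, v, A, s, s', hA, h1, h2, h3, b, c, hc, hb⟩ := hz.2 p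
  refine ⟨i, v, A, s, s', hA, h1, h2, h3, b + w, c, hc, ?_⟩
  rw [hb, map_add]; abel

theorem finsum_eq (T : Set (Fin (n + 1) → Γ × I)) {A : Type} [AddCommMonoid A]
    (f : (Fin (n + 1) → Γ × I) → A) (a : (Fin (n + 1) → Γ × I) →₀ ℝ)
    (F : (Fin (n + 1) → Γ × I) → ℝ → A) (hT : ∀ l, l ∉ T → a l = 0)
    (h0 : ∀ l, F l 0 = 0) (h : ∀ l ∈ T, f l = F l (a l)) :
    ∑ᶠ l ∈ T, f l = a.sum F := by
  classical
  rw [Finsupp.sum]
  have h1 : ∑ᶠ l ∈ T, f l = ∑ᶠ l, F l (a l) := by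
    refine finsum_congr fun l => ?_
    by_cases hl : l ∈ T
    · rw [finsum_eq_if, if_pos hl, h l hl]
    · rw [finsum_eq_if, if_neg hl, hT l hl, h0]
  rw [h1]
  refine finsum_eq_sum_of_support_subset _ fun l hl => ?_
  rw [Finset.mem_coe, Finsupp.mem_support_iff]
  intro h2
  refine hl ?_
  change F l (a l) = 0
  rw [h2, h0]

end

theorem svX_le (hPart : SpecPart) (hForm : SpecFormX) (hCyc : SpecFormCyc) (hNorm : SpecNormX)
    (hTr : SpecTruncX) (hFund : SpecFundX) (hMT : MT.SpecMT) (hDual : MT.SpecDual)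
    (hFin : SpecFin) {n : ℕ} {M X Γ I : Type} [TopologicalSpace M] [TopologicalSpace X] [Group Γ]
    [MulAction Γ X] [Fintype I] [T2Space X] [SimplyConnectedSpace X] [T2Space M]
    [MeasurableSpace X] [BorelSpace X] [MeasurableSpace M] [BorelSpace M] (C : Cov n M X Γ I)
    (G : I → E n → Matrix (Fin n) (Fin n) ℝ) (μ : Measure X) (ν : Measure M) (W v : X → ℝ)
    (A : ℝ) (hn : 1 ≤ n) (hG : MetX C G) (hμ : VolX C G μ) (hν : VolM C G ν)
    (hW : WtX C G μ W) (hv : StX C G W A v) (hinf : ∃ s : ℕ → X, MT.Dist Γ s) :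
    svX C ≤ ∫⁻ x, ENNReal.ofReal (v x * (gsX C G v x / v x ^ 2) ^ ((n : ℝ) / 2)) ∂μ := by
  classical
  have : ContinuousConstSMul Γ X := ⟨C.cont⟩
  refine ENNReal.le_of_forall_pos_le_add fun δ hδ _ => ?_
  have hδ2 : (0 : ℝ) < (δ : ℝ) / 2 := by positivity
  obtain ⟨χ, hχ⟩ := hPart n M X Γ I C
  obtain ⟨P, hP, hPE⟩ := hTr n M X Γ I C G μ ν W v A hn hG hμ hν hW hv (δ / 2) hδ2
  have hN := hNorm n M X Γ I C χ G ν hn hχ hG hν P hP
  set N : ℝ := ∑ᶠ l ∈ {l : Fin (n + 1) → Γ × Unit | (l 0).1 = 1}, |P.wt χ l| with hNdef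
  obtain ⟨ι, _, P₀, q, S, hq, hinj, hvert, hfund⟩ := hFund n M X Γ I C χ hn hχ
  set T : Set (Fin (n + 1) → Γ × ι) := {l | (l 0).1 = 1} with hT
  set z₀ := ∑ᶠ l ∈ T, Finsupp.single (C.π.comp (S l)) (P₀.wt χ l) with hz₀
  have hfin := hFin n M X Γ I C χ ι P₀
  have hfin' := hFin n M X Γ I C χ Unit P
  -- the chain as a finitely supported function
  let a : (Fin (n + 1) → Γ × ι) →₀ ℝ := Finsupp.onFinset hfin.toFinset
    (fun l => if (l 0).1 = 1 then P₀.wt χ l else 0) (by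
      intro l hl
      rw [Set.Finite.mem_toFinset]
      by_cases h : (l 0).1 = 1
      · rw [if_pos h] at hl; exact ⟨h, hl⟩
      · rw [if_neg h] at hl; exact absurd rfl hl)
  have ha : ∀ l, a l = if (l 0).1 = 1 then P₀.wt χ l else 0 := fun l => rfl
  have ha1 : ∀ l ∈ T, P₀.wt χ l = a l := fun l hl => (if_pos hl).symm
  have ha0 : ∀ l, l ∉ T → a l = 0 := fun l hl => if_neg hl
  have haw : ∀ l ∈ a.support, P₀.wt χ l ≠ 0 := by
    intro l hl h
    rw [Finsupp.mem_support_iff, ha, h, ite_self] at hl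
    exact hl rfl
  let a' : (Fin (n + 1) → Γ × Unit) →₀ ℝ := Finsupp.onFinset hfin'.toFinset
    (fun l => if (l 0).1 = 1 then P.wt χ l else 0) (by
      intro l hl
      rw [Set.Finite.mem_toFinset]
      by_cases h : (l 0).1 = 1
      · rw [if_pos h] at hl; exact ⟨h, hl⟩
      · rw [if_neg h] at hl; exact absurd rfl hl)
  have ha1' : ∀ l ∈ {l : Fin (n + 1) → Γ × Unit | (l 0).1 = 1}, P.wt χ l = a' l :=
    fun l hl => (if_pos hl).symm
  have ha0' : ∀ l, l ∉ {l : Fin (n + 1) → Γ × Unit | (l 0).1 = 1} → a' l = 0 :=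
    fun l hl => if_neg hl
  have hz : z₀ = a.sum fun l r => Finsupp.single (C.π.comp (S l)) r :=
    finsum_eq T _ a (fun l r => Finsupp.single (C.π.comp (S l)) r) ha0
      (fun l => Finsupp.single_zero _) fun l hl => by rw [ha1 l hl]
  have hN' : N = a'.sum fun l r => |r| :=
    finsum_eq _ _ a' (fun _ r => |r|) ha0' (fun l => abs_zero) fun l hl => by rw [ha1' l hl]
  have key : ∀ c : Chain (n + 1) M →ₗ[ℝ] ℝ, (∀ σ, |c (Finsupp.single σ 1)| ≤ 1) →
      (∀ w, c (bd (n + 1) w) = 0) → |c z₀| ≤ N := by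
    intro c hc1 hc
    obtain ⟨F, hF1, hFi, hFc, hF⟩ := hMT M X Γ C.π C.orb hinf n c hn hc1 hc
    have h1 := hF ι q (fun i j ⟨γ, h⟩ => (hq i j γ h).1) a S (fun l hl => hinj l (haw l hl))
      (fun l hl i => hvert l (haw l hl) i) (by rw [← hz]; exact hfund.1) (fun β hβ => by
        rw [← hCyc n M X Γ I C χ hn hχ ι P₀ β hβ]
        exact (finsum_eq T _ a
          (fun l r => r * ∑ i : Fin (n + 1), (-1 : ℝ) ^ (i : ℕ) * β (l ∘ i.succAbove)) ha0
          (fun l => zero_mul _) fun l hl => by rw [ha1 l hl]).symm)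
    rw [hz, h1]
    have h2 := hForm n M X Γ I C χ F hn hχ hFi hFc ι Unit P₀ P
    have h3 : (a.sum fun l r => r * F fun i => (l i).1) =
        ∑ᶠ l ∈ T, P₀.wt χ l * F fun k => (l k).1 :=
      (finsum_eq T _ a (fun l r => r * F fun i => (l i).1) ha0 (fun l => zero_mul _)
        fun l hl => by rw [ha1 l hl]).symm
    have h4 : (∑ᶠ l ∈ {l : Fin (n + 1) → Γ × Unit | (l 0).1 = 1},
        P.wt χ l * F fun k => (l k).1) = a'.sum fun l r => r * F fun i => (l i).1 :=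
      finsum_eq _ _ a' (fun l r => r * F fun i => (l i).1) ha0' (fun l => zero_mul _)
        fun l hl => by rw [ha1' l hl]
    rw [h3, h2, h4, hN', Finsupp.sum, Finsupp.sum]
    refine (Finset.abs_sum_le_sum_abs _ _).trans (Finset.sum_le_sum fun l _ => ?_)
    rw [abs_mul]
    exact mul_le_of_le_one_right (abs_nonneg _) (hF1 _)
  obtain ⟨w, hw⟩ := hDual M n z₀ N key (δ / 2) hδ2
  have h1 : svX C ≤ ENNReal.ofReal (l1 (z₀ + bd (n + 1) w)) := iInf₂_le _ (isFund_add hfund w)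
  calc svX C ≤ _ := h1
    _ ≤ ENNReal.ofReal (N + δ / 2) := ENNReal.ofReal_le_ofReal hw
    _ ≤ ENNReal.ofReal N + ENNReal.ofReal (δ / 2) := ENNReal.ofReal_add_le
    _ ≤ _ := add_le_add_left (hN.trans hPE) _
    _ = _ := by
      rw [add_assoc, ← ENNReal.ofReal_add hδ2.le hδ2.le, add_halves, ENNReal.ofReal_coe_nnreal]

end Vale.Agent.P223.X.Main
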