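import Vale.Agent.P223.X.FundB
import Vale.Agent.P223.H.B8b

/-! Sub-blocks of Y5 (`SpecFundX`). -/

namespace Vale.Agent.P223.X.Fund

open scoped ContDiff
open Vale.Agent.P223.H B8b

/-- BLOCK F1 (helper37) : alternating simplices, cf. B8d.lean (all labels in one chart, so
`SX_affine`, `F_affine` apply). -/
def SpecAltX : Prop := ∀ (n : ℕ) (M X Γ I : Type) [TopologicalSpace M] [TopologicalSpace X]
  [Group Γ] [MulAction Γ X] (C : Cov n M X Γ I) (i : I) (q : Fin (n + 1) → E n)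
  (π : Equiv.Perm (Fin (n + 1))),
  ∃ (b : Chain (n + 2) M) (c : Chain (n + 1) M),
    Finsupp.single (C.π.comp (SX C n fun m => (1, i, q (π m)))) (1 : ℝ) =
      ((Equiv.Perm.sign π : ℤ) : ℝ) • Finsupp.single (C.π.comp (SX C n fun m => (1, i, q m))) 1 +
      bd (n + 1) b + c ∧
    ∀ σ ∈ c.support, ∃ k : Fin (n + 1) → Fin (n + 1), ¬ Function.Surjective k ∧
      σ = C.π.comp (SX C n fun m => (1, i, q (k m)))

/-- BLOCK F2 (helper37) : fine partitions of unity on the cube `‖y‖ ≤ 2`. -/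
def SpecBeta : Prop := ∀ (n : ℕ) (ε : ℝ), 0 < ε → ∃ (J : Type) (_ : Fintype J) (q : J → E n)
  (β : J → E n → ℝ), (∀ j, ‖q j‖ ≤ 2) ∧ (∀ j, ContDiff ℝ ∞ (β j)) ∧
    (∀ j, HasCompactSupport (β j)) ∧ (∀ j, tsupport (β j) ⊆ Metric.closedBall (q j) ε) ∧
    ∀ y, ‖y‖ ≤ 2 → ∑ j, β j y = 1

/-- BLOCK F3 (helper467) : weights with two equal functions vanish (Stokes). -/
def SpecRepX : Prop := ∀ (n : ℕ) (M X Γ I : Type) [TopologicalSpace M] [TopologicalSpace X]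
  [Group Γ] [MulAction Γ X] [Fintype I] [T2Space X] (C : Cov n M X Γ I) (χ : I → E n → ℝ),
  1 ≤ n → Part C χ → ∀ (ι : Type) [Fintype ι] (P : PUX C ι) (l : Fin (n + 1) → Γ × ι)
  (a b : Fin (n + 1)), a ≠ b → l a = l b → P.wt χ l = 0

/-- BLOCK F4 (helper467) : weights of the special functions, cf. B8c.lean. -/
def SpecThetaX : Prop := ∀ (n : ℕ) (M X Γ I : Type) [TopologicalSpace M] [TopologicalSpace X]
  [Group Γ] [MulAction Γ X] [Fintype I] [T2Space X] (C : Cov n M X Γ I) (χ : I → E n → ℝ),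
  1 ≤ n → Part C χ → ∀ (i : I) (p : E n) (c : ℝ), 0 < c → ∀ b : E n → ℝ, ContDiff ℝ 1 b →
  HasCompactSupport b → (∀ y, Cub p c y → b y = 1) →
  ∀ (κ : Type) [Fintype κ] (P : PUX C (Fin (n + 1) ⊕ κ)),
  (∀ k, P.φ (Sum.inl k) = C.ex i (fun y => b y * tht k (crd p c y))) →
  (∀ π : Equiv.Perm (Fin (n + 1)), P.wt χ (fun m => (1, Sum.inl (π m))) =
    (Equiv.Perm.sign π : ℤ) * ((n + 1).factorial : ℝ)⁻¹) ∧
  ∀ k : Fin (n + 1) → Fin (n + 1), ¬ Function.Injective k →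
    P.wt χ (fun m => (1, Sum.inl (k m))) = 0

/-- BLOCK F5 (helper779) : partitions of unity with small supports. -/
def SpecBase : Prop := ∀ (n : ℕ) (M X Γ I : Type) [TopologicalSpace M] [TopologicalSpace X]
  [Group Γ] [MulAction Γ X] [Fintype I] [T2Space X] [T2Space M] (C : Cov n M X Γ I)
  (χ : I → E n → ℝ), 1 ≤ n → Part C χ → ∀ ε : ℝ, 0 < ε →
  ∃ (κ : Type) (_ : Fintype κ) (P : PUX C κ) (D : κ → I × E n), Adp C D P ε ∧
    ∀ i j (γ : Γ), γ • C.ψ (D i).1 (D i).2 = C.ψ (D j).1 (D j).2 → i = j ∧ γ = 1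

/-- BLOCK F6 (helper779) : partitions of unity adapted to the point `C.ψ i p`. -/
def SpecNear : Prop := ∀ (n : ℕ) (M X Γ I : Type) [TopologicalSpace M] [TopologicalSpace X]
  [Group Γ] [MulAction Γ X] [Fintype I] [T2Space X] [T2Space M] (C : Cov n M X Γ I)
  (χ : I → E n → ℝ), 1 ≤ n → Part C χ → ∀ (i : I) (p : E n), ‖p‖ < 1 →
  ∃ r : ℝ, 0 < r ∧ ∀ ε : ℝ, 0 < ε →
  ∃ (c δ : ℝ) (b : E n → ℝ) (κ : Type) (_ : Fintype κ) (P : PUX C (Fin (n + 1) ⊕ κ))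
    (D : Fin (n + 1) ⊕ κ → I × E n),
    0 < c ∧ 4 * c < r ∧ 2 * (c⁻¹ * δ) < 1 / n ∧ Adp C D P ε ∧
    ContDiff ℝ 1 b ∧ HasCompactSupport b ∧ (∀ y, Cub p c y → b y = 1) ∧
    (tsupport b ⊆ Metric.closedBall p (3 * c)) ∧
    (∀ k, P.φ (Sum.inl k) = C.ex i (fun y => b y * tht k (crd p c y))) ∧
    (∀ k, tsupport (P.φ (Sum.inl k)) ⊆ C.ψ i '' tsupport (fun y => b y * tht k (crd p c y))) ∧
    (∀ k, D (Sum.inl k) = (i, crdInv p c (vtx n k))) ∧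
    (∀ j (γ : Γ) (x : X) (y : E n), x ∈ tsupport (P.φ (Sum.inr j)) → y ∈ Metric.ball p r →
      γ • x = C.ψ i y → γ = 1 ∧ (D (Sum.inr j)).1 = i ∧ dist (D (Sum.inr j)).2 y ≤ δ ∧
        ¬ Cub p c y)

/-- BLOCK F7 (helper37) : case analysis, cf. B8b.lean (`SpecNear → SpecCaseX`). (`small C n` and
`unif C` of FundA.lean show that the common point `x` is in `C.ψ i '' ball p r`, if `ε` is small
enough; then all group elements are `1` and all base points are in the chart `i`, so that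
`SX_affine` and `B8b.case1b` apply.) -/
def SpecCaseX : Prop := ∀ (n : ℕ) (M X Γ I : Type) [TopologicalSpace M] [TopologicalSpace X]
  [Group Γ] [MulAction Γ X] [Fintype I] [T2Space X] [T2Space M] (C : Cov n M X Γ I)
  (χ : I → E n → ℝ), 1 ≤ n → Part C χ → ∀ (i : I) (p : E n), ‖p‖ < 1 → ∀ ε : ℝ, 0 < ε →
  ∃ (c : ℝ) (b : E n → ℝ) (κ : Type) (_ : Fintype κ) (P : PUX C (Fin (n + 1) ⊕ κ))
    (D : Fin (n + 1) ⊕ κ → I × E n),
    0 < c ∧ Adp C D P ε ∧ ContDiff ℝ 1 b ∧ HasCompactSupport b ∧ (∀ y, Cub p c y → b y = 1) ∧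
    (∀ k, P.φ (Sum.inl k) = C.ex i (fun y => b y * tht k (crd p c y))) ∧
    (∀ k, D (Sum.inl k) = (i, crdInv p c (vtx n k))) ∧
    ∀ (l : Fin (n + 1) → Γ × (Fin (n + 1) ⊕ κ)) (x : X), (∀ m, x ∈ tsupport (P.fn (l m))) →
      ∀ t, SX C n (lab D l) t = C.ψ i p → ∀ m, (l m).1 = 1 ∧ ∃ k, (l m).2 = Sum.inl k

/-- BLOCK F8 (helper467) : local structure of the cycle near `p`, cf. B8e.lean
(`SpecCaseX → SpecThetaX → SpecAltX → SpecLocX`). -/
def SpecLocX : Prop := ∀ (n : ℕ) (M X Γ I : Type) [TopologicalSpace M] [TopologicalSpace X]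
  [Group Γ] [MulAction Γ X] [Fintype I] [T2Space X] [T2Space M] (C : Cov n M X Γ I)
  (χ : I → E n → ℝ), 1 ≤ n → Part C χ → ∀ (p : M) (ε : ℝ), 0 < ε →
  ∃ (κ : Type) (_ : Fintype κ) (P : PUX C κ) (D : κ → I × E n), Adp C D P ε ∧
    ∃ (i : I) (w : E n) (A : Matrix (Fin n) (Fin n) ℝ) (s : Simp (n + 1) (E n))
      (s' : Simp (n + 1) M),
      0 < A.det ∧ (∀ t, s t = fun j => w j + ∑ i : Fin n, t i.succ * A i j) ∧
      (∀ t, s' t = C.π (C.ψ i (s t))) ∧ (∃ t, (∀ i, 0 < t i) ∧ s' t = p) ∧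
      ∃ (b : Chain (n + 2) M) (c : Chain (n + 1) M),
        (∀ σ ∈ c.support, ∀ t, σ t ≠ p) ∧ cy C χ D P = Finsupp.single s' 1 + bd (n + 1) b + c

/- helper779 : SpecFormCyc → SpecFormHom → SpecWts → SpecRepX → SpecBase → SpecLocX → SpecFundX -/

end Vale.Agent.P223.X.Fund
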