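import Vale.Agent.P223.X.SpecY
import Vale.Agent.P223.X.DefM
import Vale.Agent.P223.MT.Spec

/-! Phase 3: block statements, from the definitions of `DefM.lean` to coverings `Cov`. -/

namespace Vale.Agent.P223.X

open scoped ContDiff
open MeasureTheory Vale.Agent.P223.H

/-- BLOCK U1 : universal coverings (`X` = classes of paths starting at a base point) -/
def SpecUC : Prop := ∀ (n : ℕ) (M : Type) [TopologicalSpace M] [T2Space M] [ConnectedSpace M],
  (∀ m : M, ∃ β : E n → M, Topology.IsOpenEmbedding β ∧ m ∈ Set.range β) →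
  ∃ (X Γ : Type) (_ : TopologicalSpace X) (_ : Group Γ) (_ : MulAction Γ X) (π : C(X, M)),
    SimplyConnectedSpace X ∧ T2Space X ∧ (∀ γ : Γ, Continuous fun x : X => γ • x) ∧
    (∀ (γ : Γ) (x : X), γ • x = x → γ = 1) ∧ IsCoveringMap π ∧ Function.Surjective π ∧
    ∀ x y : X, π x = π y ↔ ∃ γ : Γ, γ • x = y

/-- the parametrisation of the cube with centre `a` and radius `r` -/
noncomputable def th {n : ℕ} (a : E n) (r : ℝ) (y : E n) : E n :=
  fun k => a k + r * (y k / √(1 + y k ^ 2))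

/-- its derivatives -/
noncomputable def dth (r s : ℝ) : ℝ := r / √(1 + s ^ 2) ^ 3

/-- A finite family of cubes in the charts, such that the smaller cubes cover `M`. -/
structure Box {n : ℕ} {M : Type} [TopologicalSpace M] (c : M → J.Ch n M) (I : Type) where
  a : I → M
  r : I → ℝ
  pos : ∀ i, 0 < r i
  sub : ∀ i y, th (c (a i) (a i)) (r i) y ∈ (c (a i)).target
  cover : ∀ p : M, ∃ (i : I) (y : E n), (∀ k, |y k| < 1) ∧
    (c (a i)).symm (th (c (a i) (a i)) (r i) y) = p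

section
variable {n : ℕ} {M : Type} [TopologicalSpace M] {c : M → J.Ch n M} {I : Type}

/-- coordinates in the chart `c (a i)` of the point with coordinates `y` in the box `i` -/
noncomputable def Box.x (B : Box c I) (i : I) (y : E n) : E n := th (c (B.a i) (B.a i)) (B.r i) y

/-- the point of `M` with coordinates `y` in the box `i` -/
noncomputable def Box.β (B : Box c I) (i : I) (y : E n) : M := (c (B.a i)).symm (B.x i y)

/-- the matrix of the metric `g` in the box `i` -/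
noncomputable def Box.G (B : Box c I) (g : M → J.Mtx n) (i : I) (y : E n) :
    Matrix (Fin n) (Fin n) ℝ :=
  fun k l => dth (B.r i) (y k) * dth (B.r i) (y l) * g (B.a i) (B.x i y) k l

/-- the derivative of `x i` at `y` -/
noncomputable def Box.D (B : Box c I) (i : I) (y w : E n) : E n :=
  fun k => dth (B.r i) (y k) * w k

end

/-- BLOCK U2a : boxes -/
def SpecBox : Prop := ∀ (n : ℕ) (M : Type) [TopologicalSpace M] [T2Space M] [CompactSpace M]
  (c : M → J.Ch n M), J.Atl c → ∃ (I : Type) (_ : Fintype I), Nonempty (Box c I)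

/-- BLOCK U2b : coverings -/
def SpecCov : Prop := ∀ (n : ℕ) (M X Γ I : Type) [TopologicalSpace M] [TopologicalSpace X]
  [Group Γ] [MulAction Γ X] [Fintype I] [T2Space M] [T2Space X] [CompactSpace M]
  (c : M → J.Ch n M) (B : Box c I) (π : C(X, M)), J.Atl c →
  (∀ γ : Γ, Continuous fun x : X => γ • x) → (∀ (γ : Γ) (x : X), γ • x = x → γ = 1) →
  IsCoveringMap π → Function.Surjective π → (∀ x y : X, π x = π y ↔ ∃ γ : Γ, γ • x = y) →
  ∃ C : Cov n M X Γ I, C.π = π ∧ ∀ i y, C.π (C.ψ i y) = B.β i y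

/-- BLOCK U2c : metrics -/
def SpecMetU : Prop := ∀ (n : ℕ) (M X Γ I : Type) [TopologicalSpace M] [TopologicalSpace X]
  [Group Γ] [MulAction Γ X] (c : M → J.Ch n M) (B : Box c I) (C : Cov n M X Γ I),
  J.Atl c → (∀ i y, C.π (C.ψ i y) = B.β i y) →
  (∀ g, J.Met c g → MetX C (B.G g)) ∧
  (∀ g, J.Fam c g → FamX C fun t => B.G (g t)) ∧
  (∀ g, J.RF c g → RFX C fun t => B.G (g t))

/-- BLOCK U2d : volume -/
def SpecVolU : Prop := ∀ (n : ℕ) (M X Γ I : Type) [TopologicalSpace M] [TopologicalSpace X]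
  [Group Γ] [MulAction Γ X] [MeasurableSpace M] [BorelSpace M] (c : M → J.Ch n M) (B : Box c I)
  (C : Cov n M X Γ I) (g : M → J.Mtx n) (μ : Measure M),
  J.Atl c → (∀ i y, C.π (C.ψ i y) = B.β i y) → J.Met c g → J.Vol c g μ → VolM C (B.G g) μ

/-- BLOCK U2e : naturality of the curvature -/
def SpecRicU : Prop := ∀ (n : ℕ) (M I : Type) [TopologicalSpace M] (c : M → J.Ch n M)
  (B : Box c I) (g : M → J.Mtx n), J.Atl c → J.Met c g →
  (∀ i (y v w : E n), J.bil (B.G g i y) v w =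
    J.bil (g (B.a i) (B.x i y)) (B.D i y v) (B.D i y w)) ∧
  (∀ i (y v w : E n), J.bil (ric (B.G g i) y) v w =
    J.bil (J.ric (g (B.a i)) (B.x i y)) (B.D i y v) (B.D i y w)) ∧
  (∀ i (y : E n), scal (B.G g i) y = J.scal (g (B.a i)) (B.x i y)) ∧
  (∀ a a' p, p ∈ (c a).source → p ∈ (c a').source →
    J.scal (g a) (c a p) = J.scal (g a') (c a' p))

/-- BLOCK U2f : minimisers (all metrics come from `M`) -/
def SpecMiniU : Prop := ∀ (n : ℕ) (M X Γ I : Type) [TopologicalSpace M] [TopologicalSpace X]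
  [Group Γ] [MulAction Γ X] [Fintype I] [MeasurableSpace M] [BorelSpace M] (c : M → J.Ch n M)
  (B : Box c I)
  (C : Cov n M X Γ I) (G : I → E n → Matrix (Fin n) (Fin n) ℝ) (μ : Measure M),
  J.Atl c → (∀ i y, C.π (C.ψ i y) = B.β i y) → MetX C G → VolM C G μ →
  ∃ g, J.Met c g ∧ B.G g = G ∧ J.Vol c g μ

/-- BLOCK U2g : simplicial volume -/
def SpecSvU : Prop := ∀ (n : ℕ) (M X Γ I : Type) [TopologicalSpace M] [TopologicalSpace X]
  [Group Γ] [MulAction Γ X] (c : M → J.Ch n M) (B : Box c I) (C : Cov n M X Γ I), J.Atl c →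
  (∀ i y, C.π (C.ψ i y) = B.β i y) → J.sv c ≤ svX C

/-- BLOCK U2h : conformal metrics -/
def SpecConfU : Prop := ∀ (n : ℕ) (M X Γ I : Type) [TopologicalSpace M] [TopologicalSpace X]
  [Group Γ] [MulAction Γ X] (c : M → J.Ch n M) (B : Box c I) (C : Cov n M X Γ I)
  (g : M → J.Mtx n) (f : M → ℝ), J.Atl c → (∀ i y, C.π (C.ψ i y) = B.β i y) → J.Met c g →
  J.Sm c f → J.Met c (J.conf c f g) ∧ C.Ck ∞ (fun x => f (C.π x)) ∧
  B.G (J.conf c f g) = fun i => confm (C.rep (fun x => f (C.π x)) 1 i) (B.G g i)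

/-- BLOCK U2i : infinitely many orbits -/
def SpecInf : Prop := ∀ (n : ℕ) (M X Γ I : Type) [TopologicalSpace M] [TopologicalSpace X]
  [Group Γ] [MulAction Γ X] [Nonempty X], Cov n M X Γ I → 1 ≤ n → ∃ s : ℕ → X, MT.Dist Γ s

end Vale.Agent.P223.X
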