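import Vale.Agent.P223.X.Cov

/-! Phase 3: block statements, Riemannian part. -/

namespace Vale.Agent.P223.X

open scoped ContDiff
open MeasureTheory Vale.Agent.P223.H

/-! ## local blocks on `ℝ^n` (no group) -/

/-- the average of `f` over the two maps `z ↦ z ± ε ξ(z) + ε² ζ(z)` -/
noncomputable def avg {n : ℕ} (ξ ζ : E n → E n) (ε : ℝ) (f : E n → ℝ) (z : E n) : ℝ :=
  (f (z + ε • ξ z + ε ^ 2 • ζ z) + f (z - ε • ξ z + ε ^ 2 • ζ z)) / 2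

/-- the generator of `avg` -/
noncomputable def gen {n : ℕ} (ξ ζ : E n → E n) (f : E n → ℝ) (z : E n) : ℝ :=
  iteratedDeriv 2 (fun r : ℝ => f (z + r • ξ z + r ^ 2 • ζ z)) 0

/-- BLOCK L1 (cf. QC.lean) -/
def SpecQCL : Prop := ∀ (n : ℕ) (J : Type) [Fintype J] (F : Frame n T1 J)
  (ξ ζ : ℝ → E n → E n) (T R : ℝ), ContDiff ℝ ∞ (fun p : ℝ × E n => ξ p.1 p.2) →
  ContDiff ℝ ∞ (fun p : ℝ × E n => ζ p.1 p.2) → (∀ t y, R ≤ ‖y‖ → ξ t y = 0 ∧ ζ t y = 0) →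
  ∃ c : ℝ, 0 < c ∧ ∀ t ε : ℝ, 0 ≤ t → t ≤ T → 0 < ε → ε ≤ 1 → ∀ f : E n → ℝ, ContDiff ℝ 4 f →
  ∀ y, jet F (avg (ξ t) (ζ t) ε f) y ≤ (1 + c * ε ^ 2) * avg (ξ t) (ζ t) ε (jet F f) y

/-- BLOCK L2 (cf. B3b.lean) -/
def SpecConsL : Prop := ∀ (n : ℕ) (J : Type) [Fintype J] (F : Frame n T1 J)
  (G : ℝ → E n → Matrix (Fin n) (Fin n) ℝ)
  (ξ ζ : ℝ → E n → E n) (T R : ℝ), (∀ i j, ContDiff ℝ ∞ (fun p : ℝ × E n => G p.1 p.2 i j)) →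
  (∀ t y, (G t y).PosDef) → ContDiff ℝ ∞ (fun p : ℝ × E n => ξ p.1 p.2) →
  ContDiff ℝ ∞ (fun p : ℝ × E n => ζ p.1 p.2) → (∀ t y, R ≤ ‖y‖ → ξ t y = 0 ∧ ζ t y = 0) →
  ∃ c : ℝ, 0 < c ∧ ∀ t ε : ℝ, 0 ≤ t → t ≤ T → 0 < ε → ε ≤ 1 → ∀ f : E n → ℝ, ContDiff ℝ 4 f →
  ∀ (y : E n) (B : ℝ), 0 ≤ B →
    (∀ r : ℝ, |r| ≤ ε → jet F f (y + r • ξ t y + r ^ 2 • ζ t y) ≤ B ^ 2) →
    |avg (ξ t) (ζ t) ε f y - f y - ε ^ 2 / 2 * gen (ξ t) (ζ t) f y| ≤ c * ε ^ 3 * B ∧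
    gradSq (G t) (fun z => avg (ξ t) (ζ t) ε f z - f z - ε ^ 2 / 2 * gen (ξ t) (ζ t) f z) y ≤
      (c * ε ^ 3 * B) ^ 2

/-- BLOCK L3 (cf. B3c.lean) -/
def SpecBddL : Prop := ∀ (n : ℕ) (J : Type) [Fintype J] (F : Frame n T1 J)
  (G : ℝ → E n → Matrix (Fin n) (Fin n) ℝ) (T R : ℝ),
  (∀ i j, ContDiff ℝ ∞ (fun p : ℝ × E n => G p.1 p.2 i j)) → (∀ t y, (G t y).PosDef) →
  ∃ c : ℝ, 0 < c ∧ ∀ t : ℝ, 0 ≤ t → t ≤ T → ∀ f : E n → ℝ, ContDiff ℝ 4 f → ∀ y, ‖y‖ ≤ R →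
    f y ^ 2 ≤ jet F f y ∧ gradSq (G t) f y ≤ c * jet F f y ∧
    gradSq (G t) (fun z => gradSq (G t) f z) y ≤ c * jet F f y ^ 2 ∧
    lap (G t) f y ^ 2 ≤ c * jet F f y ∧ gradSq (G t) (fun z => lap (G t) f z) y ≤ c * jet F f y

/-! ## global blocks -/

section
variable {n : ℕ} {M X Γ I : Type} [TopologicalSpace M] [TopologicalSpace X] [Group Γ]
    [MulAction Γ X]

/-- partitions of unity on `M`, subordinate to the charts -/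
structure Part (C : Cov n M X Γ I) [Fintype I] (χ : I → E n → ℝ) : Prop where
  smooth : ∀ i, ContDiff ℝ ∞ (χ i)
  nonneg : ∀ i y, 0 ≤ χ i y
  supp : ∀ i y, 2 ≤ ‖y‖ → χ i y = 0
  sum : ∀ x : X, ∑ i, ∑ᶠ γ : Γ, C.ex i (χ i) (γ • x) = 1

/-- weight functions -/
structure WtX [MeasurableSpace X] (C : Cov n M X Γ I) (G : I → E n → Matrix (Fin n) (Fin n) ℝ)
    (μ : Measure X) (W : X → ℝ) : Prop where
  smooth : C.Ck ∞ W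
  pos : ∀ x, 0 < W x
  sum : ∀ x, HasSum (fun γ : Γ => W (γ • x)) 1
  integ : Integrable W μ
  grad : ∃ c : ℝ, ∀ x, gsX C G W x ≤ (c * W x) ^ 2
  harnack : ∀ R : ℝ, ∃ c : ℝ, ∀ (γ : Γ) i y y', ‖y‖ ≤ R → ‖y'‖ ≤ R →
    W (γ • C.ψ i y) ≤ c * W (γ • C.ψ i y')

structure StX (C : Cov n M X Γ I) (G : I → E n → Matrix (Fin n) (Fin n) ℝ)
    (W : X → ℝ) (A : ℝ) (v : X → ℝ) : Prop where
  smooth : C.Ck 4 v
  lower : ∀ x, W x ≤ A * v x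
  upper : ∀ x, v x ≤ A * W x
  grad : ∀ x, gsX C G v x ≤ (A * W x) ^ 2
  grad2 : ∀ x, gsX C G (gsX C G v) x ≤ (A * W x ^ 2) ^ 2
  lap0 : ∀ x, |lapX C G v x| ≤ A * W x
  lap1 : ∀ x, gsX C G (lapX C G v) x ≤ (A * W x) ^ 2
  sum : ∀ x, HasSum (fun γ : Γ => v (γ • x)) 1

/-- the map `γ • ψ i y ↦ γ • ψ i (y + r ξ y + r² ζ y)`, extended by the identity -/
noncomputable def Cov.mv (C : Cov n M X Γ I) (i : I) (ξ ζ : E n → E n) (r : ℝ) (x : X) : X :=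
  open Classical in
  if h : ∃ (γ : Γ) (y : E n), γ • C.ψ i y = x then
    h.choose • C.ψ i (h.choose_spec.choose + r • ξ h.choose_spec.choose +
      r ^ 2 • ζ h.choose_spec.choose)
  else x

/-- finite families of such maps, depending on the time `t` -/
structure MpX (C : Cov n M X Γ I) (N : ℕ) where
  ch : Fin N → I
  ξ : Fin N → ℝ → E n → E n
  ζ : Fin N → ℝ → E n → E n
  ξ_smooth : ∀ a, ContDiff ℝ ∞ (fun p : ℝ × E n => ξ a p.1 p.2)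
  ζ_smooth : ∀ a, ContDiff ℝ ∞ (fun p : ℝ × E n => ζ a p.1 p.2)
  R : ℝ
  supp : ∀ a t y, R ≤ ‖y‖ → ξ a t y = 0 ∧ ζ a t y = 0

noncomputable def MpX.φ {C : Cov n M X Γ I} {N : ℕ} (S : MpX C N) (a : Fin N) (t r : ℝ) (x : X) :
    X := C.mv (S.ch a) (S.ξ a t) (S.ζ a t) r x

noncomputable def MpX.P {C : Cov n M X Γ I} {N : ℕ} (S : MpX C N) (t ε : ℝ) (f : X → ℝ)
    (x : X) : ℝ := (N : ℝ)⁻¹ * ∑ a, (f (S.φ a t ε x) + f (S.φ a t (-ε) x)) / 2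

/-- vector fields on `X` (`Z γ i` is the vector field in the chart `γ • ψ i`) -/
structure VfX (C : Cov n M X Γ I) (Z : Γ → I → E n → E n) : Prop where
  smooth : ∀ γ i, ContDiff ℝ 1 (Z γ i)
  inv : ∀ (γ γ' : Γ) i i' y y', γ • C.ψ i y = γ' • C.ψ i' y' →
    Z γ' i' y' = fderiv ℝ (C.tr i i' (γ'⁻¹ * γ)) y (Z γ i y)

/-- a function on `M`, from a `Γ`-invariant function on `X` -/
noncomputable def Cov.dn (C : Cov n M X Γ I) (F : X → ℝ) (m : M) : ℝ :=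
  F (Function.surjInv C.surj m)

end

/-- BLOCK X2 : partition of unity; BLOCK X3 : frames -/
def SpecPart : Prop := ∀ (n : ℕ) (M X Γ I : Type) [TopologicalSpace M] [TopologicalSpace X]
  [Group Γ] [MulAction Γ X] [Fintype I] [T2Space X] (C : Cov n M X Γ I), ∃ χ, Part C χ

def SpecFrX : Prop := ∀ (n : ℕ) (M X Γ I : Type) [TopologicalSpace M] [TopologicalSpace X]
  [Group Γ] [MulAction Γ X] [Fintype I] [T2Space X] (C : Cov n M X Γ I),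
  ∃ (J : Type) (_ : Fintype J), Nonempty (FrX C J)

/-- BLOCK X4 : measures. (a) `Γ` is countable; (b) existence; (c) change of variables;
(d) unfolding. -/
def SpecVol : Prop := ∀ (n : ℕ) (M X Γ I : Type) [TopologicalSpace M] [TopologicalSpace X]
  [Group Γ] [MulAction Γ X] [Fintype I] [T2Space X] [ConnectedSpace X] [T2Space M]
  [MeasurableSpace X] [BorelSpace X] [MeasurableSpace M] [BorelSpace M] (C : Cov n M X Γ I)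
  (G : I → E n → Matrix (Fin n) (Fin n) ℝ), MetX C G →
  Countable Γ ∧ (∃ μ : Measure X, VolX C G μ) ∧ (∃ ν : Measure M, VolM C G ν) ∧
  (∀ μ : Measure X, VolX C G μ →
    (∀ (γ : Γ) i (B : Set (E n)) (F : X → ENNReal), MeasurableSet B → Measurable F →
      ∫⁻ x in (fun y => γ • C.ψ i y) '' B, F x ∂μ =
        ∫⁻ y in B, F (γ • C.ψ i y) * ENNReal.ofReal (dens (G i) y)) ∧
    ∀ ν : Measure M, VolM C G ν → ∀ (F : X → ENNReal) (h : M → ENNReal), Measurable F →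
      (∀ x, h (C.π x) = ∑' γ : Γ, F (γ • x)) → ∫⁻ x, F x ∂μ = ∫⁻ m, h m ∂ν) ∧
  (∀ ν : Measure M, VolM C G ν → ∀ i (B : Set (E n)) (F : M → ENNReal), MeasurableSet B →
    Measurable F → ∫⁻ m in (fun y => C.π (C.ψ i y)) '' B, F m ∂ν =
        ∫⁻ y in B, F (C.π (C.ψ i y)) * ENNReal.ofReal (dens (G i) y))

/-- BLOCK X5 : weights -/
def SpecWtX : Prop := ∀ (n : ℕ) (M X Γ I : Type) [TopologicalSpace M] [TopologicalSpace X]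
  [Group Γ] [MulAction Γ X] [Fintype I] [T2Space X] [ConnectedSpace X] [T2Space M]
  [MeasurableSpace X] [BorelSpace X] (C : Cov n M X Γ I)
  (G : I → E n → Matrix (Fin n) (Fin n) ℝ) (J : Type) [Fintype J] (F : FrX C J) (μ : Measure X),
  MetX C G → VolX C G μ → ∃ (W U : X → ℝ) (c : ℝ), WtX C G μ W ∧ C.Ck ∞ U ∧ (∀ x, 0 < U x) ∧
    (∀ x, jetX F W x ≤ c * (W x) ^ 2) ∧ (∀ x, jetX F U x ≤ c * (U x) ^ 2) ∧
    (∀ x, U x ≤ c * (W x) ^ 2) ∧ (∀ x, (W x) ^ 2 ≤ c * U x)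

/-- BLOCK X6 : maps -/
def SpecMpX : Prop := ∀ (n : ℕ) (M X Γ I : Type) [TopologicalSpace M] [TopologicalSpace X]
  [Group Γ] [MulAction Γ X] [Fintype I] [T2Space X] [Nonempty X] (C : Cov n M X Γ I)
  (G : ℝ → I → E n → Matrix (Fin n) (Fin n) ℝ), FamX C G →
  ∃ (N : ℕ) (S : MpX C N), 0 < N ∧ ∀ (t : ℝ) (f : X → ℝ), C.Ck 2 f → ∀ x,
    ∑ a, iteratedDeriv 2 (fun r => f (S.φ a t r x)) 0 = 2 * lapX C (G t) f x

/-- BLOCK X7 : uniform estimates. (SpecQCL → SpecConsL → SpecBddL → SpecUniX) -/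
def SpecUniX : Prop := ∀ (n : ℕ) (M X Γ I : Type) [TopologicalSpace M] [TopologicalSpace X]
  [Group Γ] [MulAction Γ X] [Fintype I] [T2Space X] (C : Cov n M X Γ I)
  (G : ℝ → I → E n → Matrix (Fin n) (Fin n) ℝ) (J : Type) [Fintype J] (F : FrX C J) (N : ℕ)
  (S : MpX C N) (T : ℝ), FamX C G → 0 < N →
  (∀ (t : ℝ) (f : X → ℝ), C.Ck 2 f → ∀ x,
    ∑ a, iteratedDeriv 2 (fun r => f (S.φ a t r x)) 0 = 2 * lapX C (G t) f x) →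
  ∃ c : ℝ, 0 < c ∧ ∀ t : ℝ, 0 ≤ t → t ≤ T → ∀ f : X → ℝ, C.Ck 4 f →
  (∀ ε : ℝ, 0 < ε → ε ≤ 1 → C.Ck 4 (S.P t ε f) ∧ ∀ x,
    jetX F (S.P t ε f) x ≤ (1 + c * ε ^ 2) * S.P t ε (jetX F f) x) ∧
  (∀ ε : ℝ, 0 < ε → ε ≤ 1 → ∀ (x : X) (B : ℝ), 0 ≤ B →
    (∀ a (r : ℝ), |r| ≤ ε → jetX F f (S.φ a t r x) ≤ B ^ 2) →
    |S.P t ε f x - f x - ε ^ 2 * (N : ℝ)⁻¹ * lapX C (G t) f x| ≤ c * ε ^ 3 * B ∧
    gsX C (G t) (fun y => S.P t ε f y - f y - ε ^ 2 * (N : ℝ)⁻¹ * lapX C (G t) f y) x ≤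
      (c * ε ^ 3 * B) ^ 2) ∧
  (∀ x, f x ^ 2 ≤ jetX F f x ∧ gsX C (G t) f x ≤ c * jetX F f x ∧
    gsX C (G t) (gsX C (G t) f) x ≤ c * jetX F f x ^ 2 ∧
    lapX C (G t) f x ^ 2 ≤ c * jetX F f x ∧
    gsX C (G t) (lapX C (G t) f) x ≤ c * jetX F f x)

/-- BLOCK X8 : uniform equivalence of metrics, and the time Taylor estimate (cf. Equiv, TT) -/
def SpecEqX : Prop := ∀ (n : ℕ) (M X Γ I : Type) [TopologicalSpace M] [TopologicalSpace X]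
  [Group Γ] [MulAction Γ X] [Fintype I] [T2Space X] (C : Cov n M X Γ I)
  (G : ℝ → I → E n → Matrix (Fin n) (Fin n) ℝ), FamX C G → ∀ T : ℝ, 0 < T →
  ∃ L : ℝ, 0 < L ∧ ∀ t s : ℝ, 0 ≤ t → t ≤ T → 0 ≤ s → s ≤ T → ∀ i (y : E n),
  dens (G t i) y ≤ L * dens (G s i) y ∧
  (∀ ξ : E n, ∑ a, ∑ b, (G t i y)⁻¹ a b * ξ a * ξ b ≤ L * ∑ a, ∑ b, (G s i y)⁻¹ a b * ξ a * ξ b) ∧
  (∀ w : E n, ∑ a, ∑ b, G t i y a b * w a * w b ≤ L * ∑ a, ∑ b, G s i y a b * w a * w b)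

def SpecTTX : Prop := ∀ (n : ℕ) (M X Γ I : Type) [TopologicalSpace M] [TopologicalSpace X]
  [Group Γ] [MulAction Γ X] [Fintype I] [T2Space X] (C : Cov n M X Γ I)
  (G : ℝ → I → E n → Matrix (Fin n) (Fin n) ℝ), FamX C G → ∀ T a η A : ℝ, 0 < T → 1 ≤ a →
  0 < η → 0 < A → ∃ c : ℝ, 0 < c ∧ ∀ t s : ℝ, 0 ≤ t → t ≤ s → s ≤ T →
  ∀ (i : I) (y : E n) (W : ℝ) (v v' : E n → ℝ), 0 < W →
  DifferentiableAt ℝ v y → DifferentiableAt ℝ v' y →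
  W ≤ A * v y → W ≤ A * v' y → v y ≤ A * W → v' y ≤ A * W →
  gradSq (G t i) v y ≤ (A * W) ^ 2 → gradSq (G t i) v' y ≤ (A * W) ^ 2 →
  eD (G s i) a η v' y * dens (G s i) y - eD (G t i) a η v' y * dens (G t i) y ≤
    ((s - t) * tE (fun t => G t i) a η t v y + c * (s - t) * ((s - t) * W + |v' y - v y| +
      √(gradSq (G t i) (fun z => v' z - v z) y))) * dens (G t i) y

/-- BLOCK X9 : discrete heat flow. (SpecFrX → SpecWtX → SpecMpX → SpecUniX → SpecEqX → SpecVol →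
SpecFlX, cf. B3d.lean and 21b) -/
def SpecFlX : Prop := ∀ (n : ℕ) (M X Γ I : Type) [TopologicalSpace M] [TopologicalSpace X]
  [Group Γ] [MulAction Γ X] [Fintype I] [T2Space X] [ConnectedSpace X] [T2Space M]
  [MeasurableSpace X] [BorelSpace X] (C : Cov n M X Γ I)
  (G : ℝ → I → E n → Matrix (Fin n) (Fin n) ℝ), FamX C G →
  ∃ W : X → ℝ, (∀ t μ, 0 ≤ t → VolX C (G t) μ → WtX C (G t) μ W) ∧ ∀ T : ℝ, 0 < T →
  ∃ c₀ A : ℝ, 0 < c₀ ∧ 0 < A ∧ ∀ ε : ℝ, 0 < ε → ε ≤ 1 → ∃ v : ℕ → X → ℝ, v 0 = W ∧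
  (∀ k : ℕ, k * (c₀ * ε ^ 2) ≤ T → StX C (G (k * (c₀ * ε ^ 2))) W A (v k)) ∧
  (∀ k : ℕ, k * (c₀ * ε ^ 2) ≤ T → ∀ x,
    |v (k + 1) x - v k x - ε ^ 2 * c₀ * lapX C (G (k * (c₀ * ε ^ 2))) (v k) x| ≤
      A * ε ^ 3 * W x ∧
    gsX C (G (k * (c₀ * ε ^ 2)))
      (fun y => v (k + 1) y - v k y - ε ^ 2 * c₀ * lapX C (G (k * (c₀ * ε ^ 2))) (v k) y) x ≤
      (A * ε ^ 3 * W x) ^ 2)

/-- BLOCK X10 : integration by parts on `X` -/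
def SpecIBPX : Prop := ∀ (n : ℕ) (M X Γ I : Type) [TopologicalSpace M] [TopologicalSpace X]
  [Group Γ] [MulAction Γ X] [Fintype I] [T2Space X] [ConnectedSpace X] [T2Space M]
  [MeasurableSpace X] [BorelSpace X] (C : Cov n M X Γ I)
  (G : I → E n → Matrix (Fin n) (Fin n) ℝ) (μ : Measure X) (W : X → ℝ), MetX C G → VolX C G μ →
  WtX C G μ W → ∀ (Z : Γ → I → E n → E n) (c : ℝ) (f h : X → ℝ), VfX C Z →
  (∀ (γ : Γ) i y, ∑ a, ∑ b, G i y a b * Z γ i y a * Z γ i y b ≤ (c * W (γ • C.ψ i y)) ^ 2) →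
  Integrable f μ → Integrable h μ →
  (∀ (γ : Γ) i y, f (γ • C.ψ i y) ≤ h (γ • C.ψ i y) + divg (G i) (Z γ i) y) →
  ∫ x, f x ∂μ ≤ ∫ x, h x ∂μ

/-- BLOCK X11 : main analytic result. (SpecFlX → SpecEqX → SpecTTX → SpecIBPX → SpecVol →
SpecBochnerT → SpecTaylor → SpecATX, cf. B24.lean) -/
def SpecATX : Prop := ∀ (n : ℕ) (M X Γ I : Type) [TopologicalSpace M] [TopologicalSpace X]
  [Group Γ] [MulAction Γ X] [Fintype I] [T2Space X] [ConnectedSpace X] [T2Space M]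
  [MeasurableSpace X] [BorelSpace X] [MeasurableSpace M] [BorelSpace M] (C : Cov n M X Γ I)
  (G : ℝ → I → E n → Matrix (Fin n) (Fin n) ℝ), 4 ≤ n → FamX C G →
  ∀ ρ σ : ℝ → M → ℝ, Continuous (fun p : ℝ × M => ρ p.1 p.2) →
  Continuous (fun p : ℝ × M => σ p.1 p.2) →
  (∀ t, 0 ≤ t → ∀ i (y w : E n), -ρ t (C.π (C.ψ i y)) * ∑ a, ∑ b, w a * w b * G t i y a b ≤
    ∑ a, ∑ b, w a * w b * (ric (G t i) y a b + 1 / 2 * dtG (fun s => G s i) t y a b)) →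
  (∀ t, 0 ≤ t → ∀ i y, trh (fun s => G s i) t y ≤ σ t (C.π (C.ψ i y))) →
  ∀ ν : ℝ → Measure M, (∀ t, 0 ≤ t → VolM C (G t) (ν t)) → ∀ B : ENNReal,
  (∀ t, 0 ≤ t →
    ∫⁻ m, ENNReal.ofReal (max 0 (ρ t m + σ t m / ((n : ℝ) - 2)) ^ ((n : ℝ) / 2)) ∂(ν t) ≤ B) →
  ∀ δ : ℝ, 0 < δ →
  ∃ (t : ℝ) (μ : Measure X) (W v : X → ℝ) (A : ℝ), 0 ≤ t ∧ VolX C (G t) μ ∧
    WtX C (G t) μ W ∧ StX C (G t) W A v ∧
    ∫⁻ x, ENNReal.ofReal (v x * (gsX C (G t) v x / v x ^ 2) ^ ((n : ℝ) / 2)) ∂μ ≤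
      ENNReal.ofReal (((n : ℝ) - 2 + √n) ^ n) * B + ENNReal.ofReal δ

/-! ## integration on `M`, Ricci flow -/

/-- BLOCK X20 : the integral of a Laplacian vanishes -/
def SpecLapX : Prop := ∀ (n : ℕ) (M X Γ I : Type) [TopologicalSpace M] [TopologicalSpace X]
  [Group Γ] [MulAction Γ X] [Fintype I] [T2Space X] [ConnectedSpace X] [T2Space M]
  [MeasurableSpace M] [BorelSpace M] (C : Cov n M X Γ I)
  (G : I → E n → Matrix (Fin n) (Fin n) ℝ) (ν : Measure M), MetX C G → VolM C G ν →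
  ∀ f : X → ℝ, C.Ck 2 f → (∀ (γ : Γ) x, f (γ • x) = f x) →
  ∫ m, C.dn (lapX C G f) m ∂ν = 0

/-- scalar curvature, as a function on `M` -/
noncomputable def scM {n : ℕ} {M X Γ I : Type} [TopologicalSpace M] [TopologicalSpace X] [Group Γ]
    [MulAction Γ X] (C : Cov n M X Γ I) (G : I → E n → Matrix (Fin n) (Fin n) ℝ) : M → ℝ :=
  C.dn (C.gl fun _ i y => scal (G i) y)

/-- the integral of `(Scal⁻)^p` -/
noncomputable def IS {n : ℕ} {M X Γ I : Type} [TopologicalSpace M] [TopologicalSpace X] [Group Γ]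
    [MulAction Γ X] [MeasurableSpace M] (C : Cov n M X Γ I)
    (G : I → E n → Matrix (Fin n) (Fin n) ℝ) (ν : Measure M) (p : ℝ) : ENNReal :=
  ∫⁻ m, ENNReal.ofReal (max 0 (-scM C G m) ^ p) ∂ν

/-- BLOCK X21 : monotonicity under the Ricci flow (cf. B25c.lean) -/
def SpecMonoX : Prop := ∀ (n : ℕ) (M X Γ I : Type) [TopologicalSpace M] [TopologicalSpace X]
  [Group Γ] [MulAction Γ X] [Fintype I] [T2Space X] [ConnectedSpace X] [T2Space M]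
  [MeasurableSpace M] [BorelSpace M] (C : Cov n M X Γ I)
  (G : ℝ → I → E n → Matrix (Fin n) (Fin n) ℝ) (ν : ℝ → Measure M) (t₀ : ℝ), 3 ≤ n →
  FamX C G → (∀ t, t₀ ≤ t → VolM C (G t) (ν t)) →
  (∀ t, t₀ < t → ∀ i y a b, dtG (fun s => G s i) t y a b = -2 * ric (G t i) y a b) →
  ∀ s t : ℝ, t₀ ≤ s → s ≤ t → IS C (G t) (ν t) ((n : ℝ) / 2) ≤ IS C (G s) (ν s) ((n : ℝ) / 2)

/-- Ricci flow on `[0, ∞)` -/
structure RFX {n : ℕ} {M X Γ I : Type} [TopologicalSpace M] [TopologicalSpace X] [Group Γ]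
    [MulAction Γ X] (C : Cov n M X Γ I) (G : ℝ → I → E n → Matrix (Fin n) (Fin n) ℝ) :
    Prop where
  smooth : ∀ i a b, ContDiffOn ℝ ∞ (fun p : ℝ × E n => G p.1 i p.2 a b) (Set.Ici 0 ×ˢ Set.univ)
  met : ∀ t, 0 ≤ t → MetX C (G t)
  flow : ∀ t, 0 < t → ∀ i y a b, HasDerivAt (fun s => G s i y a b) (-2 * ric (G t i) y a b) t

/-- BLOCK X22 : extension (cf. Ext.lean) and continuity at `0` (cf. Zero.lean) -/
def SpecExtX : Prop := ∀ (n : ℕ) (M X Γ I : Type) [TopologicalSpace M] [TopologicalSpace X]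
  [Group Γ] [MulAction Γ X] (C : Cov n M X Γ I)
  (G : ℝ → I → E n → Matrix (Fin n) (Fin n) ℝ), RFX C G → ∀ t₀ : ℝ, 0 < t₀ →
  ∃ G' : ℝ → I → E n → Matrix (Fin n) (Fin n) ℝ, FamX C G' ∧ ∀ t, t₀ ≤ t → G' t = G t

def SpecZeroX : Prop := ∀ (n : ℕ) (M X Γ I : Type) [TopologicalSpace M] [TopologicalSpace X]
  [Group Γ] [MulAction Γ X] [Fintype I] [T2Space X] [ConnectedSpace X] [T2Space M]
  [MeasurableSpace M] [BorelSpace M] (C : Cov n M X Γ I)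
  (G : ℝ → I → E n → Matrix (Fin n) (Fin n) ℝ) (ν : ℝ → Measure M), RFX C G →
  (∀ t, 0 ≤ t → VolM C (G t) (ν t)) → ∀ p : ℝ, 0 ≤ p → ∀ δ : ENNReal, 0 < δ →
  ∃ t₁ : ℝ, 0 < t₁ ∧ ∀ t, 0 ≤ t → t < t₁ → IS C (G t) (ν t) p ≤ IS C (G 0) (ν 0) p + δ

/-- BLOCK X23 : minimisers (cf. Min.lean) -/
def SpecMinX : Prop := ∀ (n : ℕ) (M X Γ I : Type) [TopologicalSpace M] [TopologicalSpace X]
  [Group Γ] [MulAction Γ X] [Fintype I] [T2Space X] [ConnectedSpace X] [T2Space M]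
  [MeasurableSpace M] [BorelSpace M] (C : Cov n M X Γ I)
  (G : I → E n → Matrix (Fin n) (Fin n) ℝ) (ν : Measure M), 4 ≤ n → MetX C G → VolM C G ν →
  (∀ G' ν', MetX C G' → VolM C G' ν' → IS C G ν ((n : ℝ) / 2) ≤ IS C G' ν' ((n : ℝ) / 2)) →
  IS C G ν ((n : ℝ) / 2) ≠ 0 →
  ∃ s : ℝ, 0 < s ∧ ∀ i y, scal (G i) y = -s ∧ ∀ a b, ric (G i) y a b = -(s / n) * G i y a b

/-- BLOCK X24 : conformal classes (cf. Conf.lean) -/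
def SpecConfX : Prop := ∀ (n : ℕ) (M X Γ I : Type) [TopologicalSpace M] [TopologicalSpace X]
  [Group Γ] [MulAction Γ X] [Fintype I] [T2Space X] [ConnectedSpace X] [T2Space M]
  [MeasurableSpace M] [BorelSpace M] (C : Cov n M X Γ I)
  (G : I → E n → Matrix (Fin n) (Fin n) ℝ) (ν ν' : Measure M) (s : ℝ) (f : X → ℝ), 3 ≤ n →
  MetX C G → VolM C G ν → 0 < s → (∀ i y, scal (G i) y ≤ -s) → C.Ck ∞ f →
  (∀ (γ : Γ) x, f (γ • x) = f x) → VolM C (fun i => confm (C.rep f 1 i) (G i)) ν' →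
  ENNReal.ofReal (s ^ ((n : ℝ) / 2)) * ν Set.univ ≤
    IS C (fun i => confm (C.rep f 1 i) (G i)) ν' ((n : ℝ) / 2)

end Vale.Agent.P223.X
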