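import Vale.Agent.P223.X.SpecX

/-! Phase 3: block statements, weights of simplices and fundamental cycle. -/

namespace Vale.Agent.P223.X

open scoped ContDiff
open MeasureTheory Vale.Agent.P223.H

section
variable {n : ℕ} {M X Γ I : Type} [TopologicalSpace M] [TopologicalSpace X] [Group Γ]
    [MulAction Γ X]

/-- Equivariant partitions of unity (not necessarily nonnegative) of class `C¹`. -/
structure PUX (C : Cov n M X Γ I) (ι : Type) [Fintype ι] where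
  φ : ι → X → ℝ
  smooth : ∀ i, C.Ck 1 (φ i)
  supp : ∀ i, HasCompactSupport (φ i)
  sum : ∀ x, ∑ i, ∑ᶠ γ : Γ, φ i (γ⁻¹ • x) = 1

/-- the function with index `(γ, i)` -/
def PUX.fn {C : Cov n M X Γ I} {ι : Type} [Fintype ι] (P : PUX C ι) (l : Γ × ι) (x : X) : ℝ :=
  P.φ l.2 (l.1⁻¹ • x)

/-- `∫ f₀ df₁ ∧ … ∧ dfₙ` over `X` (with the help of a partition of unity `χ`) -/
noncomputable def wtX (C : Cov n M X Γ I) [Fintype I] (χ : I → E n → ℝ)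
    (f : Fin (n + 1) → X → ℝ) : ℝ :=
  ∑ i, ∑ᶠ γ : Γ, ∫ y, χ i y * (C.rep (f 0) γ i y * jdet (fun k => C.rep (f k.succ) γ i) y)

/-- weights -/
noncomputable def PUX.wt {C : Cov n M X Γ I} [Fintype I] {ι : Type} [Fintype ι] (P : PUX C ι)
    (χ : I → E n → ℝ) (l : Fin (n + 1) → Γ × ι) : ℝ := wtX C χ (fun k => P.fn (l k))

/-- `z` represents the fundamental class of `M`. -/
def IsFundX (C : Cov n M X Γ I) (z : Chain (n + 1) M) : Prop :=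
  bd n z = 0 ∧ ∀ p : M, ∃ (i : I) (w : E n) (A : Matrix (Fin n) (Fin n) ℝ)
    (s : Simp (n + 1) (E n)) (s' : Simp (n + 1) M),
    0 < A.det ∧ (∀ t, s t = fun j => w j + ∑ i : Fin n, t i.succ * A i j) ∧
    (∀ t, s' t = C.π (C.ψ i (s t))) ∧ (∃ t, (∀ i, 0 < t i) ∧ s' t = p) ∧
    ∃ (b : Chain (n + 2) M) (c : Chain (n + 1) M),
      (∀ σ ∈ c.support, ∀ t, σ t ≠ p) ∧ z = Finsupp.single s' 1 + bd (n + 1) b + c

/-- simplicial volume -/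
noncomputable def svX (C : Cov n M X Γ I) : ENNReal :=
  ⨅ (z : Chain (n + 1) M) (_ : IsFundX C z), ENNReal.ofReal (l1 z)

end

/-- BLOCK Y1 : Stokes -/
def SpecStokesX : Prop := ∀ (n : ℕ) (M X Γ I : Type) [TopologicalSpace M] [TopologicalSpace X]
  [Group Γ] [MulAction Γ X] [Fintype I] [T2Space X] (C : Cov n M X Γ I) (χ : I → E n → ℝ)
  (f : Fin n → X → ℝ), 1 ≤ n → Part C χ → (∀ k, C.Ck 1 (f k)) → (∀ k, HasCompactSupport (f k)) →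
  ∑ i, ∑ᶠ γ : Γ, ∫ y, χ i y * jdet (fun k => C.rep (f k) γ i) y = 0

/-- BLOCK Y2a : the weights form a formal cycle modulo `Γ` -/
def SpecFormCyc : Prop := ∀ (n : ℕ) (M X Γ I : Type) [TopologicalSpace M] [TopologicalSpace X]
  [Group Γ] [MulAction Γ X] [Fintype I] [T2Space X] (C : Cov n M X Γ I) (χ : I → E n → ℝ),
  1 ≤ n → Part C χ → ∀ (ι : Type) [Fintype ι] (P : PUX C ι) (H : (Fin n → Γ × ι) → ℝ),
  (∀ (γ : Γ) l, H (fun k => (γ * (l k).1, (l k).2)) = H l) →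
  ∑ᶠ l ∈ {l : Fin (n + 1) → Γ × ι | (l 0).1 = 1},
    P.wt χ l * ∑ k : Fin (n + 1), (-1 : ℝ) ^ (k : ℕ) * H (l ∘ k.succAbove) = 0

/-- BLOCK Y2 : formal version of SpecCyc -/
def SpecFormX : Prop := ∀ (n : ℕ) (M X Γ I : Type) [TopologicalSpace M] [TopologicalSpace X]
  [Group Γ] [MulAction Γ X] [Fintype I] [T2Space X] (C : Cov n M X Γ I) (χ : I → E n → ℝ)
  (F : (Fin (n + 1) → Γ) → ℝ), 1 ≤ n → Part C χ →
  (∀ (γ : Γ) g, F (fun k => γ * g k) = F g) →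
  (∀ g : Fin (n + 2) → Γ, ∑ k : Fin (n + 2), (-1 : ℝ) ^ (k : ℕ) * F (g ∘ k.succAbove) = 0) →
  ∀ (ι ι' : Type) [Fintype ι] [Fintype ι'] (P : PUX C ι) (P' : PUX C ι'),
  ∑ᶠ l ∈ {l : Fin (n + 1) → Γ × ι | (l 0).1 = 1}, P.wt χ l * F (fun k => (l k).1) =
    ∑ᶠ l ∈ {l : Fin (n + 1) → Γ × ι' | (l 0).1 = 1}, P'.wt χ l * F (fun k => (l k).1)

/-- BLOCK Y3 : norm estimate (cf. Norm.lean) -/
def SpecNormX : Prop := ∀ (n : ℕ) (M X Γ I : Type) [TopologicalSpace M] [TopologicalSpace X]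
  [Group Γ] [MulAction Γ X] [Fintype I] [T2Space X] [ConnectedSpace X] [T2Space M]
  [MeasurableSpace M] [BorelSpace M] (C : Cov n M X Γ I) (χ : I → E n → ℝ)
  (G : I → E n → Matrix (Fin n) (Fin n) ℝ) (ν : Measure M), 1 ≤ n → Part C χ → MetX C G →
  VolM C G ν → ∀ P : PUX C Unit, (∀ x, 0 ≤ P.φ () x) →
  ENNReal.ofReal (∑ᶠ l ∈ {l : Fin (n + 1) → Γ × Unit | (l 0).1 = 1}, |P.wt χ l|) ≤
    ∫⁻ m, ENNReal.ofReal (C.dn (fun x => ∑ᶠ γ : Γ, √(gsX C G (P.φ ()) (γ • x))) m ^ n) ∂ν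

/-- BLOCK Y4 : truncation (cf. B9.lean) -/
def SpecTruncX : Prop := ∀ (n : ℕ) (M X Γ I : Type) [TopologicalSpace M] [TopologicalSpace X]
  [Group Γ] [MulAction Γ X] [Fintype I] [T2Space X] [ConnectedSpace X] [T2Space M]
  [MeasurableSpace X] [BorelSpace X] [MeasurableSpace M] [BorelSpace M] (C : Cov n M X Γ I)
  (G : I → E n → Matrix (Fin n) (Fin n) ℝ) (μ : Measure X) (ν : Measure M) (W v : X → ℝ) (A : ℝ),
  1 ≤ n → MetX C G → VolX C G μ → VolM C G ν → WtX C G μ W → StX C G W A v → ∀ δ : ℝ, 0 < δ →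
  ∃ P : PUX C Unit, (∀ x, 0 ≤ P.φ () x) ∧
    ∫⁻ m, ENNReal.ofReal (C.dn (fun x => ∑ᶠ γ : Γ, √(gsX C G (P.φ ()) (γ • x))) m ^ n) ∂ν ≤
      ∫⁻ x, ENNReal.ofReal (v x * (gsX C G v x / v x ^ 2) ^ ((n : ℝ) / 2)) ∂μ + ENNReal.ofReal δ

/-- BLOCK Y5 : a fundamental cycle made of small simplices -/
def SpecFundX : Prop := ∀ (n : ℕ) (M X Γ I : Type) [TopologicalSpace M] [TopologicalSpace X]
  [Group Γ] [MulAction Γ X] [Fintype I] [T2Space X] [ConnectedSpace X] [T2Space M]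
  (C : Cov n M X Γ I) (χ : I → E n → ℝ), 1 ≤ n → Part C χ →
  ∃ (ι : Type) (_ : Fintype ι) (P : PUX C ι) (q : ι → X)
    (S : (Fin (n + 1) → Γ × ι) → Simp (n + 1) X),
    (∀ i j (γ : Γ), γ • q i = q j → i = j ∧ γ = 1) ∧
    (∀ l, P.wt χ l ≠ 0 → Function.Injective fun k => (l k).2) ∧
    (∀ l, P.wt χ l ≠ 0 → ∀ k, S l (stdSimplex.vertex k) = (l k).1 • q (l k).2) ∧
    IsFundX C (∑ᶠ l ∈ {l : Fin (n + 1) → Γ × ι | (l 0).1 = 1},
      Finsupp.single (C.π.comp (S l)) (P.wt χ l))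

end Vale.Agent.P223.X
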