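import Vale.Agent.P223.X.DensX
import Mathlib.Analysis.Calculus.BumpFunction.FiniteDimension

/-! Phase 3, block Y1 : Stokes. -/

namespace Vale.Agent.P223.X.StokesX

open scoped ContDiff Topology
open MeasureTheory Vale.Agent.P223.H Vale.Agent.P223.X Vale.Agent.P223.X.DensX Set Filter Function

section loc
variable {n : ℕ}

theorem jdet_sum {Λ : Type} (T : Finset Λ) (f : Fin n → E n → ℝ) (i : Fin n)
    (g : Λ → E n → ℝ) (x : E n) (hg : ∀ a ∈ T, DifferentiableAt ℝ (g a) x) :
    jdet (update f i fun y => ∑ a ∈ T, g a y) x = ∑ a ∈ T, jdet (update f i (g a)) x := by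
  classical
  set A : Matrix (Fin n) (Fin n) ℝ := Matrix.of fun i j => H.pd j (f i) x with hA
  have h1 : ∀ h : E n → ℝ, jdet (update f i h) x =
      (Matrix.updateRow A i fun j => H.pd j h x).det := by
    intro h
    rw [jdet]
    congr 1
    ext a b
    rw [Matrix.of_apply, Matrix.updateRow_apply]
    by_cases hab : a = i
    · rw [hab, update_self, if_pos rfl]
    · rw [update_of_ne hab, if_neg hab, hA, Matrix.of_apply]
  have h2 : (fun j => H.pd j (fun y => ∑ a ∈ T, g a y) x) = ∑ a ∈ T, fun j => H.pd j (g a) x := by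
    ext j
    rw [Finset.sum_apply]
    simp only [H.pd]
    rw [fderiv_fun_sum hg]
    simp
  have h3 : ∀ v : Fin n → ℝ, (Matrix.updateRow A i v).det =
      (Matrix.detRowAlternating (n := Fin n) (R := ℝ)).toMultilinearMap.toLinearMap A i v :=
    fun v => rfl
  simp only [h1]
  rw [h2, h3, map_sum]
  rfl

/-- Stokes on `ℝ^n`, where only one of the functions is compactly supported. -/
theorem stokes_loc (f : Fin n → E n → ℝ) (hf : ∀ k, ContDiff ℝ 1 (f k)) (k₀ : Fin n)
    (hc : HasCompactSupport (f k₀)) : ∫ x, jdet f x = 0 := by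
  obtain ⟨R, hR⟩ := hc.isBounded.subset_ball (0 : E n)
  set R' : ℝ := max R 1 with hR'
  have hR0 : 0 < R' := lt_of_lt_of_le one_pos (le_max_right _ _)
  set c : ContDiffBump (0 : E n) := ⟨R', R' + 1, hR0, by linarith⟩ with hcd
  have h1 : ∀ x, jdet f x = jdet (fun k y => c y * f k y) x := by
    intro x
    by_cases hx : x ∈ tsupport (f k₀)
    · refine jdet_congr fun k => ?_
      have h2 : x ∈ Metric.ball (0 : E n) R' :=
        Metric.ball_subset_ball (le_max_left _ _) (hR hx)
      filter_upwards [Metric.isOpen_ball.mem_nhds h2] with y hy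
      rw [c.one_of_mem_closedBall (Metric.ball_subset_closedBall hy), one_mul]
    · have h2 := notMem_tsupport_iff_eventuallyEq.1 hx
      rw [B6b.jdet_zero (i := k₀) (f := f) (by rw [h2.fderiv_eq]; simp),
        B6b.jdet_zero (i := k₀) (f := fun k y => c y * f k y)]
      have h3 : (fun y => c y * f k₀ y) =ᶠ[𝓝 x] fun _ => 0 := by
        filter_upwards [h2] with y hy
        rw [hy]
        exact mul_zero _
      rw [h3.fderiv_eq]
      simp
  simp only [h1]
  refine Stokes.main n _ (by have := k₀.2; omega) (fun k => ?_) fun k => ?_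
  · have h4 : ContDiff ℝ 1 c := (c.contDiff (n := 1))
    exact h4.mul (hf k)
  · exact c.hasCompactSupport.mul_right

end loc

section
variable {n : ℕ} {M X Γ I : Type} [TopologicalSpace M] [TopologicalSpace X] [Group Γ]
    [MulAction Γ X] {C : Cov n M X Γ I}

theorem rep_update {m : ℕ} (f : Fin m → X → ℝ) (k : Fin m) (g : X → ℝ) (γ : Γ) (i : I) :
    (fun a => C.rep (update f k g a) γ i) = update (fun a => C.rep (f a) γ i) k (C.rep g γ i) := by
  funext a
  by_cases h : a = k
  · rw [h, update_self, update_self]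
  · rw [update_of_ne h, update_of_ne h]

theorem continuous_jdet {f : Fin n → X → ℝ} (hf : ∀ k, C.Ck 1 (f k)) (γ : Γ) (i : I) :
    Continuous fun y => jdet (fun k => C.rep (f k) γ i) y :=
  B6b.continuous_jdet fun k => hf k γ i

/-- `jdet` vanishes where one of the functions vanishes nearby. -/
theorem jdet_rep_zero {f : Fin n → X → ℝ} (k : Fin n) {γ : Γ} {i : I} {y : E n}
    (h : γ • C.ψ i y ∉ tsupport (f k)) : jdet (fun k => C.rep (f k) γ i) y = 0 := by
  have h1 := notMem_tsupport_iff_eventuallyEq.1 h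
  have hc : Continuous fun y => γ • C.ψ i y := (C.cont γ).comp (C.emb i).continuous
  have h2 : C.rep (f k) γ i =ᶠ[𝓝 y] fun _ => 0 := (hc.tendsto y).eventually h1
  exact B6b.jdet_zero (i := k) (by rw [h2.fderiv_eq]; simp)

theorem Ck_mul {k : WithTop ℕ∞} {f g : X → ℝ} (hf : C.Ck k f) (hg : C.Ck k g) :
    C.Ck k (fun x => f x * g x) := fun γ i => (hf γ i).mul (hg γ i)

theorem Ck_update {k : WithTop ℕ∞} {m : ℕ} {f : Fin m → X → ℝ} (hf : ∀ a, C.Ck k (f a))
    (b : Fin m) {g : X → ℝ} (hg : C.Ck k g) (a : Fin m) : C.Ck k (update f b g a) := by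
  by_cases h : a = b
  · rw [h, update_self]; exact hg
  · rw [update_of_ne h]; exact hf a

variable [Fintype I] {χ : I → E n → ℝ}

omit [Fintype I] in
theorem van_jdet {f : Fin n → X → ℝ} (k : Fin n) :
    Van C (fun γ i y => jdet (fun k => C.rep (f k) γ i) y) (tsupport (f k)) :=
  fun _ _ _ h => jdet_rep_zero k h

theorem stokes [T2Space X] (hχ : Part C χ) (f : Fin n → X → ℝ) (hf : ∀ k, C.Ck 1 (f k))
    (k₀ : Fin n) (hc : HasCompactSupport (f k₀)) :
    Intg C χ (fun γ i y => jdet (fun k => C.rep (f k) γ i) y) = 0 := by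
  classical
  obtain ⟨T, hT⟩ := fin_T C hc
  set S : Finset (I × Γ) := Finset.univ ×ˢ T with hS
  -- the pieces
  set g : I × Γ → X → ℝ := fun a x => uu C χ a.1 a.2 x * f k₀ x with hg
  have hgC : ∀ a, C.Ck 1 (g a) := fun a =>
    Ck_mul (fun γ i => (Ck_uu hχ a.1 a.2 γ i).of_le (by simp)) (hf k₀)
  have hsum : f k₀ = fun x => ∑ a ∈ S, g a x := by
    funext x
    simp only [hg, ← Finset.sum_mul]
    by_cases hx : x ∈ tsupport (f k₀)
    · rw [hS, Finset.sum_product, uu_sum hχ hT hx, one_mul]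
    · rw [image_eq_zero_of_notMem_tsupport hx, mul_zero]
  set w : I × Γ → Γ → I → E n → ℝ := fun a γ i y =>
    jdet (fun k => C.rep (update f k₀ (g a) k) γ i) y with hw
  have h1 : (fun γ i y => jdet (fun k => C.rep (f k) γ i) y) =
      fun γ i y => ∑ a ∈ S, w a γ i y := by
    funext γ i y
    have e : (fun k => C.rep (f k) γ i) = update (fun k => C.rep (f k) γ i) k₀
        fun y => ∑ a ∈ S, C.rep (g a) γ i y := by
      funext k
      by_cases hk : k = k₀
      · rw [hk, update_self]
        conv_lhs => rw [hsum]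
        rfl
      · rw [update_of_ne hk]
    rw [e, jdet_sum S _ k₀ _ y fun a _ => (hgC a γ i).differentiable one_ne_zero y]
    refine Finset.sum_congr rfl fun a _ => ?_
    show _ = jdet (fun k => C.rep (update f k₀ (g a) k) γ i) y
    rw [rep_update]
  have hK : ∀ a : I × Γ, tsupport (update f k₀ (g a) k₀) ⊆
      (fun y => a.2 • C.ψ a.1 y) '' Metric.closedBall (0 : E n) 2 := by
    intro a
    rw [update_self]
    refine closure_minimal (fun x hx => ?_) (isCompact_ball C a.2 a.1 2).isClosed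
    exact uu_supp hχ (left_ne_zero_of_mul hx)
  have hv : ∀ a, Van C (w a) ((fun y => a.2 • C.ψ a.1 y) '' Metric.closedBall (0 : E n) 2) :=
    fun a => (van_jdet (f := update f k₀ (g a)) k₀).mono (hK a)
  have hcont : ∀ a γ i, Continuous (w a γ i) := fun a γ i =>
    continuous_jdet (Ck_update hf k₀ (hgC a)) γ i
  rw [h1, (intg_sum hχ S w fun a _ => ⟨hcont a, _, isCompact_ball C a.2 a.1 2, hv a⟩).2]
  refine Finset.sum_eq_zero fun a _ => ?_
  rw [intg_chart hχ (hcont a) (dn_jdet (Ck_update hf k₀ (hgC a))) (isCompact_ball C a.2 a.1 2)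
    (hv a) a.2 a.1 (image_subset_range _ _)]
  refine stokes_loc _ (fun k => Ck_update hf k₀ (hgC a) k a.2 a.1) k₀ ?_
  rw [update_self]
  refine HasCompactSupport.intro (isCompact_closedBall (0 : E n) 2) fun y hy => ?_
  by_contra hne
  have h3 : uu C χ a.1 a.2 (a.2 • C.ψ a.1 y) ≠ 0 := left_ne_zero_of_mul hne
  obtain ⟨z, hz, hzy⟩ := uu_supp hχ h3
  exact hy (inj_chart C a.2 a.1 hzy ▸ hz)

end

/-- Block Y1. -/
theorem main : SpecStokesX := by
  intro n M X Γ I _ _ _ _ _ _ C χ f hn hχ hf hc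
  exact stokes hχ f hf ⟨0, hn⟩ (hc _)

end Vale.Agent.P223.X.StokesX
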