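import Vale.Agent.P223.X.FormW
import Vale.Agent.P223.H.B8c

/-! Phase 3 : the weights of the special functions. -/

namespace Vale.Agent.P223.X.ThetaX

open scoped ContDiff Topology
open MeasureTheory Vale.Agent.P223.H Vale.Agent.P223.X Vale.Agent.P223.X.WtX Set Function

section
variable {n : ℕ} {M X Γ I : Type} [TopologicalSpace M] [TopologicalSpace X] [Group Γ]
    [MulAction Γ X] {C : Cov n M X Γ I}

theorem tsupport_ex [T2Space X] (i : I) {h : E n → ℝ} (hc : HasCompactSupport h) :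
    tsupport (C.ex i h) ⊆ C.ψ i '' tsupport h := by
  refine closure_minimal (fun x hx => ?_) (hc.isCompact.image (C.emb i).continuous).isClosed
  unfold Cov.ex at hx
  by_cases h1 : x ∈ Set.range (C.ψ i)
  · obtain ⟨y, rfl⟩ := h1
    refine ⟨y, subset_tsupport _ ?_, rfl⟩
    have h2 := hx
    simp only [Function.mem_support, mem_range_self, if_true, co_ψ] at h2
    exact h2
  · simp [h1] at hx

theorem rep_ex (i : I) (h : E n → ℝ) : C.rep (C.ex i h) 1 i = h := by
  funext y
  rw [Cov.rep, one_smul, ex_ψ]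

variable [Fintype I] [T2Space X] {χ : I → E n → ℝ}

/-- The weights of functions in one chart. -/
theorem wtX_ex (hχ : Part C χ) (i : I) (f : Fin (n + 1) → E n → ℝ)
    (hf : ∀ k, ContDiff ℝ 1 (f k)) (hc : ∀ k, HasCompactSupport (f k)) :
    wtX C χ (fun k => C.ex i (f k)) = H.wt f := by
  have h0 : tsupport (C.ex i (f 0)) ⊆ C.ψ i '' tsupport (f 0) := tsupport_ex i (hc 0)
  have h1 := FormW.wtX_loc hχ (fun k => C.ex i (f k)) (fun k => Ck_ex C (hf k) (hc k)) 0
    (((hc 0).isCompact.image (C.emb i).continuous).of_isClosed_subset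
      (isClosed_tsupport _) h0) 1 i (by
        refine h0.trans ?_
        rintro _ ⟨y, _, rfl⟩
        exact ⟨y, one_smul _ _⟩)
  rw [h1]
  simp only [rep_ex]

end

/-- The weights of the special functions. -/
theorem theta (n : ℕ) (M X Γ I : Type) [TopologicalSpace M] [TopologicalSpace X]
    [Group Γ] [MulAction Γ X] [Fintype I] [T2Space X] (C : Cov n M X Γ I) (χ : I → E n → ℝ)
    (hn : 1 ≤ n) (hχ : Part C χ) (i : I) (p : E n) (c : ℝ) (hc : 0 < c) (u : E n → ℝ)
    (hu : ContDiff ℝ 1 u) (hu' : HasCompactSupport u)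
    (hu1 : ∀ y, (∀ i, -1 < crd p c y i ∧ crd p c y i < 2) → u y = 1) :
    (∀ π : Equiv.Perm (Fin (n + 1)),
      wtX C χ (fun m => C.ex i fun y => u y * tht (π m) (crd p c y)) =
        (Equiv.Perm.sign π : ℤ) * ((n + 1).factorial : ℝ)⁻¹) ∧
    ∀ k : Fin (n + 1) → Fin (n + 1), ¬ Function.Injective k →
      wtX C χ (fun m => C.ex i fun y => u y * tht (k m) (crd p c y)) = 0 := by
  obtain ⟨h1, h2⟩ := B8c.main Stokes.main n hn p c hc u hu hu' hu1
  have hf : ∀ k : Fin (n + 1), ContDiff ℝ 1 fun y => u y * tht k (crd p c y) := fun k =>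
    hu.mul (B8c.tht_contDiff p c k)
  have hfc : ∀ k : Fin (n + 1), HasCompactSupport fun y => u y * tht k (crd p c y) := fun k =>
    hu'.mul_right
  refine ⟨fun π => ?_, fun k hk => ?_⟩
  · rw [wtX_ex hχ i (fun m y => u y * tht (π m) (crd p c y)) (fun m => hf _) fun m => hfc _]
    exact h1 π
  · rw [wtX_ex hχ i (fun m y => u y * tht (k m) (crd p c y)) (fun m => hf _) fun m => hfc _]
    exact h2 k hk

end Vale.Agent.P223.X.ThetaX
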