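import Vale.Agent.P223.X.U1
import Vale.Agent.P223.X.SpecU

/-! Universal covering, part 2: the bundle. -/

namespace Vale.Agent.P223.X.U

open Topology Metric Vale.Agent.P223.H
open scoped ContDiff

/-- parametrisations of open subsets which cover `M` -/
structure Atlas (n : ℕ) (M I : Type) [TopologicalSpace M] where
  ψ : I → E n → M
  emb : ∀ i, Topology.IsOpenEmbedding (ψ i)
  cover : ∀ x : M, ∃ i : I, x ∈ Set.range (ψ i)

variable {n : ℕ} {M I : Type} [TopologicalSpace M] (A : Atlas n M I)

/-- coordinates -/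
noncomputable def co (i : I) (x : M) : E n := Function.invFun (A.ψ i) x

theorem co_ψ (i : I) (y : E n) : co A i (A.ψ i y) = y :=
  Function.leftInverse_invFun (A.emb i).injective y

theorem ψ_co {i : I} {x : M} (h : x ∈ Set.range (A.ψ i)) : A.ψ i (co A i x) = x :=
  Function.invFun_eq h

/-- the parametrisation as a continuous map -/
def pm (i : I) : C(E n, M) := ⟨A.ψ i, (A.emb i).continuous⟩

theorem continuousOn_co (i : I) : ContinuousOn (co A i) (Set.range (A.ψ i)) := by
  intro x hx
  obtain ⟨y, rfl⟩ := hx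
  refine ContinuousAt.continuousWithinAt ?_
  refine (A.emb i).continuousAt_iff.1 ?_
  have : co A i ∘ A.ψ i = id := funext fun z => co_ψ A i z
  rw [this]
  exact continuousAt_id

section
variable [PathConnectedSpace M] (x₀ : M)

/-- the chart transport -/
noncomputable def ct (i : I) (y z : E n) : Pi1 x₀ := tp x₀ (pm A i) y z

theorem ct_trans (i : I) (y z w : E n) : ct A x₀ i y z * ct A x₀ i z w = ct A x₀ i y w :=
  tp_trans x₀ (pm A i) y z w

theorem ct_self (i : I) (y : E n) : ct A x₀ i y y = 1 := tp_self x₀ (pm A i) y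

/-- transport along a map into a chart -/
theorem tp_chart {S : Type} [TopologicalSpace S] [SimplyConnectedSpace S] (s : C(S, M)) (i : I)
    (hs : ∀ a, s a ∈ Set.range (A.ψ i)) (a b : S) :
    tp x₀ s a b = ct A x₀ i (co A i (s a)) (co A i (s b)) := by
  let g : C(S, E n) := ⟨fun a => co A i (s a),
    (continuousOn_co A i).comp_continuous s.continuous hs⟩
  have h : s = (pm A i).comp g := ContinuousMap.ext fun a => (ψ_co A (hs a)).symm
  have h2 : tp x₀ ((pm A i).comp g) a b = ct A x₀ i (g a) (g b) := tp_comp x₀ (pm A i) g a b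
  rw [← h] at h2
  exact h2

/-- the transition functions -/
noncomputable def tau (i j : I) (x : M) : Pi1 x₀ :=
  ct A x₀ i 0 (co A i x) * ct A x₀ j (co A j x) 0

theorem tau_self (i : I) (x : M) : tau A x₀ i i x = 1 := by
  unfold tau
  rw [ct_trans, ct_self]

theorem tau_comp (i j k : I) (x : M) : tau A x₀ i j x * tau A x₀ j k x = tau A x₀ i k x := by
  unfold tau
  rw [mul_assoc, ← mul_assoc (ct A x₀ j (co A j x) 0), ct_trans, ct_self, one_mul]

/-- The transition functions are locally constant. -/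
theorem tau_loc (i j : I) (x : M) (hi : x ∈ Set.range (A.ψ i)) (hj : x ∈ Set.range (A.ψ j)) :
    ∀ᶠ x' in 𝓝 x, tau A x₀ i j x' = tau A x₀ i j x := by
  obtain ⟨y, rfl⟩ := hi
  have ho : IsOpen (A.ψ i ⁻¹' Set.range (A.ψ j)) :=
    (A.emb j).isOpen_range.preimage (A.emb i).continuous
  obtain ⟨r, hr, hb⟩ := Metric.isOpen_iff.1 ho y hj
  have hmem : A.ψ i '' ball y r ∈ 𝓝 (A.ψ i y) :=
    (A.emb i).isOpenMap.image_mem_nhds (ball_mem_nhds y hr)
  have : ContractibleSpace (ball y r) :=
    (convex_ball y r).contractibleSpace ⟨y, mem_ball_self hr⟩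
  let s : C(ball y r, M) := (pm A i).comp ⟨Subtype.val, continuous_subtype_val⟩
  filter_upwards [hmem] with x' hx'
  obtain ⟨z, hz, rfl⟩ := hx'
  have h1 := tp_chart A x₀ s i (fun a => ⟨a, rfl⟩) ⟨y, mem_ball_self hr⟩ ⟨z, hz⟩
  have h2 := tp_chart A x₀ s j (fun a => hb a.2) ⟨y, mem_ball_self hr⟩ ⟨z, hz⟩
  have h3 : ct A x₀ i (co A i (A.ψ i y)) (co A i (A.ψ i z)) =
    ct A x₀ j (co A j (A.ψ i y)) (co A j (A.ψ i z)) := h1.symm.trans h2
  unfold tau
  rw [← ct_trans A x₀ i 0 (co A i (A.ψ i y)) (co A i (A.ψ i z)), h3, mul_assoc,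
    ct_trans]

/-- the bundle -/
noncomputable def core : FiberBundleCore I M (Pi1 x₀) where
  baseSet i := Set.range (A.ψ i)
  isOpen_baseSet i := (A.emb i).isOpen_range
  indexAt x := (A.cover x).choose
  mem_baseSet_at x := (A.cover x).choose_spec
  coordChange i j x g := g * tau A x₀ i j x
  coordChange_self i x _ v := by
    show v * tau A x₀ i i x = v
    rw [tau_self, mul_one]
  continuousOn_coordChange i j := by
    rintro ⟨x, g⟩ ⟨⟨hi, hj⟩, _⟩
    refine ContinuousAt.continuousWithinAt ?_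
    have h1 : ∀ᶠ p : M × Pi1 x₀ in 𝓝 (x, g), tau A x₀ i j p.1 = tau A x₀ i j x :=
      (continuous_fst.tendsto (x, g)).eventually (tau_loc A x₀ i j x hi hj)
    have h2 : ContinuousAt (fun p : M × Pi1 x₀ => p.2 * tau A x₀ i j x) (x, g) :=
      (continuous_of_discreteTopology (f := fun q : Pi1 x₀ => q * tau A x₀ i j x)).continuousAt.comp
        continuous_snd.continuousAt
    refine h2.congr ?_
    filter_upwards [h1] with p hp
    rw [hp]
  coordChange_comp i j k x _ v := by
    show v * tau A x₀ i j x * tau A x₀ j k x = v * tau A x₀ i k x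
    rw [mul_assoc, tau_comp]

/-- the universal covering -/
abbrev UX : Type := (core A x₀).TotalSpace

end

end Vale.Agent.P223.X.U
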