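import Vale.Agent.P223.X.X5
import Vale.Agent.P223.X.MpX
import Vale.Agent.P223.X.Int
import Vale.Agent.P223.H.B3c

/-! Phase 3, block X7: library on the maps mv. -/

namespace Vale.Agent.P223.X.UniA

open scoped ContDiff Topology
open Vale.Agent.P223.H

/-! ### convexity of the jet norms -/

section cvx
variable {n : ℕ} {J : Type} [Fintype J] (Fr : Frame n T1 J)

theorem NN_sum {K : Type} (s : Finset K) (c : K → ℝ) (m : ℕ) : ∀ (ι : Type) [Fintype ι]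
    (u : K → E n → ι → ℝ), (∀ k i, ContDiff ℝ (m : WithTop ℕ∞) fun x => u k x i) → ∀ x,
    NN Fr m ι (fun y i => ∑ k ∈ s, c k * u k y i) x ≤ (∑ k ∈ s, c k ^ 2) *
      ∑ k ∈ s, NN Fr m ι (u k) x := by
  induction m with
  | zero =>
    intro ι _ u hu x
    show ∑ i, (∑ k ∈ s, c k * u k x i) ^ 2 ≤ (∑ k ∈ s, c k ^ 2) * ∑ k ∈ s, ∑ i, u k x i ^ 2
    rw [Finset.sum_comm, Finset.mul_sum]
    exact Finset.sum_le_sum fun i _ => Finset.sum_mul_sq_le_sq_mul_sq s c fun k => u k x i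
  | succ m ih =>
    intro ι _ u hu x
    have h1 := ih (Option J × ι) (fun k => prol Fr (u k))
      (fun k p => B3c.contDiff_prol Fr m (u k) (hu k) p) x
    have h2 : prol Fr (fun y i => ∑ k ∈ s, c k * u k y i) =
        fun y p => ∑ k ∈ s, c k * prol Fr (u k) y p := by
      funext y p
      obtain ⟨_ | j, i⟩ := p
      · rfl
      · show fderiv ℝ (fun z => ∑ k ∈ s, c k * u k z i) y (Fr.V j y) =
          ∑ k ∈ s, c k * fderiv ℝ (fun z => u k z i) y (Fr.V j y)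
        have : HasFDerivAt (fun z => ∑ k ∈ s, c k * u k z i)
            (∑ k ∈ s, c k • fderiv ℝ (fun z => u k z i) y) y :=
          HasFDerivAt.fun_sum fun k _ =>
            ((hu k i).differentiable (by simp) y).hasFDerivAt.const_mul (c k)
        rw [this.fderiv]
        simp
    show NN Fr m (Option J × ι) (prol Fr fun y i => ∑ k ∈ s, c k * u k y i) x ≤ _
    rw [h2]
    exact h1

theorem jet_avg {N : ℕ} (hN : 0 < N) (f : Fin N → E n → ℝ) (hf : ∀ k, ContDiff ℝ 4 (f k))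
    (x : E n) : jet Fr (fun y => (N : ℝ)⁻¹ * ∑ a, f a y) x ≤
      (N : ℝ)⁻¹ * ∑ a, jet Fr (f a) x := by
  have h1 := NN_sum Fr Finset.univ (fun _ : Fin N => (N : ℝ)⁻¹) 4 Unit (fun k y _ => f k y)
    (fun k _ => hf k) x
  have e1 : (fun (y : E n) (_ : Unit) => ∑ k : Fin N, (N : ℝ)⁻¹ * f k y) =
      fun y _ => (N : ℝ)⁻¹ * ∑ a, f a y := by
    funext y _
    rw [Finset.mul_sum]
  have e2 : ∑ _k : Fin N, ((N : ℝ)⁻¹) ^ 2 = (N : ℝ)⁻¹ := by
    have : (N : ℝ) ≠ 0 := by positivity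
    rw [Finset.sum_const, Finset.card_univ, Fintype.card_fin, nsmul_eq_mul]
    field_simp
  rw [e1, e2] at h1
  exact h1

end cvx

/-! ### the maps `mv` -/

section mv
variable {n : ℕ} {M X Γ I : Type} [TopologicalSpace M] [TopologicalSpace X] [Group Γ]
    [MulAction Γ X] (C : Cov n M X Γ I)

/-- the set where `mv` may be different from the identity -/
def Zc (i : I) (R : ℝ) : Set X := {x | ∃ (γ : Γ) (y : E n), ‖y‖ ≤ R ∧ γ • C.ψ i y = x}

theorem isCompact_ball (i : I) (γ : Γ) (y : E n) (R : ℝ) :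
    IsCompact ((fun z => γ • C.ψ i z) '' Metric.closedBall y R) :=
  (isCompact_closedBall y R).image (Int.isOpenEmbedding_chart C γ i).continuous

theorem isClosed_Zc [Finite I] [T2Space X] (i : I) (R : ℝ) : IsClosed (Zc C i R) := by
  have e : Zc C i R = ⋃ γ : Γ, (fun z => γ • C.ψ i z) '' Metric.closedBall 0 R := by
    ext x
    simp only [Zc, Set.mem_ofPred_eq, Set.mem_iUnion, Set.mem_image, mem_closedBall_zero_iff]
  rw [e]
  refine LocallyFinite.isClosed_iUnion ?_ fun γ => (isCompact_ball C i γ 0 R).isClosed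
  intro x
  obtain ⟨γ₀, j, y₀, -, rfl⟩ := exists_chart C x
  refine ⟨(fun z => γ₀ • C.ψ j z) '' Metric.ball y₀ 1,
    (Int.isOpenEmbedding_chart C γ₀ j).isOpenMap _ Metric.isOpen_ball |>.mem_nhds
      ⟨y₀, Metric.mem_ball_self one_pos, rfl⟩, ?_⟩
  refine (Avg.properX' C (isCompact_ball C i 1 0 R) (isCompact_ball C j γ₀ y₀ 1)).subset ?_
  rintro γ ⟨x, ⟨y, hy, rfl⟩, ⟨z, hz, hz'⟩⟩
  exact ⟨(1 : Γ) • C.ψ i y, ⟨y, hy, rfl⟩, z, Metric.ball_subset_closedBall hz, by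
    rw [one_smul]; exact hz'⟩

variable {C} {i : I} {ξ ζ : E n → E n} {R : ℝ} (hs : ∀ y, R ≤ ‖y‖ → ξ y = 0 ∧ ζ y = 0)
include hs

theorem mv_id (r : ℝ) {x : X} (hx : x ∉ Zc C i R) : C.mv i ξ ζ r x = x := by
  by_cases h : ∃ (γ : Γ) (y : E n), γ • C.ψ i y = x
  · obtain ⟨γ, y, rfl⟩ := h
    have hy : R ≤ ‖y‖ := by
      by_contra hc
      exact hx ⟨γ, y, (not_le.1 hc).le, rfl⟩
    rw [MpX.mv_eq, (hs y hy).1, (hs y hy).2, smul_zero, smul_zero, add_zero, add_zero]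
  · exact MpX.mv_of_not i ξ ζ r h

theorem mv_near [Finite I] [T2Space X] (r : ℝ) (f : X → ℝ) {x : X}
    (hx : ¬ ∃ (γ : Γ) (y : E n), γ • C.ψ i y = x) :
    (fun z => f (C.mv i ξ ζ r z)) =ᶠ[𝓝 x] f := by
  have h1 : x ∉ Zc C i R := fun ⟨γ, y, _, h⟩ => hx ⟨γ, y, h⟩
  filter_upwards [(isClosed_Zc C i R).isOpen_compl.mem_nhds h1] with z hz
  rw [mv_id hs r hz]

/-- regularity of `f ∘ mv` -/
theorem Ck_mv [Finite I] [T2Space X] (hξ : ContDiff ℝ ∞ ξ) (hζ : ContDiff ℝ ∞ ζ) (r : ℝ)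
    {k : ℕ} {f : X → ℝ} (hf : C.Ck k f) : C.Ck k fun x => f (C.mv i ξ ζ r x) := by
  intro γ₀ j
  refine contDiff_iff_contDiffAt.2 fun y₀ => ?_
  by_cases h : ∃ (γ : Γ) (y : E n), γ • C.ψ i y = γ₀ • C.ψ j y₀
  · obtain ⟨γ, y, h⟩ := h
    obtain ⟨h1, h2⟩ := chart_eq C h.symm
    have h3 := rep_tr_eventually C (fun x => f (C.mv i ξ ζ r x)) h1 γ
    rw [mul_inv_cancel_left] at h3
    refine ContDiffAt.congr_of_eventuallyEq ?_ h3
    have h4 : C.rep (fun x => f (C.mv i ξ ζ r x)) γ i =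
        fun y => C.rep f γ i (y + r • ξ y + r ^ 2 • ζ y) := by
      funext y
      show f (C.mv i ξ ζ r (γ • C.ψ i y)) = f (γ • C.ψ i (y + r • ξ y + r ^ 2 • ζ y))
      rw [MpX.mv_eq]
    rw [h4]
    have h6 : ContDiff ℝ k fun y => y + r • ξ y + r ^ 2 • ζ y := by
      have h7 := contDiff_infty.1 hξ k
      have h8 := contDiff_infty.1 hζ k
      fun_prop
    have h5 : ContDiff ℝ k fun y => C.rep f γ i (y + r • ξ y + r ^ 2 • ζ y) := (hf γ i).comp h6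
    exact h5.contDiffAt.comp y₀ (contDiffAt_infty.1 (contDiffAt_tr C h1) k)
  · have h1 := mv_near hs r f h
    have h2 : C.rep (fun x => f (C.mv i ξ ζ r x)) γ₀ j =ᶠ[𝓝 y₀] C.rep f γ₀ j :=
      ((Int.isOpenEmbedding_chart C γ₀ j).continuous.tendsto y₀).eventually h1
    exact (hf γ₀ j).contDiffAt.congr_of_eventuallyEq h2

end mv

end Vale.Agent.P223.X.UniA
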