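import Vale.Agent.P223.X.UniA

/-! Phase 3, block X7: uniform estimates for the averaging operators. -/

namespace Vale.Agent.P223.X.UniJ

open scoped ContDiff Topology
open Vale.Agent.P223.H

section
variable {n : ℕ} {M X Γ I : Type} [TopologicalSpace M] [TopologicalSpace X] [Group Γ]
    [MulAction Γ X] {C : Cov n M X Γ I} {N : ℕ}

/-- the average over one pair of maps -/
noncomputable def Af (S : MpX C N) (a : Fin N) (t ε : ℝ) (f : X → ℝ) (x : X) : ℝ :=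
  (f (S.φ a t ε x) + f (S.φ a t (-ε) x)) / 2

theorem P_eq (S : MpX C N) (t ε : ℝ) (f : X → ℝ) :
    S.P t ε f = fun x => (N : ℝ)⁻¹ * ∑ a, Af S a t ε f x := rfl

theorem smooth_at {F : ℝ → E n → E n} (h : ContDiff ℝ ∞ fun p : ℝ × E n => F p.1 p.2) (t : ℝ) :
    ContDiff ℝ ∞ (F t) := by
  have h1 : ContDiff ℝ ∞ (fun x : E n => ((t, x) : ℝ × E n)) :=
    ContDiff.prodMk contDiff_const contDiff_id
  exact h.comp h1

variable [Finite I] [T2Space X]

theorem Ck_Af (S : MpX C N) (a : Fin N) (t ε : ℝ) {k : ℕ} {f : X → ℝ} (hf : C.Ck k f) :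
    C.Ck k (Af S a t ε f) := by
  intro γ i
  have h1 := UniA.Ck_mv (S.supp a t) (smooth_at (S.ξ_smooth a) t) (smooth_at (S.ζ_smooth a) t)
    ε hf (i := S.ch a) γ i
  have h2 := UniA.Ck_mv (S.supp a t) (smooth_at (S.ξ_smooth a) t) (smooth_at (S.ζ_smooth a) t)
    (-ε) hf (i := S.ch a) γ i
  exact (h1.add h2).div_const 2

theorem Ck_P (S : MpX C N) (t ε : ℝ) {k : ℕ} {f : X → ℝ} (hf : C.Ck k f) :
    C.Ck k (S.P t ε f) := by
  intro γ i
  exact contDiff_const.mul (ContDiff.sum fun a _ => Ck_Af S a t ε hf γ i)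

omit [Finite I] [T2Space X] in
theorem rep_Af (S : MpX C N) (a : Fin N) (t ε : ℝ) (f : X → ℝ) (γ : Γ) :
    C.rep (Af S a t ε f) γ (S.ch a) = avg (S.ξ a t) (S.ζ a t) ε (C.rep f γ (S.ch a)) := by
  funext y
  show (f (C.mv (S.ch a) (S.ξ a t) (S.ζ a t) ε (γ • C.ψ (S.ch a) y)) +
    f (C.mv (S.ch a) (S.ξ a t) (S.ζ a t) (-ε) (γ • C.ψ (S.ch a) y))) / 2 = _
  rw [MpX.mv_eq, MpX.mv_eq]
  unfold avg Cov.rep
  rw [neg_smul, neg_sq, ← sub_eq_add_neg]

variable {J : Type} [Fintype J] (F : FrX C J)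

omit [Finite I] [T2Space X] in
theorem jetX_nonneg (f : X → ℝ) (x : X) : 0 ≤ jetX F f x := B3c.jet_nonneg _ _ _

/-- away from the chart -/
theorem jet_Af_of_not (S : MpX C N) (a : Fin N) (t ε : ℝ) {f : X → ℝ} (hf : C.Ck 4 f) {x : X}
    (hx : ¬ ∃ (γ : Γ) (y : E n), γ • C.ψ (S.ch a) y = x) :
    jetX F (Af S a t ε f) x = jetX F f x ∧ Af S a t ε (jetX F f) x = jetX F f x := by
  have h1 := UniA.mv_near (S.supp a t) ε f hx
  have h2 := UniA.mv_near (S.supp a t) (-ε) f hx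
  constructor
  · obtain ⟨γ, i, y, -, rfl⟩ := exists_chart C x
    rw [jetX_eq F (Ck_Af (k := 4) S a t ε hf), jetX_eq F hf]
    refine X5.jet_congr (F.loc i) ?_
    have h3 : Af S a t ε f =ᶠ[𝓝 (γ • C.ψ i y)] f := by
      filter_upwards [h1, h2] with z hz1 hz2
      show (f (S.φ a t ε z) + f (S.φ a t (-ε) z)) / 2 = f z
      have e1 : f (S.φ a t ε z) = f z := hz1
      have e2 : f (S.φ a t (-ε) z) = f z := hz2
      rw [e1, e2]; ring
    exact ((Int.isOpenEmbedding_chart C γ i).continuous.tendsto y).eventually h3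
  · have e : ∀ r, S.φ a t r x = x := fun r => MpX.mv_of_not _ _ _ r hx
    show (jetX F f (S.φ a t ε x) + jetX F f (S.φ a t (-ε) x)) / 2 = _
    rw [e, e]; ring

/-- one pair of maps -/
theorem jet_Af (hQ : SpecQCL) (S : MpX C N) (a : Fin N) (T : ℝ) : ∃ c : ℝ, 0 < c ∧
    ∀ t ε : ℝ, 0 ≤ t → t ≤ T → 0 < ε → ε ≤ 1 → ∀ f : X → ℝ, C.Ck 4 f → ∀ x,
      jetX F (Af S a t ε f) x ≤ (1 + c * ε ^ 2) * Af S a t ε (jetX F f) x := by
  obtain ⟨c, hc, h⟩ := hQ n J (F.loc (S.ch a)) (S.ξ a) (S.ζ a) T S.R (S.ξ_smooth a)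
    (S.ζ_smooth a) (S.supp a)
  refine ⟨c, hc, fun t ε ht htT hε hε1 f hf x => ?_⟩
  by_cases hx : ∃ (γ : Γ) (y : E n), γ • C.ψ (S.ch a) y = x
  · obtain ⟨γ, y, rfl⟩ := hx
    have h1 := h t ε ht htT hε hε1 (C.rep f γ (S.ch a)) (hf γ _) y
    rw [jetX_eq F (Ck_Af (k := 4) S a t ε hf), rep_Af]
    refine h1.trans (le_of_eq ?_)
    congr 1
    have h2 := congrFun (rep_Af S a t ε (jetX F f) γ) y
    have h3 : C.rep (jetX F f) γ (S.ch a) = jet (F.loc (S.ch a)) (C.rep f γ (S.ch a)) := by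
      funext z
      exact jetX_eq F hf γ (S.ch a) z
    rw [h3] at h2
    exact h2.symm
  · obtain ⟨h1, h2⟩ := jet_Af_of_not F S a t ε hf hx
    rw [h1, h2]
    have h3 := jetX_nonneg F f x
    have h4 : 0 ≤ c * ε ^ 2 := by positivity
    nlinarith

/-- statement (i) of the block -/
theorem jet_P (hQ : SpecQCL) (S : MpX C N) (hN : 0 < N) (T : ℝ) : ∃ c : ℝ, 0 < c ∧
    ∀ t ε : ℝ, 0 ≤ t → t ≤ T → 0 < ε → ε ≤ 1 → ∀ f : X → ℝ, C.Ck 4 f → ∀ x,
      jetX F (S.P t ε f) x ≤ (1 + c * ε ^ 2) * S.P t ε (jetX F f) x := by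
  choose c hc h using fun a => jet_Af F hQ S a T
  have hle : ∀ a, c a ≤ ∑ b, c b := fun a =>
    Finset.single_le_sum (f := c) (fun b _ => (hc b).le) (Finset.mem_univ a)
  refine ⟨∑ a, c a, (hc ⟨0, hN⟩).trans_le (hle _), fun t ε ht htT hε hε1 f hf x => ?_⟩
  have h1 : jetX F (S.P t ε f) x ≤ (N : ℝ)⁻¹ * ∑ a, jetX F (Af S a t ε f) x := by
    obtain ⟨γ, i, y, -, rfl⟩ := exists_chart C x
    rw [jetX_eq F (Ck_P (k := 4) S t ε hf)]
    refine (UniA.jet_avg (F.loc i) hN (fun a => C.rep (Af S a t ε f) γ i)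
      (fun a => Ck_Af (k := 4) S a t ε hf γ i) y).trans (le_of_eq ?_)
    congr 1
    exact Finset.sum_congr rfl fun a _ => (jetX_eq F (Ck_Af (k := 4) S a t ε hf) γ i y).symm
  have h2 : ∀ a, jetX F (Af S a t ε f) x ≤ (1 + (∑ a, c a) * ε ^ 2) * Af S a t ε (jetX F f) x := by
    intro a
    refine (h a t ε ht htT hε hε1 f hf x).trans ?_
    refine mul_le_mul_of_nonneg_right ?_ ?_
    · have := mul_le_mul_of_nonneg_right (hle a) (sq_nonneg ε)
      linarith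
    · unfold Af
      have := jetX_nonneg F f (S.φ a t ε x)
      have := jetX_nonneg F f (S.φ a t (-ε) x)
      linarith
  refine h1.trans ?_
  calc (N : ℝ)⁻¹ * ∑ a, jetX F (Af S a t ε f) x ≤
      (N : ℝ)⁻¹ * ∑ a, (1 + (∑ a, c a) * ε ^ 2) * Af S a t ε (jetX F f) x :=
        mul_le_mul_of_nonneg_left (Finset.sum_le_sum fun a _ => h2 a) (by positivity)
    _ = _ := by
      rw [← Finset.mul_sum, P_eq]
      ring

end

end Vale.Agent.P223.X.UniJ
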