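import Vale.Agent.P223.X.StokesX

/-! Phase 3 : weights of partitions of unity. -/

namespace Vale.Agent.P223.X.WtX

open scoped ContDiff Topology
open MeasureTheory Vale.Agent.P223.H Vale.Agent.P223.X Vale.Agent.P223.X.DensX
  Vale.Agent.P223.X.StokesX Set Filter Function

section
variable {n : ℕ} {M X Γ I : Type} [TopologicalSpace M] [TopologicalSpace X] [Group Γ]
    [MulAction Γ X] {C : Cov n M X Γ I}

/-- Compact neighbourhoods. -/
theorem exists_nhd (C : Cov n M X Γ I) {K : Set X} (hK : IsCompact K) :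
    ∃ K' : Set X, IsCompact K' ∧ K ⊆ interior K' := by
  have : WeaklyLocallyCompactSpace X := by
    refine ⟨fun x => ?_⟩
    obtain ⟨γ, i, y, _, rfl⟩ := exists_chart C x
    refine ⟨(fun y => γ • C.ψ i y) '' Metric.closedBall y 1,
      (isCompact_closedBall _ _).image ((C.cont γ).comp (C.emb i).continuous), ?_⟩
    exact (isOpenEmbedding_chart C γ i).isOpenMap.image_mem_nhds
      (Metric.closedBall_mem_nhds y one_pos)
  exact exists_compact_superset hK

/-- `C¹` functions with compact support. -/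
def CX (C : Cov n M X Γ I) (f : X → ℝ) : Prop := C.Ck 1 f ∧ HasCompactSupport f

theorem CX.zero : CX C (fun _ => 0) :=
  ⟨fun _ _ => contDiff_const, HasCompactSupport.zero⟩

theorem CX.mul_left {f g : X → ℝ} (hf : C.Ck 1 f) (hg : CX C g) :
    CX C (fun x => f x * g x) := ⟨Ck_mul hf hg.1, hg.2.mul_left⟩

theorem CX.sum {Λ : Type} (T : Finset Λ) (g : Λ → X → ℝ) (hg : ∀ a ∈ T, CX C (g a)) :
    CX C (fun x => ∑ a ∈ T, g a x) := by
  classical
  induction T using Finset.induction_on with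
  | empty => simpa using (CX.zero (C := C))
  | insert a s ha ih =>
    have h1 := hg a (Finset.mem_insert_self a s)
    have h2 := ih fun b hb => hg b (Finset.mem_insert_of_mem hb)
    simp only [Finset.sum_insert ha]
    exact ⟨fun γ i => (h1.1 γ i).add (h2.1 γ i), h1.2.add h2.2⟩

/-- The integrand. -/
noncomputable def igx (C : Cov n M X Γ I) (f : Fin (n + 1) → X → ℝ) (γ : Γ) (i : I) (y : E n) :
    ℝ := B6b.ig (fun k => C.rep (f k) γ i) y

theorem rep_ev {f g : X → ℝ} {γ : Γ} {i : I} {y : E n} (h : f =ᶠ[𝓝 (γ • C.ψ i y)] g) :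
    C.rep f γ i =ᶠ[𝓝 y] C.rep g γ i := by
  have hc : Continuous fun y => γ • C.ψ i y := (C.cont γ).comp (C.emb i).continuous
  exact (hc.tendsto y).eventually h

theorem igx_zero {f : Fin (n + 1) → X → ℝ} (k : Fin (n + 1)) {γ : Γ} {i : I} {y : E n}
    (h : γ • C.ψ i y ∉ tsupport (f k)) : igx C f γ i y = 0 :=
  B6b.ig_zero (k := k) (rep_ev (notMem_tsupport_iff_eventuallyEq.1 h))

theorem igx_congr {f g : Fin (n + 1) → X → ℝ} {γ : Γ} {i : I} {y : E n}
    (h : ∀ k, f k =ᶠ[𝓝 (γ • C.ψ i y)] g k) : igx C f γ i y = igx C g γ i y :=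
  B6b.ig_congr fun k => rep_ev (h k)

theorem nice_igx {f : Fin (n + 1) → X → ℝ} (hf : ∀ k, C.Ck 1 (f k)) (k : Fin (n + 1))
    (hc : HasCompactSupport (f k)) : Nice C (igx C f) := by
  refine ⟨fun γ i => ?_, tsupport (f k), hc, fun γ i y h => igx_zero k h⟩
  exact (hf 0 γ i).continuous.mul (B6b.continuous_jdet fun k => hf k.succ γ i)

theorem rep_sum {Λ : Type} (T : Finset Λ) (g : Λ → X → ℝ) (γ : Γ) (i : I) :
    C.rep (fun x => ∑ a ∈ T, g a x) γ i = fun y => ∑ a ∈ T, C.rep (g a) γ i y := rfl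

theorem igx_sum {Λ : Type} (T : Finset Λ) (f : Fin (n + 1) → X → ℝ) (k : Fin (n + 1))
    (g : Λ → X → ℝ) (hg : ∀ a ∈ T, C.Ck 1 (g a)) (γ : Γ) (i : I) (y : E n) :
    igx C (update f k fun x => ∑ a ∈ T, g a x) γ i y = ∑ a ∈ T, igx C (update f k (g a)) γ i y := by
  unfold igx
  simp only [rep_update, rep_sum]
  exact B6b.ig_sum T _ k _ (fun a ha => hg a ha γ i) y

theorem act_cc {f : X → ℝ} (hf : CX C f) (γ : Γ) : CX C (fun x => f (γ • x)) := by
  refine ⟨Ck_smul C hf.1 γ, ?_⟩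
  exact hf.2.comp_homeomorph (⟨MulAction.toPerm γ, C.cont γ, C.cont γ⁻¹⟩ : X ≃ₜ X)

variable [Fintype I] {χ : I → E n → ℝ}

theorem wtX_eq (f : Fin (n + 1) → X → ℝ) : wtX C χ f = Intg C χ (igx C f) := rfl

omit [Fintype I] in
theorem cx_update {m : ℕ} {f : Fin m → X → ℝ} (hf : ∀ a, CX C (f a))
    (b : Fin m) {g : X → ℝ} (hg : CX C g) (a : Fin m) : CX C (update f b g a) := by
  by_cases h : a = b
  · rw [h, update_self]; exact hg
  · rw [update_of_ne h]; exact hf a

theorem wtX_sum [T2Space X] (hχ : Part C χ) {Λ : Type} (T : Finset Λ) (f : Fin (n + 1) → X → ℝ)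
    (hf : ∀ k, CX C (f k)) (k : Fin (n + 1)) (g : Λ → X → ℝ) (hg : ∀ a ∈ T, CX C (g a)) :
    wtX C χ (update f k fun x => ∑ a ∈ T, g a x) = ∑ a ∈ T, wtX C χ (update f k (g a)) := by
  have h1 : igx C (update f k fun x => ∑ a ∈ T, g a x) =
      fun γ i y => ∑ a ∈ T, igx C (update f k (g a)) γ i y := by
    funext γ i y
    exact igx_sum T f k g (fun a ha => (hg a ha).1) γ i y
  rw [wtX_eq, h1, (intg_sum hχ T (fun a => igx C (update f k (g a))) fun a ha =>
    nice_igx (fun j => (cx_update hf k (hg a ha) j).1) k (by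
      rw [update_self]; exact (hg a ha).2)).2]
  rfl

theorem intg_congr {w w' : Γ → I → E n → ℝ} (h : ∀ γ i y, w γ i y = w' γ i y) :
    Intg C χ w = Intg C χ w' := by
  have : w = w' := by funext γ i y; exact h γ i y
  rw [this]

theorem wtX_zero (f : Fin (n + 1) → X → ℝ) (h : ∀ γ i y, igx C f γ i y = 0) :
    wtX C χ f = 0 := by
  rw [wtX_eq, intg_congr h, intg_zero]

/-- Invariance. -/
theorem wtX_comp (γ : Γ) (f : Fin (n + 1) → X → ℝ) :
    wtX C χ (fun k x => f k (γ • x)) = wtX C χ f := by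
  unfold wtX
  refine Finset.sum_congr rfl fun i _ => ?_
  rw [← finsum_comp_equiv (Equiv.mulLeft γ) (f := fun γ : Γ => ∫ y, χ i y *
    (C.rep (f 0) γ i y * jdet (fun k => C.rep (f k.succ) γ i) y))]
  refine finsum_congr fun δ => ?_
  have h : ∀ g : X → ℝ, C.rep (fun x => g (γ • x)) δ i = C.rep g (γ * δ) i := by
    intro g
    funext y
    show g (γ • δ • C.ψ i y) = g ((γ * δ) • C.ψ i y)
    rw [mul_smul]
  simp only [h]
  rfl

/-- If the weight does not vanish there is a point in all supports. -/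
theorem exists_mem {f : Fin (n + 1) → X → ℝ} (h : wtX C χ f ≠ 0) :
    ∃ x, ∀ k, x ∈ tsupport (f k) := by
  by_contra hc
  push Not at hc
  refine h (wtX_zero f fun γ i y => ?_)
  obtain ⟨k, hk⟩ := hc (γ • C.ψ i y)
  exact igx_zero k hk

end

section
variable {n : ℕ} {M X Γ I : Type} [TopologicalSpace M] [TopologicalSpace X] [Group Γ]
    [MulAction Γ X] {C : Cov n M X Γ I} {ι : Type} [Fintype ι]

theorem fn_cc (P : PUX C ι) (a : Γ × ι) : CX C (P.fn a) :=
  act_cc ⟨P.smooth a.2, P.supp a.2⟩ a.1⁻¹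

theorem fn_mul (P : PUX C ι) (γ : Γ) (a : Γ × ι) (x : X) :
    P.fn (γ * a.1, a.2) x = P.fn a (γ⁻¹ • x) := by
  simp only [PUX.fn, mul_inv_rev, mul_smul]

/-- The union of the supports. -/
def sup (P : PUX C ι) : Set X := ⋃ i, tsupport (P.φ i)

theorem compact_sup (P : PUX C ι) : IsCompact (sup P) := isCompact_iUnion fun i => P.supp i

theorem mem_sup (P : PUX C ι) (a : Γ × ι) {x : X} (hx : x ∈ tsupport (P.fn a)) :
    a.1⁻¹ • x ∈ sup P := by
  refine mem_iUnion.2 ⟨a.2, ?_⟩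
  have h1 : tsupport (P.fn a) ⊆ (fun y : X => a.1⁻¹ • y) ⁻¹' tsupport (P.φ a.2) :=
    closure_minimal (fun y hy => subset_tsupport _ hy)
      ((isClosed_tsupport _).preimage (C.cont a.1⁻¹))
  exact h1 hx

variable [Fintype I] {χ : I → E n → ℝ} [T2Space X]

omit [Fintype I] [T2Space X] in
theorem near (P : PUX C ι) {K : Set X} (hK : IsCompact K) :
    ∃ T : Finset (Γ × ι), (∀ ν, ν ∉ T → ∀ x ∈ K, P.fn ν =ᶠ[𝓝 x] fun _ => 0) ∧
      ∀ x ∈ K, (fun y => ∑ ν ∈ T, P.fn ν y) =ᶠ[𝓝 x] fun _ => 1 := by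
  classical
  obtain ⟨K', hK'c, hKK'⟩ := exists_nhd C hK
  have hfin : {γ : Γ | ∃ x ∈ sup P, γ • x ∈ K'}.Finite := DensX.proper0 C (compact_sup P) hK'c
  have hz : ∀ ν : Γ × ι, ν.1 ∉ {γ : Γ | ∃ x ∈ sup P, γ • x ∈ K'} → ∀ y ∈ K', P.fn ν y = 0 := by
    intro ν hν y hy
    by_contra hne
    refine hν ⟨ν.1⁻¹ • y, mem_sup P ν (subset_tsupport _ hne), ?_⟩
    rwa [smul_inv_smul]
  have hnb : ∀ x ∈ K, ∀ᶠ y in 𝓝 x, y ∈ K' := fun x hx =>
    mem_interior_iff_mem_nhds.1 (hKK' hx)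
  refine ⟨hfin.toFinset ×ˢ Finset.univ, ?_, ?_⟩
  · intro ν hν x hx
    filter_upwards [hnb x hx] with y hy
    refine hz ν (fun hc => hν ?_) y hy
    exact Finset.mem_product.2 ⟨hfin.mem_toFinset.2 hc, Finset.mem_univ _⟩
  · intro x hx
    filter_upwards [hnb x hx] with y hy
    rw [Finset.sum_product_right]
    have h1 := P.sum y
    rw [← h1]
    refine Finset.sum_congr rfl fun i _ => ?_
    refine (finsum_eq_sum_of_support_subset _ fun γ hγ => ?_).symm
    by_contra hc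
    have : γ ∉ {γ : Γ | ∃ x ∈ sup P, γ • x ∈ K'} := fun h => hc (hfin.mem_toFinset.2 h)
    exact hγ (hz (γ, i) this y hy)

/-- Summing over one free place gives zero. -/
theorem sum_free (hn : 1 ≤ n) (hχ : Part C χ) (P : PUX C ι) (f : Fin (n + 1) → X → ℝ)
    (hf : ∀ k, CX C (f k)) (k : Fin (n + 1)) :
    ∑ᶠ ν : Γ × ι, wtX C χ (update f k (P.fn ν)) = 0 := by
  classical
  obtain ⟨k1, hk1⟩ : ∃ k1 : Fin (n + 1), k1 ≠ k := by
    have : Nontrivial (Fin (n + 1)) := Fin.nontrivial_iff_two_le.2 (by omega)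
    exact exists_ne k
  obtain ⟨T, hT1, hT2⟩ := near P (hf k1).2
  have h0 : ∀ (g : X → ℝ) (γ : Γ) (i : I) (y : E n), γ • C.ψ i y ∉ tsupport (f k1) →
      igx C (update f k g) γ i y = 0 := by
    intro g γ i y hx
    refine igx_zero k1 ?_
    rw [update_of_ne hk1]
    exact hx
  rw [finsum_eq_sum_of_support_subset (s := T), ← wtX_sum hχ T f hf k _ fun a _ => fn_cc P a]
  · induction k using Fin.cases with
    | zero =>
      obtain ⟨i, rfl⟩ := Fin.exists_succ_eq.2 hk1
      rw [wtX_eq, ← stokes hχ (fun i => f i.succ) (fun i => (hf i.succ).1) i (hf i.succ).2]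
      refine intg_congr fun γ j y => ?_
      have e : (fun k : Fin n => C.rep (update f 0 (fun x => ∑ a ∈ T, P.fn a x) k.succ) γ j) =
          fun k : Fin n => C.rep (f k.succ) γ j := by
        funext k; rw [update_of_ne (Fin.succ_ne_zero k)]
      rw [igx, B6b.ig, update_self, e]
      by_cases hx : γ • C.ψ j y ∈ tsupport (f i.succ)
      · have := (hT2 _ hx).eq_of_nhds
        rw [show C.rep (fun x => ∑ a ∈ T, P.fn a x) γ j y = 1 from this, one_mul]
      · rw [jdet_rep_zero (f := fun i => f i.succ) i hx, mul_zero]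
    | succ i =>
      refine wtX_zero _ fun γ j y => ?_
      by_cases hx : γ • C.ψ j y ∈ tsupport (f k1)
      · refine B6b.ig_row_const (i := i) (c := 1) ?_
        rw [update_self]
        exact rep_ev (g := fun _ => 1) (hT2 _ hx)
      · exact h0 _ γ j y hx
  · intro ν hν
    by_contra hc
    refine hν (wtX_zero _ fun γ j y => ?_)
    by_cases hx : γ • C.ψ j y ∈ tsupport (f k1)
    · refine B6b.ig_zero (k := k) ?_
      rw [update_self]
      exact rep_ev (g := fun _ => 0) (hT1 ν (fun h => hc h) _ hx)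
    · exact h0 _ γ j y hx

/-- Summing over a place which is multiplied by `h`. -/
theorem sum_mul (hχ : Part C χ) (P : PUX C ι) (f : Fin (n + 1) → X → ℝ)
    (hf : ∀ k, CX C (f k)) (k : Fin (n + 1)) (h : X → ℝ) (hh : CX C h) :
    ∑ᶠ ν : Γ × ι, wtX C χ (update f k fun x => P.fn ν x * h x) = wtX C χ (update f k h) := by
  classical
  obtain ⟨T, hT1, hT2⟩ := near P hh.2
  have h1 : (fun x => ∑ ν ∈ T, P.fn ν x * h x) = h := by
    ext x
    rw [← Finset.sum_mul]
    by_cases hx : x ∈ tsupport h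
    · rw [(hT2 x hx).eq_of_nhds, one_mul]
    · rw [image_eq_zero_of_notMem_tsupport hx, mul_zero]
  rw [finsum_eq_sum_of_support_subset (s := T), ← wtX_sum hχ T f hf k
    (fun ν x => P.fn ν x * h x) fun a _ => CX.mul_left (fn_cc P a).1 hh, h1]
  intro ν hν
  by_contra hc
  refine hν ?_
  have h2 : (fun x => P.fn ν x * h x) = fun _ => 0 := by
    ext x
    by_cases hx : x ∈ tsupport h
    · rw [(hT1 ν (fun h => hc h) x hx).eq_of_nhds, zero_mul]
    · rw [image_eq_zero_of_notMem_tsupport hx, mul_zero]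
  show wtX C χ (update f k fun x => P.fn ν x * h x) = 0
  rw [h2]
  refine wtX_zero _ fun γ j y => ?_
  refine B6b.ig_zero (k := k) ?_
  rw [update_self]
  exact Eventually.of_forall fun _ => rfl

end

end Vale.Agent.P223.X.WtX
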