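import Vale.Agent.P223.X.Cell
import Vale.Agent.P223.H.Min

/-! Block X23 : metrics which minimise `∫ (Scal⁻)^(n/2)` are Einstein metrics. -/

namespace Vale.Agent.P223.X.X23

open scoped ContDiff Topology Matrix
open MeasureTheory Vale.Agent.P223.H Vale.Agent.P223.H.B25c

variable {n : ℕ} {M X Γ I : Type} [TopologicalSpace M] [TopologicalSpace X] [Group Γ]
    [MulAction Γ X] {C : Cov n M X Γ I} {G : I → E n → Matrix (Fin n) (Fin n) ℝ}

/-- the scalar curvature on `X` -/
noncomputable def sX (C : Cov n M X Γ I) (G : I → E n → Matrix (Fin n) (Fin n) ℝ) : X → ℝ :=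
  C.gl fun _ i y => H.scal (G i) y

theorem sX_eq (hG : MetX C G) (γ : Γ) (i : I) (y : E n) :
    sX C G (γ • C.ψ i y) = H.scal (G i) y :=
  gl_eq C (a := fun _ i y => H.scal (G i) y) (fun _ _ _ _ _ _ h => scal_chart hG h) γ i y

theorem rep_sX (hG : MetX C G) (γ : Γ) (i : I) : C.rep (sX C G) γ i = H.scal (G i) :=
  funext fun y => sX_eq hG γ i y

theorem sX_Ck (hG : MetX C G) : C.Ck ∞ (sX C G) := fun γ i => by
  rw [rep_sX hG]; exact Min.cont_scal (hG.smooth i) (hG.pos i)

theorem sX_inv (hG : MetX C G) (γ : Γ) (x : X) : sX C G (γ • x) = sX C G x := by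
  obtain ⟨γ', i, y, -, rfl⟩ := exists_chart C x
  rw [← mul_smul, sX_eq hG, sX_eq hG]

theorem dn_eq {F : X → ℝ} (hF : ∀ (γ : Γ) x, F (γ • x) = F x) (x : X) :
    C.dn F (C.π x) = F x := by
  obtain ⟨γ, hγ⟩ := (C.orb _ _).1 (Function.surjInv_eq C.surj (C.π x))
  have h1 := hF γ (Function.surjInv C.surj (C.π x))
  rw [hγ] at h1
  exact h1.symm

theorem scM_eq (hG : MetX C G) (i : I) (y : E n) :
    scM C G (C.π (C.ψ i y)) = H.scal (G i) y := by
  have h1 : scM C G (C.π (C.ψ i y)) = sX C G (C.ψ i y) := dn_eq (sX_inv hG) _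
  rw [h1]
  have := sX_eq hG 1 i y
  rwa [one_smul] at this

/-- `∫ (Scal⁻)^p` -/
theorem IS_eq [Fintype I] [MeasurableSpace M] [BorelSpace M] (D : Cell.Cells C) (hG : MetX C G)
    {ν : Measure M} (hV : VolM C G ν) {p : ℝ} (hp : 0 < p) :
    IS C G ν p = ENNReal.ofReal (∑ i, ∫ y in D.B i, Min.h0 p (H.scal (G i) y) * H.dens (G i) y) := by
  unfold IS
  rw [Cell.lintegral_M D hG hV, ENNReal.ofReal_sum_of_nonneg]
  · refine Finset.sum_congr rfl fun i _ => ?_
    have h1 := int_eq (G := G i) (Min.cont_scal (hG.smooth i) (hG.pos i)).continuous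
      (Int.cont_dens hG i) (Int.dens_pos hG i) (D.bdd i) hp
    change _ = ENNReal.ofReal (∫ y in D.B i, max 0 (-H.scal (G i) y) ^ p * H.dens (G i) y)
    rw [← h1]
    unfold H.int
    refine lintegral_congr fun y => ?_
    rw [scM_eq hG, ENNReal.ofReal_mul (Real.rpow_nonneg (le_max_left _ _) _)]
  · intro i _
    refine integral_nonneg fun y => ?_
    have h4 := Int.dens_pos hG i y
    change (0 : ℝ) ≤ max 0 (-H.scal (G i) y) ^ p * H.dens (G i) y
    positivity

/-- the sum over the cells -/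
noncomputable def tot [Fintype I] (D : Cell.Cells C) (f : I → E n → ℝ) : ℝ :=
  ∑ i, ∫ y in D.B i, f i y

theorem rep_comp (hG : MetX C G) (φ : ℝ → ℝ) (γ : Γ) (i : I) :
    C.rep (fun x => φ (sX C G x)) γ i = fun y => φ (H.scal (G i) y) :=
  funext fun y => congrArg φ (sX_eq hG γ i y)

theorem scal_cd (hG : MetX C G) (i : I) : ContDiff ℝ ∞ (H.scal (G i)) :=
  Min.cont_scal (hG.smooth i) (hG.pos i)

/-- the integral of the Laplacian of `φ (scal)` vanishes -/
theorem tot_lap [Fintype I] [T2Space X] [ConnectedSpace X] [T2Space M] [MeasurableSpace M]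
    [BorelSpace M] (hL : SpecLapX) (D : Cell.Cells C) (hG : MetX C G) {ν : Measure M}
    (hV : VolM C G ν) {φ : ℝ → ℝ} (hφ : ContDiff ℝ ∞ φ) :
    tot D (fun i y => H.lap (G i) (fun z => φ (H.scal (G i) z)) y * H.dens (G i) y) = 0 := by
  have hcf : ∀ i, ContDiff ℝ ∞ (fun y => φ (H.scal (G i) y)) :=
    fun i => hφ.comp (scal_cd hG i)
  have hCk : C.Ck 2 (fun x => φ (sX C G x)) := fun γ i => by
    rw [rep_comp hG]; exact contDiff_infty.1 (hcf i) 2
  have h0 := hL n M X Γ I C G ν hG hV (fun x => φ (sX C G x)) hCk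
    (fun γ x => by rw [sX_inv hG])
  have hval : ∀ i y, C.dn (lapX C G (fun x => φ (sX C G x))) (C.π (C.ψ i y)) =
      H.lap (G i) (fun y => φ (H.scal (G i) y)) y := by
    intro i y
    have h1 : ∀ (γ : Γ) x, lapX C G (fun x => φ (sX C G x)) (γ • x) =
        lapX C G (fun x => φ (sX C G x)) x := by
      intro γ x
      rw [← lapX_smul hG hCk]
      simp only [sX_inv hG]
    rw [dn_eq h1]
    have h2 := lapX_eq hG hCk 1 i y
    rw [one_smul, rep_comp hG] at h2
    exact h2
  rw [Cell.integral_M D hG hV _ (fun i => by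
    simp only [hval]
    exact (Min.cont_lap (hG.smooth i) (hG.pos i) (hcf i)).continuous)] at h0
  simp only [hval] at h0
  exact h0

/-- one term -/
theorem term_le (hG : MetX C G) (D : Cell.Cells C) (i : I) {p : ℝ} (hp : 1 < p) {η : ℝ}
    (hη : 0 < η) :
    ∫ y in D.B i, F1 p η (H.scal (G i) y) * H.lap (G i) (H.scal (G i)) y * H.dens (G i) y ≤
      ∫ y in D.B i, H.lap (G i) (fun z => B25c.FF p η (H.scal (G i) z)) y * H.dens (G i) y := by
  have hcs := scal_cd hG i
  have hcl : Continuous (fun y => H.lap (G i) (H.scal (G i)) y) :=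
    (Min.cont_lap (hG.smooth i) (hG.pos i) hcs).continuous
  have hcd : Continuous (fun y => H.dens (G i) y) := Int.cont_dens hG i
  have hcf : ContDiff ℝ ∞ (fun y => B25c.FF p η (H.scal (G i) y)) := (FF_cd hη).comp hcs
  refine integral_mono (intOn (D.bdd i) ((((Min.F1_cont hη).comp hcs.continuous).mul
      hcl).mul hcd))
    (intOn (D.bdd i) ((Min.cont_lap (hG.smooth i) (hG.pos i) hcf).continuous.mul hcd))
    fun x => ?_
  refine mul_le_mul_of_nonneg_right ?_ (Int.dens_pos hG i x).le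
  rw [B25c.lap_comp (contDiff_infty.1 hcs 2) (fun s => FF_deriv hη s)
    (fun s => F1_deriv hη s) x]
  have := mul_nonneg (F2_nonneg hη hp.le (H.scal (G i) x))
    (Grad.gradSq_nonneg' (hG.pos i x) (H.scal (G i)))
  show F1 p η (H.scal (G i) x) * H.lap (G i) (H.scal (G i)) x ≤ _
  linarith

/-- `∫ ψ'(u) Δu ≤ 0` -/
theorem int_lap_nonpos [Fintype I] [T2Space X] [ConnectedSpace X] [T2Space M] [MeasurableSpace M]
    [BorelSpace M] (hL : SpecLapX) (D : Cell.Cells C) (hG : MetX C G) {ν : Measure M}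
    (hV : VolM C G ν) {p : ℝ} (hp : 1 < p) :
    tot D (fun i y => Min.h1 p (H.scal (G i) y) * H.lap (G i) (H.scal (G i)) y *
      H.dens (G i) y) ≤ 0 := by
  have hcs : ∀ i, ContDiff ℝ ∞ (H.scal (G i)) := fun i => scal_cd hG i
  have hcl : ∀ i, Continuous (fun y => H.lap (G i) (H.scal (G i)) y) := fun i =>
    (Min.cont_lap (hG.smooth i) (hG.pos i) (hcs i)).continuous
  have hcd : ∀ i, Continuous (fun y => H.dens (G i) y) := fun i => Int.cont_dens hG i
  have hle : ∀ k : ℕ, tot D (fun i y => F1 p (1 / ((k : ℝ) + 1)) (H.scal (G i) y) *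
      H.lap (G i) (H.scal (G i)) y * H.dens (G i) y) ≤ 0 := by
    intro k
    have hη : (0 : ℝ) < 1 / ((k : ℝ) + 1) := by positivity
    have h0 := tot_lap hL D hG hV (φ := B25c.FF p (1 / ((k : ℝ) + 1))) (FF_cd hη)
    rw [← h0]
    exact Finset.sum_le_sum fun i _ => term_le hG D i hp hη
  have hlim : Filter.Tendsto
      (fun k : ℕ => tot D (fun i y => F1 p (1 / ((k : ℝ) + 1)) (H.scal (G i) y) *
        H.lap (G i) (H.scal (G i)) y * H.dens (G i) y))
      Filter.atTop (𝓝 (tot D (fun i y => Min.h1 p (H.scal (G i) y) *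
        H.lap (G i) (H.scal (G i)) y * H.dens (G i) y))) := by
    refine tendsto_finsetSum _ fun i _ => ?_
    refine tendsto_integral_of_dominated_convergence
      (fun x => p * (max 0 (-H.scal (G i) x) + 1) ^ (p - 1) *
        |H.lap (G i) (H.scal (G i)) x| * H.dens (G i) x) ?_ ?_ ?_ ?_
    · intro k
      have hη : (0 : ℝ) < 1 / ((k : ℝ) + 1) := by positivity
      exact ((((Min.F1_cont hη).comp (hcs i).continuous).mul (hcl i)).mul
        (hcd i)).aestronglyMeasurable
    · refine intOn (D.bdd i) (((continuous_const.mul ?_).mul (hcl i).abs).mul (hcd i))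
      exact ((continuous_const.max (hcs i).continuous.neg).add continuous_const).rpow_const
        fun x => Or.inr (by linarith)
    · intro k
      refine Filter.Eventually.of_forall fun x => ?_
      rw [norm_mul, norm_mul, Real.norm_eq_abs, Real.norm_eq_abs,
        Real.norm_of_nonneg (Int.dens_pos hG i x).le]
      have h1 := Min.F1_bound hp k (H.scal (G i) x)
      have h2 := (Int.dens_pos hG i x).le
      have h3 := abs_nonneg (H.lap (G i) (H.scal (G i)) x)
      gcongr
    · refine Filter.Eventually.of_forall fun x => ?_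
      exact ((Min.F1_tendsto hp (H.scal (G i) x)).mul_const _).mul_const _
  exact le_of_tendsto' hlim hle

end Vale.Agent.P223.X.X23
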