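import Vale.Agent.P223.X.X23

/-! Block X23, second part: the first variation. -/

namespace Vale.Agent.P223.X.X23

open scoped ContDiff Topology Matrix
open MeasureTheory Vale.Agent.P223.H Vale.Agent.P223.H.B25c

variable {n : ℕ} {M X Γ I : Type} [TopologicalSpace M] [TopologicalSpace X] [Group Γ]
    [MulAction Γ X] {C : Cov n M X Γ I} {G : I → E n → Matrix (Fin n) (Fin n) ℝ}

/-- bound for the Ricci tensor -/
theorem exists_bound [Fintype I] (hG : MetX C G) :
    ∃ K : ℝ, 0 < K ∧ ∀ i (y v : E n),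
      |v ⬝ᵥ (Min.Rm (G i) y *ᵥ v)| ≤ K * (v ⬝ᵥ (G i y *ᵥ v)) := by
  have h1 : ∀ i, ∃ c : ℝ, ∀ y ∈ Metric.closedBall (0 : E n) 1, ‖√(ricSq (G i) y)‖ ≤ c := fun i =>
    (isCompact_closedBall (0 : E n) 1).exists_bound_of_continuousOn
      (Min.cont_ricSq (hG.smooth i) (hG.pos i)).continuous.sqrt.continuousOn
  choose c hc using h1
  refine ⟨1 + ∑ i, |c i|, by positivity, fun i y v => ?_⟩
  obtain ⟨γ, j, y', hy', hx⟩ := exists_chart C (C.ψ i y)
  have h2 : γ⁻¹ • C.ψ i y = C.ψ j y' := by rw [← hx, inv_smul_smul]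
  obtain ⟨hd, ht⟩ := mem_dom C h2
  have h3 := ric_chart hG hd v v
  have h4 := hG.inv i j γ⁻¹ y hd v v
  rw [ht] at h3 h4
  rw [Min.bil, Min.bil]
  have e1 : ∑ a, ∑ b, v a * v b * Min.Rm (G i) y a b = ∑ a, ∑ b, v a * v b * H.ric (G i) y a b :=
    rfl
  rw [e1, ← h3, ← h4]
  have h5 := Min.quad_le (G j y') (Min.Rm (G j) y') (hG.pos j y')
    (fderiv ℝ (C.tr i j γ⁻¹) y v)
  rw [Min.bil, Min.bil] at h5
  refine h5.trans ?_
  have h6 : √(ricSq (G j) y') ≤ 1 + ∑ i, |c i| := by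
    have h7 := hc j y' (by rw [mem_closedBall_zero_iff]; exact hy'.le)
    rw [Real.norm_of_nonneg (Real.sqrt_nonneg _)] at h7
    have h8 : |c j| ≤ ∑ i, |c i| :=
      Finset.single_le_sum (f := fun i => |c i|) (fun i _ => abs_nonneg _) (Finset.mem_univ j)
    have h9 := le_abs_self (c j)
    linarith
  have h10 : 0 ≤ ∑ a, ∑ b, fderiv ℝ (C.tr i j γ⁻¹) y v a * fderiv ℝ (C.tr i j γ⁻¹) y v b *
      G j y' a b := by
    rw [← Min.bil]
    have := (hG.pos j y').posSemidef.dotProduct_mulVec_nonneg (fderiv ℝ (C.tr i j γ⁻¹) y v)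
    simpa using this
  exact mul_le_mul_of_nonneg_right h6 h10

/-- the path of metrics -/
theorem Gt_met (hG : MetX C G) (hsym : ∀ i x a b, H.ric (G i) x a b = H.ric (G i) x b a)
    {K ε : ℝ} (hε : 0 < ε)
    (hK : ∀ i (y v : E n), |v ⬝ᵥ (Min.Rm (G i) y *ᵥ v)| ≤ K * (v ⬝ᵥ (G i y *ᵥ v)))
    (hεK : 2 * ε * K < 1) (t : ℝ) : MetX C fun i => Min.Gt (G i) ε t := by
  refine ⟨fun i a b => ?_, fun i x => ?_, fun i j γ y hy v w => ?_⟩
  · exact cd_at (f := fun t x => Min.Gt (G i) ε t x a b)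
      (Min.Gt_smooth (hG.smooth i) (hG.pos i) a b) t
  · refine Matrix.PosDef.of_dotProduct_mulVec_pos ?_ fun v hv => ?_
    · have hR : (Min.Rm (G i) x)ᵀ = Min.Rm (G i) x := by
        ext a b; exact hsym i x b a
      have hS : (G i x)ᵀ = G i x := by
        ext a b; exact ConfScal.g_symm (hG.pos i) x b a
      show (Min.Gt (G i) ε t x)ᴴ = Min.Gt (G i) ε t x
      rw [Matrix.conjTranspose_eq_transpose_of_trivial]
      unfold Min.Gt
      rw [Matrix.transpose_sub, Matrix.transpose_smul, hR, hS]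
    · have h1 : 0 < v ⬝ᵥ (G i x *ᵥ v) := by
        have := (hG.pos i x).dotProduct_mulVec_pos hv
        simpa using this
      have h2 : star v ⬝ᵥ (Min.Gt (G i) ε t x *ᵥ v) = v ⬝ᵥ (G i x *ᵥ v) -
          (2 * (ε * Real.sin (t / ε))) * (v ⬝ᵥ (Min.Rm (G i) x *ᵥ v)) := by
        rw [star_trivial]
        unfold Min.Gt
        rw [Matrix.sub_mulVec, Matrix.smul_mulVec, dotProduct_sub, dotProduct_smul,
          smul_eq_mul]
      rw [h2]
      have h3 := hK i x v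
      have h4 : |Real.sin (t / ε)| ≤ 1 := Real.abs_sin_le_one _
      have h5 : |(2 * (ε * Real.sin (t / ε))) * (v ⬝ᵥ (Min.Rm (G i) x *ᵥ v))| ≤
          2 * ε * (K * (v ⬝ᵥ (G i x *ᵥ v))) := by
        rw [abs_mul, abs_mul, abs_mul, abs_of_pos hε, abs_two]
        have h6 : 2 * (ε * |Real.sin (t / ε)|) ≤ 2 * ε := by nlinarith
        exact mul_le_mul h6 h3 (abs_nonneg _) (by positivity)
      have h7 := (abs_le.1 h5).2
      nlinarith
  · have h1 := hG.inv i j γ y hy v w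
    have h2 := ric_chart hG hy v w
    have e : ∀ (A B : Matrix (Fin n) (Fin n) ℝ) (s : ℝ) (v w : E n),
        ∑ a, ∑ b, v a * w b * (A - s • B) a b =
          (∑ a, ∑ b, v a * w b * A a b) - s * ∑ a, ∑ b, v a * w b * B a b := by
      intro A B s v w
      simp only [Matrix.sub_apply, Matrix.smul_apply, smul_eq_mul, mul_sub,
        Finset.sum_sub_distrib, Finset.mul_sum]
      congr 1
      exact Finset.sum_congr rfl fun a _ => Finset.sum_congr rfl fun b _ => by ring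
    unfold Min.Gt
    rw [e, e, h1]
    congr 2

/-- the first variation -/
theorem crit [Fintype I] [MeasurableSpace M] [BorelSpace M] (hE : SpecEvol) (hB : SpecBianchi)
    (hex : ∀ G', MetX C G' → ∃ ν : Measure M, VolM C G' ν) (D : Cell.Cells C)
    (hn : 4 ≤ n) (hG : MetX C G) {ν : Measure M} (hV : VolM C G ν)
    (hmin : ∀ G' ν', MetX C G' → VolM C G' ν' →
      IS C G ν ((n : ℝ) / 2) ≤ IS C G' ν' ((n : ℝ) / 2)) :
    tot D (fun i x => Min.h1 ((n : ℝ) / 2) (H.scal (G i) x) * H.lap (G i) (H.scal (G i)) x *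
      H.dens (G i) x +
      2 * (Min.h1 ((n : ℝ) / 2) (H.scal (G i) x) *
        (ricSq (G i) x - H.scal (G i) x ^ 2 / n)) * H.dens (G i) x) = 0 := by
  have hn4 : (4 : ℝ) ≤ n := by exact_mod_cast hn
  obtain ⟨p, hp⟩ : ∃ p : ℝ, p = (n : ℝ) / 2 := ⟨_, rfl⟩
  rw [← hp] at hmin ⊢
  have hp1 : 1 < p := by rw [hp]; linarith
  have hp0 : 0 < p := by linarith
  obtain ⟨K, hK0, hK⟩ := exists_bound hG
  obtain ⟨ε, hε⟩ : ∃ ε : ℝ, ε = 1 / (4 * K) := ⟨_, rfl⟩
  have hε0 : 0 < ε := by rw [hε]; positivity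
  have hεK : 2 * ε * K < 1 := by
    rw [hε]
    have : 2 * (1 / (4 * K)) * K = 1 / 2 := by field_simp; norm_num
    rw [this]; norm_num
  have hsym : ∀ i x a b, H.ric (G i) x a b = H.ric (G i) x b a := fun i x a b =>
    (hB n (G i) (hG.smooth i) (hG.pos i) x).1 a b
  have hF := Gt_met hG hsym hε0 hK hεK
  have hs : ∀ i a b, ContDiff ℝ ∞ (fun p : ℝ × E n => Min.Gt (G i) ε p.1 p.2 a b) :=
    fun i => Min.Gt_smooth (hG.smooth i) (hG.pos i)
  have hpos : ∀ i t x, (Min.Gt (G i) ε t x).PosDef := fun i t x => (hF t).pos i x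
  have hsc := fun i => cd_scal (hs i) (hpos i)
  have hde := fun i => cd_dens (hs i) (hpos i)
  have hdpos : ∀ i t x, 0 < H.dens (Min.Gt (G i) ε t) x := fun i t x =>
    Real.sqrt_pos.2 (hpos i t x).det_pos
  have hcs : ∀ i t, ContDiff ℝ ∞ (H.scal (Min.Gt (G i) ε t)) := fun i t =>
    cd_at (f := fun t x => H.scal (Min.Gt (G i) ε t) x) (hsc i) t
  have hcd : ∀ i t, ContDiff ℝ ∞ (H.dens (Min.Gt (G i) ε t)) := fun i t =>
    cd_at (f := fun t x => H.dens (Min.Gt (G i) ε t) x) (hde i) t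
  have s12 := fun i => Min.cd_dt (f := fun t x => H.scal (Min.Gt (G i) ε t) x) (hsc i)
  have e12 := fun i => Min.cd_dt (f := fun t x => H.dens (Min.Gt (G i) ε t) x) (hde i)
  have hd := fun i => Min.integral_deriv'
    (K := fun t x => Min.h0 p (H.scal (Min.Gt (G i) ε t) x) * H.dens (Min.Gt (G i) ε t) x)
    (K' := fun t x => Min.h1 p (H.scal (Min.Gt (G i) ε t) x) *
      deriv (fun s => H.scal (Min.Gt (G i) ε s) x) t *
      H.dens (Min.Gt (G i) ε t) x + Min.h0 p (H.scal (Min.Gt (G i) ε t) x) *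
        deriv (fun s => H.dens (Min.Gt (G i) ε s) x) t)
    (fun t => ((Min.h0_cont hp1).comp (hcs i t).continuous).mul (hcd i t).continuous)
    (fun t x => (HasDerivAt.comp (h₂ := Min.h0 p) (h := fun s => H.scal (Min.Gt (G i) ε s) x) t
      (Min.h0_deriv hp1 _) ((s12 i).2 t x)).mul ((e12 i).2 t x))
    (((((Min.h1_cont hp1).comp (hsc i).continuous).mul (s12 i).1).mul (hde i).continuous).add
      (((Min.h0_cont hp1).comp (hsc i).continuous).mul (e12 i).1)) (D.bdd i) 0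
  have hdt := HasDerivAt.fun_sum (u := Finset.univ) fun i _ => hd i
  have hloc : IsLocalMin
      (fun s => ∑ i, ∫ x in D.B i, Min.h0 p (H.scal (Min.Gt (G i) ε s) x) *
        H.dens (Min.Gt (G i) ε s) x) 0 := by
    refine Filter.Eventually.of_forall fun t => ?_
    obtain ⟨ν', hν'⟩ := hex _ (hF t)
    have h2 := hmin (fun i => Min.Gt (G i) ε t) ν' (hF t) hν'
    rw [IS_eq D hG hV hp0, IS_eq D (hF t) hν' hp0, ENNReal.ofReal_le_ofReal_iff] at h2
    · simp only [Min.Gt_zero]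
      exact h2
    · refine Finset.sum_nonneg fun i _ => integral_nonneg fun x => ?_
      have h4 := hdpos i t x
      show (0 : ℝ) ≤ max 0 (-H.scal (Min.Gt (G i) ε t) x) ^ p * H.dens (Min.Gt (G i) ε t) x
      positivity
  have hz := hloc.hasDerivAt_eq_zero hdt
  rw [← hz]
  refine Finset.sum_congr rfl fun i _ => ?_
  refine integral_congr_ae (Filter.Eventually.of_forall fun x => ?_)
  obtain ⟨d1, d2, -⟩ := hE n (Min.Gt (G i) ε) (hs i) (hpos i) 0 (fun x a b => by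
    rw [Min.Gt_deriv hε0, Min.Gt_zero]) x
  show _ = Min.h1 p (H.scal (Min.Gt (G i) ε 0) x) * deriv (fun s => H.scal (Min.Gt (G i) ε s) x) 0 *
      H.dens (Min.Gt (G i) ε 0) x + Min.h0 p (H.scal (Min.Gt (G i) ε 0) x) *
        deriv (fun s => H.dens (Min.Gt (G i) ε s) x) 0
  rw [d1.deriv, d2.deriv, Min.Gt_zero]
  have hc := Min.cancel (N := (n : ℝ)) (by linarith) hp hp1 (H.scal (G i) x)
  have e : (fun y => H.scal (G i) y) = H.scal (G i) := rfl
  rw [e]
  linear_combination (-H.dens (G i) x) * hc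

end Vale.Agent.P223.X.X23
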